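import Mathlib
import Vale.Agent.P333.Model
import Vale.Agent.Lib.PolyTime.Typed
import Vale.Agent.Lib.PolyTime.Lists2
import Vale.Agent.Lib.PolyTime.TypedTM2
import Vale.Agent.Lib.PolyTime.Lists3
import Vale.Agent.Lib.PolyTime.OfTM2
import Vale.Agent.Lib.PolyTime.NatArith2

set_option linter.all false

section

/-!
P333, upper bound: definitions, and the statements of the parts of the proof of `HasApprox (7/3)`.
-/

namespace Vale.Agent.P333.U

open Vale.Agent.Lib.PolyTime

/-! ## Words -/

/-- Length of the longest word which is a proper suffix of `s` and a proper prefix of `t`. -/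
def ov (s t : List ℕ) : ℕ :=
  Nat.findGreatest (fun k => s.drop (s.length - k) = t.take k) (min s.length t.length - 1)

/-- Merge of a list of strings along the longest overlaps. -/
def mergeL : List (List ℕ) → List ℕ
  | [] => []
  | [s] => s
  | s :: t :: r => s.take (s.length - ov s t) ++ mergeL (t :: r)

/-- Sum of `|s| - ov s t` over the pairs of consecutive strings. -/
def linW : List (List ℕ) → ℕ
  | [] => 0
  | [_] => 0
  | s :: t :: r => (s.length - ov s t) + linW (t :: r)

/-- Overlap of the last string and the first string. -/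
def cycO (c : List (List ℕ)) : ℕ := ov (c.getLastD []) (c.headD [])

/-- Weight of a cycle of strings. -/
def cycW (c : List (List ℕ)) : ℕ := linW c + ((c.getLastD []).length - cycO c)

/-- No empty string, no string contained in another one. -/
def Sfree (S : List (List ℕ)) : Prop :=
  (∀ s ∈ S, s ≠ []) ∧ S.Pairwise (fun s t => ¬ s <:+: t ∧ ¬ t <:+: s)

/-- `L` is a minimum weight cycle cover of `S`, every cycle is cut at its smallest overlap. -/
structure MinCover (S : List (List ℕ)) (L : List (List (List ℕ))) : Prop where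
  perm : L.flatten.Perm S
  ne : ∀ c ∈ L, c ≠ []
  opn : ∀ c ∈ L, List.IsChain (fun s t => cycO c ≤ ov s t) c
  min : ∀ L' : List (List (List ℕ)), L'.flatten.Perm S → (∀ c ∈ L', c ≠ []) →
    (L.map cycW).sum ≤ (L'.map cycW).sum

/-- The weight of a minimum cycle cover is at most the length of a superstring. -/
def WordsW : Prop := ∀ S L T, Sfree S → MinCover S L → IsSuperstring S T →
  (L.map cycW).sum ≤ T.length

/-- Lemma A. -/
def WordsA : Prop := ∀ S L T, Sfree S → MinCover S L → IsSuperstring S T →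
  (L.map (fun c => cycO c + 1 - cycW c)).sum ≤ T.length

/-- Lemma B. -/
def WordsB : Prop := ∀ S L T, Sfree S → MinCover S L → IsSuperstring S T →
  ∃ P, P.Perm (L.map mergeL) ∧ (mergeL P).length ≤ T.length + (L.map cycW).sum

/-! ## Matrices and assignments -/

/-- Entry of a matrix. -/
def ent (M : List (List ℕ)) (i j : ℕ) : ℕ := (M.getD i []).getD j 0

/-- Value of the assignment `i ↦ P[i]`. -/
def asgVal (M : List (List ℕ)) (P : List ℕ) : ℕ :=
  ((List.range M.length).map (fun i => ent M i (P.getD i 0))).sum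

/-- Square matrix with entries at most `B`. -/
def SqMat (M : List (List ℕ)) (B : ℕ) : Prop :=
  (∀ row ∈ M, row.length = M.length) ∧ ∀ row ∈ M, ∀ x ∈ row, x ≤ B

/-- The assignment problem with entries bounded by the length of `u`. -/
def AssignAlg : Prop := ∃ asg : List Unit × List (List ℕ) → List ℕ, PT ∅ asg ∧
  ∀ u M, SqMat M u.length → (asg (u, M)).Perm (List.range M.length) ∧
    ∀ P, P.Perm (List.range M.length) → asgVal M P ≤ asgVal M (asg (u, M))

/-- Computation of a minimum cycle cover. -/
def CoverAlg : Prop := ∃ cover : List (List ℕ) → List (List (List ℕ)), PT ∅ cover ∧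
  ∀ S, Sfree S → MinCover S (cover S)

/-! ## Path systems -/

/-- The arcs form a system of disjoint paths. -/
structure PathSys (F : List (ℕ × ℕ)) : Prop where
  out : (F.map Prod.fst).Nodup
  inn : (F.map Prod.snd).Nodup
  acyc : ∀ x, ¬ Relation.TransGen (fun a b => (a, b) ∈ F) x x

/-- Value of a path. -/
def pathV (W : ℕ → ℕ → ℕ) : List ℕ → ℕ
  | [] => 0
  | [_] => 0
  | i :: j :: r => W i j + pathV W (j :: r)

/-- Completing a path system to an ordering of `0, …, k - 1`. -/
def JoinAlg : Prop := ∃ join : List Unit × List (ℕ × ℕ) → List ℕ, PT ∅ join ∧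
  ∀ u F, PathSys F → (∀ e ∈ F, e.1 < u.length ∧ e.2 < u.length) →
    (join (u, F)).Perm (List.range u.length) ∧
    ∀ W : ℕ → ℕ → ℕ, (F.map (fun e => W e.1 e.2)).sum ≤ pathV W (join (u, F))

/-! ## Path colouring -/

/-- Out-degree. -/
def outN (E : List (ℕ × ℕ)) (v : ℕ) : ℕ := E.countP (fun e => e.1 == v)

/-- In-degree. -/
def inN (E : List (ℕ × ℕ)) (v : ℕ) : ℕ := E.countP (fun e => e.2 == v)

/-- The multigraphs to be coloured. -/
structure GoodG (E : List (ℕ × ℕ)) : Prop where
  bal : ∀ v, outN E v = inN E v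
  deg : ∀ v, outN E v ≤ 2
  loop : ∀ e ∈ E, e.1 ≠ e.2
  noD2 : ∀ p q, ¬ (2 ≤ E.count (p, q) ∧ 2 ≤ E.count (q, p))
  noK3 : ∀ p q r, ¬ ((p, q) ∈ E ∧ (q, p) ∈ E ∧ (q, r) ∈ E ∧ (r, q) ∈ E ∧ (r, p) ∈ E ∧ (p, r) ∈ E)

/-- The class of the colour `κ`. -/
def cls (K : List (ℕ × ℕ × ℕ)) (κ : ℕ) : List (ℕ × ℕ) :=
  (K.filter (fun e => e.2.2 == κ)).map (fun e => (e.1, e.2.1))

/-- `K` is a path colouring of `E` with three colours. -/
structure Col (E : List (ℕ × ℕ)) (K : List (ℕ × ℕ × ℕ)) : Prop where
  perm : (K.map (fun e => (e.1, e.2.1))).Perm E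
  lt : ∀ e ∈ K, e.2.2 < 3
  path : ∀ κ, PathSys (cls K κ)
  flag : ∀ e ∈ K, ∀ f ∈ K, e.2.1 = f.1 → outN E f.1 = 1 → e.2.2 ≠ f.2.2

/-- Path colouring. -/
def ColAlg : Prop := ∃ col : List (ℕ × ℕ) → List (ℕ × ℕ × ℕ), PT ∅ col ∧
  ∀ E, GoodG E → Col E (col E)

/-! ## Maximum asymmetric travelling salesman path -/

/-- Approximation of the maximum travelling salesman path with ratio `p / q`. -/
def AtspAlg (p q : ℕ) : Prop := ∃ atsp : List Unit × List (List ℕ) → List ℕ, PT ∅ atsp ∧
  ∀ u M, SqMat M u.length → (atsp (u, M)).Perm (List.range M.length) ∧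
    ∀ P, P.Perm (List.range M.length) →
      p * pathV (ent M) P ≤ q * pathV (ent M) (atsp (u, M))

/-! ## Unfolding (the equation lemmas are generated here, once) -/

theorem spec_mergeL (s t : List ℕ) (r : List (List ℕ)) :
    mergeL (s :: t :: r) = s.take (s.length - ov s t) ++ mergeL (t :: r) := by
  rw [mergeL]

theorem spec_linW (s t : List ℕ) (r : List (List ℕ)) :
    linW (s :: t :: r) = (s.length - ov s t) + linW (t :: r) := by
  rw [linW]

theorem spec_pathV (W : ℕ → ℕ → ℕ) (i j : ℕ) (r : List ℕ) :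
    pathV W (i :: j :: r) = W i j + pathV W (j :: r) := by
  rw [pathV]

/-- The final step. -/
def FinalStep : Prop := ∀ p q : ℕ, 0 < q → p ≤ q → WordsW → WordsA → WordsB → CoverAlg →
  AtspAlg p q → HasApprox (3 - (p : ℝ) / q)

end Vale.Agent.P333.U
end

section

section

/-!
P333, upper bound: polynomial time of equality tests, of the overlap and of the merge of strings.
-/

namespace Vale.Agent.P333.U

open Vale.Agent.Lib.PolyTime

variable {A : Set Word} {α β γ : Type*} [Enc α] [Enc β] [Enc γ]

/-- `EqPT A β`: equality of elements of `β` is decidable in polynomial time. -/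
def EqPT (A : Set Word) (β : Type*) [Enc β] [DecidableEq β] : Prop :=
  PT A (fun p : β × β => decide (p.1 = p.2))

theorem EqPT.eq [DecidableEq β] (h : EqPT A β) {f g : α → β} (hf : PT A f) (hg : PT A g) :
    PT A (fun a => decide (f a = g a)) := PT.comp (g := fun p : β × β => decide (p.1 = p.2)) h
      (hf.pair hg)

theorem eqPT_nat : EqPT A ℕ := PT.eqNat PT.fst' PT.snd'

theorem eqPT_bool : EqPT A Bool :=
  ((PT.xor (PT.fst' (α := Bool) (β := Bool)) PT.snd').not).congr fun p => by
    rcases p with ⟨a, b⟩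
    cases a <;> cases b <;> rfl

theorem eqPT_prod [DecidableEq β] [DecidableEq γ] (hβ : EqPT A β) (hγ : EqPT A γ) :
    EqPT A (β × γ) :=
  (PT.and (hβ.eq PT.fst'.fst PT.snd'.fst) (hγ.eq PT.fst'.snd PT.snd'.snd)).congr fun p => by
    rcases p with ⟨⟨a, b⟩, c, d⟩
    simp [Prod.ext_iff]

theorem eqPT_list [DecidableEq β] (hβ : EqPT A β) : EqPT A (List β) := by
  have h1 : PT A (fun p : List β × List β => (p.1.zip p.2).all (fun q => decide (q.1 = q.2))) :=
    PT.all (f := fun (_ : List β × List β) (q : β × β) => decide (q.1 = q.2))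
      (PT.zip PT.fst' PT.snd') (hβ.eq PT.snd'.fst PT.snd'.snd)
  refine (PT.and (PT.eqNat (PT.length PT.fst') (PT.length PT.snd')) h1).congr fun p => ?_
  rcases p with ⟨l, l'⟩
  simp only
  induction l generalizing l' with
  | nil => cases l' <;> simp
  | cons a l ih =>
    cases l' with
    | nil => simp
    | cons b l' =>
      have := ih l'
      simp only [List.length_cons, List.zip_cons_cons, List.all_cons, Nat.add_right_cancel_iff,
        List.cons.injEq] at this ⊢
      by_cases hab : a = b
      · simp [hab] at this ⊢; exact this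
      · simp [hab]

theorem eqPT_str : EqPT A (List ℕ) := eqPT_list eqPT_nat

theorem PT_eqStr {f g : α → List ℕ} (hf : PT A f) (hg : PT A g) :
    PT A (fun a => decide (f a = g a)) := eqPT_str.eq hf hg

theorem PT_getLastD {l : α → List β} {d : α → β} (hl : PT A l) (hd : PT A d) :
    PT A (fun a => (l a).getLastD (d a)) :=
  ((PT.getLast? hl).optGetD hd).congr fun a => by
    rw [List.getLastD_eq_getLast?]

theorem PT_headD {l : α → List β} {d : α → β} (hl : PT A l) (hd : PT A d) :
    PT A (fun a => (l a).headD (d a)) := PT.headD hl hd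

theorem PT_countP {l : α → List γ} {f : α → γ → Bool} (hl : PT A l)
    (hf : PT A (fun p : α × γ => f p.1 p.2)) : PT A (fun a => (l a).countP (f a)) :=
  (PT.length (PT.filter hl hf)).congr fun a => by rw [List.countP_eq_length_filter]

/-! ### overlap -/

theorem ov_eq (s t : List ℕ) : ov s t = ((List.range (min s.length t.length - 1 + 1)).filter
    (fun k => decide (s.drop (s.length - k) = t.take k))).getLastD 0 := by
  unfold ov
  generalize min s.length t.length - 1 = n
  induction n with
  | zero => simp only [Nat.findGreatest_zero, zero_add, List.range_one, tsub_zero, List.drop_length, List.take_zero, decide_true, List.filter_cons_of_pos, List.filter_nil, List.getLastD_eq_getLast?, List.getLast?_singleton, Option.getD_some]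
  | succ n ih =>
    rw [List.range_succ, List.filter_append]
    by_cases h : s.drop (s.length - (n + 1)) = t.take (n + 1)
    · rw [Nat.findGreatest_eq h]
      simp only [h, decide_true, List.filter_cons_of_pos, List.filter_nil, List.getLastD_eq_getLast?, List.getLast?_append, List.getLast?_singleton, List.getLast?_filter, Option.some_or, Option.getD_some, Nat.add_left_cancel_iff]
    · rw [Nat.findGreatest_of_not h, ih]
      simp only [List.getLastD_eq_getLast?, List.getLast?_filter, h, decide_false, Bool.false_eq_true, not_false_eq_true, List.filter_cons_of_neg, List.filter_nil, List.append_nil]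

theorem PT_ov {f g : α → List ℕ} (hf : PT A f) (hg : PT A g) : PT A (fun a => ov (f a) (g a)) := by
  have hn : PT A (fun a => min (f a).length (g a).length - 1 + 1) :=
    PT.add (PT.sub (PT.min hf.length hg.length) (PT.const 1)) (PT.const 1)
  have hb : PBd (fun a => min (f a).length (g a).length - 1 + 1) :=
    ((PBd.length hf).add (PBd.const 1)).mono fun a => by
      have := min_le_left (f a).length (g a).length
      omega
  refine (PT_getLastD (PT.filter (PT.range hn hb)
    (f := fun a k => decide ((f a).drop ((f a).length - k) = (g a).take k)) ?_)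
    (PT.const 0)).congr fun a => (ov_eq _ _).symm
  have h1 : PT A (fun p : α × ℕ => f p.1) := hf.comp PT.fst'
  have h2 : PT A (fun p : α × ℕ => g p.1) := hg.comp PT.fst'
  exact PT_eqStr (PT.drop h1 (PT.sub h1.length PT.snd')) (PT.take h2 PT.snd')

/-! ### merge -/

theorem mergeL_eq (c : List (List ℕ)) : mergeL c =
    ((c.zip c.tail).map (fun p => p.1.take (p.1.length - ov p.1 p.2))).flatten ++
      c.getLastD [] := by
  induction c with
  | nil => rfl
  | cons s r ih =>
    cases r with
    | nil => simp [mergeL]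
    | cons t r =>
      rw [mergeL, ih]
      simp only [List.tail_cons, List.getLastD_eq_getLast?, List.zip_cons_cons, List.map_cons, List.flatten_cons, List.getLast?_cons_cons, List.append_assoc]

theorem PT_mergeL {f : α → List (List ℕ)} (hf : PT A f) : PT A (fun a => mergeL (f a)) := by
  refine (PT.append (PT.flatten (PT.map (f := fun _ (p : List ℕ × List ℕ) =>
    p.1.take (p.1.length - ov p.1 p.2)) (PT.zip hf hf.tail) ?_))
    (PT_getLastD hf (PT.const []))).congr fun a => (mergeL_eq _).symm
  have h1 : PT A (fun p : α × (List ℕ × List ℕ) => p.2.1) := PT.snd'.fst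
  have h2 : PT A (fun p : α × (List ℕ × List ℕ) => p.2.2) := PT.snd'.snd
  exact PT.take h1 (PT.sub h1.length (PT_ov h1 h2))

end Vale.Agent.P333.U
end
end

section

section

/-!
P333, upper bound: discarding the empty strings and the strings contained in other strings.
-/

namespace Vale.Agent.P333.U

open Vale.Agent.Lib.PolyTime

variable {A : Set Word} {α β γ : Type*} [Enc α] [Enc β] [Enc γ]

/-- Contiguous substring, as a Boolean. -/
def infB (s t : List ℕ) : Bool :=
  (List.range (t.length + 1)).any fun i => decide ((t.drop i).take s.length = s)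

theorem infB_iff (s t : List ℕ) : infB s t = true ↔ s <:+: t := by
  rw [infB, List.any_eq_true]
  constructor
  · rintro ⟨i, -, h⟩
    have h := of_decide_eq_true h
    rw [← h]
    exact (List.take_prefix _ _).isInfix.trans (List.drop_suffix _ _).isInfix
  · rintro ⟨u, v, rfl⟩
    refine ⟨u.length, ?_, ?_⟩
    · rw [List.mem_range]
      simp only [List.length_append]
      omega
    · apply decide_eq_true
      rw [List.append_assoc, List.drop_left, List.take_left]

theorem PT_infB {f g : α → List ℕ} (hf : PT A f) (hg : PT A g) :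
    PT A (fun a => infB (f a) (g a)) := by
  refine PT.any (l := fun a => List.range ((g a).length + 1))
    (f := fun a i => decide (((g a).drop i).take (f a).length = f a))
    (PT.range (PT.add hg.length (PT.const 1)) ((PBd.length hg).add (PBd.const 1))) ?_
  have h1 : PT A (fun p : α × ℕ => f p.1) := hf.comp PT.fst'
  have h2 : PT A (fun p : α × ℕ => g p.1) := hg.comp PT.fst'
  exact PT_eqStr (PT.take (PT.drop h2 PT.snd') h1.length) h1

/-- Adding a string to a substring-free family. -/
def addS (s : List ℕ) (R : List (List ℕ)) : List (List ℕ) :=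
  if s.isEmpty || R.any (fun t => infB s t) then R else s :: R.filter (fun t => !infB t s)

/-- Discarding the empty strings and the strings contained in other strings. -/
def clean (S : List (List ℕ)) : List (List ℕ) := S.foldr addS []

theorem clean_cons (s : List ℕ) (S : List (List ℕ)) : clean (s :: S) = addS s (clean S) := rfl

theorem clean_sublist (S : List (List ℕ)) : (clean S).Sublist S := by
  induction S with
  | nil => exact List.Sublist.refl _
  | cons s S ih =>
    rw [clean_cons, addS]
    split_ifs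
    · exact ih.cons _
    · exact (List.filter_sublist.trans ih).cons_cons _

theorem sfree_clean (S : List (List ℕ)) : Sfree (clean S) := by
  induction S with
  | nil => exact ⟨by simp [clean], by simp [clean]⟩
  | cons s S ih =>
    rw [clean_cons, addS]
    split_ifs with h
    · exact ih
    · rw [Bool.or_eq_true, not_or] at h
      obtain ⟨h1, h2⟩ := h
      rw [List.isEmpty_iff] at h1
      rw [List.any_eq_true] at h2
      refine ⟨?_, ?_⟩
      · intro t ht
        rcases List.mem_cons.1 ht with rfl | ht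
        · exact h1
        · exact ih.1 t (List.mem_of_mem_filter ht)
      · rw [List.pairwise_cons]
        refine ⟨fun t ht => ?_, ih.2.sublist List.filter_sublist⟩
        rw [List.mem_filter] at ht
        refine ⟨fun h3 => h2 ⟨t, ht.1, (infB_iff _ _).2 h3⟩, fun h3 => ?_⟩
        have := ht.2
        rw [(infB_iff _ _).2 h3] at this
        exact absurd this (by simp)

/-- Every string of the family is contained in a string of the reduced family. -/
theorem exists_mem_clean (S : List (List ℕ)) {s : List ℕ} (hs : s ∈ S) (h0 : s ≠ []) :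
    ∃ t ∈ clean S, s <:+: t := by
  induction S with
  | nil => simp at hs
  | cons a S ih =>
    rw [clean_cons, addS]
    split_ifs with h
    · rcases List.mem_cons.1 hs with rfl | hs
      · rw [Bool.or_eq_true] at h
        rcases h with h | h
        · rw [List.isEmpty_iff] at h
          exact absurd h h0
        · rw [List.any_eq_true] at h
          obtain ⟨t, ht, h⟩ := h
          exact ⟨t, ht, (infB_iff _ _).1 h⟩
      · exact ih hs
    · rcases List.mem_cons.1 hs with rfl | hs
      · exact ⟨s, List.mem_cons_self, List.infix_refl _⟩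
      · obtain ⟨t, ht, hst⟩ := ih hs
        by_cases hta : t <:+: a
        · exact ⟨a, List.mem_cons_self, hst.trans hta⟩
        · refine ⟨t, List.mem_cons_of_mem _ (List.mem_filter.2 ⟨ht, ?_⟩), hst⟩
          rw [Bool.not_eq_true', ← Bool.not_eq_true, infB_iff]
          exact hta

theorem isSuperstring_clean (S : List (List ℕ)) (T : List ℕ) :
    IsSuperstring (clean S) T ↔ IsSuperstring S T := by
  constructor
  · intro h s hs
    by_cases h0 : s = []
    · subst h0; exact List.nil_infix
    · obtain ⟨t, ht, hst⟩ := exists_mem_clean S hs h0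
      exact hst.trans (h t ht)
  · intro h s hs
    exact h s ((clean_sublist S).subset hs)

theorem opt_clean (S : List (List ℕ)) : opt (clean S) = opt S := by
  simp only [opt, isSuperstring_clean]

theorem PT_clean {f : α → List (List ℕ)} (hf : PT A f) : PT A (fun a => clean (f a)) := by
  refine PT.foldr (l := f) (init := fun _ => ([] : List (List ℕ))) (f := fun _ s R => addS s R)
    hf (PT.const []) ?_ (b := fun a => esize (f a)) hf.pbd fun a i => ?_
  · have hs : PT A (fun p : α × List ℕ × List (List ℕ) => p.2.1) := PT.snd'.fst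
    have hR : PT A (fun p : α × List ℕ × List (List ℕ) => p.2.2) := PT.snd'.snd
    have hs' : PT A (fun q : (α × List ℕ × List (List ℕ)) × List ℕ => q.1.2.1) :=
      hs.comp PT.fst'
    refine (PT.cond (PT.or (PT.isEmpty hs) (PT.any (f := fun p t => infB p.2.1 t) hR
      (PT_infB hs' PT.snd'))) hR (PT.cons hs (PT.filter (f := fun p t => !infB t p.2.1) hR
      (PT.not (PT_infB PT.snd' hs'))))).congr fun p => ?_
    rw [addS]
    rcases h : (p.2.1.isEmpty || p.2.2.any fun t => infB p.2.1 t) with _ | _ <;> simp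
  · exact esize_le_of_sublist ((clean_sublist _).trans (List.drop_sublist _ _))

end Vale.Agent.P333.U
end
end

section

section

/-!
P333, upper bound: the final step.
-/

namespace Vale.Agent.P333.U

open Vale.Agent.Lib.PolyTime

/-! ### Encodings -/

theorem pairW_eq (u v : List Bool) : pairW u v = pr u v := by
  unfold pairW
  induction u with
  | nil => rfl
  | cons b u ih => simpa [pr] using ih

theorem listW_eq {α : Type} [Enc α] (l : List α) : listW enc l = enc l := by
  induction l with
  | nil => rfl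
  | cons a l ih =>
    rw [show listW enc (a :: l) = pairW (enc a) (listW enc l) from rfl, ih, enc_cons, pairW_eq]

theorem stringW_eq : stringW = (enc : List ℕ → Word) := funext fun s => listW_eq s

theorem familyW_eq : familyW = (enc : List (List ℕ) → Word) := by
  funext S
  unfold familyW
  rw [stringW_eq]
  exact listW_eq S

theorem polyTime_of_PT {f : List (List ℕ) → List ℕ} (hf : PT ∅ f) :
    PolyTime familyW stringW f := by
  unfold PolyTime
  rw [stringW_eq, familyW_eq]
  exact hf.tm2

/-! ### Overlaps and merges -/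

theorem ov_specF (s t : List ℕ) : s.drop (s.length - ov s t) = t.take (ov s t) :=
  Nat.findGreatest_spec (P := fun k => s.drop (s.length - k) = t.take k) (Nat.zero_le _)
    (by simp)

theorem ov_le_leftF (s t : List ℕ) : ov s t ≤ s.length := by
  have : ov s t ≤ min s.length t.length - 1 := Nat.findGreatest_le _
  have := min_le_left s.length t.length
  omega

theorem ov_nil_left (t : List ℕ) : ov [] t = 0 := by
  have := ov_le_leftF [] t
  simpa using this

theorem ov_nil_right (s : List ℕ) : ov s [] = 0 := by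
  have : ov s [] ≤ min s.length ([] : List ℕ).length - 1 := Nat.findGreatest_le _
  simpa only [List.length_nil, zero_le, inf_of_le_right, zero_tsub, nonpos_iff_eq_zero] using this

theorem head_prefix_mergeLF (t : List ℕ) (r : List (List ℕ)) : t <+: mergeL (t :: r) := by
  induction r generalizing t with
  | nil => exact List.prefix_refl _
  | cons u r ih =>
    rw [mergeL]
    obtain ⟨v, hv⟩ := ih u
    rw [← hv]
    refine ⟨u.drop (ov t u) ++ v, ?_⟩
    have h1 : t = t.take (t.length - ov t u) ++ u.take (ov t u) := by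
      rw [← ov_specF, List.take_append_drop]
    have h2 : u = u.take (ov t u) ++ u.drop (ov t u) := (List.take_append_drop _ _).symm
    calc t ++ (u.drop (ov t u) ++ v)
        = (t.take (t.length - ov t u) ++ u.take (ov t u)) ++ (u.drop (ov t u) ++ v) := by
          rw [← h1]
      _ = t.take (t.length - ov t u) ++ ((u.take (ov t u) ++ u.drop (ov t u)) ++ v) := by
          simp only [List.append_assoc]
      _ = _ := by rw [← h2]

theorem infix_mergeLF {s : List ℕ} {c : List (List ℕ)} (hs : s ∈ c) : s <:+: mergeL c := by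
  induction c with
  | nil => simp at hs
  | cons t r ih =>
    rcases List.mem_cons.1 hs with rfl | hs
    · exact (head_prefix_mergeLF s r).isInfix
    · cases r with
      | nil => simp at hs
      | cons u r =>
        rw [mergeL]
        exact (ih hs).trans (List.suffix_append _ _).isInfix

theorem length_mergeLF (c : List (List ℕ)) (hc : c ≠ []) :
    (mergeL c).length = cycW c + cycO c := by
  have h1 : ∀ c : List (List ℕ), c ≠ [] →
      (mergeL c).length = linW c + (c.getLastD []).length := by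
    intro c hc
    induction c with
    | nil => exact absurd rfl hc
    | cons s r ih =>
      cases r with
      | nil => simp [mergeL, linW]
      | cons t r =>
        rw [mergeL, linW, List.length_append, ih (by simp), List.length_take]
        have : (s :: t :: r).getLastD [] = (t :: r).getLastD [] := by
          simp
        rw [this, min_eq_left (Nat.sub_le _ _)]
        omega
  have h2 : cycO c ≤ (c.getLastD []).length := ov_le_leftF _ _
  rw [h1 c hc, cycW]
  omega

/-! ### Orderings -/

/-- Matrix of the overlaps. -/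
def ovMat (t : List (List ℕ)) : List (List ℕ) := t.map fun s => t.map fun r => ov s r

theorem ent_ovMat (t : List (List ℕ)) (i j : ℕ) :
    ent (ovMat t) i j = ov (t.getD i []) (t.getD j []) := by
  have h0 : ∀ s : List ℕ, (t.map fun r => ov s r).getD j 0 = ov s (t.getD j []) := by
    intro s
    rcases lt_or_ge j t.length with hj | hj
    · rw [List.getD_eq_getElem _ _ (by simpa using hj), List.getElem_map,
        List.getD_eq_getElem t _ hj]
    · rw [List.getD_eq_default _ _ (by simpa using hj), List.getD_eq_default t _ hj,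
        ov_nil_right]
  rw [ent, ovMat]
  rcases lt_or_ge i t.length with hi | hi
  · rw [List.getD_eq_getElem (t.map fun s => t.map fun r => ov s r) _ (by simpa using hi),
      List.getElem_map, List.getD_eq_getElem t _ hi, h0]
  · rw [List.getD_eq_default (t.map fun s => t.map fun r => ov s r) _ (by simpa using hi),
      List.getD_eq_default t _ hi, ov_nil_left]
    simp

/-- The strings of `t` in the order `P`. -/
def order (t : List (List ℕ)) (P : List ℕ) : List (List ℕ) := P.map fun i => t.getD i []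

theorem length_order (t : List (List ℕ)) (P : List ℕ) :
    (mergeL (order t P)).length + pathV (ent (ovMat t)) P = ((order t P).map List.length).sum := by
  induction P with
  | nil => simp only [order, List.getD_eq_getElem?_getD, List.map_nil, mergeL, List.length_nil, pathV, add_zero, List.sum_nil]
  | cons i P ih =>
    cases P with
    | nil => simp only [order, List.getD_eq_getElem?_getD, List.map_cons, List.map_nil, mergeL, pathV, add_zero, List.sum_cons, List.sum_nil]
    | cons j P =>
      have h1 : order t (i :: j :: P) = t.getD i [] :: t.getD j [] :: order t P := rfl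
      have h2 : order t (j :: P) = t.getD j [] :: order t P := rfl
      rw [h2] at ih
      rw [h1, mergeL, pathV, ent_ovMat, List.length_append, List.length_take, List.map_cons,
        List.sum_cons, ← ih, min_eq_left (Nat.sub_le _ _)]
      have := ov_le_leftF (t.getD i []) (t.getD j [])
      omega

theorem order_range (t : List (List ℕ)) : order t (List.range t.length) = t := by
  rw [order]
  apply List.ext_getElem
  · simp
  · intro i h1 h2
    simp only [List.getElem_map, List.getElem_range]
    rw [List.getD_eq_getElem _ _ h2]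

theorem order_perm (t : List (List ℕ)) {P : List ℕ} (hP : P.Perm (List.range t.length)) :
    (order t P).Perm t := by
  have := hP.map fun i => t.getD i []
  have h2 : (List.range t.length).map (fun i => t.getD i []) = t := order_range t
  rwa [h2] at this

theorem exists_map_of_perm {α β : Type*} {Q R : List β} (h : Q.Perm R) (f : α → β)
    (l : List α) (hl : R = l.map f) : ∃ l' : List α, l'.Perm l ∧ Q = l'.map f := by
  induction h generalizing l with
  | nil => exact ⟨l, List.Perm.refl _, hl⟩
  | cons x _ ih =>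
    cases l with
    | nil => simp at hl
    | cons y l =>
      rw [List.map_cons, List.cons.injEq] at hl
      obtain ⟨l', h1, h2⟩ := ih l hl.2
      exact ⟨y :: l', h1.cons y, by rw [List.map_cons, ← h2, hl.1]⟩
  | swap x y m =>
    cases l with
    | nil => simp at hl
    | cons a l =>
      cases l with
      | nil => simp at hl
      | cons b l =>
        rw [List.map_cons, List.map_cons, List.cons.injEq, List.cons.injEq] at hl
        exact ⟨b :: a :: l, List.Perm.swap _ _ _, by
          rw [List.map_cons, List.map_cons, hl.1, hl.2.1, hl.2.2]⟩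
  | trans _ _ ih1 ih2 =>
    obtain ⟨l', h1, h2⟩ := ih2 l hl
    obtain ⟨l'', h3, h4⟩ := ih1 l' h2
    exact ⟨l'', h3.trans h1, h4⟩

theorem exists_order (t : List (List ℕ)) {Q : List (List ℕ)} (hQ : Q.Perm t) :
    ∃ P : List ℕ, P.Perm (List.range t.length) ∧ Q = order t P :=
  exists_map_of_perm hQ (fun i => t.getD i []) (List.range t.length) (order_range t).symm

theorem sqMat_ovMat (t : List (List ℕ)) : SqMat (ovMat t) t.flatten.length := by
  refine ⟨fun row hrow => ?_, fun row hrow x hx => ?_⟩
  · simp only [ovMat, List.mem_map] at hrow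
    obtain ⟨s, -, rfl⟩ := hrow
    simp [ovMat]
  · simp only [ovMat, List.mem_map] at hrow
    obtain ⟨s, hs, rfl⟩ := hrow
    simp only [List.mem_map] at hx
    obtain ⟨r, -, rfl⟩ := hx
    exact (ov_le_leftF s r).trans (List.sublist_flatten_of_mem hs).length_le

theorem length_ovMat (t : List (List ℕ)) : (ovMat t).length = t.length := by simp [ovMat]

/-! ### The algorithm -/

/-- The algorithm. -/
def algU (cover : List (List ℕ) → List (List (List ℕ)))
    (atsp : List Unit × List (List ℕ) → List ℕ) (S : List (List ℕ)) : List ℕ :=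
  mergeL (order ((cover (clean S)).map mergeL)
    (atsp (List.replicate ((cover (clean S)).map mergeL).flatten.length (),
      ovMat ((cover (clean S)).map mergeL))))

theorem PT_algU {cover : List (List ℕ) → List (List (List ℕ))}
    {atsp : List Unit × List (List ℕ) → List ℕ} (hc : PT ∅ cover) (ha : PT ∅ atsp) :
    PT ∅ (algU cover atsp) := by
  have h0 : PT ∅ (fun S => cover (clean S)) := hc.comp (PT_clean PT.id)
  have h1 : PT ∅ (fun S => (cover (clean S)).map mergeL) :=
    PT.map (f := fun _ c => mergeL c) h0 (PT_mergeL PT.snd')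
  have h2 : PT ∅ (fun S => ovMat ((cover (clean S)).map mergeL)) := by
    unfold ovMat
    refine PT.map (f := fun S s => ((cover (clean S)).map mergeL).map fun r => ov s r) h1 ?_
    refine PT.map (f := fun (p : List (List ℕ) × List ℕ) r => ov p.2 r) (h1.comp PT.fst') ?_
    exact PT_ov (PT.snd'.comp PT.fst') PT.snd'
  have h3 : PT ∅ (fun S => List.replicate ((cover (clean S)).map mergeL).flatten.length ()) :=
    PT.replicate (PT.length (PT.flatten h1)) (PBd.length (PT.flatten h1)) (PT.const ())
  refine PT_mergeL ?_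
  unfold order
  exact PT.map (f := fun S i => ((cover (clean S)).map mergeL).getD i []) (ha.comp (h3.pair h2))
    (PT.getD (h1.comp PT.fst') PT.snd' (PT.const []))

theorem exists_opt (S : List (List ℕ)) : ∃ T, IsSuperstring S T ∧ T.length = opt S := by
  have : opt S ∈ {n : ℕ | ∃ T : List ℕ, IsSuperstring S T ∧ T.length = n} :=
    Nat.sInf_mem ⟨_, S.flatten, fun s hs => List.infix_of_mem_flatten hs, rfl⟩
  exact this

theorem finalStep : FinalStep := by
  intro p q hq hpq hW hA hB hC hP
  obtain ⟨cover, hc, hc'⟩ := hC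
  obtain ⟨atsp, ha, ha'⟩ := hP
  refine ⟨algU cover atsp, polyTime_of_PT (PT_algU hc ha), fun S => ?_⟩
  have hS := sfree_clean S
  have hL := hc' _ hS
  obtain ⟨T, hT, hTn⟩ := exists_opt (clean S)
  have w1 := hW _ _ _ hS hL hT
  have w2 := hA _ _ _ hS hL hT
  obtain ⟨Q, hQ, w3⟩ := hB _ _ _ hS hL hT
  rw [opt_clean] at hTn
  rw [hTn] at w1 w2 w3
  set L := cover (clean S) with hLdef
  set t := L.map mergeL with ht
  obtain ⟨a1, a2⟩ := ha' (List.replicate t.flatten.length ()) (ovMat t) (by
    rw [List.length_replicate]; exact sqMat_ovMat t)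
  rw [length_ovMat] at a1 a2
  obtain ⟨P, hPr, rfl⟩ := exists_order t hQ
  have a3 := a2 P hPr
  have e1 := length_order t P
  have e2 := length_order t (atsp (List.replicate t.flatten.length (), ovMat t))
  rw [((order_perm t hPr).map _).sum_eq] at e1
  rw [((order_perm t a1).map _).sum_eq] at e2
  have hlen : (t.map List.length).sum ≤ opt S + 2 * (L.map cycW).sum := by
    have h1 : ∀ L' : List (List (List ℕ)), (∀ c ∈ L', c ≠ []) →
        ((L'.map mergeL).map List.length).sum ≤
          (L'.map (fun c => cycO c + 1 - cycW c)).sum + 2 * (L'.map cycW).sum := by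
      intro L' hne
      induction L' with
      | nil => simp only [List.map_nil, List.sum_nil, mul_zero, add_zero, Std.le_refl]
      | cons c L' ih =>
        have := ih fun c hc => hne c (List.mem_cons_of_mem _ hc)
        simp only [List.map_cons, List.sum_cons]
        rw [length_mergeLF c (hne c List.mem_cons_self)]
        omega
    have := h1 L hL.ne
    rw [← ht] at this
    omega
  constructor
  · rw [← isSuperstring_clean]
    intro s hs
    have : s ∈ L.flatten := hL.perm.mem_iff.2 hs
    obtain ⟨c, hc, hsc⟩ := List.mem_flatten.1 this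
    refine (infix_mergeLF hsc).trans (infix_mergeLF ?_)
    exact (order_perm t a1).mem_iff.2 (List.mem_map_of_mem hc)
  · have hout : (algU cover atsp S).length = (mergeL (order t (atsp
      (List.replicate t.flatten.length (), ovMat t)))).length := rfl
    rw [hout]
    set x := (mergeL (order t (atsp (List.replicate t.flatten.length (), ovMat t)))).length
    set y := pathV (ent (ovMat t)) (atsp (List.replicate t.flatten.length (), ovMat t))
    set z := pathV (ent (ovMat t)) P
    set v := (mergeL (order t P)).length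
    set σ := (t.map List.length).sum
    set w := (L.map cycW).sum
    set n := opt S
    -- q x + q y = q σ, p z ≤ q y, z = σ - v, v ≤ n + w, σ ≤ n + 2 w, w ≤ n
    have hq' : (0 : ℝ) < q := by exact_mod_cast hq
    have r1 : (x : ℝ) + y = σ := by exact_mod_cast e2
    have r2 : (v : ℝ) + z = σ := by exact_mod_cast e1
    have r3 : (p : ℝ) * z ≤ q * y := by exact_mod_cast a3
    have r4 : (v : ℝ) ≤ n + w := by exact_mod_cast w3
    have r5 : (σ : ℝ) ≤ n + 2 * w := by exact_mod_cast hlen
    have r6 : (w : ℝ) ≤ n := by exact_mod_cast w1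
    have r7 : (p : ℝ) ≤ q := by exact_mod_cast hpq
    have r8 : (0 : ℝ) ≤ p := Nat.cast_nonneg _
    have key : (q : ℝ) * x ≤ (3 * q - p) * n := by
      have s1 : (q : ℝ) * x = q * σ - q * y := by rw [← r1]; ring
      have s2 : (p : ℝ) * z = p * σ - p * v := by rw [← r2]; ring
      have s3 : (q : ℝ) * x ≤ (q - p) * σ + p * v := by rw [s1]; nlinarith only [r3, s2]
      have s4 : ((q : ℝ) - p) * σ ≤ (q - p) * (n + 2 * w) :=
        mul_le_mul_of_nonneg_left r5 (by linarith only [r7])
      have s5 : (p : ℝ) * v ≤ p * (n + w) := mul_le_mul_of_nonneg_left r4 r8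
      have s6 : (2 * (q : ℝ) - p) * w ≤ (2 * q - p) * n :=
        mul_le_mul_of_nonneg_left r6 (by linarith only [r7])
      linarith
    have : (3 - (p : ℝ) / q) * n = ((3 * q - p) * n) / q := by
      (clear * - hq; field_simp)
    rw [this, le_div_iff₀ hq']
    linarith only [key]

end Vale.Agent.P333.U
end
end

section

section

/-!
A naive auction algorithm for the assignment problem: exact optimality and number of rounds.
-/

namespace Vale.Agent.P333.U

/-- An object maximising `s * W i j - p j`. -/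
def best (n s : ℕ) (W : List (List ℕ)) (p : List ℕ) (i : ℕ) : ℕ :=
  (List.range n).foldl (fun b j =>
    if s * ent W i b + p.getD j 0 < s * ent W i j + p.getD b 0 then j else b) 0

/-- One bid; the state consists of the prices of the objects, and of the assignment of the persons
(`0` = unassigned, `j + 1` = object `j`). -/
def auctStep (n s : ℕ) (W : List (List ℕ)) (st : List ℕ × List ℕ) : List ℕ × List ℕ :=
  match (List.range n).find? (fun i => decide (st.2.getD i 0 = 0)) with
  | none => st
  | some i =>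
    ((List.range n).map fun k =>
        if k = best n s W st.1 i then st.1.getD k 0 + 1 else st.1.getD k 0,
      (List.range n).map fun k =>
        if k = i then best n s W st.1 i + 1
        else if st.2.getD k 0 = best n s W st.1 i + 1 then 0 else st.2.getD k 0)

/-- The auction: `n` persons, matrix `W` with entries at most `B`. -/
def auction (n B : ℕ) (W : List (List ℕ)) : List ℕ :=
  ((auctStep n (n + 1) W)^[n * ((n + 1) * B + 1) + 1] ([], [])).2.map Nat.pred

variable {n s B : ℕ} {W : List (List ℕ)}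

theorem best_spec_aux (p : List ℕ) (i m : ℕ) :
    let b := (List.range m).foldl (fun b j =>
      if s * ent W i b + p.getD j 0 < s * ent W i j + p.getD b 0 then j else b) 0
    (0 < m → b < m) ∧ ∀ k < m, s * ent W i k + p.getD b 0 ≤ s * ent W i b + p.getD k 0 := by
  induction m with
  | zero => simp only [lt_self_iff_false, List.getD_eq_getElem?_getD, List.range_zero, List.foldl_nil, imp_self, not_lt_zero, IsEmpty.forall_iff, implies_true, and_self]
  | succ m ih =>
    intro b
    obtain ⟨ih1, ih2⟩ := ih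
    set b' := (List.range m).foldl (fun b j =>
      if s * ent W i b + p.getD j 0 < s * ent W i j + p.getD b 0 then j else b) 0 with hb'
    have hb : b = if s * ent W i b' + p.getD m 0 < s * ent W i m + p.getD b' 0 then m else b' := by
      simp only [b, List.range_succ, List.foldl_append, List.foldl_cons, List.foldl_nil]
      rfl
    by_cases h : s * ent W i b' + p.getD m 0 < s * ent W i m + p.getD b' 0
    · rw [if_pos h] at hb
      rw [hb]
      refine ⟨fun _ => by omega, fun k hk => ?_⟩
      rcases Nat.lt_succ_iff_lt_or_eq.1 hk with hk | rfl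
      · have := ih2 k hk
        omega
      · exact le_rfl
    · rw [if_neg h] at hb
      rw [hb]
      refine ⟨fun _ => ?_, fun k hk => ?_⟩
      · rcases Nat.eq_zero_or_pos m with rfl | hm
        · simp only [hb', List.getD_eq_getElem?_getD, List.range_zero, List.foldl_nil, zero_add, Order.lt_one_iff]
        · exact (ih1 hm).trans (Nat.lt_succ_self m)
      · rcases Nat.lt_succ_iff_lt_or_eq.1 hk with hk | rfl
        · exact ih2 k hk
        · omega

theorem best_lt (p : List ℕ) (i : ℕ) (hn : 0 < n) : best n s W p i < n :=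
  (best_spec_aux p i n).1 hn

theorem best_spec (p : List ℕ) (i : ℕ) {k : ℕ} (hk : k < n) :
    s * ent W i k + p.getD (best n s W p i) 0 ≤ s * ent W i (best n s W p i) + p.getD k 0 :=
  (best_spec_aux p i n).2 k hk

/-- Invariants of the auction. -/
structure AInv (n s B : ℕ) (W : List (List ℕ)) (p a : ℕ → ℕ) : Prop where
  le : ∀ i < n, a i ≤ n
  inj : ∀ i < n, ∀ i' < n, a i ≠ 0 → a i = a i' → i = i'
  cs : ∀ i < n, ∀ j, a i = j + 1 → ∀ k < n, s * ent W i k + p j ≤ s * ent W i j + p k + 1
  un : ∀ j < n, (∀ i < n, a i ≠ j + 1) → p j = 0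
  bd : ∀ j < n, p j ≤ s * B + 1

theorem AInv.congr {p a p' a' : ℕ → ℕ} (h : AInv n s B W p a) (hp : ∀ i < n, p' i = p i)
    (ha : ∀ i < n, a' i = a i) : AInv n s B W p' a' where
  le i hi := by rw [ha i hi]; exact h.le i hi
  inj i hi i' hi' h0 he := by
    rw [ha i hi] at h0 he
    rw [ha i' hi'] at he
    exact h.inj i hi i' hi' h0 he
  cs i hi j hj k hk := by
    rw [ha i hi] at hj
    have : j < n := by have := h.le i hi; omega
    rw [hp j this, hp k hk]
    exact h.cs i hi j hj k hk
  un j hj hi := by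
    rw [hp j hj]
    exact h.un j hj fun i hi' => by rw [← ha i hi']; exact hi i hi'
  bd j hj := by rw [hp j hj]; exact h.bd j hj

theorem inv_zero : AInv n s B W (fun _ => 0) (fun _ => 0) where
  le _ _ := Nat.zero_le _
  inj _ _ _ _ h _ := absurd rfl h
  cs _ _ _ h := absurd h (by omega)
  un _ _ _ := rfl
  bd _ _ := Nat.zero_le _

/-- If a person is unassigned, then an object is unassigned. -/
theorem AInv.exists_free {p a : ℕ → ℕ} (_h : AInv n s B W p a) {i : ℕ} (hi : i < n) (h0 : a i = 0) :
    ∃ k < n, ∀ i < n, a i ≠ k + 1 := by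
  by_contra hc
  push Not at hc
  choose f hf using hc
  -- f : k < n ↦ person assigned to k
  have h1 : ((Finset.range n).attach.image fun k => f k.1 (Finset.mem_range.1 k.2)) ⊆
      (Finset.range n).erase i := by
    intro x hx
    simp only [Finset.mem_image, Finset.mem_attach, true_and, Subtype.exists] at hx
    obtain ⟨k, hk, rfl⟩ := hx
    have := hf k (Finset.mem_range.1 hk)
    refine Finset.mem_erase.2 ⟨?_, Finset.mem_range.2 this.1⟩
    intro he
    rw [he] at this
    omega
  have h2 := Finset.card_le_card h1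
  rw [Finset.card_image_of_injOn, Finset.card_attach, Finset.card_range,
    Finset.card_erase_of_mem (Finset.mem_range.2 hi), Finset.card_range] at h2
  · omega
  · intro x _ y _ hxy
    have hx := (hf x.1 (Finset.mem_range.1 x.2)).2
    have hy := (hf y.1 (Finset.mem_range.1 y.2)).2
    simp only at hxy
    rw [hxy] at hx
    apply Subtype.ext
    omega

theorem AInv.step {p a : ℕ → ℕ} (h : AInv n s B W p a) (hB : ∀ i < n, ∀ j < n, ent W i j ≤ B)
    {i j : ℕ} (hi : i < n) (h0 : a i = 0) (hj : j < n)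
    (hb : ∀ k < n, s * ent W i k + p j ≤ s * ent W i j + p k) :
    AInv n s B W (fun k => if k = j then p k + 1 else p k)
      (fun k => if k = i then j + 1 else if a k = j + 1 then 0 else a k) where
  le k hk := by
    have := h.le k hk
    split_ifs <;> omega
  inj k hk k' hk' h1 h2 := by
    have := h.inj k hk k' hk'
    by_cases hki : k = i
    · by_cases hki' : k' = i
      · omega
      · rw [if_pos hki, if_neg hki'] at h2
        split_ifs at h2; omega
    · by_cases hki' : k' = i
      · rw [if_pos hki', if_neg hki] at h2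
        split_ifs at h2; omega
      · rw [if_neg hki] at h1 h2
        rw [if_neg hki'] at h2
        split_ifs at h1 h2 with h3 h4 h5
        · exact absurd rfl h1
        · exact absurd rfl h1
        · exact absurd h2 h1
        · exact this h1 h2
  cs k hk l hl m hm := by
    have hln : l < n := by
      have := h.le k hk
      split_ifs at hl <;> omega
    by_cases hki : k = i
    · subst hki
      rw [if_pos rfl] at hl
      have hlj : l = j := by omega
      subst hlj
      rw [if_pos rfl]
      have := hb m hm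
      split_ifs <;> omega
    · rw [if_neg hki] at hl
      split_ifs at hl with h1
      have hlj : l ≠ j := by omega
      rw [if_neg hlj]
      have := h.cs k hk l hl m hm
      split_ifs <;> omega
  un l hl hf := by
    have hlj : l ≠ j := by
      rintro rfl
      have := hf i hi
      rw [if_pos rfl] at this
      exact this rfl
    rw [if_neg hlj]
    refine h.un l hl fun k hk hk' => ?_
    have := hf k hk
    by_cases hki : k = i
    · subst hki; omega
    · rw [if_neg hki, if_neg (by omega)] at this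
      exact this hk'
  bd l hl := by
    split_ifs with h1
    · subst h1
      obtain ⟨k, hk, hk'⟩ := h.exists_free hi h0
      have h2 := hb k hk
      have h3 := h.un k hk hk'
      have h4 : s * ent W i l ≤ s * B := Nat.mul_le_mul_left _ (hB i hi l hl)
      omega
    · exact h.bd l hl

theorem getD_map_range (f : ℕ → ℕ) {k : ℕ} (hk : k < n) (d : ℕ) :
    ((List.range n).map f).getD k d = f k := by
  rw [List.getD_eq_getElem _ _ (by simpa using hk)]
  simp

theorem sum_step {p : ℕ → ℕ} {j : ℕ} (hj : j < n) :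
    ∑ k ∈ Finset.range n, (if k = j then p k + 1 else p k) = ∑ k ∈ Finset.range n, p k + 1 := by
  have : ∀ k, (if k = j then p k + 1 else p k) = p k + if k = j then 1 else 0 := by
    intro k; split_ifs <;> rfl
  simp only [this, Finset.sum_add_distrib]
  simp [hj]

/-- State of the auction after `m` rounds. -/
theorem auct_main (hB : ∀ i < n, ∀ j < n, ent W i j ≤ B) (m : ℕ) :
    let st := (auctStep n s W)^[m] ([], [])
    AInv n s B W (fun k => st.1.getD k 0) (fun k => st.2.getD k 0) ∧
      ((∀ i < n, st.2.getD i 0 ≠ 0) ∨ ∑ k ∈ Finset.range n, st.1.getD k 0 = m) := by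
  induction m with
  | zero =>
    refine ⟨inv_zero.congr (fun _ _ => rfl) fun _ _ => rfl, Or.inr ?_⟩
    simp
  | succ m ih =>
    intro st
    set st' := (auctStep n s W)^[m] ([], []) with hst'
    obtain ⟨ih1, ih2⟩ := ih
    have hst : st = auctStep n s W st' := Function.iterate_succ_apply' _ _ _
    rw [auctStep] at hst
    rcases hf : (List.range n).find? (fun i => decide (st'.2.getD i 0 = 0)) with _ | i
    · rw [hf] at hst
      simp only at hst
      rw [hst]
      refine ⟨ih1, Or.inl fun i hi h0 => ?_⟩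
      rw [List.find?_eq_none] at hf
      have := hf i (List.mem_range.2 hi)
      simp only [decide_eq_true_eq] at this
      exact this h0
    · rw [hf] at hst
      simp only at hst
      have h0 := List.find?_some hf
      have hi := List.mem_range.1 (List.mem_of_find?_eq_some hf)
      simp only [decide_eq_true_eq] at h0
      have hn : 0 < n := by omega
      have hj := best_lt (s := s) (W := W) st'.1 i hn
      have h1 := ih1.step hB hi h0 hj fun k hk => best_spec st'.1 i hk
      have hp : ∀ k < n, st.1.getD k 0 =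
          if k = best n s W st'.1 i then st'.1.getD k 0 + 1 else st'.1.getD k 0 := by
        intro k hk
        rw [hst]
        exact getD_map_range _ hk 0
      have ha : ∀ k < n, st.2.getD k 0 = if k = i then best n s W st'.1 i + 1
          else if st'.2.getD k 0 = best n s W st'.1 i + 1 then 0 else st'.2.getD k 0 := by
        intro k hk
        rw [hst]
        exact getD_map_range _ hk 0
      refine ⟨h1.congr hp ha, Or.inr ?_⟩
      rw [Finset.sum_congr rfl fun k hk => hp k (Finset.mem_range.1 hk), sum_step hj]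
      rcases ih2 with ih2 | ih2
      · exact absurd h0 (ih2 i hi)
      · rw [ih2]

theorem auct_complete (hB : ∀ i < n, ∀ j < n, ent W i j ≤ B) {m : ℕ}
    (hm : n * (s * B + 1) < m) :
    let st := (auctStep n s W)^[m] ([], [])
    AInv n s B W (fun k => st.1.getD k 0) (fun k => st.2.getD k 0) ∧
      ∀ i < n, st.2.getD i 0 ≠ 0 := by
  obtain ⟨h1, h2⟩ := auct_main (s := s) hB m
  refine ⟨h1, ?_⟩
  rcases h2 with h2 | h2
  · exact h2
  · exfalso
    have := Finset.sum_le_card_nsmul (Finset.range n)
      (fun k => ((auctStep n s W)^[m] ([], [])).1.getD k 0) (s * B + 1)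
      fun k hk => h1.bd k (Finset.mem_range.1 hk)
    rw [Finset.card_range, smul_eq_mul, h2] at this
    omega

theorem auct_length (m : ℕ) (hm : 0 < m) (hn : 0 < n) :
    ((auctStep n s W)^[m] ([], [])).1.length = n ∧
      ((auctStep n s W)^[m] ([], [])).2.length = n := by
  induction m with
  | zero => omega
  | succ m ih =>
    rw [Function.iterate_succ_apply']
    rcases Nat.eq_zero_or_pos m with rfl | hm'
    · rw [Function.iterate_zero, id, auctStep]
      have : (List.range n).find? (fun i => decide ((([] : List ℕ), ([] : List ℕ)).2.getD i 0 = 0))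
          = some 0 := by
        obtain ⟨n, rfl⟩ : ∃ n', n = n' + 1 := ⟨n - 1, by omega⟩
        rw [List.range_succ_eq_map]
        simp
      rw [this]
      simp
    · rw [auctStep]
      split
      · exact ih hm'
      · simp only [List.getD_eq_getElem?_getD, List.length_map, List.length_range, and_self]

theorem length_auction : (auction n B W).length = n := by
  rcases Nat.eq_zero_or_pos n with rfl | hn
  · rw [auction, List.length_map]
    have : ∀ m, (auctStep 0 (0 + 1) W)^[m] ([], []) = ([], []) := by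
      intro m
      induction m with
      | zero => rfl
      | succ m ih => rw [Function.iterate_succ_apply', ih]; rfl
    rw [this]
    rfl
  · rw [auction, List.length_map]
    exact (auct_length _ (Nat.succ_pos _) hn).2

/-- The auction computes a permutation of maximal weight. -/
theorem auction_spec (n B : ℕ) (W : List (List ℕ)) (hB : ∀ i < n, ∀ j < n, ent W i j ≤ B) :
    ∃ σ : Equiv.Perm (Fin n), (∀ i : Fin n, (auction n B W).getD i 0 = σ i) ∧
      ∀ τ : Equiv.Perm (Fin n), ∑ i : Fin n, ent W i (τ i) ≤ ∑ i : Fin n, ent W i (σ i) := by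
  obtain ⟨h1, h2⟩ := auct_complete (s := n + 1) hB
    (m := n * ((n + 1) * B + 1) + 1) (Nat.lt_succ_self _)
  set st := (auctStep n (n + 1) W)^[n * ((n + 1) * B + 1) + 1] ([], []) with hst
  have hget : ∀ i < n, (auction n B W).getD i 0 = st.2.getD i 0 - 1 := by
    intro i hi
    have hl : (auction n B W).length = n := length_auction
    have hl' : st.2.length = n := by
      rw [auction, List.length_map] at hl
      exact hl
    rw [List.getD_eq_getElem _ _ (by omega), List.getD_eq_getElem _ _ (by omega)]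
    simp only [auction, List.getElem_map, Nat.pred_eq_sub_one]
    rfl
  let f : Fin n → Fin n := fun i => ⟨st.2.getD i 0 - 1, by
    have := h1.le i i.2
    have := h2 i i.2
    omega⟩
  have hf : Function.Injective f := by
    intro i i' he
    apply Fin.ext
    have h3 := h2 i i.2
    have h4 := h2 i' i'.2
    refine h1.inj i i.2 i' i'.2 h3 ?_
    have := congrArg Fin.val he
    simp only [f] at this
    omega
  let σ : Equiv.Perm (Fin n) := Equiv.ofBijective f (Finite.injective_iff_bijective.1 hf)
  refine ⟨σ, fun i => hget i i.2, fun τ => ?_⟩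
  -- duality
  have h5 : ∀ i : Fin n, (n + 1) * ent W i (τ i) + st.1.getD (σ i) 0 ≤
      (n + 1) * ent W i (σ i) + st.1.getD (τ i) 0 + 1 := by
    intro i
    have := h2 i i.2
    refine h1.cs i i.2 (σ i) ?_ (τ i) (τ i).2
    show _ = st.2.getD i 0 - 1 + 1
    omega
  have h6 := Finset.sum_le_sum fun (i : Fin n) (_ : i ∈ Finset.univ) => h5 i
  simp only [Finset.sum_add_distrib, ← Finset.mul_sum] at h6
  have h7 : ∑ i : Fin n, st.1.getD (σ i) 0 = ∑ i : Fin n, st.1.getD i 0 :=
    Equiv.sum_comp σ fun i : Fin n => st.1.getD i 0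
  have h8 : ∑ i : Fin n, st.1.getD (τ i) 0 = ∑ i : Fin n, st.1.getD i 0 :=
    Equiv.sum_comp τ fun i : Fin n => st.1.getD i 0
  rw [h7, h8] at h6
  simp only [Finset.sum_const, Finset.card_univ, Fintype.card_fin, smul_eq_mul, mul_one] at h6
  by_contra hc
  push Not at hc
  have h9 : (n + 1) * (∑ i : Fin n, ent W i (σ i) + 1) ≤ (n + 1) * ∑ i : Fin n, ent W i (τ i) :=
    Nat.mul_le_mul_left _ hc
  rw [mul_add, mul_one] at h9
  omega

end Vale.Agent.P333.U
end
end

section

section

/-!
The assignment problem in polynomial time (`AssignAlg`).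
-/

namespace Vale.Agent.P333.U

open Vale.Agent.Lib.PolyTime

variable {A : Set Word} {α : Type*} [Enc α]

theorem PT_ent {W : α → List (List ℕ)} {i j : α → ℕ} (hW : PT A W) (hi : PT A i) (hj : PT A j) :
    PT A (fun a => ent (W a) (i a) (j a)) :=
  PT.getD (PT.getD hW hi (PT.const [])) hj (PT.const 0)

theorem best_fold_le (s : ℕ) (W : List (List ℕ)) (p : List ℕ) (i n : ℕ) (l : List ℕ)
    (hl : ∀ x ∈ l, x ≤ n) (b : ℕ) (hb : b ≤ n) :
    l.foldl (fun b j =>
      if s * ent W i b + p.getD j 0 < s * ent W i j + p.getD b 0 then j else b) b ≤ n := by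
  induction l generalizing b with
  | nil => exact hb
  | cons y l ih =>
    rw [List.foldl_cons]
    refine ih (fun z hz => hl z (List.mem_cons_of_mem _ hz)) _ ?_
    split_ifs
    · exact hl y List.mem_cons_self
    · exact hb

theorem best_le (n s : ℕ) (W : List (List ℕ)) (p : List ℕ) (i : ℕ) : best n s W p i ≤ n :=
  best_fold_le s W p i n _ (fun _ hx => (List.mem_range.1 hx).le) 0 (Nat.zero_le _)

theorem PT_best {n s i : α → ℕ} {W : α → List (List ℕ)} {p : α → List ℕ} (hn : PT A n)
    (hnb : PBd n) (hs : PT A s) (hW : PT A W) (hp : PT A p) (hi : PT A i) :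
    PT A (fun a => best (n a) (s a) (W a) (p a) (i a)) := by
  have hfst : PT A (fun q : α × ℕ × ℕ => q.1) := PT.fst'
  have hb : PT A (fun q : α × ℕ × ℕ => q.2.1) := PT.snd'.fst
  have hj : PT A (fun q : α × ℕ × ℕ => q.2.2) := PT.snd'.snd
  have hp' : PT A (fun q : α × ℕ × ℕ => p q.1) := hp.comp hfst
  have hW' : PT A (fun q : α × ℕ × ℕ => W q.1) := hW.comp hfst
  have hs' : PT A (fun q : α × ℕ × ℕ => s q.1) := hs.comp hfst
  have hi' : PT A (fun q : α × ℕ × ℕ => i q.1) := hi.comp hfst
  refine PT.foldl (l := fun a => List.range (n a)) (init := fun _ => 0)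
    (f := fun a b j => if s a * ent (W a) (i a) b + (p a).getD j 0 <
      s a * ent (W a) (i a) j + (p a).getD b 0 then j else b)
    (PT.range hn hnb) (PT.const 0) ?_ (b := fun a => n a) hnb fun a k => ?_
  · refine PT.ite (p := fun q : α × ℕ × ℕ => s q.1 * ent (W q.1) (i q.1) q.2.1 +
      (p q.1).getD q.2.2 0 < s q.1 * ent (W q.1) (i q.1) q.2.2 + (p q.1).getD q.2.1 0)
      (PT.lt ?_ ?_) hj hb
    · exact PT.add (PT.mul hs' (PT_ent hW' hi' hb)) (PT.getD hp' hj (PT.const 0))
    · exact PT.add (PT.mul hs' (PT_ent hW' hi' hj)) (PT.getD hp' hb (PT.const 0))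
  · refine (esize_nat_le_self _).trans (best_fold_le _ _ _ _ _ _ (fun x hx => ?_) _
      (Nat.zero_le _))
    exact (List.mem_range.1 (List.mem_of_mem_take hx)).le

theorem PT_auctStep {n s : α → ℕ} {W : α → List (List ℕ)} {st : α → List ℕ × List ℕ}
    (hn : PT A n) (hnb : PBd n) (hs : PT A s) (hW : PT A W) (hst : PT A st) :
    PT A (fun a => auctStep (n a) (s a) (W a) (st a)) := by
  refine (PT.optCase (o := fun a => (List.range (n a)).find?
      (fun i => decide ((st a).2.getD i 0 = 0))) (f := st)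
    (g := fun a i => ((List.range (n a)).map fun k =>
        if k = best (n a) (s a) (W a) (st a).1 i then (st a).1.getD k 0 + 1
        else (st a).1.getD k 0,
      (List.range (n a)).map fun k =>
        if k = i then best (n a) (s a) (W a) (st a).1 i + 1
        else if (st a).2.getD k 0 = best (n a) (s a) (W a) (st a).1 i + 1 then 0
        else (st a).2.getD k 0))
    ?_ hst ?_).congr fun a => ?_
  · refine PT.find? (PT.range hn hnb) (f := fun a i => decide ((st a).2.getD i 0 = 0)) ?_
    exact PT.eqNat (PT.getD (hst.comp PT.fst').snd PT.snd' (PT.const 0)) (PT.const 0)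
  · have hn1 : PT A (fun q : α × ℕ => n q.1) := hn.comp PT.fst'
    have hnb1 : PBd (fun q : α × ℕ => n q.1) := hnb.comp (PT.fst' (A := A))
    have hs1 : PT A (fun q : α × ℕ => s q.1) := hs.comp PT.fst'
    have hW1 : PT A (fun q : α × ℕ => W q.1) := hW.comp PT.fst'
    have hst1 : PT A (fun q : α × ℕ => st q.1) := hst.comp PT.fst'
    have hB : PT A (fun q : α × ℕ => best (n q.1) (s q.1) (W q.1) (st q.1).1 q.2) :=
      PT_best hn1 hnb1 hs1 hW1 hst1.fst PT.snd'
    have hB1 : PT A (fun r : (α × ℕ) × ℕ =>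
        best (n r.1.1) (s r.1.1) (W r.1.1) (st r.1.1).1 r.1.2) := hB.comp PT.fst'
    have hst2 : PT A (fun r : (α × ℕ) × ℕ => st r.1.1) := hst1.comp PT.fst'
    have hk : PT A (fun r : (α × ℕ) × ℕ => r.2) := PT.snd'
    have hg1 : PT A (fun r : (α × ℕ) × ℕ => (st r.1.1).1.getD r.2 0) :=
      PT.getD hst2.fst hk (PT.const 0)
    have hg2 : PT A (fun r : (α × ℕ) × ℕ => (st r.1.1).2.getD r.2 0) :=
      PT.getD hst2.snd hk (PT.const 0)
    refine PT.pair ?_ ?_
    · refine PT.map (l := fun q : α × ℕ => List.range (n q.1))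
        (f := fun q k => if k = best (n q.1) (s q.1) (W q.1) (st q.1).1 q.2
          then (st q.1).1.getD k 0 + 1 else (st q.1).1.getD k 0) (PT.range hn1 hnb1) ?_
      exact PT.ite (PT.eqNat hk hB1) (PT.add hg1 (PT.const 1)) hg1
    · refine PT.map (l := fun q : α × ℕ => List.range (n q.1))
        (f := fun q k => if k = q.2 then best (n q.1) (s q.1) (W q.1) (st q.1).1 q.2 + 1
          else if (st q.1).2.getD k 0 = best (n q.1) (s q.1) (W q.1) (st q.1).1 q.2 + 1 then 0
          else (st q.1).2.getD k 0) (PT.range hn1 hnb1) ?_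
      exact PT.ite (PT.eqNat hk (PT.snd'.comp PT.fst')) (PT.add hB1 (PT.const 1))
        (PT.ite (PT.eqNat hg2 (PT.add hB1 (PT.const 1))) (PT.const 0) hg2)
  · rw [auctStep]
    rcases (List.range (n a)).find? (fun i => decide ((st a).2.getD i 0 = 0)) with _ | i <;> rfl

/-- Size of the state. -/
theorem auct_size (n s : ℕ) (W : List (List ℕ)) (m : ℕ) :
    let st := (auctStep n s W)^[m] ([], [])
    st.1.length ≤ n ∧ st.2.length ≤ n ∧ (∀ x ∈ st.1, x ≤ m) ∧ ∀ x ∈ st.2, x ≤ n + 1 := by
  induction m with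
  | zero => simp only [Function.iterate_zero, id_eq, List.length_nil, zero_le, List.not_mem_nil, nonpos_iff_eq_zero, IsEmpty.forall_iff, implies_true, and_self]
  | succ m ih =>
    intro st
    set st' := (auctStep n s W)^[m] ([], []) with hst'
    obtain ⟨i1, i2, i3, i4⟩ := ih
    have hst : st = auctStep n s W st' := Function.iterate_succ_apply' _ _ _
    have g3 : ∀ k, st'.1.getD k 0 ≤ m := by
      intro k
      rcases lt_or_ge k st'.1.length with h | h
      · rw [List.getD_eq_getElem _ _ h]; exact i3 _ (List.getElem_mem _)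
      · rw [List.getD_eq_default _ _ h]; exact Nat.zero_le _
    have g4 : ∀ k, st'.2.getD k 0 ≤ n + 1 := by
      intro k
      rcases lt_or_ge k st'.2.length with h | h
      · rw [List.getD_eq_getElem _ _ h]; exact i4 _ (List.getElem_mem _)
      · rw [List.getD_eq_default _ _ h]; exact Nat.zero_le _
    rw [auctStep] at hst
    rcases hf : (List.range n).find? (fun i => decide (st'.2.getD i 0 = 0)) with _ | i
    · rw [hf] at hst
      simp only at hst
      rw [hst]
      exact ⟨i1, i2, fun x hx => (i3 x hx).trans (Nat.le_succ _), i4⟩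
    · rw [hf] at hst
      simp only at hst
      rw [hst]
      refine ⟨by simp only [List.getD_eq_getElem?_getD, List.length_map, List.length_range, Std.le_refl], by simp only [List.getD_eq_getElem?_getD, List.length_map, List.length_range, Std.le_refl], fun x hx => ?_, fun x hx => ?_⟩
      · simp only [List.mem_map] at hx
        obtain ⟨k, -, rfl⟩ := hx
        have := g3 k
        split_ifs <;> omega
      · simp only [List.mem_map] at hx
        obtain ⟨k, -, rfl⟩ := hx
        have := g4 k
        have := best_le n s W st'.1 i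
        split_ifs <;> omega

theorem PT_auction {n B : α → ℕ} {W : α → List (List ℕ)} (hn : PT A n) (hnb : PBd n)
    (hB : PT A B) (hBb : PBd B) (hW : PT A W) :
    PT A (fun a => auction (n a) (B a) (W a)) := by
  have hk : PT A (fun a => n a * ((n a + 1) * B a + 1) + 1) :=
    PT.add (PT.mul hn (PT.add (PT.mul (PT.add hn (PT.const 1)) hB) (PT.const 1))) (PT.const 1)
  have hkb : PBd (fun a => n a * ((n a + 1) * B a + 1) + 1) :=
    PBd.add (PBd.mul hnb (PBd.add (PBd.mul (PBd.add hnb (PBd.const 1)) hBb) (PBd.const 1)))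
      (PBd.const 1)
  have h1 : PT A (fun a => (auctStep (n a) (n a + 1) (W a))^[n a * ((n a + 1) * B a + 1) + 1]
      (([], []) : List ℕ × List ℕ)) := by
    refine PT.iterate' (init := fun _ => (([], []) : List ℕ × List ℕ))
      (step := fun a st => auctStep (n a) (n a + 1) (W a) st) hk hkb
      (PT.const _) ?_ (b := fun a => 2 * (n a * (2 * (n a * ((n a + 1) * B a + 1) + 1) + 1)) +
        n a * (2 * (n a + 1) + 1) + 1) ?_ fun a j hj => ?_
    · exact PT_auctStep (hn.comp PT.fst') (hnb.comp (PT.fst' (A := A)))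
        (PT.add (hn.comp PT.fst') (PT.const 1)) (hW.comp PT.fst') PT.snd'
    · exact PBd.add (PBd.add (PBd.mul (PBd.const 2) (PBd.mul hnb
        (PBd.add (PBd.mul (PBd.const 2) hkb) (PBd.const 1))))
        (PBd.mul hnb (PBd.add (PBd.mul (PBd.const 2) (PBd.add hnb (PBd.const 1)))
          (PBd.const 1)))) (PBd.const 1)
    · obtain ⟨i1, i2, i3, i4⟩ := auct_size (n a) (n a + 1) (W a) j
      set st := (auctStep (n a) (n a + 1) (W a))^[j] ([], []) with hst
      have e1 : esize st.1 ≤ n a * (2 * (n a * ((n a + 1) * B a + 1) + 1) + 1) := by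
        refine (esize_list_le (B := n a * ((n a + 1) * B a + 1) + 1) fun x hx =>
          (esize_nat_le_self x).trans ((i3 x hx).trans hj)).trans ?_
        exact Nat.mul_le_mul_right _ i1
      have e2 : esize st.2 ≤ n a * (2 * (n a + 1) + 1) := by
        refine (esize_list_le (B := n a + 1) fun x hx =>
          (esize_nat_le_self x).trans (i4 x hx)).trans ?_
        exact Nat.mul_le_mul_right _ i2
      have e3 : esize st = 2 * esize st.1 + esize st.2 + 1 := esize_pair st.1 st.2
      omega
  exact PT.map (f := fun _ x => Nat.pred x) h1.snd (PT.pred PT.snd')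

theorem ent_le {M : List (List ℕ)} {B : ℕ} (h : SqMat M B) (i j : ℕ) : ent M i j ≤ B := by
  rw [ent]
  rcases lt_or_ge i M.length with hi | hi
  · rw [List.getD_eq_getElem _ _ hi]
    rcases lt_or_ge j M[i].length with hj | hj
    · rw [List.getD_eq_getElem _ _ hj]
      exact h.2 _ (List.getElem_mem hi) _ (List.getElem_mem hj)
    · rw [List.getD_eq_default _ _ hj]; exact Nat.zero_le _
  · rw [List.getD_eq_default _ _ hi]; simp

theorem range_eq_map_finRange (n : ℕ) :
    List.range n = (List.finRange n).map fun i : Fin n => (i : ℕ) := by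
  apply List.ext_getElem
  · simp
  · intro i h1 h2
    simp

theorem perm_range_of_perm {n : ℕ} {P : List ℕ} (σ : Equiv.Perm (Fin n)) (hl : P.length = n)
    (h : ∀ i : Fin n, P.getD i 0 = σ i) : P.Perm (List.range n) := by
  have hP : P = (List.finRange n).map fun i => ((σ i : Fin n) : ℕ) := by
    apply List.ext_getElem
    · simp [hl]
    · intro i h1 h2
      have := h ⟨i, by omega⟩
      rw [List.getD_eq_getElem _ _ (by simpa using h1)] at this
      simp only [List.getElem_map, List.getElem_finRange]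
      simpa using this
  rw [hP, range_eq_map_finRange]
  have h4 := (Equiv.Perm.map_finRange_perm σ).map fun i : Fin n => (i : ℕ)
  rwa [List.map_map] at h4

theorem exists_perm_of_perm_range {n : ℕ} {P : List ℕ} (hP : P.Perm (List.range n)) :
    ∃ τ : Equiv.Perm (Fin n), ∀ i : Fin n, P.getD i 0 = τ i := by
  have hl : P.length = n := by rw [hP.length_eq, List.length_range]
  have hnd : P.Nodup := hP.nodup_iff.2 List.nodup_range
  have hlt : ∀ i (h : i < P.length), P[i] < n := fun i h =>
    List.mem_range.1 (hP.mem_iff.1 (List.getElem_mem h))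
  let f : Fin n → Fin n := fun i => ⟨P[(i : ℕ)]'(by omega), hlt _ _⟩
  have hf : Function.Injective f := by
    intro i j he
    have := congrArg Fin.val he
    simp only [f] at this
    exact Fin.ext ((hnd.getElem_inj_iff).1 this)
  refine ⟨Equiv.ofBijective f (Finite.injective_iff_bijective.1 hf), fun i => ?_⟩
  rw [List.getD_eq_getElem _ _ (by omega)]
  rfl

theorem asgVal_eq (M : List (List ℕ)) (P : List ℕ) (σ : Equiv.Perm (Fin M.length))
    (h : ∀ i : Fin M.length, P.getD i 0 = σ i) :
    asgVal M P = ∑ i : Fin M.length, ent M i (σ i) := by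
  rw [asgVal, range_eq_map_finRange, List.map_map, ← List.ofFn_eq_map, List.sum_ofFn]
  exact Finset.sum_congr rfl fun i _ => by rw [Function.comp, h i]

/-- The assignment problem can be solved in polynomial time. -/
theorem assignAlg : AssignAlg := by
  refine ⟨fun q => auction q.2.length q.1.length q.2, ?_, fun u M hM => ?_⟩
  · exact PT_auction (PT.length PT.snd') (PBd.length (PT.snd' (A := ∅))) (PT.length PT.fst')
      (PBd.length (PT.fst' (A := ∅))) PT.snd'
  · obtain ⟨σ, h1, h2⟩ := auction_spec M.length u.length M fun i _ j _ => ent_le hM i j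
    refine ⟨perm_range_of_perm σ length_auction h1, fun P hP => ?_⟩
    obtain ⟨τ, hτ⟩ := exists_perm_of_perm_range hP
    rw [asgVal_eq M P τ hτ, asgVal_eq M _ σ h1]
    exact h2 τ

end Vale.Agent.P333.U
end
end

section

section

/-!
P333, upper bound: joining the arcs of a path system (or of a cycle cover) to lists, in polynomial
time.
-/

set_option linter.all false

namespace Vale.Agent.P333.U

open Vale.Agent.Lib.PolyTime

/-- The consecutive pairs of a list. -/
def pairsL (c : List ℕ) : List (ℕ × ℕ) := c.zip c.tail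

/-- Joining two lists along an arc; an arc which would close a cycle is ignored. -/
def joinArc (L : List (List ℕ)) (e : ℕ × ℕ) : List (List ℕ) :=
  match L.find? (fun a => decide (a.getLast? = some e.1)) with
  | none => L
  | some a =>
    match L.find? (fun b => decide (b.head? = some e.2)) with
    | none => L
    | some b => if a = b then L else (a ++ b) :: L.filter (fun c => decide (c ≠ a) && decide (c ≠ b))

/-- Joining along all the arcs, starting from the singletons. -/
def joinFold (k : ℕ) (F : List (ℕ × ℕ)) : List (List ℕ) :=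
  F.foldl joinArc ((List.range k).map (fun i => [i]))

/-- Families of nonempty disjoint lists. -/
structure OkL (L : List (List ℕ)) : Prop where
  nodup : L.flatten.Nodup
  ne : ∀ c ∈ L, c ≠ []

theorem OkL.nodup' {L : List (List ℕ)} (h : OkL L) : L.Nodup := by
  have h1 := (List.nodup_flatten.1 h.nodup).2
  refine List.Pairwise.imp_of_mem ?_ h1
  intro a b ha hb hd he
  subst he
  obtain ⟨x, hx⟩ := List.exists_mem_of_ne_nil a (h.ne a ha)
  exact hd hx hx

theorem OkL.eq_of_mem {L : List (List ℕ)} (h : OkL L) {a b : List ℕ} (ha : a ∈ L) (hb : b ∈ L)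
    {x : ℕ} (hxa : x ∈ a) (hxb : x ∈ b) : a = b := by
  have h1 := (List.nodup_flatten.1 h.nodup).2
  haveI : Std.Symm (List.Disjoint : List ℕ → List ℕ → Prop) := ⟨fun _ _ h => h.symm⟩
  by_contra hab
  exact (h1.forall ha hb hab) hxa hxb

theorem pairsL_append {a b : List ℕ} (ha : a ≠ []) (hb : b ≠ []) :
    pairsL (a ++ b) = pairsL a ++ (a.getLast ha, b.head hb) :: pairsL b := by
  induction a with
  | nil => exact absurd rfl ha
  | cons x a ih =>
    cases a with
    | nil =>
      cases b with
      | nil => exact absurd rfl hb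
      | cons y b => simp [pairsL]
    | cons y a =>
      have := ih (by simp)
      simp only [pairsL, List.cons_append, List.tail_cons, List.zip_cons_cons] at this ⊢
      rw [this]
      simp

theorem mem_of_getLast? {a : List ℕ} {x : ℕ} (h : a.getLast? = some x) : x ∈ a :=
  List.mem_of_getLast? h

theorem mem_of_head? {a : List ℕ} {x : ℕ} (h : a.head? = some x) : x ∈ a :=
  List.mem_of_head? h

/-- What `joinArc` does. -/
theorem joinArc_cases {L : List (List ℕ)} (h : OkL L) (e : ℕ × ℕ) :
    (joinArc L e = L ∧ ((∀ a ∈ L, a.getLast? ≠ some e.1) ∨ (∀ b ∈ L, b.head? ≠ some e.2) ∨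
      ∃ a ∈ L, a.getLast? = some e.1 ∧ a.head? = some e.2)) ∨
    ∃ a b L', L.Perm (a :: b :: L') ∧ joinArc L e = (a ++ b) :: L' ∧ a.getLast? = some e.1 ∧
      b.head? = some e.2 := by
  unfold joinArc
  rcases h1 : L.find? (fun a => decide (a.getLast? = some e.1)) with _ | a
  · left
    rw [h1]
    refine ⟨rfl, Or.inl fun a ha => ?_⟩
    have := List.find?_eq_none.1 h1 a ha
    simpa using this
  · have ha := List.mem_of_find?_eq_some h1
    have ha' : a.getLast? = some e.1 := by simpa using List.find?_some h1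
    rcases h2 : L.find? (fun b => decide (b.head? = some e.2)) with _ | b
    · left
      rw [h1, h2]
      refine ⟨rfl, Or.inr (Or.inl fun b hb => ?_)⟩
      have := List.find?_eq_none.1 h2 b hb
      simpa using this
    · have hb := List.mem_of_find?_eq_some h2
      have hb' : b.head? = some e.2 := by simpa using List.find?_some h2
      rw [h1, h2]
      simp only
      by_cases hab : a = b
      · left
        rw [if_pos hab]
        subst hab
        exact ⟨rfl, Or.inr (Or.inr ⟨a, ha, ha', hb'⟩)⟩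
      · right
        rw [if_neg hab]
        refine ⟨a, b, _, ?_, rfl, ha', hb'⟩
        have hn := h.nodup'
        have e1 : L.filter (fun c => decide (c ≠ a) && decide (c ≠ b)) = (L.erase a).erase b := by
          rw [(hn.erase a).erase_eq_filter, hn.erase_eq_filter, List.filter_filter]
          congr 1
          funext c
          by_cases hca : c = a <;> by_cases hcb : c = b <;> simp [hca, hcb]
        rw [e1]
        have hb1 : b ∈ L.erase a := (List.mem_erase_of_ne (Ne.symm hab)).2 hb
        exact (List.perm_cons_erase ha).trans ((List.perm_cons_erase hb1).cons a)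

theorem joinArc_flatten {L : List (List ℕ)} (h : OkL L) (e : ℕ × ℕ) :
    (joinArc L e).flatten.Perm L.flatten := by
  rcases joinArc_cases h e with ⟨h1, -⟩ | ⟨a, b, L', h1, h2, -, -⟩
  · rw [h1]
  · rw [h2]
    refine List.Perm.trans ?_ h1.flatten.symm
    simp

theorem joinArc_ok {L : List (List ℕ)} (h : OkL L) (e : ℕ × ℕ) : OkL (joinArc L e) := by
  refine ⟨(joinArc_flatten h e).nodup_iff.2 h.nodup, fun c hc => ?_⟩
  rcases joinArc_cases h e with ⟨h1, -⟩ | ⟨a, b, L', h1, h2, ha, -⟩
  · rw [h1] at hc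
    exact h.ne c hc
  · rw [h2] at hc
    rcases List.mem_cons.1 hc with rfl | hc
    · intro h3
      have := mem_of_getLast? ha
      simp at h3
      rw [h3.1] at this
      simp at this
    · exact h.ne c (h1.mem_iff.2 (by simp [hc]))

theorem foldl_joinArc_ok {L : List (List ℕ)} (h : OkL L) (F : List (ℕ × ℕ)) :
    OkL (F.foldl joinArc L) ∧ (F.foldl joinArc L).flatten.Perm L.flatten := by
  induction F generalizing L with
  | nil => exact ⟨h, List.Perm.refl _⟩
  | cons e F ih =>
    obtain ⟨h1, h2⟩ := ih (joinArc_ok h e)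
    exact ⟨h1, h2.trans (joinArc_flatten h e)⟩

theorem okL_init (k : ℕ) : OkL ((List.range k).map (fun i => [i])) := by
  refine ⟨?_, ?_⟩
  · rw [← List.flatMap_def, List.flatMap_singleton']
    exact List.nodup_range
  · intro c hc
    obtain ⟨i, -, rfl⟩ := List.mem_map.1 hc
    simp

theorem joinFold_ok (k : ℕ) (F : List (ℕ × ℕ)) :
    OkL (joinFold k F) ∧ (joinFold k F).flatten.Perm (List.range k) := by
  have h := foldl_joinArc_ok (okL_init k) F
  rwa [← List.flatMap_def, List.flatMap_singleton'] at h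

/-! ### polynomial time -/

theorem esize_okL {L : List (List ℕ)} (h : ∀ c ∈ L, c ≠ []) :
    esize L ≤ 3 * esize L.flatten := by
  induction L with
  | nil => simp [esize_list_nil]
  | cons c L ih =>
    rw [esize_list_cons, List.flatten_cons, esize_append]
    have h1 := ih fun c hc => h c (List.mem_cons_of_mem _ hc)
    have h2 : 1 ≤ esize c := by
      have := length_le_esize c
      have := List.length_pos_of_ne_nil (h c List.mem_cons_self)
      omega
    omega

theorem PT_optEq {A : Set Word} {α : Type*} [Enc α] {f : α → Option ℕ} {g : α → ℕ} (hf : PT A f)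
    (hg : PT A g) : PT A (fun a => decide (f a = some (g a))) :=
  (PT.optCase hf (PT.const false) (g := fun a b => decide (b = g a))
    (PT.eqNat PT.snd' (hg.comp PT.fst'))).congr fun a => by
      rcases f a with _ | b <;> simp

theorem PT_joinArc {A : Set Word} {α : Type*} [Enc α] {L : α → List (List ℕ)} {e : α → ℕ × ℕ}
    (hL : PT A L) (he : PT A e) : PT A (fun a => joinArc (L a) (e a)) := by
  have h1 : PT A (fun a => (L a).find? (fun c => decide (c.getLast? = some (e a).1))) :=
    PT.find? (f := fun a c => decide (c.getLast? = some (e a).1)) hL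
      (PT_optEq (PT.getLast? PT.snd') (he.fst.comp PT.fst'))
  have h2 : PT A (fun a => (L a).find? (fun c => decide (c.head? = some (e a).2))) :=
    PT.find? (f := fun a c => decide (c.head? = some (e a).2)) hL
      (PT_optEq (PT.head? PT.snd') (he.snd.comp PT.fst'))
  have h3 : PT A (fun q : (α × List ℕ) × List ℕ =>
      if q.1.2 = q.2 then L q.1.1 else (q.1.2 ++ q.2) ::
        (L q.1.1).filter (fun c => decide (c ≠ q.1.2) && decide (c ≠ q.2))) := by
    refine PT.ite (p := fun q : (α × List ℕ) × List ℕ => q.1.2 = q.2)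
      (PT_eqStr PT.fst'.snd PT.snd') (hL.comp PT.fst'.fst)
      (PT.cons (PT.append PT.fst'.snd PT.snd')
        (PT.filter (f := fun (q : (α × List ℕ) × List ℕ) c =>
          decide (c ≠ q.1.2) && decide (c ≠ q.2)) (hL.comp PT.fst'.fst) ?_))
    exact PT.and ((PT_eqStr PT.snd' PT.fst'.fst.snd).not.congr fun p => by simp)
      ((PT_eqStr PT.snd' PT.fst'.snd).not.congr fun p => by simp)
  refine (PT.optCase h1 hL (g := fun a c =>
    match (L a).find? (fun b => decide (b.head? = some (e a).2)) with
    | none => L a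
    | some b => if c = b then L a else (c ++ b) ::
      (L a).filter (fun d => decide (d ≠ c) && decide (d ≠ b))) ?_).congr fun a => by
      unfold joinArc
      rcases h1 : (L a).find? (fun c => decide (c.getLast? = some (e a).1)) with _ | c
      · rw [h1]
      · rw [h1]
  refine (PT.optCase (o := fun p : α × List ℕ =>
      (L p.1).find? (fun b => decide (b.head? = some (e p.1).2)))
    (h2.comp PT.fst') (hL.comp PT.fst')
    (g := fun p b => if p.2 = b then L p.1 else (p.2 ++ b) ::
      (L p.1).filter (fun d => decide (d ≠ p.2) && decide (d ≠ b))) h3).congr fun p => ?_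
  rcases h1 : (L p.1).find? (fun b => decide (b.head? = some (e p.1).2)) with _ | c
  · rw [h1]
  · rw [h1]

theorem PT_joinFold {A : Set Word} {α : Type*} [Enc α] {k : α → ℕ} {F : α → List (ℕ × ℕ)}
    (hk : PT A k) (hkb : PBd k) (hF : PT A F) : PT A (fun a => joinFold (k a) (F a)) := by
  have hr := PT.range hk hkb
  refine PT.foldl (f := fun _ => joinArc) hF (PT.map hr (f := fun _ i => [i])
    (PT.cons PT.snd' PT.nil)) (PT_joinArc PT.snd'.fst PT.snd'.snd)
    (b := fun a => 3 * esize (List.range (k a))) ?_ fun a i => ?_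
  · have := hr.pbd
    fun_prop
  · have h := joinFold_ok (k a) ((F a).take i)
    have h1 := esize_okL h.1.ne
    rw [esize_perm h.2] at h1
    exact h1

/-! ### correctness -/

/-- The invariant: every arc which has been processed is a pair of consecutive elements, or closes
a list (and `R p e` holds for all the pairs `p` of this list). -/
structure JInv (R : ℕ × ℕ → ℕ × ℕ → Prop) (k : ℕ) (L : List (List ℕ)) (F : List (ℕ × ℕ)) :
    Prop where
  perm : L.flatten.Perm (List.range k)
  ne : ∀ c ∈ L, c ≠ []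
  arcs : ∀ c ∈ L, ∀ p ∈ pairsL c, p ∈ F
  mem : ∀ e ∈ F, (∃ c ∈ L, e ∈ pairsL c) ∨ ∃ c ∈ L, c.getLast? = some e.1 ∧
    c.head? = some e.2 ∧ ∀ p ∈ pairsL c, R p e

theorem JInv.ok {R : ℕ × ℕ → ℕ × ℕ → Prop} {k : ℕ} {L : List (List ℕ)} {F : List (ℕ × ℕ)}
    (h : JInv R k L F) : OkL L := ⟨h.perm.nodup_iff.2 List.nodup_range, h.ne⟩

theorem getLast?_or_pair {c : List ℕ} {x : ℕ} (hx : x ∈ c) :
    c.getLast? = some x ∨ ∃ y, (x, y) ∈ pairsL c := by
  induction c with
  | nil => simp at hx
  | cons a c ih =>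
    cases c with
    | nil => left; simp at hx; simp [hx]
    | cons b c =>
      rcases List.mem_cons.1 hx with rfl | hx
      · right; exact ⟨b, by simp [pairsL]⟩
      · rcases ih hx with h | ⟨y, h⟩
        · left; simpa using h
        · right; exact ⟨y, by simp [pairsL] at h ⊢; right; exact h⟩

theorem head?_or_pair {c : List ℕ} {x : ℕ} (hx : x ∈ c) :
    c.head? = some x ∨ ∃ y, (y, x) ∈ pairsL c := by
  induction c with
  | nil => simp at hx
  | cons a c ih =>
    cases c with
    | nil => left; simp at hx; simp [hx]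
    | cons b c =>
      rcases List.mem_cons.1 hx with rfl | hx
      · left; simp
      · rcases ih hx with h | ⟨y, h⟩
        · right; simp at h; exact ⟨a, by simp [pairsL, h]⟩
        · right; exact ⟨y, by simp [pairsL] at h ⊢; right; exact h⟩

theorem JInv.exists_last {R : ℕ × ℕ → ℕ × ℕ → Prop} {k : ℕ} {L : List (List ℕ)}
    {F : List (ℕ × ℕ)} (h : JInv R k L F) {x : ℕ} (hx : x < k) (hF : x ∉ F.map Prod.fst) :
    ∃ a ∈ L, a.getLast? = some x := by
  have h1 : x ∈ L.flatten := h.perm.mem_iff.2 (List.mem_range.2 hx)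
  obtain ⟨a, ha, hxa⟩ := List.mem_flatten.1 h1
  refine ⟨a, ha, ?_⟩
  rcases getLast?_or_pair hxa with h2 | ⟨y, h2⟩
  · exact h2
  · exact absurd (List.mem_map.2 ⟨_, h.arcs a ha _ h2, rfl⟩) hF

theorem JInv.exists_head {R : ℕ × ℕ → ℕ × ℕ → Prop} {k : ℕ} {L : List (List ℕ)}
    {F : List (ℕ × ℕ)} (h : JInv R k L F) {x : ℕ} (hx : x < k) (hF : x ∉ F.map Prod.snd) :
    ∃ a ∈ L, a.head? = some x := by
  have h1 : x ∈ L.flatten := h.perm.mem_iff.2 (List.mem_range.2 hx)
  obtain ⟨a, ha, hxa⟩ := List.mem_flatten.1 h1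
  refine ⟨a, ha, ?_⟩
  rcases head?_or_pair hxa with h2 | ⟨y, h2⟩
  · exact h2
  · exact absurd (List.mem_map.2 ⟨_, h.arcs a ha _ h2, rfl⟩) hF

theorem pairsL_append' {a b : List ℕ} {x y : ℕ} (ha : a.getLast? = some x)
    (hb : b.head? = some y) : pairsL (a ++ b) = pairsL a ++ (x, y) :: pairsL b := by
  have ha1 : a ≠ [] := by rintro rfl; simp at ha
  have hb1 : b ≠ [] := by rintro rfl; simp at hb
  rw [pairsL_append ha1 hb1]
  rw [List.getLast?_eq_some_getLast ha1] at ha
  rw [List.head?_eq_some_head hb1] at hb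
  simp only [Option.some.injEq] at ha hb
  rw [ha, hb]

theorem JInv.step {R : ℕ × ℕ → ℕ × ℕ → Prop} {k : ℕ} {L : List (List ℕ)} {F : List (ℕ × ℕ)}
    (h : JInv R k L F) {e : ℕ × ℕ} (h1 : e.1 < k) (h2 : e.2 < k) (h3 : e.1 ∉ F.map Prod.fst)
    (h4 : e.2 ∉ F.map Prod.snd) (hR : ∀ p ∈ F, R p e) : JInv R k (joinArc L e) (F ++ [e]) := by
  obtain ⟨a0, ha0, ha0'⟩ := h.exists_last h1 h3
  obtain ⟨b0, hb0, hb0'⟩ := h.exists_head h2 h4
  refine ⟨(joinArc_flatten h.ok e).trans h.perm, (joinArc_ok h.ok e).ne, ?_, ?_⟩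
  · intro c hc p hp
    rcases joinArc_cases h.ok e with ⟨e1, -⟩ | ⟨a, b, L', e1, e2, ha, hb⟩
    · rw [e1] at hc
      exact List.mem_append_left _ (h.arcs c hc p hp)
    · rw [e2] at hc
      rcases List.mem_cons.1 hc with rfl | hc
      · rw [pairsL_append' ha hb] at hp
        rcases List.mem_append.1 hp with hp | hp
        · exact List.mem_append_left _ (h.arcs a (e1.mem_iff.2 (by simp)) p hp)
        · rcases List.mem_cons.1 hp with rfl | hp
          · simp
          · exact List.mem_append_left _ (h.arcs b (e1.mem_iff.2 (by simp)) p hp)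
      · exact List.mem_append_left _ (h.arcs c (e1.mem_iff.2 (by simp [hc])) p hp)
  · intro f hf
    rcases joinArc_cases h.ok e with ⟨e1, h5⟩ | ⟨a, b, L', e1, e2, ha, hb⟩
    · rw [e1]
      rcases List.mem_append.1 hf with hf | hf
      · exact h.mem f hf
      · simp only [List.mem_singleton] at hf
        subst hf
        rcases h5 with h5 | h5 | ⟨c, hc, hc1, hc2⟩
        · exact absurd ha0' (h5 a0 ha0)
        · exact absurd hb0' (h5 b0 hb0)
        · exact Or.inr ⟨c, hc, hc1, hc2, fun p hp => hR p (h.arcs c hc p hp)⟩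
    · rw [e2]
      have hmem : ∀ c ∈ L, c = a ∨ c = b ∨ c ∈ L' := fun c hc => by
        simpa using e1.mem_iff.1 hc
      rcases List.mem_append.1 hf with hf | hf
      · rcases h.mem f hf with ⟨c, hc, hfc⟩ | ⟨c, hc, hc1, hc2, hc3⟩
        · left
          rcases hmem c hc with rfl | rfl | hc'
          · exact ⟨_, List.mem_cons_self, by rw [pairsL_append' ha hb]; simp [hfc]⟩
          · exact ⟨_, List.mem_cons_self, by rw [pairsL_append' ha hb]; simp [hfc]⟩
          · exact ⟨c, List.mem_cons_of_mem _ hc', hfc⟩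
        · right
          rcases hmem c hc with rfl | rfl | hc'
          · rw [ha] at hc1
            simp only [Option.some.injEq] at hc1
            exact absurd (List.mem_map.2 ⟨f, hf, hc1.symm⟩) h3
          · rw [hb] at hc2
            simp only [Option.some.injEq] at hc2
            exact absurd (List.mem_map.2 ⟨f, hf, hc2.symm⟩) h4
          · exact ⟨c, List.mem_cons_of_mem _ hc', hc1, hc2, hc3⟩
      · simp only [List.mem_singleton] at hf
        subst hf
        left
        exact ⟨_, List.mem_cons_self, by rw [pairsL_append' ha hb]; simp⟩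

theorem JInv.foldl {R : ℕ × ℕ → ℕ × ℕ → Prop} {k : ℕ} (F : List (ℕ × ℕ)) :
    ∀ {L : List (List ℕ)} {F0 : List (ℕ × ℕ)}, JInv R k L F0 →
    ((F0 ++ F).map Prod.fst).Nodup → ((F0 ++ F).map Prod.snd).Nodup →
    (∀ e ∈ F, e.1 < k ∧ e.2 < k) → (F0 ++ F).Pairwise R →
    JInv R k (F.foldl joinArc L) (F0 ++ F) := by
  induction F with
  | nil => intro L F0 h _ _ _ _; simpa using h
  | cons e F ih =>
    intro L F0 h h1 h2 h3 h4
    have e0 : F0 ++ e :: F = (F0 ++ [e]) ++ F := by simp
    have hs : JInv R k (joinArc L e) (F0 ++ [e]) := by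
      refine h.step (h3 e List.mem_cons_self).1 (h3 e List.mem_cons_self).2 ?_ ?_ ?_
      · intro hm
        rw [List.map_append, List.nodup_append] at h1
        exact h1.2.2 _ hm e.1 (by simp only [List.map_cons, List.mem_cons, List.mem_map, Prod.exists, exists_and_right, exists_eq_right, true_or]) rfl
      · intro hm
        rw [List.map_append, List.nodup_append] at h2
        exact h2.2.2 _ hm e.2 (by simp only [List.map_cons, List.mem_cons, List.mem_map, Prod.exists, exists_eq_right, true_or]) rfl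
      · intro p hp
        rw [List.pairwise_append] at h4
        exact h4.2.2 p hp e List.mem_cons_self
    rw [e0] at h1 h2 h4 ⊢
    exact ih hs h1 h2 (fun f hf => h3 f (List.mem_cons_of_mem _ hf)) h4

theorem JInv.init (R : ℕ × ℕ → ℕ × ℕ → Prop) (k : ℕ) :
    JInv R k ((List.range k).map (fun i => [i])) [] where
  perm := by rw [← List.flatMap_def, List.flatMap_singleton']
  ne := (okL_init k).ne
  arcs := by
    intro c hc p hp
    obtain ⟨i, -, rfl⟩ := List.mem_map.1 hc
    simp [pairsL] at hp
  mem := by simp only [List.not_mem_nil, List.mem_map, List.mem_range, exists_exists_and_eq_and, Prod.forall, List.getLast?_singleton, Option.some.injEq, List.head?_cons, ↓existsAndEq, true_and, IsEmpty.forall_iff, implies_true]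

/-- Correctness of the joining procedure. -/
theorem joinFold_inv (R : ℕ × ℕ → ℕ × ℕ → Prop) {k : ℕ} {F : List (ℕ × ℕ)}
    (ho : (F.map Prod.fst).Nodup) (hi : (F.map Prod.snd).Nodup)
    (hlt : ∀ e ∈ F, e.1 < k ∧ e.2 < k) (hR : F.Pairwise R) : JInv R k (joinFold k F) F := by
  have := JInv.foldl F (JInv.init R k) (by simpa using ho) (by simpa using hi) hlt (by simpa using hR)
  rw [List.nil_append] at this
  exact this

theorem trans_of_pairs {F : List (ℕ × ℕ)} {c : List ℕ} (hc : ∀ p ∈ pairsL c, p ∈ F) {x y : ℕ}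
    (hx : c.head? = some x) (hy : c.getLast? = some y) :
    x = y ∨ Relation.TransGen (fun a b => (a, b) ∈ F) x y := by
  induction c generalizing x with
  | nil => simp at hx
  | cons a c ih =>
    cases c with
    | nil => left; simp at hx hy; rw [← hx, ← hy]
    | cons b c =>
      right
      simp only [List.head?_cons, Option.some.injEq] at hx
      subst hx
      have h1 : (a, b) ∈ F := hc _ (by simp [pairsL])
      have h2 := ih (x := b) (fun p hp => hc p (by simp [pairsL] at hp ⊢; right; exact hp)) (by simp)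
        (by simpa using hy)
      rcases h2 with rfl | h2
      · exact Relation.TransGen.single h1
      · exact Relation.TransGen.head h1 h2

theorem pathV_eq (W : ℕ → ℕ → ℕ) (c : List ℕ) :
    pathV W c = ((pairsL c).map (fun p => W p.1 p.2)).sum := by
  induction c with
  | nil => rfl
  | cons a c ih =>
    cases c with
    | nil => rfl
    | cons b c =>
      rw [pathV, ih]
      simp [pairsL]

theorem pathV_append_le (W : ℕ → ℕ → ℕ) (a b : List ℕ) :
    pathV W a + pathV W b ≤ pathV W (a ++ b) := by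
  by_cases ha : a = []
  · subst ha; simp [pathV]
  · by_cases hb : b = []
    · subst hb; simp [pathV]
    · rw [pathV_eq, pathV_eq, pathV_eq, pairsL_append ha hb]
      simp only [List.map_append, List.sum_append, List.map_cons, List.sum_cons]
      omega

theorem pathV_flatten (W : ℕ → ℕ → ℕ) (L : List (List ℕ)) :
    (L.map (pathV W)).sum ≤ pathV W L.flatten := by
  induction L with
  | nil => simp
  | cons c L ih =>
    rw [List.map_cons, List.sum_cons, List.flatten_cons]
    have := pathV_append_le W c L.flatten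
    omega

/-- Completing a path system. -/
theorem joinAlg : JoinAlg := by
  refine ⟨fun p => (joinFold p.1.length p.2).flatten,
    PT.flatten (PT_joinFold PT.fst'.length (PBd.length (PT.fst' (A := ∅))) PT.snd'), fun u F hF hlt => ?_⟩
  refine ⟨(joinFold_ok _ _).2, fun W => ?_⟩
  have hI := joinFold_inv (fun _ _ => True) hF.out hF.inn hlt (by simp [List.pairwise_iff_forall_sublist])
  refine le_trans ?_ (pathV_flatten W _)
  have h1 : ∀ e ∈ F, e ∈ (joinFold u.length F).flatMap pairsL := by
    intro e he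
    rcases hI.mem e he with ⟨c, hc, h⟩ | ⟨c, hc, h1, h2, -⟩
    · exact List.mem_flatMap.2 ⟨c, hc, h⟩
    · exfalso
      have h3 : (e.1, e.2) ∈ F := he
      rcases trans_of_pairs (hI.arcs c hc) h2 h1 with h4 | h4
      · refine hF.acyc e.1 (Relation.TransGen.single ?_)
        rw [h4] at h3
        exact h3
      · exact hF.acyc e.1 (Relation.TransGen.head h3 h4)
  have h2 : F.Nodup := List.Nodup.of_map _ hF.out
  have h3 : F.Subperm ((joinFold u.length F).flatMap pairsL) :=
    List.subperm_of_subset h2 h1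
  obtain ⟨l, hl1, hl2⟩ := h3
  calc (F.map (fun e => W e.1 e.2)).sum = (l.map (fun e => W e.1 e.2)).sum :=
        (hl1.map _).sum_eq.symm
    _ ≤ (((joinFold u.length F).flatMap pairsL).map (fun e => W e.1 e.2)).sum :=
        (hl2.map _).sum_le_sum (by simp only [List.mem_map, List.mem_flatMap, Prod.exists, zero_le, implies_true])
    _ = ((joinFold u.length F).map (pathV W)).sum := by
        rw [List.map_flatMap, List.flatMap_def, List.sum_flatten, List.map_map]
        congr 1
        refine List.map_congr_left fun c _ => ?_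
        rw [pathV_eq]
        rfl

end Vale.Agent.P333.U
end
end

section

section

/-!
P333, upper bound: computing a minimum cycle cover.
-/

namespace Vale.Agent.P333.U

open Vale.Agent.Lib.PolyTime

/-! ### Cyclic pairs -/

/-- The consecutive pairs of a list, followed by the pair of its last element and `h`. -/
def prsC {α : Type*} (h : α) : List α → List (α × α)
  | [] => []
  | [x] => [(x, h)]
  | x :: y :: r => (x, y) :: prsC h (y :: r)

/-- The cyclically consecutive pairs of a list. -/
def cprs {α : Type*} (d : α) (c : List α) : List (α × α) := prsC (c.headD d) c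

theorem prs_fst {α : Type*} (h : α) (c : List α) : (prsC h c).map Prod.fst = c := by
  induction c with
  | nil => rfl
  | cons x r ih =>
    cases r with
    | nil => rfl
    | cons y r => rw [prsC, List.map_cons, ih]

theorem prs_snd {α : Type*} (h x : α) (r : List α) :
    (prsC h (x :: r)).map Prod.snd = r ++ [h] := by
  induction r generalizing x with
  | nil => rfl
  | cons y r ih => rw [prsC, List.map_cons, ih y]; rfl

theorem cprs_fst {α : Type*} (d : α) (c : List α) : (cprs d c).map Prod.fst = c := prs_fst _ _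

theorem cprs_snd {α : Type*} (d : α) (c : List α) : ((cprs d c).map Prod.snd).Perm c := by
  cases c with
  | nil => exact List.Perm.refl _
  | cons x r =>
    rw [cprs, prs_snd]
    exact List.perm_append_singleton x r

theorem prs_map {α β : Type*} (f : α → β) (h : α) (c : List α) :
    prsC (f h) (c.map f) = (prsC h c).map (fun e => (f e.1, f e.2)) := by
  induction c with
  | nil => rfl
  | cons x r ih =>
    cases r with
    | nil => rfl
    | cons y r => rw [List.map_cons, List.map_cons, prsC, prsC, List.map_cons, ← ih]; rfl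

theorem cprs_map {α β : Type*} (f : α → β) (d : α) (d' : β) (c : List α) (hc : c ≠ []) :
    cprs d' (c.map f) = (cprs d c).map (fun e => (f e.1, f e.2)) := by
  cases c with
  | nil => exact absurd rfl hc
  | cons x r => exact prs_map f x (x :: r)

theorem linW_prs (h x : List ℕ) (r : List (List ℕ)) :
    linW (x :: r) + (((x :: r).getLastD []).length - ov ((x :: r).getLastD []) h) +
      ((prsC h (x :: r)).map fun e => ov e.1 e.2).sum = ((x :: r).map List.length).sum := by
  induction r generalizing x with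
  | nil =>
    have := ov_le_leftF x h
    simp only [linW, List.getLastD_cons, List.getLastD_nil, prsC, List.map_cons, List.map_nil,
      List.sum_cons, List.sum_nil]
    omega
  | cons y r ih =>
    have := ih y
    have h2 := ov_le_leftF x y
    have h3 : (x :: y :: r).getLastD [] = (y :: r).getLastD [] := by simp [List.getLastD]
    rw [h3, linW, prsC, List.map_cons, List.sum_cons, List.map_cons, List.sum_cons, ← this]
    dsimp only
    omega

/-- Weight of a cycle and overlaps in the cycle. -/
theorem cycW_cprs (c : List (List ℕ)) (hc : c ≠ []) :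
    cycW c + ((cprs [] c).map fun e => ov e.1 e.2).sum = (c.map List.length).sum := by
  cases c with
  | nil => exact absurd rfl hc
  | cons x r => exact linW_prs x x r

theorem sum_cycW (L : List (List (List ℕ))) (hL : ∀ c ∈ L, c ≠ []) :
    (L.map cycW).sum + ((L.flatMap (cprs [])).map fun e => ov e.1 e.2).sum =
      (L.flatten.map List.length).sum := by
  induction L with
  | nil => rfl
  | cons c L ih =>
    have h1 := ih fun c hc => hL c (List.mem_cons_of_mem _ hc)
    have h2 := cycW_cprs c (hL c List.mem_cons_self)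
    simp only [List.map_cons, List.sum_cons, List.flatMap_cons, List.map_append,
      List.sum_append, List.flatten_cons]
    omega

/-! ### From cycle covers to assignments -/

theorem Sfree.nodup {S : List (List ℕ)} (h : Sfree S) : S.Nodup := by
  refine h.2.imp ?_
  rintro s t ⟨h1, -⟩ rfl
  exact h1 (List.infix_refl _)

theorem map_idxOf_self {α : Type*} [BEq α] [LawfulBEq α] {S : List α} (h : S.Nodup) :
    S.map (fun s => S.idxOf s) = List.range S.length := by
  apply List.ext_getElem
  · simp
  · intro i h1 h2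
    simp only [List.getElem_map, List.getElem_range]
    exact h.idxOf_getElem i (by simpa using h1)

theorem getD_idxOf {S : List (List ℕ)} {s : List ℕ} (h : s ∈ S) : S.getD (S.idxOf s) [] = s := by
  rw [List.getD_eq_getElem _ _ (List.idxOf_lt_length_iff.2 h)]
  exact List.getElem_idxOf _

theorem flatMap_fst {α : Type*} (d : α) (L : List (List α)) :
    (L.flatMap (cprs d)).map Prod.fst = L.flatten := by
  induction L with
  | nil => rfl
  | cons c L ih => rw [List.flatMap_cons, List.map_append, ih, cprs_fst, List.flatten_cons]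

theorem flatMap_snd {α : Type*} (d : α) (L : List (List α)) :
    ((L.flatMap (cprs d)).map Prod.snd).Perm L.flatten := by
  induction L with
  | nil => exact List.Perm.refl _
  | cons c L ih =>
    rw [List.flatMap_cons, List.map_append, List.flatten_cons]
    exact (cprs_snd d c).append ih

/-- A list of arcs whose sources, and whose targets, are `0, …, k-1`, is an assignment. -/
theorem exists_assign {k : ℕ} (F : List (ℕ × ℕ)) (h1 : (F.map Prod.fst).Perm (List.range k))
    (h2 : (F.map Prod.snd).Perm (List.range k)) (W : ℕ → ℕ → ℕ) :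
    ∃ P : List ℕ, P.Perm (List.range k) ∧
      ((List.range k).map fun i => W i (P.getD i 0)).sum = (F.map fun e => W e.1 e.2).sum := by
  obtain ⟨F', hF', hF'2⟩ := exists_map_of_perm h1.symm Prod.fst F rfl
  refine ⟨F'.map Prod.snd, (hF'.map _).trans h2, ?_⟩
  rw [← (hF'.map _).sum_eq]
  have hl : F'.length = k := by
    have := congrArg List.length hF'2
    simpa using this.symm
  congr 1
  apply List.ext_getElem
  · simp only [List.getD_eq_getElem?_getD, List.getElem?_map, List.length_map, List.length_range, hl]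
  · intro i h3 h4
    have h5 : i < F'.length := by simpa using h4
    have h6 : F'[i].1 = i := by
      have := List.getElem_of_eq hF'2 (i := i) (by simpa [hl] using h5)
      simpa using this.symm
    simp only [List.getElem_map, List.getElem_range]
    rw [List.getD_eq_getElem _ _ (by simpa using h5), List.getElem_map, h6]

theorem asgVal_le_of_cover {S : List (List ℕ)} (hS : Sfree S) (L' : List (List (List ℕ)))
    (hL : L'.flatten.Perm S) (hne : ∀ c ∈ L', c ≠ []) :
    ∃ P : List ℕ, P.Perm (List.range S.length) ∧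
      (L'.map cycW).sum + asgVal (ovMat S) P = (S.map List.length).sum := by
  have hnd := hS.nodup
  have e1 := sum_cycW L' hne
  rw [(hL.map _).sum_eq] at e1
  set G := L'.flatMap (cprs []) with hG
  have hmem : ∀ e ∈ G, e.1 ∈ S ∧ e.2 ∈ S := by
    intro e he
    constructor
    · refine hL.mem_iff.1 ?_
      rw [← flatMap_fst [] L']
      exact List.mem_map_of_mem he
    · exact hL.mem_iff.1 ((flatMap_snd [] L').mem_iff.1 (List.mem_map_of_mem he))
  let F : List (ℕ × ℕ) := G.map fun e => (S.idxOf e.1, S.idxOf e.2)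
  have hF1 : (F.map Prod.fst).Perm (List.range S.length) := by
    have h1 : F.map Prod.fst = (G.map Prod.fst).map fun s => S.idxOf s := by
      simp only [F, List.map_map]
      rfl
    rw [h1, hG, flatMap_fst, ← map_idxOf_self hnd]
    exact hL.map fun s => S.idxOf s
  have hF2 : (F.map Prod.snd).Perm (List.range S.length) := by
    have h1 : F.map Prod.snd = (G.map Prod.snd).map fun s => S.idxOf s := by
      simp only [F, List.map_map]
      rfl
    rw [h1, ← map_idxOf_self hnd]
    exact ((flatMap_snd [] L').trans hL).map fun s => S.idxOf s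
  obtain ⟨P, hP1, hP2⟩ := exists_assign F hF1 hF2 (ent (ovMat S))
  refine ⟨P, hP1, ?_⟩
  rw [asgVal, length_ovMat, hP2, ← e1]
  congr 1
  simp only [F, List.map_map]
  congr 1
  refine List.map_congr_left fun e he => ?_
  simp only [Function.comp]
  rw [ent_ovMat, getD_idxOf (hmem e he).1, getD_idxOf (hmem e he).2]

/-! ### The algorithm -/

variable {A : Set Word} {α : Type*} [Enc α]

/-- The arcs of the assignment `P`, with their weights. -/
def tri (M : List (List ℕ)) (P : List ℕ) (n : ℕ) : List (ℕ × ℕ × ℕ) :=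
  (List.range n).map fun i => (ent M i (P.getD i 0), i, P.getD i 0)

/-- The arcs of the assignment `P`, sorted by decreasing weight. -/
def arcsS (M : List (List ℕ)) (P : List ℕ) (n : ℕ) : List (ℕ × ℕ) :=
  ((tri M P n).insertionSort (fun a b => b.1 ≤ a.1)).map Prod.snd

/-- The cycle cover defined by an assignment. -/
def coverOf (S : List (List ℕ)) (P : List ℕ) : List (List (List ℕ)) :=
  (joinFold S.length (arcsS (ovMat S) P S.length)).map fun c => c.map fun i => S.getD i []

theorem arcsS_perm (M : List (List ℕ)) (P : List ℕ) (n : ℕ) :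
    (arcsS M P n).Perm ((List.range n).map fun i => (i, P.getD i 0)) := by
  have h := (List.perm_insertionSort (fun a b : ℕ × ℕ × ℕ => b.1 ≤ a.1) (tri M P n)).map Prod.snd
  have h2 : (tri M P n).map Prod.snd = (List.range n).map fun i => (i, P.getD i 0) := by
    rw [tri, List.map_map]
    rfl
  rwa [h2] at h

theorem arcsS_pairwise (M : List (List ℕ)) (P : List ℕ) (n : ℕ) :
    (arcsS M P n).Pairwise fun p e => ent M e.1 e.2 ≤ ent M p.1 p.2 := by
  have : Std.Total (fun a b : ℕ × ℕ × ℕ => b.1 ≤ a.1) := ⟨fun a b => Nat.le_total _ _⟩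
  have : IsTrans (ℕ × ℕ × ℕ) (fun a b : ℕ × ℕ × ℕ => b.1 ≤ a.1) :=
    ⟨fun a b c h1 h2 => le_trans h2 h1⟩
  have h := List.pairwise_insertionSort (fun a b : ℕ × ℕ × ℕ => b.1 ≤ a.1) (tri M P n)
  rw [arcsS, List.pairwise_map]
  refine h.imp_of_mem ?_
  intro a b ha hb hab
  have hw : ∀ x ∈ (tri M P n).insertionSort (fun a b : ℕ × ℕ × ℕ => b.1 ≤ a.1),
      x.1 = ent M x.2.1 x.2.2 := by
    intro x hx
    rw [List.mem_insertionSort] at hx
    simp only [tri, List.mem_map] at hx
    obtain ⟨i, -, rfl⟩ := hx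
    rfl
  rw [← hw a ha, ← hw b hb]
  exact hab

theorem mem_arcsS {M : List (List ℕ)} {P : List ℕ} {n : ℕ} {e : ℕ × ℕ} :
    e ∈ arcsS M P n ↔ e.1 < n ∧ e.2 = P.getD e.1 0 := by
  rw [(arcsS_perm M P n).mem_iff, List.mem_map]
  constructor
  · rintro ⟨i, hi, rfl⟩
    exact ⟨List.mem_range.1 hi, rfl⟩
  · rintro ⟨h1, h2⟩
    exact ⟨e.1, List.mem_range.2 h1, by rw [← h2]⟩

theorem isChain_of_pairsL {Q : ℕ → ℕ → Prop} {c : List ℕ}
    (h : ∀ p ∈ pairsL c, Q p.1 p.2) : c.IsChain Q := by
  induction c with
  | nil => exact List.IsChain.nil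
  | cons a c ih =>
    cases c with
    | nil => exact List.IsChain.singleton a
    | cons b c =>
      refine List.IsChain.cons_cons (h (a, b) (by simp [pairsL])) (ih fun p hp => h p ?_)
      simp only [pairsL, List.tail_cons, List.zip_cons_cons, List.mem_cons] at hp ⊢
      right
      exact hp

theorem prs_eq_pairsL (h : ℕ) (c : List ℕ) (hc : c ≠ []) :
    prsC h c = pairsL c ++ [(c.getLast hc, h)] := by
  induction c with
  | nil => exact absurd rfl hc
  | cons a c ih =>
    cases c with
    | nil => simp [prsC, pairsL]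
    | cons b c =>
      rw [prsC, ih (by simp)]
      simp [pairsL]

theorem last_not_fst {c : List ℕ} (hc : c.Nodup) {x y : ℕ} (hx : c.getLast? = some x) :
    (x, y) ∉ pairsL c := by
  induction c with
  | nil => simp [pairsL]
  | cons a c ih =>
    cases c with
    | nil => simp [pairsL]
    | cons b c =>
      intro h
      have h1 : (b :: c).getLast? = some x := by simpa using hx
      simp only [pairsL, List.tail_cons, List.zip_cons_cons, List.mem_cons] at h
      rcases h with h | h
      · rw [Prod.mk.injEq] at h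
        rw [List.nodup_cons] at hc
        exact hc.1 (h.1 ▸ List.mem_of_getLast? h1)
      · exact ih (List.nodup_cons.1 hc).2 h1 h

/-- The lists computed from an assignment are its cycles. -/
theorem closed_cycles {M : List (List ℕ)} {P : List ℕ} {n : ℕ} (hP : P.Perm (List.range n))
    {c : List ℕ} (hc : c ∈ joinFold n (arcsS M P n)) :
    (∀ e ∈ cprs 0 c, e.2 = P.getD e.1 0) ∧
      c.IsChain (fun x y => ent M (c.getLastD 0) (c.headD 0) ≤ ent M x y) := by
  have ho : ((arcsS M P n).map Prod.fst).Nodup := by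
    rw [((arcsS_perm M P n).map Prod.fst).nodup_iff, List.map_map]
    have : (List.range n).map (Prod.fst ∘ fun i => (i, P.getD i 0)) = List.range n := by
      conv_rhs => rw [← List.map_id (List.range n)]
      rfl
    rw [this]
    exact List.nodup_range
  have hl : P.length = n := by rw [hP.length_eq, List.length_range]
  have hPr : (List.range n).map (fun i => P.getD i 0) = P := by
    apply List.ext_getElem
    · simp only [List.getD_eq_getElem?_getD, List.length_map, List.length_range, hl]
    · intro i h1 h2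
      simp only [List.getElem_map, List.getElem_range]
      rw [List.getD_eq_getElem _ _ h2]
  have hi : ((arcsS M P n).map Prod.snd).Nodup := by
    rw [((arcsS_perm M P n).map Prod.snd).nodup_iff, List.map_map]
    have : (List.range n).map (Prod.snd ∘ fun i => (i, P.getD i 0)) = P := hPr
    rw [this]
    exact hP.nodup_iff.2 List.nodup_range
  have hlt : ∀ e ∈ arcsS M P n, e.1 < n ∧ e.2 < n := by
    intro e he
    obtain ⟨h1, h2⟩ := mem_arcsS.1 he
    refine ⟨h1, ?_⟩
    rw [h2, List.getD_eq_getElem _ _ (by omega)]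
    exact List.mem_range.1 (hP.mem_iff.1 (List.getElem_mem _))
  have hI := joinFold_inv _ ho hi hlt (arcsS_pairwise M P n)
  have hok := hI.ok
  have hne := hI.ne c hc
  have hcn : c.Nodup := (List.nodup_flatten.1 hok.nodup).1 c hc
  have hlast : c.getLast? = some (c.getLast hne) := List.getLast?_eq_some_getLast hne
  have hxn : c.getLast hne < n := by
    have : c.getLast hne ∈ (joinFold n (arcsS M P n)).flatten :=
      List.mem_flatten.2 ⟨c, hc, List.getLast_mem hne⟩
    exact List.mem_range.1 (hI.perm.mem_iff.1 this)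
  have he : (c.getLast hne, P.getD (c.getLast hne) 0) ∈ arcsS M P n := mem_arcsS.2 ⟨hxn, rfl⟩
  have key : c.head? = some (P.getD (c.getLast hne) 0) ∧ ∀ p ∈ pairsL c,
      ent M (c.getLast hne) (P.getD (c.getLast hne) 0) ≤ ent M p.1 p.2 := by
    rcases hI.mem _ he with ⟨c', hc', h1⟩ | ⟨c', hc', h1, h2, h3⟩
    · exfalso
      have h4 : c.getLast hne ∈ c' := (List.of_mem_zip h1).1
      have h5 : c' = c := hok.eq_of_mem hc' hc h4 (List.getLast_mem hne)
      subst h5
      exact last_not_fst hcn hlast h1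
    · have h5 : c' = c := hok.eq_of_mem hc' hc (List.mem_of_getLast? h1) (List.getLast_mem hne)
      subst h5
      exact ⟨h2, h3⟩
  have hhd : c.headD 0 = P.getD (c.getLast hne) 0 := by
    rw [List.headD_eq_head?_getD, key.1]
    rfl
  have hld : c.getLastD 0 = c.getLast hne := by
    rw [List.getLastD_eq_getLast?, hlast]
    rfl
  refine ⟨fun e he => ?_, ?_⟩
  · rw [cprs, prs_eq_pairsL _ _ hne, List.mem_append, List.mem_singleton] at he
    rcases he with he | rfl
    · exact (mem_arcsS.1 (hI.arcs c hc e he)).2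
    · exact hhd
  · rw [hhd, hld]
    exact isChain_of_pairsL key.2

theorem sum_cycW_coverOf (S : List (List ℕ)) {P : List ℕ} (hP : P.Perm (List.range S.length)) :
    ((coverOf S P).map cycW).sum + asgVal (ovMat S) P = (S.map List.length).sum := by
  have hok := joinFold_ok S.length (arcsS (ovMat S) P S.length)
  set L := joinFold S.length (arcsS (ovMat S) P S.length) with hL
  have hflat : (coverOf S P).flatten = order S L.flatten := by
    rw [coverOf, order, List.map_flatten, ← hL]
  have h1 := sum_cycW (coverOf S P) (by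
    intro c hc
    obtain ⟨c', hc', rfl⟩ := List.mem_map.1 hc
    simpa using hok.1.ne c' hc')
  rw [hflat, ((order_perm S hok.2).map _).sum_eq] at h1
  rw [← h1]
  congr 1
  have h2 : (coverOf S P).flatMap (cprs []) =
      (L.flatMap (cprs 0)).map fun e => (S.getD e.1 [], S.getD e.2 []) := by
    rw [coverOf, ← hL, List.map_flatMap, List.flatMap_map]
    refine List.flatMap_congr fun c hc => ?_
    exact cprs_map (fun i => S.getD i []) 0 [] c (hok.1.ne c hc)
  rw [h2, List.map_map]
  have h3 : (L.flatMap (cprs 0)).map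
      ((fun e : List ℕ × List ℕ => ov e.1 e.2) ∘ fun e => (S.getD e.1 [], S.getD e.2 [])) =
      ((L.flatMap (cprs 0)).map Prod.fst).map fun i => ent (ovMat S) i (P.getD i 0) := by
    rw [List.map_map]
    refine List.map_congr_left fun e he => ?_
    obtain ⟨c, hc, hec⟩ := List.mem_flatMap.1 he
    have := (closed_cycles hP hc).1 e hec
    simp only [Function.comp]
    rw [← this, ent_ovMat]
  rw [h3, flatMap_fst, (hok.2.map _).sum_eq, asgVal, length_ovMat]

theorem minCover_coverOf {S : List (List ℕ)} (hS : Sfree S) {P : List ℕ}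
    (hP : P.Perm (List.range S.length))
    (hmax : ∀ P', P'.Perm (List.range S.length) → asgVal (ovMat S) P' ≤ asgVal (ovMat S) P) :
    MinCover S (coverOf S P) := by
  have hok := joinFold_ok S.length (arcsS (ovMat S) P S.length)
  refine ⟨?_, ?_, ?_, ?_⟩
  · have : (coverOf S P).flatten =
        order S (joinFold S.length (arcsS (ovMat S) P S.length)).flatten := by
      rw [coverOf, order, List.map_flatten]
    rw [this]
    exact order_perm S hok.2
  · intro c hc
    obtain ⟨c', hc', rfl⟩ := List.mem_map.1 hc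
    simpa only [List.getD_eq_getElem?_getD, ne_eq, List.map_eq_nil_iff] using hok.1.ne c' hc'
  · intro c hc
    obtain ⟨c', hc', rfl⟩ := List.mem_map.1 hc
    have h1 := (closed_cycles hP hc').2
    rw [List.isChain_map]
    refine h1.imp fun x y hxy => ?_
    rw [← ent_ovMat]
    refine le_trans (le_of_eq ?_) hxy
    rw [cycO, ent_ovMat]
    have hne := hok.1.ne c' hc'
    obtain ⟨a, r, rfl⟩ := List.exists_cons_of_ne_nil hne
    congr 1
    have : ((a :: r).map fun i => S.getD i []).getLastD [] = S.getD ((a :: r).getLastD 0) [] := by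
      rw [List.getLastD_eq_getLast?, List.getLastD_eq_getLast?, List.getLast?_map,
        List.getLast?_eq_some_getLast hne]
      rfl
    exact this
  · intro L' hL' hne'
    obtain ⟨P', hP', h1⟩ := asgVal_le_of_cover hS L' hL' hne'
    have h2 := sum_cycW_coverOf S hP
    have h3 := hmax P' hP'
    omega

theorem PT_coverOf {S : α → List (List ℕ)} {P : α → List ℕ} (hS : PT A S) (hP : PT A P) :
    PT A (fun a => coverOf (S a) (P a)) := by
  have hM : PT A (fun a => ovMat (S a)) := by
    unfold ovMat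
    refine PT.map (f := fun a s => (S a).map fun r => ov s r) hS ?_
    refine PT.map (f := fun (p : α × List ℕ) r => ov p.2 r) (hS.comp PT.fst') ?_
    exact PT_ov (PT.snd'.comp PT.fst') PT.snd'
  have hn : PT A (fun a => (S a).length) := hS.length
  have hnb : PBd (fun a => (S a).length) := PBd.length hS
  have hPi : PT A (fun q : α × ℕ => (P q.1).getD q.2 0) :=
    PT.getD (hP.comp PT.fst') PT.snd' (PT.const 0)
  have htri : PT A (fun a => tri (ovMat (S a)) (P a) (S a).length) := by
    unfold tri
    exact PT.map (f := fun a i => (ent (ovMat (S a)) i ((P a).getD i 0), i, (P a).getD i 0))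
      (PT.range hn hnb) ((PT_ent (hM.comp PT.fst') PT.snd' hPi).pair (PT.snd'.pair hPi))
  have harcs : PT A (fun a => arcsS (ovMat (S a)) (P a) (S a).length) := by
    unfold arcsS
    exact PT.map (f := fun _ (t : ℕ × ℕ × ℕ) => t.2)
      (PT.insertionSort (r := fun a b : ℕ × ℕ × ℕ => b.1 ≤ a.1)
        (PT.le PT.snd'.fst PT.fst'.fst) htri) PT.snd'.snd
  unfold coverOf
  refine PT.map (f := fun a c => c.map fun i => (S a).getD i []) (PT_joinFold hn hnb harcs) ?_
  exact PT.map (f := fun (q : α × List ℕ) i => (S q.1).getD i []) PT.snd'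
    (PT.getD ((hS.comp PT.fst').comp PT.fst') PT.snd' (PT.const []))

/-- Computation of a minimum cycle cover in polynomial time. -/
theorem coverAlg (h : AssignAlg) : CoverAlg := by
  obtain ⟨asg, hasg, hspec⟩ := h
  refine ⟨fun S => coverOf S (asg (List.replicate S.flatten.length (), ovMat S)), ?_, ?_⟩
  · refine PT_coverOf PT.id (hasg.comp (PT.pair ?_ ?_))
    · exact PT.replicate (PT.length (PT.flatten PT.id)) (PBd.length (A := ∅) (PT.flatten PT.id))
        (PT.const ())
    · unfold ovMat
      refine PT.map (f := fun (S : List (List ℕ)) s => S.map fun r => ov s r) PT.id ?_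
      refine PT.map (f := fun (p : List (List ℕ) × List ℕ) r => ov p.2 r) PT.fst' ?_
      exact PT_ov (PT.snd'.comp PT.fst') PT.snd'
  · intro S hS
    obtain ⟨h1, h2⟩ := hspec (List.replicate S.flatten.length ()) (ovMat S) (by
      rw [List.length_replicate]; exact sqMat_ovMat S)
    rw [length_ovMat] at h1 h2
    exact minCover_coverOf hS h1 h2

end Vale.Agent.P333.U
end
end

section

section

/-!
P333, upper bound: the placement lemma.
-/

namespace Vale.Agent.P333.U

/-- `s` occurs in the infinite word `Z` at the position `a`. -/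
def OccAt (Z : ℕ → ℕ) (s : List ℕ) (a : ℕ) : Prop := ∀ i (hi : i < s.length), s[i] = Z (a + i)

theorem place_le_ov {s t : List ℕ} {k : ℕ} (hk : s.drop (s.length - k) = t.take k)
    (hs : k < s.length) (ht : k < t.length) : k ≤ ov s t := by
  unfold ov
  apply Nat.le_findGreatest
  · omega
  · exact hk

theorem OccAt.gap_le {Z : ℕ → ℕ} {s t : List ℕ} {a b : ℕ} (hs : OccAt Z s a) (ht : OccAt Z t b)
    (hab : a < b) (hn : s = t ∨ ¬ t <:+: s) : s.length - ov s t ≤ b - a := by
  by_cases hl : s.length ≤ b - a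
  · omega
  · have hk : s.length - (b - a) < t.length := by
      rcases hn with rfl | hn
      · omega
      · by_contra hcon
        apply hn
        have hpre : t = (s.drop (b - a)).take t.length := by
          apply List.ext_getElem
          · simp only [List.length_take, List.length_drop, left_eq_inf]; omega
          · intro i h1 h2
            rw [List.getElem_take, List.getElem_drop, ht i h1,
              hs (b - a + i) (by simp only [List.length_take, List.length_drop, lt_inf_iff] at h2; omega)]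
            congr 1
            omega
        rw [hpre]
        exact ((List.take_prefix _ _).isInfix).trans (List.drop_suffix _ _).isInfix
    have h := place_le_ov (s := s) (t := t) (k := s.length - (b - a)) ?_ (by omega) hk
    · omega
    · apply List.ext_getElem
      · simp only [List.length_drop, List.length_take]; omega
      · intro i h1 h2
        simp only [List.length_drop] at h1
        rw [List.getElem_drop, List.getElem_take, hs _ (by omega), ht i (by simp only [List.length_take, lt_inf_iff] at h2; omega)]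
        congr 1
        omega

theorem periodic_mul {Z : ℕ → ℕ} {p : ℕ} (hZ : ∀ k, Z (k + p) = Z k) :
    ∀ m k, Z (k + m * p) = Z k := by
  intro m
  induction m with
  | zero => intro k; simp
  | succ m ih => intro k; rw [Nat.succ_mul, ← Nat.add_assoc, hZ, ih]

theorem OccAt.mod {Z : ℕ → ℕ} {p : ℕ} (hZ : ∀ k, Z (k + p) = Z k) {s : List ℕ} {a : ℕ}
    (h : OccAt Z s a) : OccAt Z s (a % p) := by
  intro i hi
  rw [h i hi, ← periodic_mul hZ (a / p) (a % p + i)]
  congr 1
  have := Nat.mod_add_div a p
  rw [Nat.mul_comm] at this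
  omega

theorem OccAt.add {Z : ℕ → ℕ} {p : ℕ} (hZ : ∀ k, Z (k + p) = Z k) {s : List ℕ} {a : ℕ}
    (h : OccAt Z s a) : OccAt Z s (a + p) := by
  intro i hi
  rw [h i hi, ← hZ (a + i)]
  congr 1
  omega

theorem OccAt.prefix_of_le {Z : ℕ → ℕ} {s t : List ℕ} {a : ℕ} (hs : OccAt Z s a)
    (ht : OccAt Z t a) (h : s.length ≤ t.length) : s <+: t := by
  rw [List.prefix_iff_eq_take]
  apply List.ext_getElem
  · simp [h]
  · intro i h1 h2
    rw [List.getElem_take, hs i h1, ht i (by omega)]

theorem linW_le_pos {Z : ℕ → ℕ} {pos : List ℕ → ℕ} :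
    ∀ (F : List (List ℕ)) (s : List ℕ), (∀ t ∈ s :: F, OccAt Z t (pos t)) →
      (s :: F).Pairwise (fun s t => pos s < pos t) →
      (s :: F).Pairwise (fun s t => ¬ s <:+: t ∧ ¬ t <:+: s) →
      linW (s :: F) + pos s ≤ pos ((s :: F).getLastD []) := by
  intro F
  induction F with
  | nil => intro s _ _ _; simp [linW]
  | cons t F ih =>
    intro s h1 h2 h3
    have h4 := ih t (fun u hu => h1 u (List.mem_cons_of_mem _ hu)) (List.pairwise_cons.1 h2).2
      (List.pairwise_cons.1 h3).2
    have h5 : pos s < pos t := (List.pairwise_cons.1 h2).1 t (by simp)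
    have h6 := ((List.pairwise_cons.1 h3).1 t (by simp)).2
    have h7 := (h1 s (by simp)).gap_le (h1 t (by simp)) h5 (Or.inr h6)
    have h8 : (s :: t :: F).getLastD [] = (t :: F).getLastD [] := by simp
    rw [h8, linW]
    omega

theorem cycW_le_period {Z : ℕ → ℕ} {p : ℕ} (hZ : ∀ k, Z (k + p) = Z k)
    {pos : List ℕ → ℕ} (F : List (List ℕ)) (hF : F ≠ []) (h1 : ∀ t ∈ F, OccAt Z t (pos t))
    (hp : ∀ t ∈ F, pos t < p) (h2 : F.Pairwise (fun s t => pos s < pos t))
    (h3 : F.Pairwise (fun s t => ¬ s <:+: t ∧ ¬ t <:+: s)) : cycW F ≤ p := by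
  obtain ⟨s, F, rfl⟩ := List.exists_cons_of_ne_nil hF
  have h4 := linW_le_pos F s h1 h2 h3
  set l := (s :: F).getLastD [] with hl
  have hlm : l ∈ s :: F := by
    rw [hl, List.getLastD_eq_getLast?, List.getLast?_eq_getLast_of_ne_nil (by simp)]
    exact List.getLast_mem _
  have h5 : l = s ∨ ¬ s <:+: l := by
    rcases List.mem_cons.1 hlm with h | h
    · exact Or.inl h
    · exact Or.inr ((List.pairwise_cons.1 h3).1 l h).1
  have h6 := (h1 l hlm).gap_le ((h1 s (by simp)).add hZ) (by have := hp l hlm; omega) h5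
  have h7 := hp l hlm
  unfold cycW cycO
  rw [← hl]
  simp only [List.headD_cons]
  omega

/-- The placement lemma. -/
theorem place {S : List (List ℕ)} {L J R : List (List (List ℕ))} (hS : Sfree S)
    (hL : MinCover S L) (hJ : L.Perm (J ++ R)) (Z : ℕ → ℕ) (p : ℕ) (hp : 0 < p)
    (hZ : ∀ k, Z (k + p) = Z k)
    (h : ∀ c ∈ J, ∀ s ∈ c, ∃ a, ∀ i (hi : i < s.length), s[i] = Z (a + i)) :
    (J.map cycW).sum ≤ p := by
  classical
  by_cases hJ0 : J = []
  · simp [hJ0]
  have hperm : (J.flatten ++ R.flatten).Perm S := by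
    rw [← List.flatten_append]
    exact (hJ.symm.flatten).trans hL.perm
  have hpw0 : (J.flatten ++ R.flatten).Pairwise (fun s t => ¬ s <:+: t ∧ ¬ t <:+: s) :=
    (hperm.pairwise_iff (fun {a b} hab => ⟨hab.2, hab.1⟩)).2 hS.2
  have hpw : J.flatten.Pairwise (fun s t => ¬ s <:+: t ∧ ¬ t <:+: s) :=
    (List.pairwise_append.1 hpw0).1
  -- positions
  have hex : ∀ s ∈ J.flatten, ∃ a, a < p ∧ OccAt Z s a := by
    intro s hs
    obtain ⟨c, hc, hsc⟩ := List.mem_flatten.1 hs
    obtain ⟨a, ha⟩ := h c hc s hsc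
    exact ⟨a % p, Nat.mod_lt _ hp, OccAt.mod hZ ha⟩
  choose! pos hpos using hex
  set F := J.flatten.mergeSort (fun s t => decide (pos s ≤ pos t)) with hFdef
  have hFp : F.Perm J.flatten := List.mergeSort_perm _ _
  have hFs : F.Pairwise (fun s t => pos s ≤ pos t) := by
    have := List.pairwise_mergeSort (le := fun s t : List ℕ => decide (pos s ≤ pos t))
      (by intro a b c; simp only [decide_eq_true_eq]; omega) (by intro a b; simp; omega) J.flatten
    simpa using this
  have hFw : F.Pairwise (fun s t => ¬ s <:+: t ∧ ¬ t <:+: s) :=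
    (hFp.pairwise_iff (fun {a b} hab => ⟨hab.2, hab.1⟩)).2 hpw
  have hFpos : ∀ t ∈ F, pos t < p ∧ OccAt Z t (pos t) := fun t ht => hpos t (hFp.mem_iff.1 ht)
  have hFlt : F.Pairwise (fun s t => pos s < pos t) := by
    have hboth := List.Pairwise.and hFs hFw
    refine List.Pairwise.imp_of_mem ?_ hboth
    intro s t hs ht hst
    rcases Nat.lt_or_ge (pos s) (pos t) with h1 | h1
    · exact h1
    · exfalso
      have heq : pos s = pos t := le_antisymm hst.1 h1
      have hs' := (hFpos s hs).2
      have ht' := (hFpos t ht).2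
      rw [heq] at hs'
      rcases Nat.le_total s.length t.length with h2 | h2
      · exact hst.2.1 (hs'.prefix_of_le ht' h2).isInfix
      · exact hst.2.2 (ht'.prefix_of_le hs' h2).isInfix
  have hJne : ∀ c ∈ J, c ≠ [] := fun c hc => hL.ne c (hJ.symm.mem_iff.1 (by simp [hc]))
  have hRne : ∀ c ∈ R, c ≠ [] := fun c hc => hL.ne c (hJ.symm.mem_iff.1 (by simp [hc]))
  have hFne : F ≠ [] := by
    intro hF
    obtain ⟨c, J', rfl⟩ := List.exists_cons_of_ne_nil hJ0
    have h1 := hJne c (by simp)
    obtain ⟨s, c', rfl⟩ := List.exists_cons_of_ne_nil h1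
    have h2 : s ∈ F := hFp.mem_iff.2 (by simp)
    rw [hF] at h2
    simp at h2
  have hcyc := cycW_le_period hZ F hFne (fun t ht => (hFpos t ht).2) (fun t ht => (hFpos t ht).1)
    hFlt hFw
  have hmin := hL.min (F :: R) (by
    rw [List.flatten_cons]
    exact (List.Perm.append_right _ hFp).trans hperm) (by
    intro c hc
    rcases List.mem_cons.1 hc with rfl | hc
    · exact hFne
    · exact hRne c hc)
  have hsum : (L.map cycW).sum = (J.map cycW).sum + (R.map cycW).sum := by
    rw [(hJ.map cycW).sum_eq, List.map_append, List.sum_append]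
  rw [hsum, List.map_cons, List.sum_cons] at hmin
  omega

end Vale.Agent.P333.U
end
end

section

section

/-!
P333, upper bound: elementary facts on overlaps and merges of strings.
-/

namespace Vale.Agent.P333.U

theorem ov_spec (s t : List ℕ) : s.drop (s.length - ov s t) = t.take (ov s t) := by
  unfold ov
  refine Nat.findGreatest_spec (P := fun k => s.drop (s.length - k) = t.take k)
    (m := 0) (Nat.zero_le _) ?_
  simp

theorem ov_le_min (s t : List ℕ) : ov s t ≤ min s.length t.length - 1 :=
  Nat.findGreatest_le _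

theorem le_ov {s t : List ℕ} {k : ℕ} (hk : k ≤ min s.length t.length - 1)
    (h : s.drop (s.length - k) = t.take k) : k ≤ ov s t :=
  Nat.le_findGreatest hk h

theorem ov_le_left (s t : List ℕ) : ov s t ≤ s.length := by
  have := ov_le_min s t; omega

theorem ov_le_right (s t : List ℕ) : ov s t ≤ t.length := by
  have := ov_le_min s t; omega

theorem ov_lt_left {s : List ℕ} (t : List ℕ) (hs : s ≠ []) : ov s t < s.length := by
  have := ov_le_min s t
  have := List.length_pos_of_ne_nil hs
  omega

theorem ov_lt_right (s : List ℕ) {t : List ℕ} (ht : t ≠ []) : ov s t < t.length := by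
  have := ov_le_min s t
  have := List.length_pos_of_ne_nil ht
  omega

/-- The first string is a prefix of the merge. -/
theorem head_prefix_mergeL (s : List ℕ) (r : List (List ℕ)) : s <+: mergeL (s :: r) := by
  induction r generalizing s with
  | nil => simp [mergeL]
  | cons t r ih =>
    have h1 : s = s.take (s.length - ov s t) ++ t.take (ov s t) := by
      rw [← ov_spec s t, List.take_append_drop]
    obtain ⟨u, hu⟩ := ih t
    refine ⟨t.drop (ov s t) ++ u, ?_⟩
    have h2 : mergeL (s :: t :: r) = s.take (s.length - ov s t) ++ mergeL (t :: r) := rfl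
    have h3 : s ++ t.drop (ov s t) = s.take (s.length - ov s t) ++ t := by
      calc s ++ t.drop (ov s t)
          = (s.take (s.length - ov s t) ++ t.take (ov s t)) ++ t.drop (ov s t) := by rw [← h1]
        _ = _ := by rw [List.append_assoc, List.take_append_drop]
    rw [h2, ← hu, ← List.append_assoc, h3, List.append_assoc]

theorem headD_prefix_mergeL (c : List (List ℕ)) : c.headD [] <+: mergeL c := by
  cases c with
  | nil => simp [mergeL]
  | cons s r => simpa using head_prefix_mergeL s r

/-- The last string is a suffix of the merge. -/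
theorem getLastD_suffix_mergeL (c : List (List ℕ)) : c.getLastD [] <:+ mergeL c := by
  induction c with
  | nil => simp [mergeL]
  | cons s r ih =>
    cases r with
    | nil => simp [mergeL]
    | cons t r =>
      have h2 : mergeL (s :: t :: r) = s.take (s.length - ov s t) ++ mergeL (t :: r) := rfl
      rw [h2]
      have : (s :: t :: r).getLastD [] = (t :: r).getLastD [] := by simp
      rw [this]
      exact ih.trans (List.suffix_append _ _)

theorem length_mergeL (c : List (List ℕ)) :
    (mergeL c).length = linW c + (c.getLastD []).length := by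
  induction c with
  | nil => simp [mergeL, linW]
  | cons s r ih =>
    cases r with
    | nil => simp [mergeL, linW]
    | cons t r =>
      have h2 : mergeL (s :: t :: r) = s.take (s.length - ov s t) ++ mergeL (t :: r) := rfl
      have h3 : linW (s :: t :: r) = (s.length - ov s t) + linW (t :: r) := rfl
      have : (s :: t :: r).getLastD [] = (t :: r).getLastD [] := by simp
      rw [h2, h3, this, List.length_append, ih, List.length_take]
      omega

theorem cycO_le_last (c : List (List ℕ)) : cycO c ≤ (c.getLastD []).length := ov_le_left _ _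

theorem cycO_le_head (c : List (List ℕ)) : cycO c ≤ (c.headD []).length := ov_le_right _ _

/-- Length of the merge of a cycle cut open. -/
theorem length_mergeL' (c : List (List ℕ)) : (mergeL c).length = cycW c + cycO c := by
  rw [length_mergeL, cycW]
  have := cycO_le_last c
  omega

theorem cycW_pos {c : List (List ℕ)} (hc : c ≠ []) (hne : ∀ s ∈ c, s ≠ []) : 0 < cycW c := by
  have h1 : c.getLastD [] ∈ c := by
    rw [List.getLastD_eq_getLast?, List.getLast?_eq_some_getLast hc]
    exact List.getLast_mem hc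
  have := ov_lt_left (c.headD []) (hne _ h1)
  unfold cycW cycO
  omega

/-- Every string is contained in the merge. -/
theorem infix_mergeL {c : List (List ℕ)} {s : List ℕ} (hs : s ∈ c) : s <:+: mergeL c := by
  induction c with
  | nil => simp at hs
  | cons a r ih =>
    rcases List.mem_cons.1 hs with rfl | h
    · exact (head_prefix_mergeL s r).isInfix
    · cases r with
      | nil => simp at h
      | cons t r =>
        have h2 : mergeL (a :: t :: r) = a.take (a.length - ov a t) ++ mergeL (t :: r) := rfl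
        rw [h2]
        exact (ih h).trans (List.suffix_append _ _).isInfix

/-- Windows of the merge of a cycle cut at its smallest overlap lie inside the strings. -/
theorem window_mergeL (o : ℕ) : ∀ (c : List (List ℕ)), c ≠ [] →
    List.IsChain (fun s t => o ≤ ov s t) c → o ≤ (c.getLastD []).length →
    ∀ k, k < linW c + ((c.getLastD []).length - o) →
      ∃ s ∈ c, ((mergeL c).drop k).take (o + 1) <:+: s := by
  intro c
  induction c with
  | nil => intro h; exact absurd rfl h
  | cons s r ih =>
    intro _ hch ho k hk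
    cases r with
    | nil =>
      refine ⟨s, by simp, ?_⟩
      exact (List.take_prefix _ _).isInfix.trans (List.drop_suffix _ _).isInfix
    | cons t r =>
      have h2 : mergeL (s :: t :: r) = s.take (s.length - ov s t) ++ mergeL (t :: r) := rfl
      have h3 : linW (s :: t :: r) = (s.length - ov s t) + linW (t :: r) := rfl
      have h4 : (s :: t :: r).getLastD [] = (t :: r).getLastD [] := by simp
      rw [h4] at ho hk
      rw [h3] at hk
      have hch' := List.isChain_cons_cons.1 hch
      by_cases hlt : k < s.length - ov s t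
      · refine ⟨s, by simp, ?_⟩
        obtain ⟨u, hu⟩ := head_prefix_mergeL s (t :: r)
        have h5 : ((mergeL (s :: t :: r)).drop k).take (o + 1) = (s.drop k).take (o + 1) := by
          rw [← hu, List.drop_append_of_le_length (by omega),
            List.take_append_of_le_length (by rw [List.length_drop]; have := hch'.1; omega)]
        rw [h5]
        exact (List.take_prefix _ _).isInfix.trans (List.drop_suffix _ _).isInfix
      · obtain ⟨s', hs', hin⟩ := ih (by simp) hch'.2 ho (k - (s.length - ov s t)) (by omega)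
        refine ⟨s', List.mem_cons_of_mem _ hs', ?_⟩
        rw [h2]
        have h6 : (s.take (s.length - ov s t) ++ mergeL (t :: r)).drop k =
            (mergeL (t :: r)).drop (k - (s.length - ov s t)) := by
          have hl : (s.take (s.length - ov s t)).length = s.length - ov s t := by
            rw [List.length_take]; omega
          rw [List.drop_append, hl, List.drop_eq_nil_of_le (by omega), List.nil_append]
        rw [h6]
        exact hin

end Vale.Agent.P333.U
end
end

section

section

/-!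
P333, upper bound: the infinite periodic word of a cycle of strings.
-/

namespace Vale.Agent.P333.U

/-- The infinite periodic word of a cycle. -/
def cycWord (c : List (List ℕ)) (k : ℕ) : ℕ := (mergeL c).getD (k % cycW c) 0

theorem cycWord_add (c : List (List ℕ)) (k : ℕ) : cycWord c (k + cycW c) = cycWord c k := by
  simp [cycWord]

theorem cycWord_add_mul (c : List (List ℕ)) (k m : ℕ) :
    cycWord c (k + m * cycW c) = cycWord c k := by
  simp [cycWord]

theorem cycWord_mod (c : List (List ℕ)) (k : ℕ) : cycWord c (k % cycW c) = cycWord c k := by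
  simp [cycWord]

/-- The end of the merge of a cycle repeats its beginning. -/
theorem getD_mergeL_add (c : List (List ℕ)) {i : ℕ} (hi : i < cycO c) :
    (mergeL c).getD (cycW c + i) 0 = (mergeL c).getD i 0 := by
  obtain ⟨u, hu⟩ := getLastD_suffix_mergeL c
  obtain ⟨v, hv⟩ := headD_prefix_mergeL c
  have hl := length_mergeL' c
  have h1 := cycO_le_last c
  have h2 := cycO_le_head c
  have hul : u.length + (c.getLastD []).length = (mergeL c).length := by
    rw [← hu, List.length_append]
  have hspec := ov_spec (c.getLastD []) (c.headD [])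
  change (c.getLastD []).drop ((c.getLastD []).length - cycO c) =
    (c.headD []).take (cycO c) at hspec
  have e1 : (mergeL c).getD (cycW c + i) 0 =
      ((c.getLastD []).drop ((c.getLastD []).length - cycO c)).getD i 0 := by
    conv_lhs => rw [← hu]
    rw [List.getD_append_right _ _ _ _ (by omega)]
    rw [List.getD_eq_getElem?_getD, List.getD_eq_getElem?_getD, List.getElem?_drop]
    congr 2
    omega
  have e2 : (mergeL c).getD i 0 = ((c.headD []).take (cycO c)).getD i 0 := by
    conv_lhs => rw [← hv]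
    rw [List.getD_append _ _ _ _ (by omega)]
    rw [List.getD_eq_getElem?_getD, List.getD_eq_getElem?_getD, List.getElem?_take,
      if_pos hi]
  rw [e1, e2, hspec]

/-- The merge is a prefix of the infinite word. -/
theorem getD_mergeL_eq (c : List (List ℕ)) (hw : 0 < cycW c) :
    ∀ i, i < (mergeL c).length → (mergeL c).getD i 0 = cycWord c i := by
  intro i
  induction i using Nat.strong_induction_on with
  | _ i ih =>
    intro hi
    by_cases h : i < cycW c
    · rw [cycWord, Nat.mod_eq_of_lt h]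
    · have hl := length_mergeL' c
      obtain ⟨j, rfl⟩ : ∃ j, i = cycW c + j := ⟨i - cycW c, by omega⟩
      rw [getD_mergeL_add c (by omega), ih j (by omega) (by omega), Nat.add_comm (cycW c) j,
        cycWord_add]

/-- Every string contained in the merge occurs in the infinite word. -/
theorem occurs_of_infix {c : List (List ℕ)} (hw : 0 < cycW c) {s : List ℕ}
    (hs : s <:+: mergeL c) : ∃ a, ∀ i (hi : i < s.length), s[i] = cycWord c (a + i) := by
  obtain ⟨u, v, huv⟩ := hs
  refine ⟨u.length, fun i hi => ?_⟩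
  have hlen : u.length + i < (mergeL c).length := by
    rw [← huv]; simp only [List.length_append]; omega
  rw [← getD_mergeL_eq c hw _ hlen, ← huv, List.append_assoc,
    List.getD_append_right _ _ _ _ (by omega), Nat.add_sub_cancel_left,
    List.getD_append _ _ _ _ hi, List.getD_eq_getElem _ _ hi]

/-- Every string of the cycle occurs in the infinite word. -/
theorem occurs {c : List (List ℕ)} (hw : 0 < cycW c) {s : List ℕ} (hs : s ∈ c) :
    ∃ a, ∀ i (hi : i < s.length), s[i] = cycWord c (a + i) :=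
  occurs_of_infix hw (infix_mergeL hs)

/-- Every window of length `cycO c + 1` of the infinite word is contained in a string of the
cycle. -/
theorem window_cycWord {c : List (List ℕ)} (hc : c ≠ []) (hw : 0 < cycW c)
    (hop : List.IsChain (fun s t => cycO c ≤ ov s t) c) (k : ℕ) :
    ∃ s ∈ c, (List.range (cycO c + 1)).map (fun j => cycWord c (k + j)) <:+: s := by
  have hl := length_mergeL' c
  have hk : k % cycW c < cycW c := Nat.mod_lt _ hw
  obtain ⟨s, hs, hin⟩ := window_mergeL (cycO c) c hc hop (cycO_le_last c) (k % cycW c)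
    (by have := hk; unfold cycW at this ⊢; exact this)
  refine ⟨s, hs, ?_⟩
  have : (List.range (cycO c + 1)).map (fun j => cycWord c (k + j)) =
      ((mergeL c).drop (k % cycW c)).take (cycO c + 1) := by
    apply List.ext_getElem
    · simp only [List.length_map, List.length_range, List.length_take, List.length_drop]
      omega
    · intro i h1 h2
      simp only [List.length_map, List.length_range] at h1
      rw [List.getElem_map, List.getElem_range, List.getElem_take, List.getElem_drop]
      rw [← List.getD_eq_getElem _ 0, getD_mergeL_eq c hw _ (by omega)]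
      conv_lhs => rw [← Nat.mod_add_div k (cycW c)]
      rw [Nat.add_right_comm, Nat.mul_comm, cycWord_add_mul]
  rw [this]
  exact hin

end Vale.Agent.P333.U
end
end

section

section

/-!
P333, upper bound: Lemma A from the bound on Rauzy graphs and the placement lemma.
-/

namespace Vale.Agent.P333.U

/-- Statement of the bound for periodic words whose windows occur in a word. -/
def RauzyBound : Prop := ∀ (ι : Type) [Fintype ι] (T : List ℕ) (W : ι → ℕ → ℕ) (w o : ι → ℕ),
  (∀ c, 0 < w c) → (∀ c k, W c (k + w c) = W c k) →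
  (∀ c q, 0 < q → q < w c → ¬ ∀ k, W c (k + q) = W c k) →
  (∀ c c', c ≠ c' → ¬ ∃ s, ∀ k, W c k = W c' (k + s)) →
  (∀ c k, (List.range (o c + 1)).map (fun j => W c (k + j)) <:+: T) →
  ∑ c, (o c + 1 - w c) ≤ T.length

/-- Statement of the placement lemma. -/
def PlaceLemma : Prop := ∀ (S : List (List ℕ)) (L J R : List (List (List ℕ))), Sfree S →
  MinCover S L → L.Perm (J ++ R) → ∀ (Z : ℕ → ℕ) (p : ℕ), 0 < p → (∀ k, Z (k + p) = Z k) →
  (∀ c ∈ J, ∀ s ∈ c, ∃ a, ∀ i (hi : i < s.length), s[i] = Z (a + i)) → (J.map cycW).sum ≤ p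

theorem wordsA_of (hR : RauzyBound) (hP : PlaceLemma) : WordsA := by
  intro S L T hS hL hT
  have hne : ∀ c ∈ L, c ≠ [] := hL.ne
  have hnes : ∀ c ∈ L, ∀ s ∈ c, s ≠ [] := fun c hc s hs =>
    hS.1 s (hL.perm.mem_iff.1 (List.mem_flatten.2 ⟨c, hc, hs⟩))
  have hpos : ∀ c ∈ L, 0 < cycW c := fun c hc => cycW_pos (hne c hc) (hnes c hc)
  have key := hR (Fin L.length) T (fun c => cycWord (L.get c)) (fun c => cycW (L.get c))
    (fun c => cycO (L.get c)) (fun c => hpos _ (List.get_mem _ _))
    (fun c k => cycWord_add _ _) ?_ ?_ ?_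
  · have : (L.map (fun c => cycO c + 1 - cycW c)).sum =
        ∑ c : Fin L.length, (cycO (L.get c) + 1 - cycW (L.get c)) := by
      rw [← List.sum_ofFn]
      congr 1
      apply List.ext_getElem <;> simp
    rw [this]
    exact key
  · intro c q hq hqw hper
    have hperm : L.Perm ([L.get c] ++ L.erase (L.get c)) :=
      List.perm_cons_erase (List.get_mem _ _)
    have := hP S L _ _ hS hL hperm (cycWord (L.get c)) q hq hper (by
      intro c' hc' s hs
      rw [List.mem_singleton] at hc'
      subst hc'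
      exact occurs (hpos _ (List.get_mem _ _)) hs)
    simp only [List.map_cons, List.map_nil, List.sum_cons, List.sum_nil, add_zero] at this
    omega
  · rintro c c' hcc ⟨s, hs⟩
    -- the two cycles together occur in the word of `c'`
    obtain ⟨R, hR'⟩ : ∃ R, L.Perm ([L.get c, L.get c'] ++ R) := by
      have hsub : List.Subperm [L.get c, L.get c'] L := by
        have h1 : List.Subperm [c, c'] (List.finRange L.length) := by
          refine (List.nodup_cons.2 ⟨by simpa using hcc, List.nodup_singleton _⟩).subperm ?_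
          intro x _
          exact List.mem_finRange x
        obtain ⟨l, hl1, hl2⟩ := h1
        exact ⟨l.map L.get, by simpa using hl1.map L.get, by simpa using hl2.map L.get⟩
      obtain ⟨l, hl1, hl2⟩ := hsub
      obtain ⟨r, hr⟩ := hl2.exists_perm_append
      exact ⟨r, hr.trans (hl1.append_right r)⟩
    have := hP S L _ _ hS hL hR' (cycWord (L.get c')) (cycW (L.get c'))
      (hpos _ (List.get_mem _ _)) (cycWord_add _) (by
      intro d hd t ht
      simp only [List.mem_cons, List.not_mem_nil, or_false] at hd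
      rcases hd with rfl | rfl
      · obtain ⟨a, ha⟩ := occurs (hpos _ (List.get_mem _ _)) ht
        refine ⟨a + s, fun i hi => ?_⟩
        rw [ha i hi, hs, Nat.add_right_comm]
      · exact occurs (hpos _ (List.get_mem _ _)) ht)
    have hp := hpos _ (List.get_mem L c)
    simp only [List.map_cons, List.map_nil, List.sum_cons, List.sum_nil, add_zero] at this
    omega
  · intro c k
    obtain ⟨s, hs, hin⟩ := window_cycWord (hne _ (List.get_mem _ _))
      (hpos _ (List.get_mem _ _)) (hL.opn _ (List.get_mem L c)) k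
    exact hin.trans (hT s (hL.perm.mem_iff.1 (List.mem_flatten.2 ⟨_, List.get_mem _ _, hs⟩)))

end Vale.Agent.P333.U
end
end

section

section

/-!
P333, upper bound: the weight of the minimum cycle cover is at most the length of a superstring;
Lemma B from the insertion lemma.
-/

namespace Vale.Agent.P333.U

theorem placeLemma : PlaceLemma := fun _ _ _ _ hS hL hJ Z p hp hZ h => place hS hL hJ Z p hp hZ h

theorem wordsW : WordsW := by
  intro S L T hS hL hT
  by_cases hn : T.length = 0
  · have hL0 : L = [] := by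
      by_contra hne
      obtain ⟨c, L', rfl⟩ := List.exists_cons_of_ne_nil hne
      obtain ⟨s, c', rfl⟩ := List.exists_cons_of_ne_nil (hL.ne c (by simp))
      have hs : s ∈ S := hL.perm.mem_iff.1 (by simp)
      have h1 := (hT s hs).length_le
      exact hS.1 s hs (List.length_eq_zero_iff.1 (by omega))
    simp [hL0]
  · refine placeLemma S L L [] hS hL (by simp) (fun k => T.getD (k % T.length) 0) T.length
      (by omega) (by intro k; simp) ?_
    intro c hc s hs
    obtain ⟨u, v, huv⟩ := hT s (hL.perm.mem_iff.1 (List.mem_flatten.2 ⟨c, hc, hs⟩))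
    refine ⟨u.length, fun i hi => ?_⟩
    have hlt : u.length + i < T.length := by
      rw [← huv]; simp only [List.length_append]; omega
    show s[i] = T.getD ((u.length + i) % T.length) 0
    rw [Nat.mod_eq_of_lt hlt]
    conv_rhs => rw [← huv]
    rw [List.append_assoc, List.getD_append_right _ _ _ _ (by omega), Nat.add_sub_cancel_left,
      List.getD_append _ _ _ _ hi, List.getD_eq_getElem _ _ hi]

/-- Words none of which is contained in another one, all contained in `U`, can be ordered such that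
their merge is not longer than `U`. -/
theorem order_le {X : List (List ℕ)} (hX : X.Pairwise (fun s t => ¬ s <:+: t ∧ ¬ t <:+: s))
    {U : List ℕ} (hU : ∀ s ∈ X, s <:+: U) :
    ∃ P, P.Perm X ∧ (mergeL P).length ≤ U.length := by
  classical
  have hex : ∀ s ∈ X, ∃ a, a + s.length ≤ U.length ∧ OccAt (fun k => U.getD k 0) s a := by
    intro s hs
    obtain ⟨u, v, huv⟩ := hU s hs
    refine ⟨u.length, ?_, fun i hi => ?_⟩
    · rw [← huv]; simp only [List.length_append]; omega
    · show s[i] = U.getD (u.length + i) 0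
      conv_rhs => rw [← huv]
      rw [List.append_assoc, List.getD_append_right _ _ _ _ (by omega), Nat.add_sub_cancel_left,
        List.getD_append _ _ _ _ hi, List.getD_eq_getElem _ _ hi]
  choose! pos hpos using hex
  set F := X.mergeSort (fun s t => decide (pos s ≤ pos t)) with hFdef
  have hFp : F.Perm X := List.mergeSort_perm _ _
  refine ⟨F, hFp, ?_⟩
  have hFs : F.Pairwise (fun s t => pos s ≤ pos t) := by
    have := List.pairwise_mergeSort (le := fun s t : List ℕ => decide (pos s ≤ pos t))
      (by intro a b c; simp only [decide_eq_true_eq]; omega) (by intro a b; simp; omega) X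
    simpa using this
  have hFw : F.Pairwise (fun s t => ¬ s <:+: t ∧ ¬ t <:+: s) :=
    (hFp.pairwise_iff (fun {a b} hab => ⟨hab.2, hab.1⟩)).2 hX
  have hFpos : ∀ t ∈ F, pos t + t.length ≤ U.length ∧ OccAt (fun k => U.getD k 0) t (pos t) :=
    fun t ht => hpos t (hFp.mem_iff.1 ht)
  have hFlt : F.Pairwise (fun s t => pos s < pos t) := by
    have hboth := List.Pairwise.and hFs hFw
    refine List.Pairwise.imp_of_mem ?_ hboth
    intro s t hs ht hst
    rcases Nat.lt_or_ge (pos s) (pos t) with h1 | h1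
    · exact h1
    · exfalso
      have heq : pos s = pos t := le_antisymm hst.1 h1
      have hs' := (hFpos s hs).2
      have ht' := (hFpos t ht).2
      rw [heq] at hs'
      rcases Nat.le_total s.length t.length with h2 | h2
      · exact hst.2.1 (hs'.prefix_of_le ht' h2).isInfix
      · exact hst.2.2 (ht'.prefix_of_le hs' h2).isInfix
  rcases hF : F with _ | ⟨s, F'⟩
  · simp [mergeL]
  · rw [hF] at hFpos hFlt hFw
    have h1 := linW_le_pos F' s (fun t ht => (hFpos t ht).2) hFlt hFw
    have h2 : (s :: F').getLastD [] ∈ s :: F' := by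
      rw [List.getLastD_eq_getLast?, List.getLast?_eq_some_getLast (by simp)]
      exact List.getLast_mem _
    have h3 := (hFpos _ h2).1
    rw [length_mergeL]
    omega

/-- The merges of the cycles of a minimum cover are not contained in each other. -/
theorem sfree_merge {S : List (List ℕ)} {L : List (List (List ℕ))} (hS : Sfree S)
    (hL : MinCover S L) :
    (L.map mergeL).Pairwise (fun s t => ¬ s <:+: t ∧ ¬ t <:+: s) := by
  have hnes : ∀ c ∈ L, ∀ s ∈ c, s ≠ [] := fun c hc s hs =>
    hS.1 s (hL.perm.mem_iff.1 (List.mem_flatten.2 ⟨c, hc, hs⟩))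
  have hpos : ∀ c ∈ L, 0 < cycW c := fun c hc => cycW_pos (hL.ne c hc) (hnes c hc)
  have key : ∀ c c' R, L.Perm ([c, c'] ++ R) → ¬ mergeL c <:+: mergeL c' := by
    intro c c' R hR hin
    have hc : c ∈ L := hR.mem_iff.2 (by simp)
    have hc' : c' ∈ L := hR.mem_iff.2 (by simp)
    have := placeLemma S L _ _ hS hL hR (cycWord c') (cycW c') (hpos _ hc') (cycWord_add _) (by
      intro d hd t ht
      simp only [List.mem_cons, List.not_mem_nil, or_false] at hd
      rcases hd with rfl | rfl
      · exact occurs_of_infix (hpos _ hc') ((infix_mergeL ht).trans hin)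
      · exact occurs (hpos _ hc') ht)
    have hp := hpos _ hc
    simp only [List.map_cons, List.map_nil, List.sum_cons, List.sum_nil, add_zero] at this
    omega
  rw [List.pairwise_map]
  -- pairwise from the position in the list
  rw [List.pairwise_iff_forall_sublist]
  intro c c' hsub
  obtain ⟨R, hR⟩ := hsub.exists_perm_append
  exact ⟨key c c' R hR, key c' c R (hR.trans (List.Perm.append_right R (List.Perm.swap _ _ _)))⟩

/-- Statement of the insertion lemma. -/
def Insertion : Prop := ∀ (S : List (List ℕ)) (L : List (List (List ℕ))) (T : List ℕ), Sfree S →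
  MinCover S L → IsSuperstring S T →
  ∃ U : List ℕ, U.length = T.length + (L.map cycW).sum ∧ ∀ c ∈ L, mergeL c <:+: U

theorem wordsB_of (hI : Insertion) : WordsB := by
  intro S L T hS hL hT
  obtain ⟨U, hU1, hU2⟩ := hI S L T hS hL hT
  obtain ⟨P, hP, hlen⟩ := order_le (sfree_merge hS hL) (U := U) (by
    intro s hs
    obtain ⟨c, hc, rfl⟩ := List.mem_map.1 hs
    exact hU2 c hc)
  exact ⟨P, hP, by omega⟩

end Vale.Agent.P333.U
end
end

section

section

/-!
P333, upper bound: path colouring by reductions; definitions and statement of the combinatorial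
part.
-/

namespace Vale.Agent.P333.U

open Vale.Agent.Lib.PolyTime

/-- The vertices. -/
def vtx (E : List (ℕ × ℕ)) : List ℕ := E.map Prod.fst ++ E.map Prod.snd

/-- The arcs with an end in `U`. -/
def incE (U : List ℕ) (E : List (ℕ × ℕ)) : List (ℕ × ℕ) :=
  E.filter (fun e => decide (e.1 ∈ U) || decide (e.2 ∈ U))

/-- The arcs without end in `U`. -/
def remE (U : List ℕ) (E : List (ℕ × ℕ)) : List (ℕ × ℕ) :=
  E.filter (fun e => !(decide (e.1 ∈ U) || decide (e.2 ∈ U)))

/-- Remove from a coloured graph one coloured copy of every arc of `Q`. -/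
def eraseQ (K : List (ℕ × ℕ × ℕ)) (Q : List (ℕ × ℕ)) : List (ℕ × ℕ × ℕ) :=
  Q.foldl (fun K q => K.eraseP (fun e => decide (e.1 = q.1) && decide (e.2.1 = q.2))) K

/-- Colour the arcs `R` with the colours `cs`. -/
def paint (R : List (ℕ × ℕ)) (cs : List ℕ) : List (ℕ × ℕ × ℕ) :=
  (R.zip cs).map (fun p => (p.1.1, p.1.2, p.2))

/-- All words of length `n` over `0, 1, 2`. -/
def vecs : ℕ → List (List ℕ)
  | 0 => [[]]
  | n + 1 => (vecs n).flatMap (fun v => [0 :: v, 1 :: v, 2 :: v])

/-- The equation lemmas of `vecs` are generated here, once. -/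
theorem spec_vecs (n : ℕ) :
    vecs (n + 1) = (vecs n).flatMap (fun v => [0 :: v, 1 :: v, 2 :: v]) := by
  rw [vecs]

/-- The result of the move `(U, Q)`: remove the vertices of `U`, add the arcs of `Q`. -/
def moveE (mv : List ℕ × List (ℕ × ℕ)) (E : List (ℕ × ℕ)) : List (ℕ × ℕ) := remE mv.1 E ++ mv.2

/-- The combinatorial part of the path colouring algorithm: there is a list of candidate moves; one
of them leads to a smaller good graph; if a candidate move leads to a good graph, then every
colouring of this graph extends to the removed arcs. The new arcs join vertices of the graph. -/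
def ColMath : Prop :=
  ∃ cands : List (ℕ × ℕ) → List (List ℕ × List (ℕ × ℕ)), PT ∅ cands ∧
    ∀ E, GoodG E →
      (E ≠ [] → ∃ mv ∈ cands E, GoodG (moveE mv E)) ∧
      ∀ mv ∈ cands E, GoodG (moveE mv E) →
        (moveE mv E).length < E.length ∧
        (∀ e ∈ mv.2, e.1 ∈ vtx E ∧ e.2 ∈ vtx E) ∧
        ∀ K, Col (moveE mv E) K →
          ∃ cs ∈ vecs 8, Col E (eraseQ K mv.2 ++ paint (incE mv.1 E) cs)

end Vale.Agent.P333.U
end
end

section

section

/-!
P333, upper bound: the moves of the path colouring algorithm, and the statements of the parts of the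
proof of `ColMath`.
-/

namespace Vale.Agent.P333.U

open Vale.Agent.Lib.PolyTime

/-- The arcs into `v`. -/
def inE (v : ℕ) (E : List (ℕ × ℕ)) : List (ℕ × ℕ) := E.filter (fun e => e.2 == v)

/-- The arcs out of `v`. -/
def outE (v : ℕ) (E : List (ℕ × ℕ)) : List (ℕ × ℕ) := E.filter (fun e => e.1 == v)

/-- The moves `(U, Q)`: the vertices of `U` are removed, the arcs of `Q` are added. -/
inductive IsMove (E : List (ℕ × ℕ)) : List ℕ → List (ℕ × ℕ) → Prop
  /-- a vertex `v` of degree one, `a → v → c` -/
  | r1 (v a c : ℕ) : inE v E = [(a, v)] → outE v E = [(v, c)] → a ≠ c → IsMove E [v] [(a, c)]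
  /-- a vertex `v` of degree one, `a → v → a` -/
  | r1' (v a : ℕ) : inE v E = [(a, v)] → outE v E = [(v, a)] → IsMove E [v] []
  /-- a vertex `v` of degree two -/
  | r3 (v a b c d : ℕ) : inE v E = [(a, v), (b, v)] → (outE v E).Perm [(v, c), (v, d)] →
      a ≠ c → b ≠ d → IsMove E [v] [(a, c), (b, d)]
  /-- `x → p ⇉ q → p`, `q → y` -/
  | r2 (p q x y : ℕ) : (inE p E).Perm [(x, p), (q, p)] → outE p E = [(p, q), (p, q)] →
      inE q E = [(p, q), (p, q)] → (outE q E).Perm [(q, p), (q, y)] → x ≠ q → y ≠ p → x ≠ y →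
      IsMove E [p, q] [(x, y)]
  /-- remove a closed set of at most four vertices -/
  | m0 (U : List ℕ) : U ≠ [] → U.length ≤ 4 → (∀ u ∈ U, u ∈ E.map Prod.fst) →
      (∀ e ∈ E, (e.1 ∈ U ↔ e.2 ∈ U)) → IsMove E U []

/-- Part A: there is a move to a good graph. -/
def MoveEx : Prop := ∀ E, GoodG E → E ≠ [] → ∃ U Q, IsMove E U Q ∧ GoodG (moveE (U, Q) E)

/-- Part B: colourings extend. -/
def MoveExt : Prop := ∀ (E : List (ℕ × ℕ)) (U : List ℕ) (Q : List (ℕ × ℕ)), GoodG E → IsMove E U Q → GoodG (moveE (U, Q) E) →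
  ∀ K, Col (moveE (U, Q) E) K → ∃ cs ∈ vecs 8, Col E (eraseQ K Q ++ paint (incE U E) cs)

/-- Part C: the list of all moves is computable. -/
def MoveCands : Prop := ∃ cands : List (ℕ × ℕ) → List (List ℕ × List (ℕ × ℕ)), PT ∅ cands ∧
  ∀ E mv, mv ∈ cands E ↔ IsMove E mv.1 mv.2

/-- Part D: good graphs with at most four vertices have a colouring. -/
def SmallCol : Prop := ∀ (E : List (ℕ × ℕ)) (U : List ℕ), GoodG E → U.length ≤ 4 → (∀ e ∈ E, e.1 ∈ U ∧ e.2 ∈ U) →
  ∃ K, Col E K

end Vale.Agent.P333.U
end
end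

section

section

/-!
P333, upper bound: the list of all moves of the path colouring algorithm, in polynomial time.
-/

namespace Vale.Agent.P333.U

open Vale.Agent.Lib.PolyTime

/-! ### All short lists -/

/-- All lists of length at most `n` over `l`. -/
def upto {β : Type*} (l : List β) : ℕ → List (List β)
  | 0 => [[]]
  | n + 1 => [] :: l.flatMap (fun x => (upto l n).map (fun t => x :: t))

theorem mem_upto {β : Type*} {l : List β} {n : ℕ} {t : List β} :
    t ∈ upto l n ↔ t.length ≤ n ∧ ∀ x ∈ t, x ∈ l := by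
  induction n generalizing t with
  | zero =>
    rw [upto, List.mem_singleton]
    constructor
    · rintro rfl
      simp
    · rintro ⟨h, -⟩
      exact List.length_eq_zero_iff.1 (by omega)
  | succ n ih =>
    rw [upto, List.mem_cons, List.mem_flatMap]
    constructor
    · rintro (rfl | ⟨x, hx, ht⟩)
      · simp only [List.length_nil, le_add_iff_nonneg_left, zero_le, List.not_mem_nil, IsEmpty.forall_iff, implies_true, and_self]
      · obtain ⟨s, hs, rfl⟩ := List.mem_map.1 ht
        obtain ⟨h1, h2⟩ := ih.1 hs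
        refine ⟨by simpa only [List.length_cons, add_le_add_iff_right] using h1, fun y hy => ?_⟩
        rcases List.mem_cons.1 hy with rfl | hy
        · exact hx
        · exact h2 y hy
    · rintro ⟨h1, h2⟩
      cases t with
      | nil => exact Or.inl rfl
      | cons x s =>
        right
        refine ⟨x, h2 x List.mem_cons_self, List.mem_map.2 ⟨s, ih.2 ⟨by simpa using h1,
          fun y hy => h2 y (List.mem_cons_of_mem _ hy)⟩, rfl⟩⟩

section

variable {A : Set Word} {α β γ : Type*} [Enc α] [Enc β] [Enc γ]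

theorem PT_upto {l : α → List β} (hl : PT A l) (n : ℕ) : PT A (fun a => upto (l a) n) := by
  induction n with
  | zero => exact PT.const _
  | succ n ih =>
    refine PT.cons (PT.const []) ?_
    refine PT.flatMap (f := fun a x => (upto (l a) n).map (fun t => x :: t)) hl ?_
    refine PT.map (l := fun p : α × β => upto (l p.1) n) (f := fun p t => p.2 :: t)
      (ih.comp PT.fst') ?_
    exact PT.cons PT.fst'.snd PT.snd'

theorem PT_pairs {l : α → List β} {m : α → List γ} (hl : PT A l) (hm : PT A m) :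
    PT A (fun a => (l a).flatMap (fun x => (m a).map (fun y => (x, y)))) := by
  refine PT.flatMap (f := fun a x => (m a).map (fun y => (x, y))) hl ?_
  refine PT.map (l := fun p : α × β => m p.1) (f := fun p y => (p.2, y)) (hm.comp PT.fst') ?_
  exact PT.pair PT.fst'.snd PT.snd'

omit [Enc β] [Enc γ] in
theorem mem_pairs {l : List β} {m : List γ} {x : β} {y : γ} :
    (x, y) ∈ l.flatMap (fun x => m.map (fun y => (x, y))) ↔ x ∈ l ∧ y ∈ m := by
  rw [List.mem_flatMap]
  constructor
  · rintro ⟨x', hx, h⟩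
    obtain ⟨y', hy, h'⟩ := List.mem_map.1 h
    rw [Prod.mk.injEq] at h'
    obtain ⟨rfl, rfl⟩ := h'
    exact ⟨hx, hy⟩
  · rintro ⟨hx, hy⟩
    exact ⟨x, hx, List.mem_map.2 ⟨y, hy, rfl⟩⟩

theorem eqPT_arcs : EqPT A (List (ℕ × ℕ)) := eqPT_list (eqPT_prod eqPT_nat eqPT_nat)

theorem PT_eqArcs {f g : α → List (ℕ × ℕ)} (hf : PT A f) (hg : PT A g) :
    PT A (fun a => decide (f a = g a)) := eqPT_arcs.eq hf hg

theorem PT_inE {v : α → ℕ} {E : α → List (ℕ × ℕ)} (hv : PT A v) (hE : PT A E) :
    PT A (fun a => inE (v a) (E a)) := by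
  refine PT.filter (f := fun a e => e.2 == v a) hE ?_
  exact (PT.eqNat (PT.snd'.snd) (hv.comp PT.fst')).congr fun p => by
    simp [beq_eq_decide]

theorem PT_outE {v : α → ℕ} {E : α → List (ℕ × ℕ)} (hv : PT A v) (hE : PT A E) :
    PT A (fun a => outE (v a) (E a)) := by
  refine PT.filter (f := fun a e => e.1 == v a) hE ?_
  exact (PT.eqNat (PT.snd'.fst) (hv.comp PT.fst')).congr fun p => by
    simp [beq_eq_decide]

end

/-! ### The Boolean test -/

/-- test for `r1` -/
def t1 (E : List (ℕ × ℕ)) (U : List ℕ) (Q : List (ℕ × ℕ)) (v : ℕ) (q : ℕ × ℕ) : Bool :=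
  decide (U = [v]) && decide (Q = [q]) && decide (inE v E = [(q.1, v)]) &&
    decide (outE v E = [(v, q.2)]) && !decide (q.1 = q.2)

/-- test for `r1'` -/
def t1' (E : List (ℕ × ℕ)) (U : List ℕ) (Q : List (ℕ × ℕ)) (v a : ℕ) : Bool :=
  decide (U = [v]) && decide (Q = []) && decide (inE v E = [(a, v)]) &&
    decide (outE v E = [(v, a)])

/-- test for `r3` -/
def t3 (E : List (ℕ × ℕ)) (U : List ℕ) (Q : List (ℕ × ℕ)) (v : ℕ) (q r : ℕ × ℕ) : Bool :=
  decide (U = [v]) && decide (Q = [q, r]) && decide (inE v E = [(q.1, v), (r.1, v)]) &&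
    (decide (outE v E = [(v, q.2), (v, r.2)]) || decide (outE v E = [(v, r.2), (v, q.2)])) &&
    !decide (q.1 = q.2) && !decide (r.1 = r.2)

/-- test for `r2` -/
def t2 (E : List (ℕ × ℕ)) (U : List ℕ) (Q : List (ℕ × ℕ)) (p q : ℕ) (z : ℕ × ℕ) : Bool :=
  decide (U = [p, q]) && decide (Q = [z]) &&
    (decide (inE p E = [(z.1, p), (q, p)]) || decide (inE p E = [(q, p), (z.1, p)])) &&
    decide (outE p E = [(p, q), (p, q)]) && decide (inE q E = [(p, q), (p, q)]) &&
    (decide (outE q E = [(q, p), (q, z.2)]) || decide (outE q E = [(q, z.2), (q, p)])) &&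
    !decide (z.1 = q) && !decide (z.2 = p) && !decide (z.1 = z.2)

/-- test for `m0` -/
def t0 (E : List (ℕ × ℕ)) (U : List ℕ) (Q : List (ℕ × ℕ)) : Bool :=
  decide (Q = []) && !decide (U = []) && decide (U.length ≤ 4) &&
    U.all (fun u => decide (u ∈ E.map Prod.fst)) &&
    E.all (fun e => !(Bool.xor (decide (e.1 ∈ U)) (decide (e.2 ∈ U))))

/-- test for `IsMove` -/
def tMove (E : List (ℕ × ℕ)) (U : List ℕ) (Q : List (ℕ × ℕ)) : Bool :=
  t1 E U Q (U.getD 0 0) (Q.getD 0 (0, 0)) ||
  t1' E U Q (U.getD 0 0) ((inE (U.getD 0 0) E).getD 0 (0, 0)).1 ||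
  t3 E U Q (U.getD 0 0) (Q.getD 0 (0, 0)) (Q.getD 1 (0, 0)) ||
  t2 E U Q (U.getD 0 0) (U.getD 1 0) (Q.getD 0 (0, 0)) || t0 E U Q

theorem perm_pair {β : Type*} {l : List β} {a b : β} :
    l.Perm [a, b] ↔ l = [a, b] ∨ l = [b, a] := by
  constructor
  · intro h
    have hl := h.length_eq
    rcases l with _ | ⟨x, _ | ⟨y, _ | ⟨z, t⟩⟩⟩
    · simp at hl
    · simp at hl
    · have hx : x ∈ [a, b] := h.subset (by simp)
      rcases List.mem_cons.1 hx with rfl | hx
      · have h2 := (List.perm_cons x).1 h
        rw [List.perm_singleton] at h2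
        left
        rw [h2]
      · rw [List.mem_singleton] at hx
        subst hx
        have h2 := h.trans (List.Perm.swap x a [])
        have h3 := (List.perm_cons x).1 h2
        rw [List.perm_singleton] at h3
        right
        rw [h3]
    · simp at hl
  · rintro (rfl | rfl)
    · exact List.Perm.refl _
    · exact List.Perm.swap _ _ _

theorem tMove_iff (E : List (ℕ × ℕ)) (U : List ℕ) (Q : List (ℕ × ℕ)) :
    tMove E U Q = true ↔ IsMove E U Q := by
  constructor
  · intro h
    unfold tMove at h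
    rw [Bool.or_eq_true, Bool.or_eq_true, Bool.or_eq_true, Bool.or_eq_true] at h
    rcases h with (((h | h) | h) | h) | h
    · unfold t1 at h
      simp only [Bool.and_eq_true, decide_eq_true_eq, Bool.not_eq_true', decide_eq_false_iff_not]
        at h
      obtain ⟨⟨⟨⟨h1, h2⟩, h3⟩, h4⟩, h5⟩ := h
      rw [h1, h2]
      exact IsMove.r1 _ _ _ h3 h4 h5
    · unfold t1' at h
      simp only [Bool.and_eq_true, decide_eq_true_eq] at h
      obtain ⟨⟨⟨h1, h2⟩, h3⟩, h4⟩ := h
      rw [h1, h2]
      exact IsMove.r1' _ _ h3 h4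
    · unfold t3 at h
      simp only [Bool.and_eq_true, Bool.or_eq_true, decide_eq_true_eq, Bool.not_eq_true',
        decide_eq_false_iff_not] at h
      obtain ⟨⟨⟨⟨⟨h1, h2⟩, h3⟩, h4⟩, h5⟩, h6⟩ := h
      rw [h1, h2]
      exact IsMove.r3 _ _ _ _ _ h3 (perm_pair.2 h4) h5 h6
    · unfold t2 at h
      simp only [Bool.and_eq_true, Bool.or_eq_true, decide_eq_true_eq, Bool.not_eq_true',
        decide_eq_false_iff_not] at h
      obtain ⟨⟨⟨⟨⟨⟨⟨⟨h1, h2⟩, h3⟩, h4⟩, h5⟩, h6⟩, h7⟩, h8⟩, h9⟩ := h
      rw [h1, h2]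
      exact IsMove.r2 _ _ _ _ (perm_pair.2 h3) h4 h5 (perm_pair.2 h6) h7 h8 h9
    · unfold t0 at h
      simp only [Bool.and_eq_true, decide_eq_true_eq, Bool.not_eq_true',
        decide_eq_false_iff_not, List.all_eq_true] at h
      obtain ⟨⟨⟨⟨h1, h2⟩, h3⟩, h4⟩, h5⟩ := h
      rw [h1]
      refine IsMove.m0 _ h2 h3 h4 fun e he => ?_
      have h6 := h5 e he
      by_cases ha : e.1 ∈ U <;> by_cases hb : e.2 ∈ U <;> simp [ha, hb] at h6 ⊢
  · intro h
    unfold tMove
    rw [Bool.or_eq_true, Bool.or_eq_true, Bool.or_eq_true, Bool.or_eq_true]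
    cases h with
    | r1 v a c h1 h2 h3 =>
      left; left; left; left
      simp only [t1, List.getD_eq_getElem?_getD, List.length_cons, List.length_nil, zero_add, Order.lt_one_iff, getElem?_pos, List.getElem_cons_zero, Option.getD_some, decide_true, Bool.and_self, h1, h2, h3, decide_false, Bool.not_false]
    | r1' v a h1 h2 =>
      left; left; left; right
      simp only [t1', List.getD_eq_getElem?_getD, List.length_cons, List.length_nil, zero_add, Order.lt_one_iff, getElem?_pos, List.getElem_cons_zero, Option.getD_some, decide_true, Bool.and_self, h1, h2]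
    | r3 v a b c d h1 h2 h3 h4 =>
      left; left; right
      rcases perm_pair.1 h2 with h2 | h2
      · simp only [t3, List.getD_eq_getElem?_getD, List.length_cons, List.length_nil, zero_add, Order.lt_one_iff, getElem?_pos, List.getElem_cons_zero, Option.getD_some, decide_true, Nat.reduceAdd, Order.lt_two_iff, zero_le, Std.le_refl, List.getElem_cons_succ, Bool.and_self, h1, h2, List.cons.injEq, Prod.mk.injEq, true_and, and_true, Bool.decide_and, Bool.true_or, h3, decide_false, Bool.not_false, h4]
      · simp only [t3, List.getD_eq_getElem?_getD, List.length_cons, List.length_nil, zero_add, Order.lt_one_iff, getElem?_pos, List.getElem_cons_zero, Option.getD_some, decide_true, Nat.reduceAdd, Order.lt_two_iff, zero_le, Std.le_refl, List.getElem_cons_succ, Bool.and_self, h1, h2, List.cons.injEq, Prod.mk.injEq, true_and, and_true, Bool.decide_and, Bool.or_true, h3, decide_false, Bool.not_false, h4]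
    | r2 p q x y h1 h2 h3 h4 h5 h6 h7 =>
      left; right
      rcases perm_pair.1 h1 with h1 | h1 <;> rcases perm_pair.1 h4 with h4 | h4 <;>
        simp [t2, h1, h2, h3, h4, h5, h6, h7]
    | m0 _ h1 h2 h3 h4 =>
      right
      unfold t0
      simp only [Bool.and_eq_true, decide_eq_true_eq, Bool.not_eq_true',
        decide_eq_false_iff_not, List.all_eq_true]
      refine ⟨⟨⟨⟨trivial, h1⟩, h2⟩, h3⟩, fun e he => ?_⟩
      have h6 := h4 e he
      by_cases ha : e.1 ∈ U
      · simp [ha, h6.1 ha]
      · have hb : e.2 ∉ U := fun hb => ha (h6.2 hb)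
        simp [ha, hb]

/-! ### The test takes polynomial time -/

section

variable {A : Set Word} {α : Type*} [Enc α]

theorem PT_t1 {E : α → List (ℕ × ℕ)} {U : α → List ℕ} {Q : α → List (ℕ × ℕ)} {v : α → ℕ}
    {q : α → ℕ × ℕ} (hE : PT A E) (hU : PT A U) (hQ : PT A Q) (hv : PT A v) (hq : PT A q) :
    PT A (fun a => t1 (E a) (U a) (Q a) (v a) (q a)) := by
  unfold t1
  refine ((((PT_eqStr hU (PT.cons hv (PT.const []))).and
    (PT_eqArcs hQ (PT.cons hq (PT.const [])))).and
    (PT_eqArcs (PT_inE hv hE) (PT.cons (PT.pair hq.fst hv) (PT.const [])))).and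
    (PT_eqArcs (PT_outE hv hE) (PT.cons (PT.pair hv hq.snd) (PT.const [])))).and ?_
  exact (PT.eqNat hq.fst hq.snd).not

theorem PT_t1' {E : α → List (ℕ × ℕ)} {U : α → List ℕ} {Q : α → List (ℕ × ℕ)} {v b : α → ℕ}
    (hE : PT A E) (hU : PT A U) (hQ : PT A Q) (hv : PT A v) (hb : PT A b) :
    PT A (fun a => t1' (E a) (U a) (Q a) (v a) (b a)) := by
  unfold t1'
  exact (((PT_eqStr hU (PT.cons hv (PT.const []))).and
    (PT_eqArcs hQ (PT.const []))).and
    (PT_eqArcs (PT_inE hv hE) (PT.cons (PT.pair hb hv) (PT.const [])))).and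
    (PT_eqArcs (PT_outE hv hE) (PT.cons (PT.pair hv hb) (PT.const [])))

theorem PT_t3 {E : α → List (ℕ × ℕ)} {U : α → List ℕ} {Q : α → List (ℕ × ℕ)} {v : α → ℕ}
    {q r : α → ℕ × ℕ} (hE : PT A E) (hU : PT A U) (hQ : PT A Q) (hv : PT A v) (hq : PT A q)
    (hr : PT A r) : PT A (fun a => t3 (E a) (U a) (Q a) (v a) (q a) (r a)) := by
  unfold t3
  refine (((((PT_eqStr hU (PT.cons hv (PT.const []))).and
    (PT_eqArcs hQ (PT.cons hq (PT.cons hr (PT.const []))))).and
    (PT_eqArcs (PT_inE hv hE) (PT.cons (PT.pair hq.fst hv)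
      (PT.cons (PT.pair hr.fst hv) (PT.const []))))).and
    ((PT_eqArcs (PT_outE hv hE) (PT.cons (PT.pair hv hq.snd)
      (PT.cons (PT.pair hv hr.snd) (PT.const [])))).or
    (PT_eqArcs (PT_outE hv hE) (PT.cons (PT.pair hv hr.snd)
      (PT.cons (PT.pair hv hq.snd) (PT.const [])))))).and
    (PT.eqNat hq.fst hq.snd).not).and (PT.eqNat hr.fst hr.snd).not

theorem PT_t2 {E : α → List (ℕ × ℕ)} {U : α → List ℕ} {Q : α → List (ℕ × ℕ)} {p q : α → ℕ}
    {z : α → ℕ × ℕ} (hE : PT A E) (hU : PT A U) (hQ : PT A Q) (hp : PT A p) (hq : PT A q)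
    (hz : PT A z) : PT A (fun a => t2 (E a) (U a) (Q a) (p a) (q a) (z a)) := by
  unfold t2
  have hpq := PT.pair hp hq
  have hqp := PT.pair hq hp
  have hxp := PT.pair hz.fst hp
  have hqy := PT.pair hq hz.snd
  have h0 : PT A (fun _ : α => ([] : List (ℕ × ℕ))) := PT.const []
  refine ((((((((PT_eqStr hU (PT.cons hp (PT.cons hq (PT.const [])))).and
    (PT_eqArcs hQ (PT.cons hz h0))).and
    ((PT_eqArcs (PT_inE hp hE) (PT.cons hxp (PT.cons hqp h0))).or
      (PT_eqArcs (PT_inE hp hE) (PT.cons hqp (PT.cons hxp h0))))).and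
    (PT_eqArcs (PT_outE hp hE) (PT.cons hpq (PT.cons hpq h0)))).and
    (PT_eqArcs (PT_inE hq hE) (PT.cons hpq (PT.cons hpq h0)))).and
    ((PT_eqArcs (PT_outE hq hE) (PT.cons hqp (PT.cons hqy h0))).or
      (PT_eqArcs (PT_outE hq hE) (PT.cons hqy (PT.cons hqp h0))))).and
    (PT.eqNat hz.fst hq).not).and (PT.eqNat hz.snd hp).not).and
    (PT.eqNat hz.fst hz.snd).not

theorem PT_t0 {E : α → List (ℕ × ℕ)} {U : α → List ℕ} {Q : α → List (ℕ × ℕ)}
    (hE : PT A E) (hU : PT A U) (hQ : PT A Q) :
    PT A (fun a => t0 (E a) (U a) (Q a)) := by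
  unfold t0
  refine ((((PT_eqArcs hQ (PT.const [])).and (PT_eqStr hU (PT.const [])).not).and
    (PT.le hU.length (PT.const 4))).and ?_).and ?_
  · refine PT.all (f := fun a u => decide (u ∈ (E a).map Prod.fst)) hU ?_
    refine PT.mem (l := fun p : α × ℕ => (E p.1).map Prod.fst) ?_ PT.snd'
    exact PT.map (l := fun p : α × ℕ => E p.1) (f := fun _ e => e.1) (hE.comp PT.fst') PT.snd'.fst
  · refine PT.all (f := fun a e => !(Bool.xor (decide (e.1 ∈ U a)) (decide (e.2 ∈ U a)))) hE ?_
    exact (PT.xor (PT.mem (hU.comp PT.fst') PT.snd'.fst)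
      (PT.mem (hU.comp PT.fst') PT.snd'.snd)).not

theorem PT_tMove {E : α → List (ℕ × ℕ)} {U : α → List ℕ} {Q : α → List (ℕ × ℕ)}
    (hE : PT A E) (hU : PT A U) (hQ : PT A Q) :
    PT A (fun a => tMove (E a) (U a) (Q a)) := by
  unfold tMove
  have hu0 : PT A (fun a => (U a).getD 0 0) := PT.getD hU (PT.const 0) (PT.const 0)
  have hu1 : PT A (fun a => (U a).getD 1 0) := PT.getD hU (PT.const 1) (PT.const 0)
  have hq0 : PT A (fun a => (Q a).getD 0 (0, 0)) := PT.getD hQ (PT.const 0) (PT.const (0, 0))
  have hq1 : PT A (fun a => (Q a).getD 1 (0, 0)) := PT.getD hQ (PT.const 1) (PT.const (0, 0))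
  have hb : PT A (fun a => ((inE ((U a).getD 0 0) (E a)).getD 0 (0, 0)).1) :=
    (PT.getD (PT_inE hu0 hE) (PT.const 0) (PT.const (0, 0))).fst
  exact ((((PT_t1 hE hU hQ hu0 hq0).or (PT_t1' hE hU hQ hu0 hb)).or
    (PT_t3 hE hU hQ hu0 hq0 hq1)).or (PT_t2 hE hU hQ hu0 hu1 hq0)).or (PT_t0 hE hU hQ)

end

/-! ### The list of all moves -/

/-- The list of all pairs of a short list of vertices and a short list of possible arcs. -/
def cands0 (E : List (ℕ × ℕ)) : List (List ℕ × List (ℕ × ℕ)) :=
  (upto (E.map Prod.fst) 4).flatMap (fun U =>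
    (upto ((E.map Prod.fst).flatMap (fun x => (E.map Prod.snd).map (fun y => (x, y)))) 2).map
      (fun Q => (U, Q)))

/-- The list of all moves. -/
def cands (E : List (ℕ × ℕ)) : List (List ℕ × List (ℕ × ℕ)) :=
  (cands0 E).filter (fun mv => tMove E mv.1 mv.2)

theorem PT_cands0 : PT ∅ cands0 := by
  have h1 : PT ∅ (fun E : List (ℕ × ℕ) => E.map Prod.fst) :=
    PT.map (l := fun E : List (ℕ × ℕ) => E) (f := fun _ e => e.1) PT.id PT.snd'.fst
  have h2 : PT ∅ (fun E : List (ℕ × ℕ) => E.map Prod.snd) :=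
    PT.map (l := fun E : List (ℕ × ℕ) => E) (f := fun _ e => e.2) PT.id PT.snd'.snd
  exact PT_pairs (PT_upto h1 4) (PT_upto (PT_pairs h1 h2) 2)

theorem PT_tMove' : PT ∅ (fun p : List (ℕ × ℕ) × (List ℕ × List (ℕ × ℕ)) =>
    tMove p.1 p.2.1 p.2.2) :=
  PT_tMove (E := fun p : List (ℕ × ℕ) × (List ℕ × List (ℕ × ℕ)) => p.1)
    (U := fun p => p.2.1) (Q := fun p => p.2.2) PT.fst' PT.snd'.fst PT.snd'.snd

theorem PT_cands : PT ∅ cands :=
  PT.filter (f := fun E (mv : List ℕ × List (ℕ × ℕ)) => tMove E mv.1 mv.2) PT_cands0 PT_tMove'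

theorem mem_inE {v : ℕ} {E : List (ℕ × ℕ)} {e : ℕ × ℕ} (h : e ∈ inE v E) : e ∈ E :=
  (List.mem_filter.1 h).1

theorem mem_outE {v : ℕ} {E : List (ℕ × ℕ)} {e : ℕ × ℕ} (h : e ∈ outE v E) : e ∈ E :=
  (List.mem_filter.1 h).1

theorem mem_V1 {E : List (ℕ × ℕ)} {x y : ℕ} (h : (x, y) ∈ E) : x ∈ E.map Prod.fst :=
  List.mem_map.2 ⟨(x, y), h, rfl⟩

theorem mem_V2 {E : List (ℕ × ℕ)} {x y : ℕ} (h : (x, y) ∈ E) : y ∈ E.map Prod.snd :=
  List.mem_map.2 ⟨(x, y), h, rfl⟩

theorem cands_complete {E : List (ℕ × ℕ)} {U : List ℕ} {Q : List (ℕ × ℕ)} (h : IsMove E U Q) :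
    (U.length ≤ 4 ∧ ∀ u ∈ U, u ∈ E.map Prod.fst) ∧ (Q.length ≤ 2 ∧ ∀ q ∈ Q,
      q ∈ (E.map Prod.fst).flatMap (fun x => (E.map Prod.snd).map (fun y => (x, y)))) := by
  cases h with
  | r1 v a c h1 h2 h3 =>
    have e1 : (a, v) ∈ E := mem_inE (v := v) (by rw [h1]; simp)
    have e2 : (v, c) ∈ E := mem_outE (v := v) (by rw [h2]; simp)
    refine ⟨⟨by simp, fun u hu => ?_⟩, by simp, fun q hq => ?_⟩
    · rw [List.mem_singleton] at hu
      rw [hu]
      exact mem_V1 e2
    · rw [List.mem_singleton] at hq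
      rw [hq]
      exact mem_pairs.2 ⟨mem_V1 e1, mem_V2 e2⟩
  | r1' v a h1 h2 =>
    have e2 : (v, a) ∈ E := mem_outE (v := v) (by rw [h2]; simp)
    refine ⟨⟨by simp, fun u hu => ?_⟩, by simp, fun q hq => by simp at hq⟩
    rw [List.mem_singleton] at hu
    rw [hu]
    exact mem_V1 e2
  | r3 v a b c d h1 h2 h3 h4 =>
    have e1 : (a, v) ∈ E := mem_inE (v := v) (by rw [h1]; simp)
    have e2 : (b, v) ∈ E := mem_inE (v := v) (by rw [h1]; simp)
    have e3 : (v, c) ∈ E := mem_outE (v := v) (h2.symm.subset (by simp))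
    have e4 : (v, d) ∈ E := mem_outE (v := v) (h2.symm.subset (by simp))
    refine ⟨⟨by simp, fun u hu => ?_⟩, by simp, fun q hq => ?_⟩
    · rw [List.mem_singleton] at hu
      rw [hu]
      exact mem_V1 e3
    · rcases List.mem_cons.1 hq with hq | hq
      · rw [hq]
        exact mem_pairs.2 ⟨mem_V1 e1, mem_V2 e3⟩
      · rw [List.mem_singleton] at hq
        rw [hq]
        exact mem_pairs.2 ⟨mem_V1 e2, mem_V2 e4⟩
  | r2 p q x y h1 h2 h3 h4 h5 h6 h7 =>
    have e1 : (x, p) ∈ E := mem_inE (v := p) (h1.symm.subset (by simp))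
    have e2 : (p, q) ∈ E := mem_outE (v := p) (by rw [h2]; simp)
    have e3 : (q, y) ∈ E := mem_outE (v := q) (h4.symm.subset (by simp))
    refine ⟨⟨by simp, fun u hu => ?_⟩, by simp, fun z hz => ?_⟩
    · rcases List.mem_cons.1 hu with hu | hu
      · rw [hu]
        exact mem_V1 e2
      · rw [List.mem_singleton] at hu
        rw [hu]
        exact mem_V1 e3
    · rw [List.mem_singleton] at hz
      rw [hz]
      exact mem_pairs.2 ⟨mem_V1 e1, mem_V2 e3⟩
  | m0 _ h1 h2 h3 h4 =>
    exact ⟨⟨h2, h3⟩, by simp, fun q hq => by simp at hq⟩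

theorem mem_cands (E : List (ℕ × ℕ)) (mv : List ℕ × List (ℕ × ℕ)) :
    mv ∈ cands E ↔ IsMove E mv.1 mv.2 := by
  obtain ⟨U, Q⟩ := mv
  rw [cands, cands0, List.mem_filter, mem_pairs, mem_upto, mem_upto]
  constructor
  · rintro ⟨-, h⟩
    exact (tMove_iff E U Q).1 h
  · intro h
    exact ⟨cands_complete h, (tMove_iff E U Q).2 h⟩

/-- Part C: the list of all moves is computable in polynomial time. -/
theorem moveCands : MoveCands := ⟨cands, PT_cands, mem_cands⟩

end Vale.Agent.P333.U
end
end

section

section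

set_option linter.all false

/-!
P333, upper bound: the path colouring algorithm (the reductions are undone from the last one to the
first one), its correctness, and its polynomial running time.
-/

namespace Vale.Agent.P333.U

open Vale.Agent.Lib.PolyTime

/-! ### Test whether a graph is good -/

theorem fst_mem_vtx {E : List (ℕ × ℕ)} {e : ℕ × ℕ} (h : e ∈ E) : e.1 ∈ vtx E :=
  List.mem_append_left _ (List.mem_map.2 ⟨e, h, rfl⟩)

theorem snd_mem_vtx {E : List (ℕ × ℕ)} {e : ℕ × ℕ} (h : e ∈ E) : e.2 ∈ vtx E :=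
  List.mem_append_right _ (List.mem_map.2 ⟨e, h, rfl⟩)

theorem outN_zero {E : List (ℕ × ℕ)} {v : ℕ} (h : v ∉ vtx E) : outN E v = 0 := by
  unfold outN
  rw [List.countP_eq_zero]
  intro e he hv
  rw [beq_iff_eq] at hv
  exact h (hv ▸ fst_mem_vtx he)

theorem inN_zero {E : List (ℕ × ℕ)} {v : ℕ} (h : v ∉ vtx E) : inN E v = 0 := by
  unfold inN
  rw [List.countP_eq_zero]
  intro e he hv
  rw [beq_iff_eq] at hv
  exact h (hv ▸ snd_mem_vtx he)

/-- Test whether `E` is good. -/
def goodB (E : List (ℕ × ℕ)) : Bool :=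
  (vtx E).all (fun v => decide (outN E v = inN E v) && decide (outN E v ≤ 2)) &&
  (E.all (fun e => !decide (e.1 = e.2)) &&
  (E.all (fun e => !(decide (2 ≤ E.count e) && decide (2 ≤ E.count (e.2, e.1)))) &&
  E.all (fun e => (vtx E).all (fun r => !(decide ((e.2, e.1) ∈ E) && (decide ((e.2, r) ∈ E) &&
    (decide ((r, e.2) ∈ E) && (decide ((r, e.1) ∈ E) && decide ((e.1, r) ∈ E)))))))))

theorem goodB_iff (E : List (ℕ × ℕ)) : goodB E = true ↔ GoodG E := by
  unfold goodB
  simp only [Bool.and_eq_true, List.all_eq_true, decide_eq_true_eq, Bool.not_eq_true',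
    Bool.and_eq_false_imp, decide_eq_false_iff_not]
  constructor
  · rintro ⟨h1, h2, h3, h4⟩
    refine ⟨fun v => ?_, fun v => ?_, h2, fun p q h => ?_, fun p q r h => ?_⟩
    · by_cases hv : v ∈ vtx E
      · exact (h1 v hv).1
      · rw [outN_zero hv, inN_zero hv]
    · by_cases hv : v ∈ vtx E
      · exact (h1 v hv).2
      · rw [outN_zero hv]; exact Nat.zero_le _
    · have hm : (p, q) ∈ E := List.count_pos_iff.1 (by omega)
      exact h3 (p, q) hm h.1 h.2
    · exact h4 (p, q) h.1 r (fst_mem_vtx h.2.2.2.2.1) h.2.1 h.2.2.1 h.2.2.2.1 h.2.2.2.2.1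
        h.2.2.2.2.2
  · intro h
    refine ⟨fun v _ => ⟨h.bal v, h.deg v⟩, h.loop, fun e _ h1 h2 => ?_, fun e he r _ h1 h2 h3 h4 h5 =>
      ?_⟩
    · exact h.noD2 e.1 e.2 ⟨h1, h2⟩
    · exact h.noK3 e.1 e.2 r ⟨he, h1, h2, h3, h4, h5⟩

/-! ### Test whether a set of arcs is a path system -/

/-- No directed cycle. -/
def Acyc (F : List (ℕ × ℕ)) : Prop := ∀ x, ¬ Relation.TransGen (fun a b => (a, b) ∈ F) x x

/-- Keep the arcs which can be prolonged. -/
def peel (F : List (ℕ × ℕ)) : List (ℕ × ℕ) := F.filter (fun e => decide (e.2 ∈ F.map Prod.fst))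

theorem mem_peel {F : List (ℕ × ℕ)} {e : ℕ × ℕ} : e ∈ peel F ↔ e ∈ F ∧ e.2 ∈ F.map Prod.fst := by
  unfold peel
  rw [List.mem_filter, decide_eq_true_eq]

theorem acyc_nil : Acyc [] := by
  intro x h
  have : ∀ x y, ¬ Relation.TransGen (fun a b : ℕ => (a, b) ∈ ([] : List (ℕ × ℕ))) x y := by
    intro x y h
    induction h with
    | single h => simp at h
    | tail _ _ ih => exact ih
  exact this x x h

theorem acyc_peel {F : List (ℕ × ℕ)} (h : Acyc F) : Acyc (peel F) := by
  intro x hx
  refine h x ?_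
  have key : ∀ {a b : ℕ}, Relation.TransGen (fun a b => (a, b) ∈ peel F) a b →
      Relation.TransGen (fun a b => (a, b) ∈ F) a b := by
    intro a b hab
    induction hab with
    | single h => exact .single (mem_peel.1 h).1
    | tail _ h ih => exact .tail ih (mem_peel.1 h).1
  exact key hx

theorem trans_peel {F : List (ℕ × ℕ)} {x y : ℕ}
    (h : Relation.TransGen (fun a b => (a, b) ∈ F) x y) :
    y ∈ F.map Prod.fst → Relation.TransGen (fun a b => (a, b) ∈ peel F) x y := by
  induction h with
  | single h => exact fun hy => .single (mem_peel.2 ⟨h, hy⟩)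
  | tail h1 h2 ih =>
    exact fun hy => .tail (ih (List.mem_map.2 ⟨_, h2, rfl⟩)) (mem_peel.2 ⟨h2, hy⟩)

theorem trans_src {F : List (ℕ × ℕ)} {x y : ℕ}
    (h : Relation.TransGen (fun a b => (a, b) ∈ F) x y) : x ∈ F.map Prod.fst := by
  induction h with
  | single h => exact List.mem_map.2 ⟨_, h, rfl⟩
  | tail _ _ ih => exact ih

theorem not_acyc_peel {F : List (ℕ × ℕ)} (h : ¬ Acyc F) : ¬ Acyc (peel F) := by
  intro hp
  apply h
  intro x hx
  exact hp x (trans_peel hx (trans_src hx))

theorem exists_end {F : List (ℕ × ℕ)} (h : Acyc F) (hF : F ≠ []) :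
    ∃ e ∈ F, e.2 ∉ F.map Prod.fst := by
  by_contra hc
  have hc' : ∀ e ∈ F, e.2 ∈ F.map Prod.fst := by
    intro e he
    by_contra h'
    exact hc ⟨e, he, h'⟩
  have h1 : ∀ x : {x // x ∈ F.map Prod.fst}, ∃ y : {x // x ∈ F.map Prod.fst}, (x.1, y.1) ∈ F := by
    rintro ⟨x, hx⟩
    obtain ⟨e, he, rfl⟩ := List.mem_map.1 hx
    exact ⟨⟨e.2, hc' e he⟩, he⟩
  choose nxt hn using h1
  obtain ⟨e, he⟩ := List.exists_mem_of_ne_nil F hF
  let x0 : {x // x ∈ F.map Prod.fst} := ⟨e.1, List.mem_map.2 ⟨e, he, rfl⟩⟩
  let f : ℕ → {x // x ∈ F.map Prod.fst} := fun n => nxt^[n] x0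
  have hf : ∀ n, ((f n).1, (f (n + 1)).1) ∈ F := by
    intro n
    show ((nxt^[n] x0).1, (nxt^[n + 1] x0).1) ∈ F
    rw [Function.iterate_succ_apply']
    exact hn _
  obtain ⟨i, j, hij, hfij⟩ := Finite.exists_ne_map_eq_of_infinite f
  have key : ∀ i j, i < j → f i = f j → False := by
    intro i j hij hfij
    have h2 : Relation.TransGen (fun a b : ℕ => (a, b) ∈ F) (f i).1 (f j).1 :=
      Nat.rel_of_forall_rel_succ_of_lt (r := Relation.TransGen (fun a b : ℕ => (a, b) ∈ F))
        (f := fun n => (f n).1) (fun n => .single (hf n)) hij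
    rw [← hfij] at h2
    exact h _ h2
  rcases lt_or_gt_of_ne hij with h' | h'
  · exact key i j h' hfij
  · exact key j i h' hfij.symm

theorem peel_lt {F : List (ℕ × ℕ)} (h : Acyc F) (hF : F ≠ []) : (peel F).length < F.length := by
  obtain ⟨e, he, he'⟩ := exists_end h hF
  unfold peel
  exact List.length_filter_lt_length_iff_exists.2 ⟨e, he, by simpa only [List.mem_map, Prod.exists, exists_and_right, exists_eq_right, decide_eq_true_eq, not_exists] using     he'⟩

theorem peel_acyc : ∀ (n : ℕ) (F : List (ℕ × ℕ)), Acyc F → F.length ≤ n → peel^[n] F = [] := by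
  intro n
  induction n with
  | zero =>
    intro F _ hl
    exact List.eq_nil_of_length_eq_zero (Nat.le_zero.1 hl)
  | succ n ih =>
    intro F h hl
    rw [Function.iterate_succ_apply]
    by_cases hF : F = []
    · subst hF
      exact ih _ (acyc_peel h) (Nat.zero_le _)
    · exact ih _ (acyc_peel h) (by have := peel_lt h hF; omega)

theorem peel_not_acyc : ∀ (n : ℕ) (F : List (ℕ × ℕ)), ¬ Acyc F → peel^[n] F ≠ [] := by
  intro n
  induction n with
  | zero =>
    intro F h h'
    exact h (by rw [show F = [] from h']; exact acyc_nil)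
  | succ n ih =>
    intro F h
    rw [Function.iterate_succ_apply]
    exact ih _ (not_acyc_peel h)

/-- Test for cycles. -/
def acycB (F : List (ℕ × ℕ)) : Bool := (peel^[F.length] F).isEmpty

theorem acycB_iff (F : List (ℕ × ℕ)) : acycB F = true ↔ Acyc F := by
  unfold acycB
  rw [List.isEmpty_iff]
  constructor
  · intro h
    by_contra h'
    exact peel_not_acyc _ _ h' h
  · exact fun h => peel_acyc _ _ h le_rfl

/-- Test whether `F` is a path system. -/
def pathB (F : List (ℕ × ℕ)) : Bool :=
  decide ((F.map Prod.fst).Pairwise (· ≠ ·)) && (decide ((F.map Prod.snd).Pairwise (· ≠ ·)) &&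
    acycB F)

theorem pathB_iff (F : List (ℕ × ℕ)) : pathB F = true ↔ PathSys F := by
  unfold pathB
  rw [Bool.and_eq_true, Bool.and_eq_true, acycB_iff, decide_eq_true_eq, decide_eq_true_eq]
  exact ⟨fun h => ⟨h.1, h.2.1, h.2.2⟩, fun h => ⟨h.out, h.inn, h.acyc⟩⟩

/-! ### Test of colourings -/

/-- Forget the colours. -/
def strip (K : List (ℕ × ℕ × ℕ)) : List (ℕ × ℕ) := K.map (fun e => (e.1, e.2.1))

/-- Test whether `K` is a path colouring. -/
def validB (E : List (ℕ × ℕ)) (K : List (ℕ × ℕ × ℕ)) : Bool :=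
  (E ++ strip K).all (fun x => decide ((strip K).count x = E.count x)) &&
  (K.all (fun e => decide (e.2.2 < 3)) &&
  ((pathB (cls K 0) && (pathB (cls K 1) && pathB (cls K 2))) &&
  K.all (fun e => K.all (fun f => !(decide (e.2.1 = f.1) && (decide (outN E f.1 = 1) &&
    decide (e.2.2 = f.2.2)))))))

theorem validB_iff (E : List (ℕ × ℕ)) (K : List (ℕ × ℕ × ℕ)) : validB E K = true ↔ Col E K := by
  unfold validB
  simp only [Bool.and_eq_true, List.all_eq_true, decide_eq_true_eq, Bool.not_eq_true',
    Bool.and_eq_false_imp, decide_eq_false_iff_not, pathB_iff]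
  constructor
  · rintro ⟨h1, h2, ⟨h3, h4, h5⟩, h6⟩
    refine ⟨?_, h2, fun κ => ?_, fun e he f hf h h' => h6 e he f hf h h'⟩
    · rw [List.perm_iff_count]
      intro x
      by_cases hx : x ∈ E ++ strip K
      · exact h1 x hx
      · rw [List.mem_append, not_or] at hx
        rw [List.count_eq_zero_of_not_mem hx.1]
        exact List.count_eq_zero_of_not_mem hx.2
    · rcases Nat.lt_or_ge κ 3 with h | h
      · interval_cases κ
        · exact h3
        · exact h4
        · exact h5
      · have : cls K κ = [] := by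
          unfold cls
          rw [List.map_eq_nil_iff, List.filter_eq_nil_iff]
          intro e he h'
          rw [beq_iff_eq] at h'
          have := h2 e he
          omega
        rw [this]
        exact ⟨by simp, by simp, acyc_nil⟩
  · intro h
    refine ⟨fun x _ => ?_, h.lt, ⟨h.path 0, h.path 1, h.path 2⟩, fun e he f hf h1 h2 =>
      h.flag e he f hf h1 h2⟩
    exact List.perm_iff_count.1 h.perm x

theorem col_nil : Col [] [] := by
  refine ⟨by simp, by simp, fun κ => ?_, by simp only [List.not_mem_nil, ne_eq, IsEmpty.forall_iff, implies_true]⟩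
  rw [show cls [] κ = [] from rfl]
  exact ⟨by simp, by simp, acyc_nil⟩

/-! ### The algorithm -/

/-- Is the move admissible? -/
def okMv (E : List (ℕ × ℕ)) (mv : List ℕ × List (ℕ × ℕ)) : Bool :=
  goodB (moveE mv E) && (decide ((moveE mv E).length < E.length) &&
    mv.2.all (fun e => decide (e.1 ∈ vtx E) && decide (e.2 ∈ vtx E)))

/-- First admissible candidate. -/
def stepM (cands : List (ℕ × ℕ) → List (List ℕ × List (ℕ × ℕ))) (E : List (ℕ × ℕ)) :
    Option (List ℕ × List (ℕ × ℕ)) := (cands E).find? (fun mv => okMv E mv)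

/-- Extension of a colouring. -/
def extK (E : List (ℕ × ℕ)) (mv : List ℕ × List (ℕ × ℕ)) (K : List (ℕ × ℕ × ℕ)) :
    List (ℕ × ℕ × ℕ) :=
  (((vecs 8).map (fun cs => eraseQ K mv.2 ++ paint (incE mv.1 E) cs)).find?
    (fun K' => validB E K')).getD []

/-- The algorithm in recursive form. -/
def runC (cands : List (ℕ × ℕ) → List (List ℕ × List (ℕ × ℕ))) :
    ℕ → List (ℕ × ℕ) → List (ℕ × ℕ × ℕ)
  | 0, _ => []
  | n + 1, E =>
    match stepM cands E with
    | none => runC cands n E
    | some mv => extK E mv (runC cands n (moveE mv E))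

/-- A stack of graphs and moves. -/
abbrev Stk : Type := List (List (ℕ × ℕ) × (List ℕ × List (ℕ × ℕ)))

/-- One reduction. -/
def fw (cands : List (ℕ × ℕ) → List (List ℕ × List (ℕ × ℕ))) (s : List (ℕ × ℕ) × Stk) :
    List (ℕ × ℕ) × Stk :=
  match stepM cands s.1 with
  | none => s
  | some mv => (moveE mv s.1, (s.1, mv) :: s.2)

/-- Undo the reductions. -/
def unw (stk : Stk) (K : List (ℕ × ℕ × ℕ)) : List (ℕ × ℕ × ℕ) :=
  stk.foldl (fun K p => extK p.1 p.2 K) K

/-- The algorithm. -/
def colA (cands : List (ℕ × ℕ) → List (List ℕ × List (ℕ × ℕ))) (E : List (ℕ × ℕ)) :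
    List (ℕ × ℕ × ℕ) := unw ((fw cands)^[E.length] (E, [])).2 []

theorem unw_fw (cands : List (ℕ × ℕ) → List (List ℕ × List (ℕ × ℕ))) :
    ∀ (n : ℕ) (E : List (ℕ × ℕ)) (stk : Stk),
      unw ((fw cands)^[n] (E, stk)).2 [] = unw stk (runC cands n E) := by
  intro n
  induction n with
  | zero => intro E stk; rfl
  | succ n ih =>
    intro E stk
    rw [Function.iterate_succ_apply]
    rcases h : stepM cands E with _ | mv
    · have h1 : fw cands (E, stk) = (E, stk) := by
        unfold fw
        simp only [h]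
      have h2 : runC cands (n + 1) E = runC cands n E := by
        simp only [runC, h]
      rw [h1, h2, ih]
    · have h1 : fw cands (E, stk) = (moveE mv E, (E, mv) :: stk) := by
        unfold fw
        simp only [h]
      have h2 : runC cands (n + 1) E = extK E mv (runC cands n (moveE mv E)) := by
        simp only [runC, h]
      rw [h1, h2, ih]
      rfl

theorem colA_eq (cands : List (ℕ × ℕ) → List (List ℕ × List (ℕ × ℕ))) (E : List (ℕ × ℕ)) :
    colA cands E = runC cands E.length E := unw_fw cands _ _ _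

/-- The properties of the candidate moves. -/
def Cands (cands : List (ℕ × ℕ) → List (List ℕ × List (ℕ × ℕ))) : Prop :=
  ∀ E, GoodG E →
    (E ≠ [] → ∃ mv ∈ cands E, GoodG (moveE mv E)) ∧
    ∀ mv ∈ cands E, GoodG (moveE mv E) →
      (moveE mv E).length < E.length ∧
      (∀ e ∈ mv.2, e.1 ∈ vtx E ∧ e.2 ∈ vtx E) ∧
      ∀ K, Col (moveE mv E) K →
        ∃ cs ∈ vecs 8, Col E (eraseQ K mv.2 ++ paint (incE mv.1 E) cs)

theorem okMv_iff (E : List (ℕ × ℕ)) (mv : List ℕ × List (ℕ × ℕ)) : okMv E mv = true ↔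
    GoodG (moveE mv E) ∧ (moveE mv E).length < E.length ∧
      ∀ e ∈ mv.2, e.1 ∈ vtx E ∧ e.2 ∈ vtx E := by
  unfold okMv
  simp only [Bool.and_eq_true, List.all_eq_true, decide_eq_true_eq, goodB_iff]

theorem col_extK {E : List (ℕ × ℕ)} {mv : List ℕ × List (ℕ × ℕ)} {K : List (ℕ × ℕ × ℕ)}
    (h : ∃ cs ∈ vecs 8, Col E (eraseQ K mv.2 ++ paint (incE mv.1 E) cs)) :
    Col E (extK E mv K) := by
  obtain ⟨cs, hcs, hc⟩ := h
  unfold extK
  rcases h' : ((vecs 8).map (fun cs => eraseQ K mv.2 ++ paint (incE mv.1 E) cs)).find?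
    (fun K' => validB E K') with _ | K'
  · exfalso
    rw [List.find?_eq_none] at h'
    exact h' _ (List.mem_map.2 ⟨cs, hcs, rfl⟩) ((validB_iff _ _).2 hc)
  · exact (validB_iff _ _).1 (List.find?_some h')

theorem runC_col {cands : List (ℕ × ℕ) → List (List ℕ × List (ℕ × ℕ))} (hc : Cands cands) :
    ∀ (n : ℕ) (E : List (ℕ × ℕ)), GoodG E → E.length ≤ n → Col E (runC cands n E) := by
  intro n
  induction n with
  | zero =>
    intro E _ hl
    rw [List.eq_nil_of_length_eq_zero (Nat.le_zero.1 hl)]
    exact col_nil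
  | succ n ih =>
    intro E hg hl
    rcases h : stepM cands E with _ | mv
    · have h2 : runC cands (n + 1) E = runC cands n E := by
        simp only [runC, h]
      rw [h2]
      by_cases hE : E = []
      · subst hE
        exact ih _ hg (Nat.zero_le _)
      · exfalso
        unfold stepM at h
        rw [List.find?_eq_none] at h
        obtain ⟨mv, hm, hg'⟩ := (hc E hg).1 hE
        obtain ⟨h3, h4, -⟩ := (hc E hg).2 mv hm hg'
        exact h mv hm ((okMv_iff _ _).2 ⟨hg', h3, h4⟩)
    · have h2 : runC cands (n + 1) E = extK E mv (runC cands n (moveE mv E)) := by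
        simp only [runC, h]
      rw [h2]
      unfold stepM at h
      have h3 := (okMv_iff _ _).1 (List.find?_some h)
      have h4 := List.mem_of_find?_eq_some h
      exact col_extK (((hc E hg).2 mv h4 h3.1).2.2 _ (ih _ h3.1 (by omega)))

theorem colA_col {cands : List (ℕ × ℕ) → List (List ℕ × List (ℕ × ℕ))} (hc : Cands cands)
    (E : List (ℕ × ℕ)) (hE : GoodG E) : Col E (colA cands E) := by
  rw [colA_eq]
  exact runC_col hc _ _ hE le_rfl

/-! ### Polynomial time -/

section PTime

variable {A : Set Word} {α γ : Type*} [Enc α] [Enc γ]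

theorem pt_countP {l : α → List γ} {f : α → γ → Bool} (hl : PT A l)
    (hf : PT A (fun p : α × γ => f p.1 p.2)) : PT A (fun a => (l a).countP (f a)) :=
  (PT.filter hl hf).length.congr fun a => (List.countP_eq_length_filter).symm

theorem pt_beq {f g : α → ℕ} (hf : PT A f) (hg : PT A g) : PT A (fun a => (f a == g a)) :=
  (PT.eqNat hf hg).congr fun a => by rw [Bool.eq_iff_iff]; simp

theorem pt_eq2 : PT A (fun p : (ℕ × ℕ) × (ℕ × ℕ) => decide (p.1 = p.2)) :=
  ((PT.eqNat PT.fst'.fst PT.snd'.fst).and (PT.eqNat PT.fst'.snd PT.snd'.snd)).congr fun p => by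
    rw [Bool.eq_iff_iff]; simp [Prod.ext_iff]

theorem pt_outN {E : α → List (ℕ × ℕ)} {v : α → ℕ} (hE : PT A E) (hv : PT A v) :
    PT A (fun a => outN (E a) (v a)) :=
  pt_countP (f := fun (a : α) (e : ℕ × ℕ) => (e.1 == v a)) hE (pt_beq PT.snd'.fst (hv.comp PT.fst'))

theorem pt_inN {E : α → List (ℕ × ℕ)} {v : α → ℕ} (hE : PT A E) (hv : PT A v) :
    PT A (fun a => inN (E a) (v a)) :=
  pt_countP (f := fun (a : α) (e : ℕ × ℕ) => (e.2 == v a)) hE (pt_beq PT.snd'.snd (hv.comp PT.fst'))

theorem pt_mem2 {l : α → List (ℕ × ℕ)} {x : α → ℕ × ℕ} (hl : PT A l) (hx : PT A x) :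
    PT A (fun a => decide (x a ∈ l a)) :=
  (PT.mem' pt_eq2 hl hx).congr fun a => by rw [Bool.eq_iff_iff]; simp

theorem pt_count2 {l : α → List (ℕ × ℕ)} {x : α → ℕ × ℕ} (hl : PT A l) (hx : PT A x) :
    PT A (fun a => (l a).count (x a)) :=
  (pt_countP (f := fun a e => decide (e = x a)) hl (pt_eq2.comp (PT.snd'.pair (hx.comp PT.fst')))).congr
    fun a => by
      unfold List.count
      congr 1
      funext e
      rw [Bool.eq_iff_iff]; simp

theorem pt_map1 {l : α → List (ℕ × ℕ)} (hl : PT A l) : PT A (fun a => (l a).map Prod.fst) :=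
  PT.map (f := fun _ e => Prod.fst e) hl PT.snd'.fst

theorem pt_map2 {l : α → List (ℕ × ℕ)} (hl : PT A l) : PT A (fun a => (l a).map Prod.snd) :=
  PT.map (f := fun _ e => Prod.snd e) hl PT.snd'.snd

theorem pt_vtx {l : α → List (ℕ × ℕ)} (hl : PT A l) : PT A (fun a => vtx (l a)) :=
  PT.append (pt_map1 hl) (pt_map2 hl)

theorem pt_goodB : PT A goodB := by
  have e1 : PT A (fun E : List (ℕ × ℕ) => (vtx E).all
      (fun v => decide (outN E v = inN E v) && decide (outN E v ≤ 2))) :=
    PT.all (f := fun E v => decide (outN E v = inN E v) && decide (outN E v ≤ 2)) (pt_vtx PT.id)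
      ((PT.eqNat (pt_outN PT.fst' PT.snd') (pt_inN PT.fst' PT.snd')).and
        (PT.le (pt_outN PT.fst' PT.snd') (PT.const 2)))
  have e2 : PT A (fun E : List (ℕ × ℕ) => E.all (fun e => !decide (e.1 = e.2))) :=
    PT.all (f := fun (_ : List (ℕ × ℕ)) (e : ℕ × ℕ) => !decide (e.1 = e.2)) PT.id (PT.eqNat PT.snd'.fst PT.snd'.snd).not
  have e3 : PT A (fun E : List (ℕ × ℕ) => E.all (fun e => !(decide (2 ≤ E.count e) &&
      decide (2 ≤ E.count (e.2, e.1))))) :=
    PT.all (f := fun (E : List (ℕ × ℕ)) (e : ℕ × ℕ) => !(decide (2 ≤ E.count e) && decide (2 ≤ E.count (e.2, e.1)))) PT.id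
      (((PT.le (PT.const 2) (pt_count2 PT.fst' PT.snd')).and (PT.le (PT.const 2)
        (pt_count2 PT.fst' (PT.snd'.snd.pair PT.snd'.fst)))).not)
  have e4 : PT A (fun E : List (ℕ × ℕ) => E.all (fun e => (vtx E).all (fun r =>
      !(decide ((e.2, e.1) ∈ E) && (decide ((e.2, r) ∈ E) &&
      (decide ((r, e.2) ∈ E) && (decide ((r, e.1) ∈ E) && decide ((e.1, r) ∈ E)))))))) := by
    refine PT.all (f := fun (E : List (ℕ × ℕ)) (e : ℕ × ℕ) => (vtx E).all (fun r =>
      !(decide ((e.2, e.1) ∈ E) && (decide ((e.2, r) ∈ E) &&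
      (decide ((r, e.2) ∈ E) && (decide ((r, e.1) ∈ E) && decide ((e.1, r) ∈ E))))))) PT.id ?_
    refine PT.all (f := fun (p : List (ℕ × ℕ) × (ℕ × ℕ)) r =>
      !(decide ((p.2.2, p.2.1) ∈ p.1) && (decide ((p.2.2, r) ∈ p.1) &&
      (decide ((r, p.2.2) ∈ p.1) && (decide ((r, p.2.1) ∈ p.1) && decide ((p.2.1, r) ∈ p.1))))))
      (pt_vtx PT.fst') ?_
    have hE : PT A (fun q : (List (ℕ × ℕ) × (ℕ × ℕ)) × ℕ => q.1.1) := PT.fst'.fst
    have hp : PT A (fun q : (List (ℕ × ℕ) × (ℕ × ℕ)) × ℕ => q.1.2.1) := PT.fst'.snd.fst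
    have hq : PT A (fun q : (List (ℕ × ℕ) × (ℕ × ℕ)) × ℕ => q.1.2.2) := PT.fst'.snd.snd
    have hr : PT A (fun q : (List (ℕ × ℕ) × (ℕ × ℕ)) × ℕ => q.2) := PT.snd'
    exact ((pt_mem2 hE (hq.pair hp)).and ((pt_mem2 hE (hq.pair hr)).and ((pt_mem2 hE (hr.pair hq)).and
      ((pt_mem2 hE (hr.pair hp)).and (pt_mem2 hE (hp.pair hr)))))).not
  exact e1.and (e2.and (e3.and e4))

theorem pt_peel : PT A peel :=
  PT.filter (f := fun F e => decide (e.2 ∈ F.map Prod.fst)) PT.id
    (PT.mem (pt_map1 PT.fst') PT.snd'.snd)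

theorem peel_sublist (F : List (ℕ × ℕ)) : (peel F).Sublist F := List.filter_sublist

theorem peel_iter_sublist (F : List (ℕ × ℕ)) (j : ℕ) : (peel^[j] F).Sublist F := by
  induction j with
  | zero => exact List.Sublist.refl _
  | succ j ih =>
    rw [Function.iterate_succ_apply']
    exact (peel_sublist _).trans ih

theorem pt_acycB : PT A acycB := by
  refine PT.isEmpty (PT.iterate (k := fun F : List (ℕ × ℕ) => F.length) (init := fun F => F)
    PT.id.length (PBd.length (PT.id (A := A))) PT.id pt_peel (b := fun F => esize F) PBd.esize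
    fun F j _ => esize_le_of_sublist (peel_iter_sublist F j))

theorem pt_pathB {F : α → List (ℕ × ℕ)} (hF : PT A F) : PT A (fun a => pathB (F a)) := by
  have h1 : ∀ {l : α → List ℕ}, PT A l → PT A (fun a => decide ((l a).Pairwise (· ≠ ·))) :=
    fun hl => (PT.pairwise (r := fun x y : ℕ => x ≠ y)
      ((PT.eqNat PT.fst' PT.snd').not.congr fun p => by simp) hl)
  exact (h1 (pt_map1 hF)).and ((h1 (pt_map2 hF)).and (pt_acycB.comp hF))

theorem pt_strip {K : α → List (ℕ × ℕ × ℕ)} (hK : PT A K) : PT A (fun a => strip (K a)) :=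
  PT.map (f := fun _ (e : ℕ × ℕ × ℕ) => (e.1, e.2.1)) hK (PT.snd'.fst.pair PT.snd'.snd.fst)

theorem pt_cls {K : α → List (ℕ × ℕ × ℕ)} (hK : PT A K) (κ : ℕ) : PT A (fun a => cls (K a) κ) :=
  PT.map (f := fun _ (e : ℕ × ℕ × ℕ) => (e.1, e.2.1)) (PT.filter (f := fun _ (e : ℕ × ℕ × ℕ) => (e.2.2 == κ)) hK
    (pt_beq PT.snd'.snd.snd (PT.const κ))) (PT.snd'.fst.pair PT.snd'.snd.fst)

theorem pt_validB {E : α → List (ℕ × ℕ)} {K : α → List (ℕ × ℕ × ℕ)} (hE : PT A E) (hK : PT A K) :
    PT A (fun a => validB (E a) (K a)) := by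
  have e1 : PT A (fun a => (E a ++ strip (K a)).all
      (fun x => decide ((strip (K a)).count x = (E a).count x))) :=
    PT.all (f := fun a x => decide ((strip (K a)).count x = (E a).count x))
      (PT.append hE (pt_strip hK)) (PT.eqNat (pt_count2 ((pt_strip hK).comp PT.fst') PT.snd')
        (pt_count2 (hE.comp PT.fst') PT.snd'))
  have e2 : PT A (fun a => (K a).all (fun e => decide (e.2.2 < 3))) :=
    PT.all (f := fun _ e => decide (e.2.2 < 3)) hK (PT.lt PT.snd'.snd.snd (PT.const 3))
  have e3 : ∀ κ : ℕ, PT A (fun a => pathB (cls (K a) κ)) := fun κ => pt_pathB (pt_cls hK κ)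
  have e4 : PT A (fun a => (K a).all (fun e => (K a).all (fun f => !(decide (e.2.1 = f.1) &&
      (decide (outN (E a) f.1 = 1) && decide (e.2.2 = f.2.2)))))) := by
    refine PT.all (f := fun a e => (K a).all (fun f => !(decide (e.2.1 = f.1) &&
      (decide (outN (E a) f.1 = 1) && decide (e.2.2 = f.2.2))))) hK ?_
    refine PT.all (f := fun (p : α × (ℕ × ℕ × ℕ)) f => !(decide (p.2.2.1 = f.1) &&
      (decide (outN (E p.1) f.1 = 1) && decide (p.2.2.2 = f.2.2)))) (hK.comp PT.fst') ?_
    exact ((PT.eqNat PT.fst'.snd.snd.fst PT.snd'.fst).and ((PT.eqNat (pt_outN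
      (hE.comp PT.fst'.fst) PT.snd'.fst) (PT.const 1)).and (PT.eqNat PT.fst'.snd.snd.snd
      PT.snd'.snd.snd))).not
  exact e1.and (e2.and (((e3 0).and ((e3 1).and (e3 2))).and e4))

theorem pt_incE {U : α → List ℕ} {E : α → List (ℕ × ℕ)} (hU : PT A U) (hE : PT A E) :
    PT A (fun a => incE (U a) (E a)) :=
  PT.filter (f := fun (a : α) (e : ℕ × ℕ) => decide (e.1 ∈ U a) || decide (e.2 ∈ U a)) hE
    ((PT.mem (hU.comp PT.fst') PT.snd'.fst).or (PT.mem (hU.comp PT.fst') PT.snd'.snd))

theorem pt_remE {U : α → List ℕ} {E : α → List (ℕ × ℕ)} (hU : PT A U) (hE : PT A E) :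
    PT A (fun a => remE (U a) (E a)) :=
  PT.filter (f := fun (a : α) (e : ℕ × ℕ) => !(decide (e.1 ∈ U a) || decide (e.2 ∈ U a))) hE
    ((PT.mem (hU.comp PT.fst') PT.snd'.fst).or (PT.mem (hU.comp PT.fst') PT.snd'.snd)).not

theorem pt_moveE {mv : α → List ℕ × List (ℕ × ℕ)} {E : α → List (ℕ × ℕ)} (hm : PT A mv)
    (hE : PT A E) : PT A (fun a => moveE (mv a) (E a)) :=
  PT.append (pt_remE hm.fst hE) hm.snd

theorem pt_paint {R : α → List (ℕ × ℕ)} {cs : α → List ℕ} (hR : PT A R) (hc : PT A cs) :
    PT A (fun a => paint (R a) (cs a)) :=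
  PT.map (f := fun _ (p : (ℕ × ℕ) × ℕ) => (p.1.1, p.1.2, p.2)) (PT.zip hR hc)
    (PT.snd'.fst.fst.pair (PT.snd'.fst.snd.pair PT.snd'.snd))

/-- `eraseP` by take-while and drop-while. -/
theorem eraseP_eq {δ : Type*} (p : δ → Bool) (l : List δ) :
    l.eraseP p = l.takeWhile (fun x => !p x) ++ (l.dropWhile (fun x => !p x)).tail := by
  induction l with
  | nil => rfl
  | cons x l ih =>
    by_cases h : p x
    · rw [List.eraseP_cons_of_pos h]
      simp [h]
    · rw [List.eraseP_cons_of_neg h, ih]
      simp [h]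

theorem pt_eraseP {l : α → List γ} {f : α → γ → Bool} (hl : PT A l)
    (hf : PT A (fun p : α × γ => f p.1 p.2)) : PT A (fun a => (l a).eraseP (f a)) :=
  (PT.append (PT.takeWhile (f := fun a x => !f a x) hl hf.not)
    (PT.dropWhile (f := fun a x => !f a x) hl hf.not).tail).congr fun a => (eraseP_eq _ _).symm

theorem eraseQ_sublist (Q : List (ℕ × ℕ)) : ∀ K : List (ℕ × ℕ × ℕ), (eraseQ K Q).Sublist K := by
  unfold eraseQ
  induction Q with
  | nil => intro K; exact List.Sublist.refl _
  | cons q Q ih =>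
    intro K
    rw [List.foldl_cons]
    exact (ih _).trans List.eraseP_sublist

theorem pt_eraseQ {K : α → List (ℕ × ℕ × ℕ)} {Q : α → List (ℕ × ℕ)} (hK : PT A K) (hQ : PT A Q) :
    PT A (fun a => eraseQ (K a) (Q a)) := by
  refine PT.foldl (f := fun _ K q => K.eraseP (fun e => decide (e.1 = q.1) && decide (e.2.1 = q.2)))
    hQ hK ?_ (b := fun a => esize (K a)) hK.pbd fun a i => ?_
  · exact pt_eraseP (f := fun (p : α × List (ℕ × ℕ × ℕ) × (ℕ × ℕ)) (e : ℕ × ℕ × ℕ) =>
      decide (e.1 = p.2.2.1) && decide (e.2.1 = p.2.2.2)) PT.snd'.fst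
      ((PT.eqNat PT.snd'.fst PT.fst'.snd.snd.fst).and
        (PT.eqNat PT.snd'.snd.fst PT.fst'.snd.snd.snd))
  · exact esize_le_of_sublist (eraseQ_sublist _ _)

theorem pt_okMv {E : α → List (ℕ × ℕ)} {mv : α → List ℕ × List (ℕ × ℕ)} (hE : PT A E)
    (hm : PT A mv) : PT A (fun a => okMv (E a) (mv a)) := by
  have e3 : PT A (fun a => (mv a).2.all (fun e => decide (e.1 ∈ vtx (E a)) &&
      decide (e.2 ∈ vtx (E a)))) :=
    PT.all (f := fun a e => decide (e.1 ∈ vtx (E a)) && decide (e.2 ∈ vtx (E a))) hm.snd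
      ((PT.mem ((pt_vtx hE).comp PT.fst') PT.snd'.fst).and
        (PT.mem ((pt_vtx hE).comp PT.fst') PT.snd'.snd))
  exact (pt_goodB.comp (pt_moveE hm hE)).and ((PT.lt (pt_moveE hm hE).length hE.length).and e3)

theorem pt_stepM {cands : List (ℕ × ℕ) → List (List ℕ × List (ℕ × ℕ))} (hc : PT A cands) :
    PT A (stepM cands) :=
  PT.find? (f := fun E mv => okMv E mv) hc (pt_okMv PT.fst' PT.snd')

theorem pt_extK {E : α → List (ℕ × ℕ)} {mv : α → List ℕ × List (ℕ × ℕ)}
    {K : α → List (ℕ × ℕ × ℕ)} (hE : PT A E) (hm : PT A mv) (hK : PT A K) :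
    PT A (fun a => extK (E a) (mv a) (K a)) := by
  have h1 : PT A (fun a => (vecs 8).map (fun cs => eraseQ (K a) (mv a).2 ++
      paint (incE (mv a).1 (E a)) cs)) :=
    PT.map (f := fun a cs => eraseQ (K a) (mv a).2 ++ paint (incE (mv a).1 (E a)) cs)
      (PT.const (vecs 8)) (PT.append ((pt_eraseQ hK hm.snd).comp PT.fst')
        (pt_paint ((pt_incE hm.fst hE).comp PT.fst') PT.snd'))
  exact PT.optGetD (PT.find? (f := fun a K' => validB (E a) K') h1
    (pt_validB (hE.comp PT.fst') PT.snd')) (PT.const [])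

theorem pt_fw {cands : List (ℕ × ℕ) → List (List ℕ × List (ℕ × ℕ))} (hc : PT A cands) :
    PT A (fw cands) := by
  refine (PT.optCase (o := fun s : List (ℕ × ℕ) × Stk => stepM cands s.1) (f := fun s => s)
    (g := fun s mv => (moveE mv s.1, (s.1, mv) :: s.2)) ((pt_stepM hc).comp PT.fst') PT.id
    ((pt_moveE PT.snd' PT.fst'.fst).pair (PT.cons (PT.fst'.fst.pair PT.snd') PT.fst'.snd))).congr
    fun s => ?_
  unfold fw
  rcases stepM cands s.1 with _ | mv <;> rfl

end PTime

/-! ### Sizes -/

theorem vtx_sub {E : List (ℕ × ℕ)} {V : List ℕ} (h : ∀ e ∈ E, e.1 ∈ V ∧ e.2 ∈ V) :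
    ∀ v ∈ vtx E, v ∈ V := by
  intro v hv
  rcases List.mem_append.1 hv with hv | hv
  · obtain ⟨e, he, rfl⟩ := List.mem_map.1 hv
    exact (h e he).1
  · obtain ⟨e, he, rfl⟩ := List.mem_map.1 hv
    exact (h e he).2

theorem esize_vtx {E : List (ℕ × ℕ)} : ∀ v ∈ vtx E, esize v ≤ esize E := by
  intro v hv
  rcases List.mem_append.1 hv with hv | hv
  · obtain ⟨e, he, rfl⟩ := List.mem_map.1 hv
    exact (esize_fst_le e).trans (esize_le_of_mem he)
  · obtain ⟨e, he, rfl⟩ := List.mem_map.1 hv
    exact (esize_snd_le e).trans (esize_le_of_mem he)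

theorem esize_graph {E E0 : List (ℕ × ℕ)} (h : ∀ e ∈ E, e.1 ∈ vtx E0 ∧ e.2 ∈ vtx E0)
    (hl : E.length ≤ E0.length) :
    esize E ≤ esize E0 * (2 * (3 * esize E0 + 1) + 1) := by
  refine (esize_list_le (B := 3 * esize E0 + 1) fun e he => ?_).trans
    (Nat.mul_le_mul_right _ (hl.trans (length_le_esize _)))
  have h1 := esize_vtx _ (h e he).1
  have h2 := esize_vtx _ (h e he).2
  have h3 : esize e = 2 * esize e.1 + esize e.2 + 1 := esize_pair e.1 e.2
  omega

/-- Invariant of the reductions. -/
structure Inv (cands : List (ℕ × ℕ) → List (List ℕ × List (ℕ × ℕ))) (E0 : List (ℕ × ℕ))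
    (s : List (ℕ × ℕ) × Stk) : Prop where
  v : ∀ e ∈ s.1, e.1 ∈ vtx E0 ∧ e.2 ∈ vtx E0
  l : s.1.length + s.2.length ≤ E0.length
  s : ∀ p ∈ s.2, (∀ e ∈ p.1, e.1 ∈ vtx E0 ∧ e.2 ∈ vtx E0) ∧ p.1.length ≤ E0.length ∧
    p.2 ∈ cands p.1

theorem inv_fw {cands : List (ℕ × ℕ) → List (List ℕ × List (ℕ × ℕ))} {E0 : List (ℕ × ℕ)}
    {s : List (ℕ × ℕ) × Stk} (h : Inv cands E0 s) : Inv cands E0 (fw cands s) := by
  rcases h' : stepM cands s.1 with _ | mv
  · have h1 : fw cands s = s := by
      unfold fw
      simp only [h']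
    rw [h1]
    exact h
  · have h1 : fw cands s = (moveE mv s.1, (s.1, mv) :: s.2) := by
      unfold fw
      simp only [h']
    unfold stepM at h'
    have h3 := (okMv_iff _ _).1 (List.find?_some h')
    have h4 := List.mem_of_find?_eq_some h'
    have hl := h.l
    rw [h1]
    refine ⟨fun e he => ?_, ?_, fun p hp => ?_⟩
    · rcases List.mem_append.1 (show e ∈ remE mv.1 s.1 ++ mv.2 from he) with he | he
      · exact h.v e (List.mem_of_mem_filter he)
      · have h5 := h3.2.2 e he
        exact ⟨vtx_sub h.v _ h5.1, vtx_sub h.v _ h5.2⟩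
    · show (moveE mv s.1).length + (s.2.length + 1) ≤ E0.length
      have := h3.2.1
      omega
    · rcases List.mem_cons.1 hp with rfl | hp
      · exact ⟨h.v, by show s.1.length ≤ E0.length; omega, h4⟩
      · exact h.s p hp

theorem inv_iter {cands : List (ℕ × ℕ) → List (List ℕ × List (ℕ × ℕ))} (E0 : List (ℕ × ℕ))
    (j : ℕ) : Inv cands E0 ((fw cands)^[j] (E0, [])) := by
  induction j with
  | zero =>
    exact ⟨fun e he => ⟨fst_mem_vtx he, snd_mem_vtx he⟩, by simp, fun p hp => by simp at hp⟩
  | succ j ih =>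
    rw [Function.iterate_succ_apply']
    exact inv_fw ih

theorem inv_size {cands : List (ℕ × ℕ) → List (List ℕ × List (ℕ × ℕ))} {E0 : List (ℕ × ℕ)}
    {s : List (ℕ × ℕ) × Stk} (h : Inv cands E0 s) {c : ℕ}
    (hc : ∀ E, esize (cands E) ≤ pb c (esize E)) {q : ℕ}
    (hq : q = esize E0 * (2 * (3 * esize E0 + 1) + 1)) :
    esize s ≤ 2 * q + esize E0 * (2 * (2 * q + pb c q + 1) + 1) + 1 := by
  have hl := h.l
  have h1 : esize s.1 ≤ q := by
    rw [hq]
    exact esize_graph h.v (by omega)
  have h2 : esize s.2 ≤ esize E0 * (2 * (2 * q + pb c q + 1) + 1) := by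
    refine (esize_list_le (B := 2 * q + pb c q + 1) fun p hp => ?_).trans
      (Nat.mul_le_mul_right _ ((show s.2.length ≤ E0.length by omega).trans (length_le_esize _)))
    obtain ⟨h3, h4, h5⟩ := h.s p hp
    have h6 : esize p.1 ≤ q := by
      rw [hq]
      exact esize_graph h3 h4
    have h7 : esize p.2 ≤ pb c q :=
      (esize_le_of_mem h5).trans ((hc _).trans (pb_mono c h6))
    have h8 : esize p = 2 * esize p.1 + esize p.2 + 1 := esize_pair p.1 p.2
    omega
  have h3 : esize s = 2 * esize s.1 + esize s.2 + 1 := esize_pair s.1 s.2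
  omega

theorem esize_extK (E : List (ℕ × ℕ)) (mv : List ℕ × List (ℕ × ℕ)) (K : List (ℕ × ℕ × ℕ)) :
    esize (extK E mv K) ≤ esize E * (2 * (4 * esize E + 4) + 1) := by
  unfold extK
  rcases h' : ((vecs 8).map (fun cs => eraseQ K mv.2 ++ paint (incE mv.1 E) cs)).find?
    (fun K' => validB E K') with _ | K'
  · exact Nat.zero_le _
  · have h := (validB_iff _ _).1 (List.find?_some h')
    have hl : K'.length = E.length := by
      rw [← h.perm.length_eq, List.length_map]
    refine (esize_list_le (B := 4 * esize E + 4) fun e he => ?_).trans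
      (Nat.mul_le_mul_right _ (le_trans (le_of_eq hl) (length_le_esize _)))
    have h1 : (e.1, e.2.1) ∈ E := h.perm.mem_iff.1 (List.mem_map.2 ⟨e, he, rfl⟩)
    have h2 := esize_vtx _ (fst_mem_vtx h1)
    have h3 := esize_vtx _ (snd_mem_vtx h1)
    have h4 : esize e.2.2 ≤ 2 := esize_nat_le (by have := h.lt e he; omega)
    have h5 : esize e = 2 * esize e.1 + esize e.2 + 1 := esize_pair e.1 e.2
    have h6 : esize e.2 = 2 * esize e.2.1 + esize e.2.2 + 1 := esize_pair e.2.1 e.2.2
    simp only at h2 h3
    omega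

theorem esize_unw {B : ℕ} : ∀ (stk : Stk) (K : List (ℕ × ℕ × ℕ)), esize K ≤ B →
    (∀ p ∈ stk, esize p.1 * (2 * (4 * esize p.1 + 4) + 1) ≤ B) →
    esize (stk.foldl (fun K p => extK p.1 p.2 K) K) ≤ B := by
  intro stk
  induction stk with
  | nil => intro K hK _; exact hK
  | cons p stk ih =>
    intro K _ h
    rw [List.foldl_cons]
    exact ih _ ((esize_extK _ _ _).trans (h p List.mem_cons_self))
      fun q hq => h q (List.mem_cons_of_mem _ hq)

section PTime2

variable {A : Set Word} {α : Type*} [Enc α]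

theorem pbd_pb {b : α → ℕ} (c : ℕ) (hb : PBd b) : PBd (fun a => pb c (b a)) := by
  obtain ⟨d, hd⟩ := hb
  exact (PBd.of_PB ((PB.pb c).comp (PB.pb d))).mono fun a => pb_mono c (hd a)

theorem pt_unw {stk : α → Stk} (h : PT A stk) : PT A (fun a => unw (stk a) []) := by
  have hb : PBd (fun a => esize (stk a) * (2 * (4 * esize (stk a) + 4) + 1)) := by
    have := h.pbd
    fun_prop
  refine PT.foldl (l := stk) (init := fun _ => ([] : List (ℕ × ℕ × ℕ)))
    (f := fun _ K p => extK p.1 p.2 K) h (PT.const [])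
    (pt_extK PT.snd'.snd.fst PT.snd'.snd.snd PT.snd'.fst) hb fun a i => ?_
  refine esize_unw _ _ (Nat.zero_le _) fun p hp => ?_
  have h1 : esize p.1 ≤ esize (stk a) :=
    (esize_fst_le p).trans (esize_le_of_mem (List.mem_of_mem_take hp))
  exact Nat.mul_le_mul h1 (by omega)

theorem pt_colA {cands : List (ℕ × ℕ) → List (List ℕ × List (ℕ × ℕ))} (hc : PT A cands) :
    PT A (colA cands) := by
  obtain ⟨c, hc'⟩ := hc.pbd
  have hq : PBd (fun E : List (ℕ × ℕ) => esize E * (2 * (3 * esize E + 1) + 1)) := by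
    have := (PBd.esize : PBd (fun E : List (ℕ × ℕ) => esize E))
    fun_prop
  have hp := pbd_pb c hq
  have hb : PBd (fun E : List (ℕ × ℕ) => 2 * (esize E * (2 * (3 * esize E + 1) + 1)) +
      esize E * (2 * (2 * (esize E * (2 * (3 * esize E + 1) + 1)) +
        pb c (esize E * (2 * (3 * esize E + 1) + 1)) + 1) + 1) + 1) := by
    have := (PBd.esize : PBd (fun E : List (ℕ × ℕ) => esize E))
    fun_prop
  have h1 : PT A (fun E : List (ℕ × ℕ) => (fw cands)^[E.length] (E, ([] : Stk))) :=
    PT.iterate (k := fun E : List (ℕ × ℕ) => E.length) (init := fun E => (E, ([] : Stk)))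
      PT.id.length (PBd.length (PT.id (A := A))) (PT.id.pair (PT.const [])) (pt_fw hc) hb
      fun E j _ => inv_size (inv_iter E j) hc' rfl
  exact pt_unw h1.snd

end PTime2

/-- The path colouring algorithm. -/
theorem colAlg_of_math : ColMath → ColAlg := by
  rintro ⟨cands, hp, hc⟩
  exact ⟨colA cands, pt_colA hp, fun E hE => colA_col hc E hE⟩

end Vale.Agent.P333.U
end
end

section

section

namespace Vale.Agent.P333.U

open Finset Function
open Vale.Agent.Lib.PolyTime

/-! ### Cycles of an assignment -/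

structure At611_Bij (k : ℕ) (f : ℕ → ℕ) : Prop where
  maps : ∀ x < k, f x < k
  inj : ∀ x < k, ∀ y < k, f x = f y → x = y

structure At611_Rem (k : ℕ) (f w rem : ℕ → ℕ) : Prop where
  lt : ∀ x < k, rem x < k
  reach : ∀ x < k, ∃ t, f^[t] x = rem x
  step : ∀ x < k, rem (f x) = rem x
  min : ∀ x < k, w (rem x) ≤ w x

theorem At611_Bij.iter_lt {k : ℕ} {f : ℕ → ℕ} (hf : At611_Bij k f) (t : ℕ) {x : ℕ} (hx : x < k) :
    f^[t] x < k := by
  induction t with
  | zero => exact hx
  | succ t ih => rw [iterate_succ_apply']; exact hf.maps _ ih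

theorem At611_Bij.iter_inj {k : ℕ} {f : ℕ → ℕ} (hf : At611_Bij k f) (t : ℕ) {x y : ℕ} (hx : x < k)
    (hy : y < k) (h : f^[t] x = f^[t] y) : x = y := by
  induction t with
  | zero => exact h
  | succ t ih =>
    rw [iterate_succ_apply', iterate_succ_apply'] at h
    exact ih (hf.inj _ (hf.iter_lt t hx) _ (hf.iter_lt t hy) h)

theorem At611_Bij.periodic {k : ℕ} {f : ℕ → ℕ} (hf : At611_Bij k f) {x : ℕ} (hx : x < k) :
    ∃ n, 0 < n ∧ n ≤ k ∧ f^[n] x = x := by
  have hc : #(range k) < #(range (k + 1)) := by simp only [card_range, lt_add_iff_pos_right, Order.lt_one_iff]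
  obtain ⟨a, ha, b, hb, hab, h⟩ := Finset.exists_ne_map_eq_of_card_lt_of_maps_to hc
    (f := fun t => f^[t] x) (fun t _ => by simpa using hf.iter_lt t hx)
  simp only [Finset.mem_range] at ha hb
  have key : ∀ a b, b < k + 1 → a < b → f^[a] x = f^[b] x → ∃ n, 0 < n ∧ n ≤ k ∧ f^[n] x = x := by
    intro a b hb hlt h
    refine ⟨b - a, by omega, by omega, ?_⟩
    have h1 : f^[a] (f^[b - a] x) = f^[a] x := by
      rw [← iterate_add_apply]
      have : a + (b - a) = b := by omega
      rw [this]
      exact h.symm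
    exact hf.iter_inj a (hf.iter_lt _ hx) hx h1
  rcases lt_or_gt_of_ne hab with hlt | hlt
  · exact key a b hb hlt h
  · exact key b a ha hlt h.symm

theorem At611_Rem.iter {k : ℕ} {f w rem : ℕ → ℕ} (hf : At611_Bij k f) (hr : At611_Rem k f w rem) {x : ℕ}
    (hx : x < k) (t : ℕ) : rem (f^[t] x) = rem x := by
  induction t with
  | zero => rfl
  | succ t ih => rw [iterate_succ_apply', hr.step _ (hf.iter_lt t hx), ih]

theorem At611_Rem.idem {k : ℕ} {f w rem : ℕ → ℕ} (hf : At611_Bij k f) (hr : At611_Rem k f w rem) {x : ℕ}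
    (hx : x < k) : rem (rem x) = rem x := by
  obtain ⟨t, ht⟩ := hr.reach x hx
  rw [← ht, hr.iter hf hx, ht]

/-- optimality against partial injections -/
def At611_Opt (k : ℕ) (m : ℕ → ℕ → ℕ) (f : ℕ → ℕ) : Prop :=
  ∀ (S : Finset ℕ) (h : ℕ → ℕ), S ⊆ range k → (∀ x ∈ S, h x < k) → Set.InjOn h S →
    ∑ x ∈ S, m x (h x) ≤ ∑ x ∈ range k, m x (f x)

theorem At611_A {k : ℕ} {m : ℕ → ℕ → ℕ} {f rem : ℕ → ℕ} (hf : At611_Bij k f)
    (hr : At611_Rem k f (fun x => m x (f x)) rem) (h0 : ∀ x, m x x = 0) (ho : At611_Opt k m f)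
    {S0 : Finset ℕ} {s : ℕ → ℕ} (hS : S0 ⊆ range k) (hs : ∀ x ∈ S0, s x < k)
    (hsi : Set.InjOn s S0) (hne : ∀ x ∈ S0, s x ≠ x) (h2 : ∀ x ∈ S0, s x ∈ S0 → s (s x) ≠ x) :
    ∑ x ∈ S0 with rem (s x) = rem x, m x (s x) +
      3 * ∑ x ∈ range k with rem x = x, m x (f x) ≤ 2 * ∑ x ∈ range k, m x (f x) := by
  classical
  set T := {x ∈ range k | rem x = x} with hT
  have hmap : ∀ x ∈ range k, rem x ∈ T := fun x hx => by
    simp only [Finset.mem_range] at hx
    simp only [hT, mem_filter, Finset.mem_range]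
    exact ⟨hr.lt x hx, hr.idem hf hx⟩
  have e1 : ∑ x ∈ S0 with rem (s x) = rem x, m x (s x) =
      ∑ r ∈ T, ∑ x ∈ {x ∈ S0 | rem (s x) = rem x} with rem x = r, m x (s x) :=
    (sum_fiberwise_of_maps_to (fun x hx => hmap x (hS (mem_filter.1 hx).1)) _).symm
  have e2 : ∑ x ∈ range k, m x (f x) = ∑ r ∈ T, ∑ x ∈ range k with rem x = r, m x (f x) :=
    (sum_fiberwise_of_maps_to hmap _).symm
  rw [e1, e2, mul_sum, mul_sum, ← sum_add_distrib]
  refine sum_le_sum fun r hr0 => ?_
  obtain ⟨hrk, hrr⟩ := mem_filter.1 hr0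
  rw [Finset.mem_range] at hrk
  set D := {x ∈ range k | rem x = r} with hD
  have hrD : r ∈ D := by simp [hD, hrk, hrr]
  have hDk : ∀ x ∈ D, x < k := fun x hx => by simpa using (mem_filter.1 hx).1
  have hDr : ∀ x ∈ D, rem x = r := fun x hx => (mem_filter.1 hx).2
  have hwr : ∀ x ∈ D, m r (f r) ≤ m x (f x) := fun x hx => by
    have := hr.min x (hDk x hx)
    rw [hDr x hx] at this
    exact this
  have hfD : ∀ x ∈ D, f x ∈ D := fun x hx => by
    simp only [hD, mem_filter, Finset.mem_range]
    exact ⟨hf.maps x (hDk x hx), by rw [hr.step x (hDk x hx), hDr x hx]⟩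
  set I := {x ∈ {x ∈ S0 | rem (s x) = rem x} | rem x = r} with hI
  have hI1 : ∀ x ∈ I, x ∈ S0 ∧ x ∈ D ∧ s x ∈ D := by
    intro x hx
    simp only [hI, mem_filter] at hx
    obtain ⟨⟨h1, h2⟩, h3⟩ := hx
    have hxk : x < k := by simpa using hS h1
    refine ⟨h1, by simp [hD, hxk, h3], ?_⟩
    simp only [hD, mem_filter, Finset.mem_range]
    exact ⟨hs x h1, by rw [h2, h3]⟩
  -- the inner arcs weigh at most the cycle
  have hkin : ∑ x ∈ I, m x (s x) ≤ ∑ x ∈ D, m x (f x) := by
    have hdis : Disjoint (range k \ D) I := by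
      rw [Finset.disjoint_left]
      intro x hx hx'
      exact (mem_sdiff.1 hx).2 (hI1 x hx').2.1
    have h3 := ho ((range k \ D) ∪ I) (fun x => if x ∈ D then s x else f x) ?_ ?_ ?_
    · rw [sum_union hdis] at h3
      have e3 : ∑ x ∈ range k \ D, m x (if x ∈ D then s x else f x) =
          ∑ x ∈ range k \ D, m x (f x) := sum_congr rfl fun x hx => by
        rw [if_neg (mem_sdiff.1 hx).2]
      have e4 : ∑ x ∈ I, m x (if x ∈ D then s x else f x) = ∑ x ∈ I, m x (s x) :=
        sum_congr rfl fun x hx => by rw [if_pos (hI1 x hx).2.1]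
      have e5 : ∑ x ∈ range k \ D, m x (f x) + ∑ x ∈ D, m x (f x) = ∑ x ∈ range k, m x (f x) :=
        sum_sdiff (filter_subset _ _)
      rw [e3, e4] at h3
      omega
    · intro x hx
      rcases mem_union.1 hx with hx | hx
      · exact (mem_sdiff.1 hx).1
      · exact hS (hI1 x hx).1
    · intro x hx
      split_ifs with h
      · rcases mem_union.1 hx with hx | hx
        · exact absurd h (mem_sdiff.1 hx).2
        · exact hs x (hI1 x hx).1
      · rcases mem_union.1 hx with hx | hx
        · exact hf.maps x (by simpa using (mem_sdiff.1 hx).1)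
        · exact absurd (hI1 x hx).2.1 h
    · intro x hx y hy hxy
      simp only [coe_union, Set.mem_union, mem_coe] at hx hy
      beta_reduce at hxy
      have hout : ∀ z ∈ range k \ D, f z ∉ D := fun z hz hfz => by
        obtain ⟨h1, h2⟩ := mem_sdiff.1 hz
        refine h2 ?_
        rw [Finset.mem_range] at h1
        simp only [hD, mem_filter, Finset.mem_range]
        exact ⟨h1, by rw [← hr.step z h1]; exact hDr _ hfz⟩
      rcases hx with hx | hx <;> rcases hy with hy | hy
      · rw [if_neg (mem_sdiff.1 hx).2, if_neg (mem_sdiff.1 hy).2] at hxy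
        exact hf.inj x (by simpa using (mem_sdiff.1 hx).1) y (by simpa using (mem_sdiff.1 hy).1) hxy
      · rw [if_neg (mem_sdiff.1 hx).2, if_pos (hI1 y hy).2.1] at hxy
        exact absurd (hxy ▸ (hI1 y hy).2.2) (hout x hx)
      · rw [if_pos (hI1 x hx).2.1, if_neg (mem_sdiff.1 hy).2] at hxy
        exact absurd (hxy ▸ (hI1 x hx).2.2) (hout y hy)
      · rw [if_pos (hI1 x hx).2.1, if_pos (hI1 y hy).2.1] at hxy
        exact hsi (hI1 x hx).1 (hI1 y hy).1 hxy
  -- case distinction
  by_cases hc3 : 3 ≤ #D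
  · have h4 : #D * m r (f r) ≤ ∑ x ∈ D, m x (f x) := by
      have := Finset.card_nsmul_le_sum D (fun x => m x (f x)) (m r (f r)) hwr
      simpa only [ge_iff_le, smul_eq_mul] using this
    have h5 : 3 * m r (f r) ≤ #D * m r (f r) := Nat.mul_le_mul_right _ hc3
    omega
  have hc1 : 1 ≤ #D := card_pos.2 ⟨r, hrD⟩
  have hcase : #D = 1 ∨ #D = 2 := by omega
  rcases hcase with hc | hc
  · obtain ⟨d, hd⟩ := card_eq_one.1 hc
    have hrd : r = d := by simpa [hd] using hrD
    have h6 : f r = r := by
      have := hfD r hrD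
      rw [hd, mem_singleton] at this
      rw [this, hrd]
    have hIe : I = ∅ := by
      rw [eq_empty_iff_forall_notMem]
      intro x hx
      obtain ⟨h1, h2, h3⟩ := hI1 x hx
      rw [hd, mem_singleton] at h2 h3
      exact hne x h1 (h3.trans h2.symm)
    rw [hIe, sum_empty, h6, h0]
    (clear * -; omega)
  · obtain ⟨a, b, hab, hd⟩ := card_eq_two.1 hc
    obtain ⟨q, hq, hqr⟩ : ∃ q ∈ D, q ≠ r := by
      rw [hd, mem_insert, mem_singleton] at hrD
      rcases hrD with h | h
      · exact ⟨b, by simp [hd], by rw [h]; exact Ne.symm hab⟩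
      · exact ⟨a, by simp [hd], by rw [h]; exact hab⟩
    have hDe : D = {r, q} := by
      refine (eq_of_subset_of_card_le ?_ ?_).symm
      · intro x hx
        rw [mem_insert, mem_singleton] at hx
        rcases hx with rfl | rfl
        · exact hrD
        · exact hq
      · rw [hc, card_pair (Ne.symm hqr)]
    obtain ⟨t, ht⟩ := hr.reach q (hDk q hq)
    rw [hDr q hq] at ht
    have hfix : ∀ y, f y = y → ∀ t, f^[t] y = y := fun y hy t => by
      induction t with
      | zero => rfl
      | succ t ih => rw [iterate_succ_apply', ih, hy]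
    have hfr : f r = q := by
      have h7 := hfD r hrD
      rw [hDe, mem_insert, mem_singleton] at h7
      rcases h7 with h7 | h7
      · exfalso
        have h8 := hfix r h7 t
        exact hqr (hf.iter_inj t (hDk q hq) hrk (ht.trans h8.symm))
      · exact h7
    have hfq : f q = r := by
      have h7 := hfD q hq
      rw [hDe, mem_insert, mem_singleton] at h7
      rcases h7 with h7 | h7
      · exact h7
      · exfalso
        rw [hfix q h7 t] at ht
        exact hqr ht
    rw [hDe, sum_pair (Ne.symm hqr)]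
    have hw := hwr q hq
    rw [hfr, hfq] at hw ⊢
    have hIs : I ⊆ {r, q} := fun x hx => hDe ▸ (hI1 x hx).2.1
    have hsr : r ∈ I → s r = q := fun h => by
      obtain ⟨h1, h2, h3⟩ := hI1 r h
      rw [hDe, mem_insert, mem_singleton] at h3
      exact h3.resolve_left (hne r h1)
    have hsq : q ∈ I → s q = r := fun h => by
      obtain ⟨h1, h2, h3⟩ := hI1 q h
      rw [hDe, mem_insert, mem_singleton] at h3
      exact h3.resolve_right (hne q h1)
    have hI2 : ∑ x ∈ I, m x (s x) ≤ m q r := by
      by_cases hrI : r ∈ I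
      · have hqI : q ∉ I := fun hqI => by
          have h8 := h2 r (hI1 r hrI).1
          rw [hsr hrI] at h8
          exact h8 (hI1 q hqI).1 (hsq hqI)
        have hIe : I = {r} := by
          refine Subset.antisymm (fun x hx => ?_) (singleton_subset_iff.2 hrI)
          have := hIs hx
          rw [mem_insert, mem_singleton] at this
          rcases this with rfl | rfl
          · simp
          · exact absurd hx hqI
        rw [hIe, sum_singleton, hsr hrI]
        exact hw
      · by_cases hqI : q ∈ I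
        · have hIe : I = {q} := by
            refine Subset.antisymm (fun x hx => ?_) (singleton_subset_iff.2 hqI)
            have := hIs hx
            rw [mem_insert, mem_singleton] at this
            rcases this with rfl | rfl
            · exact absurd hx hrI
            · simp
          rw [hIe, sum_singleton, hsq hqI]
        · have hIe : I = ∅ := by
            rw [eq_empty_iff_forall_notMem]
            intro x hx
            have := hIs hx
            rw [mem_insert, mem_singleton] at this
            rcases this with rfl | rfl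
            · exact hrI hx
            · exact hqI hx
          rw [hIe, sum_empty]
          exact Nat.zero_le _
    omega


theorem At611_trans {k : ℕ} {f rem : ℕ → ℕ} {F : List (ℕ × ℕ)}
    (hF : ∀ a b, (a, b) ∈ F → a < k ∧ rem a ≠ a ∧ b = f a) {x y : ℕ}
    (h : Relation.TransGen (fun a b => (a, b) ∈ F) x y) :
    ∃ n, 0 < n ∧ f^[n] x = y ∧ ∀ i < n, f^[i] x < k ∧ rem (f^[i] x) ≠ f^[i] x := by
  induction h with
  | single h =>
    obtain ⟨h1, h2, h3⟩ := hF _ _ h
    refine ⟨1, one_pos, h3.symm, fun i hi => ?_⟩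
    have : i = 0 := by omega
    subst this
    exact ⟨h1, h2⟩
  | tail _ h ih =>
    obtain ⟨h1, h2, h3⟩ := hF _ _ h
    obtain ⟨n, hn, hn1, hn2⟩ := ih
    refine ⟨n + 1, by omega, by rw [iterate_succ_apply', hn1, h3], fun i hi => ?_⟩
    rcases Nat.lt_succ_iff_lt_or_eq.1 hi with hi | rfl
    · exact hn2 i hi
    · rw [hn1]; exact ⟨h1, h2⟩

/-- the arcs which are not removed -/
def At611_arcs (k : ℕ) (f rem : ℕ → ℕ) : List (ℕ × ℕ) :=
  ((List.range k).filter (fun x => decide (rem x ≠ x))).map (fun x => (x, f x))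

theorem At611_mem_arcs {k : ℕ} {f rem : ℕ → ℕ} {a b : ℕ} :
    (a, b) ∈ At611_arcs k f rem ↔ a < k ∧ rem a ≠ a ∧ b = f a := by
  simp only [At611_arcs, List.mem_map, List.mem_filter, List.mem_range, decide_eq_true_eq,
    Prod.mk.injEq]
  constructor
  · rintro ⟨x, ⟨h1, h2⟩, rfl, rfl⟩; exact ⟨h1, h2, rfl⟩
  · rintro ⟨h1, h2, rfl⟩; exact ⟨a, ⟨h1, h2⟩, rfl, rfl⟩

theorem At611_pathSys {k : ℕ} {f w rem : ℕ → ℕ} (hf : At611_Bij k f) (hr : At611_Rem k f w rem) :
    PathSys (At611_arcs k f rem) where
  out := by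
    have : (At611_arcs k f rem).map Prod.fst = (List.range k).filter (fun x => decide (rem x ≠ x)) := by
      simp [At611_arcs, Function.comp_def]
    rw [this]
    exact List.nodup_range.filter _
  inn := by
    have : (At611_arcs k f rem).map Prod.snd =
        ((List.range k).filter (fun x => decide (rem x ≠ x))).map f := by
      simp [At611_arcs, Function.comp_def]
    rw [this]
    refine List.Nodup.map_on ?_ (List.nodup_range.filter _)
    intro x hx y hy h
    rw [List.mem_filter, List.mem_range] at hx hy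
    exact hf.inj x hx.1 y hy.1 h
  acyc := by
    intro x h
    obtain ⟨n, hn, hn1, hn2⟩ := At611_trans (fun a b h => At611_mem_arcs.1 h) h
    have hx : x < k := (hn2 0 hn).1
    obtain ⟨t, ht⟩ := hr.reach x hx
    have hp : f^[t % n] x = f^[t] x := IsPeriodicPt.iterate_mod_apply hn1 t
    have h3 := (hn2 (t % n) (Nat.mod_lt _ hn)).2
    rw [hr.iter hf hx, hp, ht] at h3
    exact h3 rfl

theorem At611_arcs_sum {k : ℕ} {f rem : ℕ → ℕ} (m : ℕ → ℕ → ℕ) :
    ((At611_arcs k f rem).map (fun e => m e.1 e.2)).sum = ∑ x ∈ range k with rem x ≠ x, m x (f x) := by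
  rw [At611_arcs, List.map_map]
  rfl

/-- the forced assignment problem -/
def At611_m2 (m : ℕ → ℕ → ℕ) (f rem : ℕ → ℕ) (kept : ℕ → Bool) (B : ℕ) (x y : ℕ) : ℕ :=
  if kept x = true then (if y = f x then B else 0) else (if rem x = rem y then 0 else m x y)

/-- the kept arcs for a choice of bits -/
def At611_kept (rem : ℕ → ℕ) (bit : ℕ → Bool) (x : ℕ) : Bool := (decide (x = rem x)) != bit (rem x)

section

variable {k : ℕ} {m : ℕ → ℕ → ℕ} {f w rem : ℕ → ℕ} {U B : ℕ} {bit : ℕ → Bool} {g rem2 : ℕ → ℕ}

theorem At611_m2_le (hU : ∀ x < k, ∀ y < k, m x y ≤ U) (hB : U ≤ B) {kept : ℕ → Bool} {x y : ℕ}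
    (hx : x < k) (hy : y < k) : At611_m2 m f rem kept B x y ≤ B := by
  unfold At611_m2
  split_ifs
  · exact le_rfl
  · exact Nat.zero_le _
  · exact Nat.zero_le _
  · exact (hU x hx y hy).trans hB

theorem At611_B1 (hf : At611_Bij k f) (hU : ∀ x < k, ∀ y < k, m x y ≤ U) (hB : k * U < B) (hUB : U ≤ B)
    {kept : ℕ → Bool} (hg : At611_Bij k g) (ho : At611_Opt k (At611_m2 m f rem kept B) g) {x0 : ℕ}
    (hx0 : x0 < k) (hk0 : kept x0 = true) : g x0 = f x0 := by
  classical
  by_contra hne
  set K := {x ∈ range k | kept x = true} with hK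
  have h0K : x0 ∈ K := by simp [hK, hx0, hk0]
  have h1 := ho (range k) f Subset.rfl (fun x hx => hf.maps x (by simpa using hx))
    (fun x hx y hy h => hf.inj x (by simpa using hx) y (by simpa using hy) h)
  have h2 : #K * B ≤ ∑ x ∈ range k, At611_m2 m f rem kept B x (f x) := by
    calc #K * B = ∑ x ∈ K, B := by simp
      _ = ∑ x ∈ K, At611_m2 m f rem kept B x (f x) := sum_congr rfl fun x hx => by
          simp [At611_m2, (mem_filter.1 hx).2]
      _ ≤ _ := sum_le_sum_of_subset (filter_subset _ _)
  have h3 : ∑ x ∈ range k, At611_m2 m f rem kept B x (g x) ≤ (#K - 1) * B + k * U := by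
    rw [← sum_filter_add_sum_filter_not (range k) (fun x => kept x = true)]
    refine add_le_add ?_ ?_
    · rw [← hK, ← sum_erase_add K _ h0K]
      have h4 : At611_m2 m f rem kept B x0 (g x0) = 0 := by simp [At611_m2, hk0, hne]
      rw [h4, add_zero, ← card_erase_of_mem h0K]
      calc _ ≤ ∑ _x ∈ K.erase x0, B := sum_le_sum fun x hx => by
              have hxk : x < k := by simpa using (mem_filter.1 (mem_of_mem_erase hx)).1
              exact At611_m2_le hU hUB hxk (hg.maps x hxk)
        _ = _ := by simp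
    · calc _ ≤ ∑ _x ∈ range k with ¬ kept _x = true, U := sum_le_sum fun x hx => by
              obtain ⟨h5, h6⟩ := mem_filter.1 hx
              rw [Finset.mem_range] at h5
              unfold At611_m2
              rw [if_neg h6]
              split_ifs
              · exact Nat.zero_le _
              · exact hU x h5 _ (hg.maps x h5)
        _ ≤ ∑ _x ∈ range k, U := sum_le_sum_of_subset (filter_subset _ _)
        _ = _ := by simp
  have h4 : 1 ≤ #K := card_pos.2 ⟨x0, h0K⟩
  have h5 : #K * B = (#K - 1) * B + B := by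
    obtain ⟨c, hc⟩ : ∃ c, #K = c + 1 := ⟨#K - 1, by omega⟩
    rw [hc, Nat.add_sub_cancel, add_mul, one_mul]
  omega

theorem At611_B3 (hr : At611_Rem k f w rem) {kept : ℕ → Bool} (hg : At611_Bij k g)
    (hgf : ∀ x < k, kept x = true → g x = f x)
    (hr2 : At611_Rem k g (fun x => At611_m2 m f rem kept B x (g x)) rem2) :
    2 * ∑ x ∈ {x ∈ range k | kept x = false} with rem2 x = x, At611_m2 m f rem kept B x (g x)
      ≤ ∑ x ∈ {x ∈ range k | kept x = false}, At611_m2 m f rem kept B x (g x) := by
  classical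
  set E := {x ∈ range k | kept x = false} with hE
  set w2 := fun x => At611_m2 m f rem kept B x (g x) with hw2
  set T := {x ∈ range k | rem2 x = x} with hT
  have hEk : ∀ x ∈ E, x < k := fun x hx => by simpa using (mem_filter.1 hx).1
  have hmap : ∀ x ∈ E, rem2 x ∈ T := fun x hx => by
    simp only [hT, mem_filter, Finset.mem_range]
    exact ⟨hr2.lt x (hEk x hx), hr2.idem hg (hEk x hx)⟩
  have e1 : ∑ x ∈ E with rem2 x = x, w2 x = ∑ r ∈ T, ∑ x ∈ {x ∈ E | rem2 x = x} with rem2 x = r,
      w2 x := (sum_fiberwise_of_maps_to (fun x hx => hmap x (mem_filter.1 hx).1) _).symm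
  have e2 : ∑ x ∈ E, w2 x = ∑ r ∈ T, ∑ x ∈ E with rem2 x = r, w2 x :=
    (sum_fiberwise_of_maps_to hmap _).symm
  rw [e1, e2, mul_sum]
  refine sum_le_sum fun r hr0 => ?_
  obtain ⟨hrk, hrr⟩ := mem_filter.1 hr0
  rw [Finset.mem_range] at hrk
  by_cases hrE : r ∈ E
  swap
  · have : {x ∈ {x ∈ E | rem2 x = x} | rem2 x = r} = ∅ := by
      rw [eq_empty_iff_forall_notMem]
      intro x hx
      simp only [mem_filter] at hx
      obtain ⟨⟨h1, h2⟩, h3⟩ := hx
      rw [← h3, h2] at hrE
      exact hrE h1
    rw [this]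
    simp
  have hs1 : {x ∈ {x ∈ E | rem2 x = x} | rem2 x = r} = {r} := by
    ext x
    simp only [mem_filter, mem_singleton]
    constructor
    · rintro ⟨⟨-, h2⟩, h3⟩; rw [← h2, h3]
    · rintro rfl; exact ⟨⟨hrE, hrr⟩, hrr⟩
  rw [hs1, sum_singleton]
  by_cases hw0 : w2 r = 0
  · rw [hw0]; simp
  have hkr : kept r = false := (mem_filter.1 hrE).2
  have hrem : rem r ≠ rem (g r) := by
    intro h
    apply hw0
    simp only [hw2, At611_m2, hkr]
    simp [h]
  have hq : ∃ q ∈ E, q ≠ r ∧ rem2 q = r := by
    by_contra hno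
    push Not at hno
    obtain ⟨n, hn, -, hn1⟩ := hg.periodic hrk
    have key : ∀ i, (∃ j, 0 < j ∧ j ≤ i ∧ g^[j] r = r) ∨ rem (g^[i + 1] r) = rem (g r) := by
      intro i
      induction i with
      | zero => right; rfl
      | succ i ih =>
        rcases ih with ⟨j, h1, h2, h3⟩ | ih
        · left; exact ⟨j, h1, by omega, h3⟩
        · by_cases h4 : g^[i + 1] r = r
          · left; exact ⟨i + 1, by omega, le_rfl, h4⟩
          · right
            have h5 : g^[i + 1] r < k := hg.iter_lt _ hrk
            have h6 : rem2 (g^[i + 1] r) = r := by rw [hr2.iter hg hrk, hrr]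
            have h7 : kept (g^[i + 1] r) = true := by
              by_contra h8
              have h9 : g^[i + 1] r ∈ E := by
                simp only [hE, mem_filter, Finset.mem_range]
                exact ⟨h5, by simpa using h8⟩
              exact hno _ h9 h4 h6
            rw [iterate_succ_apply', hgf _ h5 h7, hr.step _ h5, ih]
    have key2 : ∃ j, 0 < j ∧ g^[j] r = r ∧ ∀ i, 0 < i → i < j → g^[i] r ≠ r := by
      have hex : ∃ j, 0 < j ∧ g^[j] r = r := ⟨n, hn, hn1⟩
      refine ⟨Nat.find hex, (Nat.find_spec hex).1, (Nat.find_spec hex).2, fun i hi hij h => ?_⟩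
      exact Nat.find_min hex hij ⟨hi, h⟩
    obtain ⟨j, hj, hj1, hj2⟩ := key2
    rcases key (j - 1) with ⟨i, h1, h2, h3⟩ | h3
    · exact hj2 i h1 (by omega) h3
    · have : j - 1 + 1 = j := by omega
      rw [this, hj1] at h3
      exact hrem h3
  obtain ⟨q, hqE, hqr, hq2⟩ := hq
  have hw : w2 r ≤ w2 q := by
    have := hr2.min q (hEk q hqE)
    rw [hq2] at this
    exact this
  calc 2 * w2 r ≤ w2 r + w2 q := by omega
    _ = ∑ x ∈ {r, q}, w2 x := (sum_pair (Ne.symm hqr)).symm
    _ ≤ _ := sum_le_sum_of_subset (by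
        intro x hx
        rw [mem_insert, mem_singleton] at hx
        rcases hx with rfl | rfl
        · exact mem_filter.2 ⟨hrE, hrr⟩
        · exact mem_filter.2 ⟨hqE, hq2⟩)

theorem At611_B (hf : At611_Bij k f) (hr : At611_Rem k f w rem) (h0 : ∀ x, m x x = 0)
    (hU : ∀ x < k, ∀ y < k, m x y ≤ U) (hB : k * U < B) (hUB : U < B) (hg : At611_Bij k g)
    (ho : At611_Opt k (At611_m2 m f rem (At611_kept rem bit) B) g)
    (hr2 : At611_Rem k g (fun x => At611_m2 m f rem (At611_kept rem bit) B x (g x)) rem2)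
    {S0 : Finset ℕ} {s : ℕ → ℕ} (hS : S0 ⊆ range k) (hs : ∀ x ∈ S0, s x < k)
    (hsi : Set.InjOn s S0) :
    2 * ∑ x ∈ range k with At611_kept rem bit x = true, m x (f x) +
      ∑ x ∈ S0 with rem (s x) ≠ rem x ∧ At611_kept rem bit x = false ∧
        ∀ y < k, f y = s x → At611_kept rem bit y = false, m x (s x)
      ≤ 2 * ∑ x ∈ range k with rem2 x ≠ x, m x (g x) := by
  classical
  set kept := At611_kept rem bit with hkept
  set m2 := At611_m2 m f rem kept B with hm2
  have hgf : ∀ x < k, kept x = true → g x = f x := fun x hx hkx =>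
    At611_B1 hf hU hB hUB.le hg ho hx hkx
  set E := {x ∈ range k | kept x = false} with hE
  have hEk : ∀ x ∈ E, x < k := fun x hx => by simpa using (mem_filter.1 hx).1
  have h3 : 2 * ∑ x ∈ E with rem2 x = x, m2 x (g x) ≤ ∑ x ∈ E, m2 x (g x) :=
    At611_B3 hr hg hgf hr2
  -- the surviving arcs
  have h4 : ∑ x ∈ S0 with rem (s x) ≠ rem x ∧ kept x = false ∧
        ∀ y < k, f y = s x → kept y = false, m x (s x) ≤ ∑ x ∈ E, m2 x (g x) := by
    set K := {x ∈ range k | kept x = true} with hK
    set S1 := {x ∈ S0 | rem (s x) ≠ rem x ∧ kept x = false ∧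
        ∀ y < k, f y = s x → kept y = false} with hS1
    have hdis : Disjoint K S1 := by
      rw [Finset.disjoint_left]
      intro x hx hx'
      have h5 := (mem_filter.1 hx).2
      rw [(mem_filter.1 hx').2.2.1] at h5
      exact absurd h5 (by decide)
    have h5 := ho (K ∪ S1) (fun x => if kept x = true then f x else s x) ?_ ?_ ?_
    · rw [sum_union hdis] at h5
      have e1 : ∑ x ∈ K, m2 x (if kept x = true then f x else s x) = ∑ x ∈ K, m2 x (g x) :=
        sum_congr rfl fun x hx => by
          obtain ⟨h6, h7⟩ := mem_filter.1 hx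
          rw [if_pos h7, hgf x (by simpa using h6) h7]
      have e2 : ∑ x ∈ S1, m2 x (if kept x = true then f x else s x) = ∑ x ∈ S1, m x (s x) :=
        sum_congr rfl fun x hx => by
          obtain ⟨h6, h7, h8, h9⟩ := mem_filter.1 hx
          have h10 : ¬ kept x = true := by rw [h8]; decide
          rw [if_neg h10]
          simp only [hm2, At611_m2]
          rw [if_neg h10, if_neg (Ne.symm h7)]
      have e3 : ∑ x ∈ K, m2 x (g x) + ∑ x ∈ E, m2 x (g x) = ∑ x ∈ range k, m2 x (g x) := by
        rw [← sum_filter_add_sum_filter_not (range k) (fun x => kept x = true)]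
        congr 1
        refine sum_congr ?_ fun _ _ => rfl
        ext x
        simp [hE]
      have h5' : ∑ x ∈ K, m2 x (g x) + ∑ x ∈ S1, m x (s x) ≤ ∑ x ∈ range k, m2 x (g x) := by
        rw [← e1, ← e2]; exact h5
      omega
    · intro x hx
      rcases mem_union.1 hx with hx | hx
      · exact (mem_filter.1 hx).1
      · exact hS (mem_filter.1 hx).1
    · intro x hx
      split_ifs with h
      · rcases mem_union.1 hx with hx | hx
        · exact hf.maps x (by simpa using (mem_filter.1 hx).1)
        · exact hf.maps x (by simpa using hS (mem_filter.1 hx).1)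
      · rcases mem_union.1 hx with hx | hx
        · exact absurd (mem_filter.1 hx).2 h
        · exact hs x (mem_filter.1 hx).1
    · intro x hx y hy hxy
      simp only [coe_union, Set.mem_union, mem_coe] at hx hy
      beta_reduce at hxy
      have hn : ∀ z ∈ S1, ¬ kept z = true := fun z hz => by
        rw [(mem_filter.1 hz).2.2.1]; decide
      rcases hx with hx | hx <;> rcases hy with hy | hy
      · rw [if_pos (mem_filter.1 hx).2, if_pos (mem_filter.1 hy).2] at hxy
        exact hf.inj x (by simpa using (mem_filter.1 hx).1) y (by simpa using (mem_filter.1 hy).1) hxy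
      · rw [if_pos (mem_filter.1 hx).2, if_neg (hn y hy)] at hxy
        have h6 := (mem_filter.1 hy).2.2.2 x (by simpa using (mem_filter.1 hx).1) hxy
        rw [(mem_filter.1 hx).2] at h6
        exact absurd h6 (by decide)
      · rw [if_neg (hn x hx), if_pos (mem_filter.1 hy).2] at hxy
        have h6 := (mem_filter.1 hx).2.2.2 y (by simpa using (mem_filter.1 hy).1) hxy.symm
        rw [(mem_filter.1 hy).2] at h6
        exact absurd h6 (by decide)
      · rw [if_neg (hn x hx), if_neg (hn y hy)] at hxy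
        exact hsi (mem_filter.1 hx).1 (mem_filter.1 hy).1 hxy
  -- kept arcs are not removed
  have h5 : ∀ x < k, kept x = true → rem2 x = x → f x = x := by
    intro x hx hkx hrx
    by_contra hfx
    have h6 : ∀ t, kept (g^[t] x) = true := by
      intro t
      by_contra h7
      have h8 := hr2.min (g^[t] x) (hg.iter_lt t hx)
      rw [hr2.iter hg hx, hrx] at h8
      have h9 : m2 x (g x) = B := by
        simp only [hm2, At611_m2]
        rw [if_pos hkx, if_pos (hgf x hx hkx)]
      have h8' : m2 x (g x) ≤ m2 (g^[t] x) (g (g^[t] x)) := h8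
      rw [h9] at h8'
      have h10 : m2 (g^[t] x) (g (g^[t] x)) ≤ U := by
        simp only [hm2, At611_m2]
        rw [if_neg h7]
        split_ifs
        · exact Nat.zero_le _
        · exact hU _ (hg.iter_lt t hx) _ (hg.maps _ (hg.iter_lt t hx))
      omega
    have h7 : ∀ t, g^[t] x = f^[t] x := by
      intro t
      induction t with
      | zero => rfl
      | succ t ih =>
        rw [iterate_succ_apply', iterate_succ_apply', hgf _ (hg.iter_lt t hx) (h6 t), ih]
    obtain ⟨t, ht⟩ := hr.reach x hx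
    have h8 : kept (rem x) = true := by rw [← ht, ← h7]; exact h6 t
    have h9 : bit (rem x) = false := by
      simp only [hkept, At611_kept, hr.idem hf hx, decide_true] at h8
      simpa using h8
    have h10 : ∀ y, rem y = rem x → kept y = true → y = rem x := by
      intro y hy hky
      simp only [hkept, At611_kept, hy, h9] at hky
      simpa using hky
    have h11 := h10 x rfl hkx
    have h12 := h10 (f x) (hr.step x hx) (by
      have := h6 1
      rw [h7 1] at this
      exact this)
    exact hfx (h12.trans h11.symm)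
  -- value
  have h6 : ∑ x ∈ range k with kept x = true, m x (f x) +
      ∑ x ∈ E with ¬ rem2 x = x, m2 x (g x) ≤ ∑ x ∈ range k with rem2 x ≠ x, m x (g x) := by
    rw [← sum_filter_add_sum_filter_not {x ∈ range k | rem2 x ≠ x} (fun x => kept x = true)]
    refine add_le_add ?_ ?_
    · rw [filter_filter, sum_filter, sum_filter]
      refine sum_le_sum fun x hx => ?_
      rw [Finset.mem_range] at hx
      by_cases hkx : kept x = true
      · rw [if_pos hkx]
        by_cases hrx : rem2 x = x
        · rw [h5 x hx hkx hrx, h0]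
          exact Nat.zero_le _
        · rw [if_pos ⟨hrx, hkx⟩, hgf x hx hkx]
      · rw [if_neg hkx]
        exact Nat.zero_le _
    · rw [filter_filter, filter_filter, sum_filter, sum_filter]
      refine sum_le_sum fun x hx => ?_
      by_cases hkx : kept x = false
      · by_cases hrx : rem2 x = x
        · rw [if_neg (fun h => h.2 hrx)]
          exact Nat.zero_le _
        · have hk' : ¬ kept x = true := by rw [hkx]; decide
          rw [if_pos ⟨hkx, hrx⟩, if_pos ⟨hrx, hk'⟩]
          simp only [hm2, At611_m2]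
          rw [if_neg hk']
          split_ifs
          · exact Nat.zero_le _
          · exact le_rfl
      · rw [if_neg (fun h => hkx h.1)]
        exact Nat.zero_le _
  have h7 : ∑ x ∈ E with rem2 x = x, m2 x (g x) + ∑ x ∈ E with ¬ rem2 x = x, m2 x (g x) =
      ∑ x ∈ E, m2 x (g x) := sum_filter_add_sum_filter_not E _ _
  omega

end

/-! ### A pairwise independent family of bits -/

def At611_step (H : List (List Bool)) : List (List Bool) :=
  H.flatMap (fun v => [v ++ v, v ++ v.map (fun b => !b)])

def At611_fam (m : ℕ) : List (List Bool) := At611_step^[m] [[false], [true]]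

theorem At611_fam_succ (m : ℕ) : At611_fam (m + 1) = At611_step (At611_fam m) := iterate_succ_apply' _ _ _

theorem At611_step_sum (H : List (List Bool)) (G : List Bool → ℕ) :
    ((At611_step H).map G).sum = (H.map (fun v => G (v ++ v) + G (v ++ v.map (fun b => !b)))).sum := by
  induction H with
  | nil => rfl
  | cons v H ih =>
    simp only [At611_step, List.flatMap_cons, List.map_append, List.sum_append, List.map_cons,
      List.sum_cons, List.map_nil, List.sum_nil] at ih ⊢
    rw [ih]
    ring

theorem At611_step_length (H : List (List Bool)) : (At611_step H).length = 2 * H.length := by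
  induction H with
  | nil => rfl
  | cons v H ih =>
    simp only [At611_step, List.flatMap_cons, List.length_append, List.length_cons,
      List.length_nil] at ih ⊢
    omega

theorem At611_fam_length (m : ℕ) : (At611_fam m).length = 2 ^ (m + 1) := by
  induction m with
  | zero => rfl
  | succ m ih => rw [At611_fam_succ, At611_step_length, ih, pow_succ 2 (m + 1), mul_comm]

theorem At611_fam_mem (m : ℕ) : ∀ v ∈ At611_fam m, v.length = 2 ^ m := by
  induction m with
  | zero => intro v hv; fin_cases hv <;> rfl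
  | succ m ih =>
    intro v hv
    rw [At611_fam_succ, At611_step, List.mem_flatMap] at hv
    obtain ⟨w, hw, hv⟩ := hv
    have := ih w hw
    simp only [List.mem_cons, List.not_mem_nil, or_false] at hv
    rcases hv with rfl | rfl
    · rw [List.length_append, this, pow_succ]; ring
    · rw [List.length_append, List.length_map, this, pow_succ]; ring

def At611_c1 (i : ℕ) (a : Bool) (v : List Bool) : ℕ := if v.getD i false = a then 1 else 0

def At611_c2 (i j : ℕ) (a b : Bool) (v : List Bool) : ℕ :=
  if v.getD i false = a ∧ v.getD j false = b then 1 else 0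

theorem At611_getD_left {v w : List Bool} {i : ℕ} (h : i < v.length) :
    (v ++ w).getD i false = v.getD i false := by
  rw [List.getD_append _ _ _ _ h]

theorem At611_getD_right {v w : List Bool} {i : ℕ} (h : v.length ≤ i) :
    (v ++ w).getD i false = w.getD (i - v.length) false := by
  rw [List.getD_append_right _ _ _ _ h]

theorem At611_getD_not {v : List Bool} {i : ℕ} (h : i < v.length) :
    (v.map (fun b => !b)).getD i false = !(v.getD i false) := by
  simp only [List.getD_eq_getElem?_getD, List.getElem?_map, List.getElem?_eq_getElem h, Option.map_some, Option.getD_some]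

theorem At611_sum_congr {H : List (List Bool)} {F G : List Bool → ℕ} (h : ∀ v ∈ H, F v = G v) :
    (H.map F).sum = (H.map G).sum := by
  rw [List.map_congr_left h]

theorem At611_sum_add (H : List (List Bool)) (F G : List Bool → ℕ) :
    (H.map (fun v => F v + G v)).sum = (H.map F).sum + (H.map G).sum := by
  induction H with
  | nil => rfl
  | cons v H ih => simp only [List.map_cons, List.sum_cons, ih]; ring

theorem At611_fam_one (m : ℕ) : ∀ i < 2 ^ m, ∀ a, 2 * ((At611_fam m).map (At611_c1 i a)).sum =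
    (At611_fam m).length := by
  induction m with
  | zero =>
    intro i hi a
    have : i = 0 := by simpa using hi
    subst this
    cases a <;> rfl
  | succ m ih =>
    intro i hi a
    rw [At611_fam_succ, At611_step_sum, At611_step_length]
    by_cases h : i < 2 ^ m
    · have e : ((At611_fam m).map (fun v => At611_c1 i a (v ++ v) +
          At611_c1 i a (v ++ v.map (fun b => !b)))).sum =
          ((At611_fam m).map (fun v => At611_c1 i a v + At611_c1 i a v)).sum := by
        refine At611_sum_congr fun v hv => ?_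
        have hl := At611_fam_mem m v hv
        simp only [At611_c1]
        rw [At611_getD_left (by omega), At611_getD_left (by omega)]
      rw [e, At611_sum_add]
      have := ih i h a
      omega
    · have h' : i - 2 ^ m < 2 ^ m := by rw [pow_succ] at hi; omega
      have e : ((At611_fam m).map (fun v => At611_c1 i a (v ++ v) +
          At611_c1 i a (v ++ v.map (fun b => !b)))).sum =
          ((At611_fam m).map (fun v => At611_c1 (i - 2 ^ m) a v + At611_c1 (i - 2 ^ m) (!a) v)).sum := by
        refine At611_sum_congr fun v hv => ?_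
        have hl := At611_fam_mem m v hv
        simp only [At611_c1]
        rw [At611_getD_right (by omega), At611_getD_right (by omega), hl, At611_getD_not (by omega)]
        cases v.getD (i - 2 ^ m) false <;> cases a <;> rfl
      rw [e, At611_sum_add]
      have h1 := ih _ h' a
      have h2 := ih _ h' (!a)
      omega

theorem At611_fam_two (m : ℕ) : ∀ i < 2 ^ m, ∀ j < 2 ^ m, i ≠ j → ∀ a b,
    4 * ((At611_fam m).map (At611_c2 i j a b)).sum = (At611_fam m).length := by
  induction m with
  | zero =>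
    intro i hi j hj hij
    have h1 : i = 0 := by simpa using hi
    have h2 : j = 0 := by simpa using hj
    exact absurd (h1.trans h2.symm) hij
  | succ m ih =>
    intro i hi j hj hij a b
    rw [At611_fam_succ, At611_step_sum, At611_step_length]
    rw [pow_succ] at hi hj
    by_cases h : i < 2 ^ m <;> by_cases h' : j < 2 ^ m
    · have e : ((At611_fam m).map (fun v => At611_c2 i j a b (v ++ v) +
          At611_c2 i j a b (v ++ v.map (fun b => !b)))).sum =
          ((At611_fam m).map (fun v => At611_c2 i j a b v + At611_c2 i j a b v)).sum := by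
        refine At611_sum_congr fun v hv => ?_
        have hl := At611_fam_mem m v hv
        simp only [At611_c2]
        rw [At611_getD_left (by omega), At611_getD_left (by omega), At611_getD_left (by omega),
          At611_getD_left (by omega)]
      rw [e, At611_sum_add]
      have := ih i h j h' hij a b
      omega
    · have e : ((At611_fam m).map (fun v => At611_c2 i j a b (v ++ v) +
          At611_c2 i j a b (v ++ v.map (fun b => !b)))).sum =
          ((At611_fam m).map (At611_c1 i a)).sum := by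
        refine At611_sum_congr fun v hv => ?_
        have hl := At611_fam_mem m v hv
        simp only [At611_c2, At611_c1]
        rw [At611_getD_left (i := i) (by omega), At611_getD_left (i := i) (by omega),
          At611_getD_right (i := j) (by omega), At611_getD_right (i := j) (by omega), hl,
          At611_getD_not (by omega)]
        cases v.getD i false <;> cases v.getD (j - 2 ^ m) false <;> cases a <;> cases b <;> rfl
      rw [e]
      have := At611_fam_one m i h a
      omega
    · have e : ((At611_fam m).map (fun v => At611_c2 i j a b (v ++ v) +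
          At611_c2 i j a b (v ++ v.map (fun b => !b)))).sum =
          ((At611_fam m).map (At611_c1 j b)).sum := by
        refine At611_sum_congr fun v hv => ?_
        have hl := At611_fam_mem m v hv
        simp only [At611_c2, At611_c1]
        rw [At611_getD_right (i := i) (by omega), At611_getD_right (i := i) (by omega),
          At611_getD_left (i := j) (by omega), At611_getD_left (i := j) (by omega), hl,
          At611_getD_not (by omega)]
        cases v.getD j false <;> cases v.getD (i - 2 ^ m) false <;> cases a <;> cases b <;> rfl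
      rw [e]
      have := At611_fam_one m j h' b
      omega
    · have e : ((At611_fam m).map (fun v => At611_c2 i j a b (v ++ v) +
          At611_c2 i j a b (v ++ v.map (fun b => !b)))).sum =
          ((At611_fam m).map (fun v => At611_c2 (i - 2 ^ m) (j - 2 ^ m) a b v +
            At611_c2 (i - 2 ^ m) (j - 2 ^ m) (!a) (!b) v)).sum := by
        refine At611_sum_congr fun v hv => ?_
        have hl := At611_fam_mem m v hv
        simp only [At611_c2]
        rw [At611_getD_right (by omega), At611_getD_right (by omega), At611_getD_right (by omega),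
          At611_getD_right (by omega), hl, At611_getD_not (by omega), At611_getD_not (by omega)]
        cases v.getD (i - 2 ^ m) false <;> cases v.getD (j - 2 ^ m) false <;> cases a <;>
          cases b <;> rfl
      rw [e, At611_sum_add]
      have h1 := ih (i - 2 ^ m) (by omega) (j - 2 ^ m) (by omega) (by omega) a b
      have h2 := ih (i - 2 ^ m) (by omega) (j - 2 ^ m) (by omega) (by omega) (!a) (!b)
      omega

theorem At611_sum_swap (H : List (List Bool)) (S : Finset ℕ) (c : ℕ → ℕ) (F : List Bool → ℕ → ℕ) :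
    (H.map (fun v => ∑ x ∈ S, c x * F v x)).sum = ∑ x ∈ S, c x * (H.map (fun v => F v x)).sum := by
  induction H with
  | nil => simp
  | cons v H ih =>
    simp only [List.map_cons, List.sum_cons, ih]
    rw [← sum_add_distrib]
    exact sum_congr rfl fun x _ => by ring


theorem At611_surj {k : ℕ} {f : ℕ → ℕ} (hf : At611_Bij k f) {y : ℕ} (hy : y < k) :
    ∃ x < k, f x = y := by
  obtain ⟨n, hn, -, h⟩ := hf.periodic hy
  refine ⟨f^[n - 1] y, hf.iter_lt _ hy, ?_⟩
  rw [← iterate_succ_apply' f]
  have : (n - 1).succ = n := by omega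
  rw [this, h]

theorem At611_main {k e : ℕ} {m : ℕ → ℕ → ℕ} {f rem : ℕ → ℕ} (hke : k ≤ 2 ^ e) (hf : At611_Bij k f)
    (hr : At611_Rem k f (fun x => m x (f x)) rem) (h0 : ∀ x, m x x = 0) (ho : At611_Opt k m f)
    {S0 : Finset ℕ} {s : ℕ → ℕ} (hS : S0 ⊆ range k) (hs : ∀ x ∈ S0, s x < k)
    (hsi : Set.InjOn s S0) (hne : ∀ x ∈ S0, s x ≠ x) (h2 : ∀ x ∈ S0, s x ∈ S0 → s (s x) ≠ x)
    {best : ℕ} (hA : ∑ x ∈ range k with rem x ≠ x, m x (f x) ≤ best)
    (hB : ∀ v ∈ At611_fam e, 2 * ∑ x ∈ range k with At611_kept rem (fun i => v.getD i false) x = true,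
        m x (f x) + ∑ x ∈ S0 with rem (s x) ≠ rem x ∧
          At611_kept rem (fun i => v.getD i false) x = false ∧
          ∀ y < k, f y = s x → At611_kept rem (fun i => v.getD i false) y = false, m x (s x)
        ≤ 2 * best) :
    6 * ∑ x ∈ S0, m x (s x) ≤ 11 * best := by
  classical
  set H := At611_fam e with hH
  set Z := ∑ x ∈ range k, m x (f x) with hZ
  have hK : ∑ x ∈ S0, m x (s x) ≤ Z := ho S0 s hS hs hsi
  have hin := At611_A hf hr h0 ho hS hs hsi hne h2
  have hZA : ∑ x ∈ range k with rem x = x, m x (f x) + ∑ x ∈ range k with rem x ≠ x, m x (f x) = Z :=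
    sum_filter_add_sum_filter_not _ _ _
  have hKK : ∑ x ∈ S0 with rem (s x) = rem x, m x (s x) +
      ∑ x ∈ S0 with rem (s x) ≠ rem x, m x (s x) = ∑ x ∈ S0, m x (s x) :=
    sum_filter_add_sum_filter_not _ _ _
  -- average of the kept weight
  have h1 : 2 * (H.map (fun v => ∑ x ∈ range k with
      At611_kept rem (fun i => v.getD i false) x = true, m x (f x))).sum = H.length * Z := by
    have e1 : ∀ v ∈ H, ∑ x ∈ range k with At611_kept rem (fun i => v.getD i false) x = true,
        m x (f x) = ∑ x ∈ range k, m x (f x) * At611_c1 (rem x) (!decide (x = rem x)) v := by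
      intro v _
      rw [sum_filter]
      refine sum_congr rfl fun x _ => ?_
      have : (At611_kept rem (fun i => v.getD i false) x = true) ↔
          v.getD (rem x) false = !decide (x = rem x) := by
        simp only [At611_kept]
        cases v.getD (rem x) false <;> cases decide (x = rem x) <;> simp
      simp only [At611_c1]
      by_cases h : v.getD (rem x) false = !decide (x = rem x)
      · rw [if_pos (this.2 h), if_pos h, mul_one]
      · rw [if_neg (fun h' => h (this.1 h')), if_neg h, mul_zero]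
    rw [At611_sum_congr e1, At611_sum_swap, mul_sum, hZ, mul_sum]
    refine sum_congr rfl fun x hx => ?_
    rw [Finset.mem_range] at hx
    have h3 := At611_fam_one e (rem x) (lt_of_lt_of_le (hr.lt x hx) hke) (!decide (x = rem x))
    rw [← hH] at h3
    calc 2 * (m x (f x) * (H.map (fun v => At611_c1 (rem x) (!decide (x = rem x)) v)).sum) =
        m x (f x) * (2 * (H.map (At611_c1 (rem x) (!decide (x = rem x)))).sum) := by ring
      _ = H.length * m x (f x) := by rw [h3]; ring
  -- average of the surviving weight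
  have h4 : 4 * (H.map (fun v => ∑ x ∈ S0 with rem (s x) ≠ rem x ∧
          At611_kept rem (fun i => v.getD i false) x = false ∧
          ∀ y < k, f y = s x → At611_kept rem (fun i => v.getD i false) y = false,
          m x (s x))).sum = H.length * ∑ x ∈ S0 with rem (s x) ≠ rem x, m x (s x) := by
    have hinv : ∀ x ∈ S0, ∃ y < k, f y = s x := fun x hx => At611_surj hf (hs x hx)
    choose! p hp1 hp2 using hinv
    have e1 : ∀ v ∈ H, ∑ x ∈ S0 with rem (s x) ≠ rem x ∧
          At611_kept rem (fun i => v.getD i false) x = false ∧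
          ∀ y < k, f y = s x → At611_kept rem (fun i => v.getD i false) y = false, m x (s x) =
        ∑ x ∈ S0 with rem (s x) ≠ rem x,
          m x (s x) * At611_c2 (rem x) (rem (p x)) (decide (x = rem x)) (decide (p x = rem (p x))) v := by
      intro v _
      rw [← filter_filter, sum_filter]
      refine sum_congr rfl fun x hx => ?_
      have hx0 := (mem_filter.1 hx).1
      have hb : ∀ z, (At611_kept rem (fun i => v.getD i false) z = false) ↔
          v.getD (rem z) false = decide (z = rem z) := by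
        intro z
        simp only [At611_kept]
        cases v.getD (rem z) false <;> cases decide (z = rem z) <;> simp
      have h5 : (At611_kept rem (fun i => v.getD i false) x = false ∧
          ∀ y < k, f y = s x → At611_kept rem (fun i => v.getD i false) y = false) ↔
          (v.getD (rem x) false = decide (x = rem x) ∧
            v.getD (rem (p x)) false = decide (p x = rem (p x))) := by
        rw [← hb, ← hb]
        refine and_congr_right fun _ => ⟨fun h => h _ (hp1 x hx0) (hp2 x hx0), fun h y hy hy2 => ?_⟩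
        rw [hf.inj y hy _ (hp1 x hx0) (hy2.trans (hp2 x hx0).symm)]
        exact h
      simp only [At611_c2]
      by_cases h : v.getD (rem x) false = decide (x = rem x) ∧
            v.getD (rem (p x)) false = decide (p x = rem (p x))
      · rw [if_pos (h5.2 h), if_pos h, mul_one]
      · rw [if_neg (fun h' => h (h5.1 h')), if_neg h, mul_zero]
    rw [At611_sum_congr e1, At611_sum_swap, mul_sum, mul_sum]
    refine sum_congr rfl fun x hx => ?_
    obtain ⟨hx0, hx1⟩ := mem_filter.1 hx
    have hxk : x < k := by simpa using hS hx0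
    have h6 : rem (p x) = rem (s x) := by rw [← hp2 x hx0, hr.step _ (hp1 x hx0)]
    have h3 := At611_fam_two e (rem x) (lt_of_lt_of_le (hr.lt x hxk) hke) (rem (p x))
      (lt_of_lt_of_le (hr.lt _ (hp1 x hx0)) hke) (by rw [h6]; exact Ne.symm hx1)
      (decide (x = rem x)) (decide (p x = rem (p x)))
    rw [← hH] at h3
    calc 4 * (m x (s x) * (H.map (fun v => At611_c2 (rem x) (rem (p x)) (decide (x = rem x))
          (decide (p x = rem (p x))) v)).sum) =
        m x (s x) * (4 * (H.map (At611_c2 (rem x) (rem (p x)) (decide (x = rem x))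
          (decide (p x = rem (p x))))).sum) := by ring
      _ = H.length * m x (s x) := by rw [h3]; ring
  have h5 : 2 * (H.map (fun v => ∑ x ∈ range k with
      At611_kept rem (fun i => v.getD i false) x = true, m x (f x))).sum +
      (H.map (fun v => ∑ x ∈ S0 with rem (s x) ≠ rem x ∧
          At611_kept rem (fun i => v.getD i false) x = false ∧
          ∀ y < k, f y = s x → At611_kept rem (fun i => v.getD i false) y = false,
          m x (s x))).sum ≤ H.length * (2 * best) := by
    have h6 : ∀ (L : List (List Bool)) (F G : List Bool → ℕ) (b : ℕ),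
        (∀ v ∈ L, 2 * F v + G v ≤ b) → 2 * (L.map F).sum + (L.map G).sum ≤ L.length * b := by
      intro L F G b h
      induction L with
      | nil => simp
      | cons v L ih =>
        have h7 := h v (by simp)
        have h8 := ih fun w hw => h w (by simp [hw])
        simp only [List.map_cons, List.sum_cons, List.length_cons]
        rw [add_mul]
        omega
    exact h6 H _ _ _ hB
  have hpos : 0 < H.length := by rw [hH, At611_fam_length]; positivity
  have h6 : 4 * Z + ∑ x ∈ S0 with rem (s x) ≠ rem x, m x (s x) ≤ 8 * best := by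
    refine Nat.le_of_mul_le_mul_left ?_ hpos
    calc H.length * (4 * Z + ∑ x ∈ S0 with rem (s x) ≠ rem x, m x (s x)) =
        4 * (H.length * Z) + H.length * ∑ x ∈ S0 with rem (s x) ≠ rem x, m x (s x) := by ring
      _ ≤ 4 * (H.length * (2 * best)) := by rw [← h1, ← h4]; omega
      _ = H.length * (8 * best) := by ring
  omega


/-! ### Tables -/

/-- a table of values -/
def At611_tab (k : ℕ) (F : ℕ → ℕ → ℕ) : List (List ℕ) :=
  (List.range k).map (fun i => (List.range k).map (fun j => F i j))

theorem At611_tab_length (k : ℕ) (F : ℕ → ℕ → ℕ) : (At611_tab k F).length = k := by simp [At611_tab]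

theorem At611_ent_tab {k : ℕ} {F : ℕ → ℕ → ℕ} {i j : ℕ} (hi : i < k) (hj : j < k) :
    ent (At611_tab k F) i j = F i j := by
  simp [ent, At611_tab, List.getD_eq_getElem?_getD, hi, hj]

theorem At611_sq_tab {k B : ℕ} {F : ℕ → ℕ → ℕ} (h : ∀ i < k, ∀ j < k, F i j ≤ B) :
    SqMat (At611_tab k F) B := by
  constructor
  · intro row hrow
    simp only [At611_tab, List.mem_map, List.mem_range] at hrow
    obtain ⟨i, hi, rfl⟩ := hrow
    simp [At611_tab_length]
  · intro row hrow x hx
    simp only [At611_tab, List.mem_map, List.mem_range] at hrow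
    obtain ⟨i, hi, rfl⟩ := hrow
    simp only [List.mem_map, List.mem_range] at hx
    obtain ⟨j, hj, rfl⟩ := hx
    exact h i hi j hj

theorem At611_asgVal {k : ℕ} {M : List (List ℕ)} (hM : M.length = k) (P : List ℕ) :
    asgVal M P = ∑ i ∈ range k, ent M i (P.getD i 0) := by
  unfold asgVal
  rw [hM]
  rfl

theorem At611_perm_getD {k : ℕ} {P : List ℕ} (hP : P.Perm (List.range k)) {x : ℕ} (hx : x < k) :
    P.getD x 0 < k := by
  have hl : P.length = k := by simpa using hP.length_eq
  rw [List.getD_eq_getElem _ _ (by omega)]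
  have := hP.mem_iff.1 (List.getElem_mem (show x < P.length by omega))
  simpa using this

theorem At611_bij_of_perm {k : ℕ} {P : List ℕ} (hP : P.Perm (List.range k)) :
    At611_Bij k (fun x => P.getD x 0) where
  maps := fun _ hx => At611_perm_getD hP hx
  inj := by
    intro x hx y hy h
    have hl : P.length = k := by simpa using hP.length_eq
    have hn : P.Nodup := hP.nodup_iff.2 List.nodup_range
    rw [List.getD_eq_getElem _ _ (by omega), List.getD_eq_getElem _ _ (by omega)] at h
    exact (List.Nodup.getElem_inj_iff hn).1 h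

theorem At611_opt_of_asg {k : ℕ} {F : ℕ → ℕ → ℕ} {P : List ℕ} (hP : P.Perm (List.range k))
    (ho : ∀ Q : List ℕ, Q.Perm (List.range k) → asgVal (At611_tab k F) Q ≤ asgVal (At611_tab k F) P) :
    At611_Opt k F (fun x => P.getD x 0) := by
  intro S h hS hlt hinj
  classical
  obtain ⟨g, hg⟩ := Set.MapsTo.exists_equiv_extend_of_card_eq (α := Fin k) (t := range k)
    (s := {i : Fin k | (i : ℕ) ∈ S}) (f := fun i => h i) (by simp only [Fintype.card_fin, card_range])
    (fun i hi => by simpa using hlt i hi) (fun i hi j hj hij => by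
      ext; exact hinj hi hj hij)
  set g' : ℕ → ℕ := fun x => if hx : x < k then (g ⟨x, hx⟩ : ℕ) else 0 with hg'
  have hgk : ∀ x < k, g' x < k := fun x hx => by
    simp only [hg', dif_pos hx]
    exact Finset.mem_range.1 (g ⟨x, hx⟩).2
  have hgi : ∀ x < k, ∀ y < k, g' x = g' y → x = y := fun x hx y hy h => by
    simp only [hg', dif_pos hx, dif_pos hy] at h
    have := g.injective (Subtype.ext h)
    simpa using this
  have hQ : ((List.range k).map g').Perm (List.range k) := by
    refine List.Perm.symm (List.Subperm.perm_of_length_le ?_ (by simp)).symm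
    refine List.subperm_of_subset (List.Nodup.map_on (fun x hx y hy h =>
      hgi x (by simpa using hx) y (by simpa using hy) h) List.nodup_range) ?_
    intro y hy
    simp only [List.mem_map, List.mem_range] at hy ⊢
    obtain ⟨x, hx, rfl⟩ := hy
    exact hgk x hx
  have h1 := ho _ hQ
  rw [At611_asgVal (At611_tab_length k F), At611_asgVal (At611_tab_length k F)] at h1
  have h2 : ∑ i ∈ range k, ent (At611_tab k F) i (((List.range k).map g').getD i 0) =
      ∑ i ∈ range k, F i (g' i) := sum_congr rfl fun i hi => by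
    rw [Finset.mem_range] at hi
    have : ((List.range k).map g').getD i 0 = g' i := by
      simp [List.getD_eq_getElem?_getD, hi]
    rw [this, At611_ent_tab hi (hgk i hi)]
  have h3 : ∑ i ∈ range k, ent (At611_tab k F) i (P.getD i 0) = ∑ i ∈ range k, F i (P.getD i 0) :=
    sum_congr rfl fun i hi => by
      rw [Finset.mem_range] at hi
      rw [At611_ent_tab hi (At611_perm_getD hP hi)]
  rw [h2, h3] at h1
  refine le_trans ?_ h1
  calc ∑ x ∈ S, F x (h x) = ∑ x ∈ S, F x (g' x) := sum_congr rfl fun x hx => by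
        have hxk : x < k := by simpa using hS hx
        have := hg ⟨x, hxk⟩ hx
        simp only [hg', dif_pos hxk]
        rw [this]
    _ ≤ _ := sum_le_sum_of_subset hS

/-! ### The lightest arc of a cycle -/

/-- choice of an element by comparisons -/
def At611_pick {γ : Type*} (c : γ → γ → Bool) (l : List γ) (x : γ) : γ :=
  l.foldl (fun a b => if c a b = true then b else a) x

theorem At611_pick_mem {γ : Type*} (c : γ → γ → Bool) (l : List γ) (x : γ) :
    At611_pick c l x ∈ x :: l := by
  induction l generalizing x with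
  | nil => simp [At611_pick]
  | cons b l ih =>
    have h : At611_pick c (b :: l) x = At611_pick c l (if c x b = true then b else x) := rfl
    rw [h]
    have := ih (if c x b = true then b else x)
    by_cases hc : c x b = true
    · rw [if_pos hc] at this ⊢
      simp only [List.mem_cons] at this ⊢
      (clear * - this; tauto)
    · rw [if_neg hc] at this ⊢
      simp only [List.mem_cons] at this ⊢
      (clear * - this; tauto)

theorem At611_pick_min {γ : Type*} (key : γ → ℕ) (l : List γ) (x : γ) :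
    ∀ y ∈ x :: l, key (At611_pick (fun a b => decide (key b < key a)) l x) ≤ key y := by
  induction l generalizing x with
  | nil => intro y hy; simp at hy; subst hy; exact le_rfl
  | cons b l ih =>
    intro y hy
    have h : At611_pick (fun a b => decide (key b < key a)) (b :: l) x =
      At611_pick (fun a b => decide (key b < key a)) l (if key b < key x then b else x) := by
      simp [At611_pick]
    rw [h]
    have h1 := ih (if key b < key x then b else x)
    have h2 := h1 _ (List.mem_cons_self)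
    by_cases hc : key b < key x
    · rw [if_pos hc] at h1 h2 ⊢
      rcases List.mem_cons.1 hy with rfl | hy
      · omega
      · exact h1 y hy
    · rw [if_neg hc] at h1 h2 ⊢
      rcases List.mem_cons.1 hy with rfl | hy
      · exact h2
      · rcases List.mem_cons.1 hy with rfl | hy
        · omega
        · exact h1 y (by simp [hy])

/-- a long piece of the orbit -/
def At611_orb (P : List ℕ) (x : ℕ) : List ℕ := P.foldl (fun l _ => P.getD (l.headD 0) 0 :: l) [x]

theorem At611_mem_foldl (f : ℕ → ℕ) (L : List ℕ) (y : ℕ) (l : List ℕ) (z : ℕ) :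
    z ∈ L.foldl (fun l _ => f (l.headD 0) :: l) (y :: l) ↔
      z ∈ l ∨ ∃ t ≤ L.length, z = f^[t] y := by
  induction L generalizing y l with
  | nil =>
    simp only [List.foldl_nil, List.mem_cons, List.length_nil, Nat.le_zero]
    constructor
    · rintro (h | h)
      · exact Or.inr ⟨0, rfl, h⟩
      · exact Or.inl h
    · rintro (h | ⟨t, rfl, h⟩)
      · exact Or.inr h
      · exact Or.inl h
  | cons b L ih =>
    rw [List.foldl_cons]
    have h1 : f ((y :: l).headD 0) = f y := rfl
    rw [h1, ih]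
    constructor
    · rintro (h | ⟨t, ht, h⟩)
      · rcases List.mem_cons.1 h with rfl | h
        · exact Or.inr ⟨0, Nat.zero_le _, rfl⟩
        · exact Or.inl h
      · exact Or.inr ⟨t + 1, by simpa only [List.length_cons, add_le_add_iff_right] using ht, h⟩
    · rintro (h | ⟨t, ht, h⟩)
      · exact Or.inl (List.mem_cons_of_mem _ h)
      · rcases t with _ | t
        · exact Or.inl (by rw [h]; exact List.mem_cons_self)
        · exact Or.inr ⟨t, by simpa only [List.length_cons, add_le_add_iff_right] using ht, h⟩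

theorem At611_mem_orb {k : ℕ} {P : List ℕ} (hP : P.Perm (List.range k)) {x : ℕ} (hx : x < k) (z : ℕ) :
    z ∈ At611_orb P x ↔ ∃ t, (fun x => P.getD x 0)^[t] x = z := by
  have hl : P.length = k := by simpa using hP.length_eq
  unfold At611_orb
  rw [At611_mem_foldl (fun x => P.getD x 0)]
  simp only [List.not_mem_nil, false_or]
  constructor
  · rintro ⟨t, -, h⟩; exact ⟨t, h.symm⟩
  · rintro ⟨t, h⟩
    obtain ⟨n, hn, hnk, hn1⟩ := (At611_bij_of_perm hP).periodic hx
    refine ⟨t % n, ?_, ?_⟩
    · have := Nat.mod_lt t hn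
      omega
    · rw [← h]
      exact (IsPeriodicPt.iterate_mod_apply hn1 t).symm

/-- the key of an arc -/
def At611_key (T : List (List ℕ)) (P : List ℕ) (b : ℕ) : ℕ := ent T b (P.getD b 0) * T.length + b

/-- the lightest arc on the cycle of `x` -/
def At611_rem (T : List (List ℕ)) (P : List ℕ) (x : ℕ) : ℕ :=
  At611_pick (fun a b => decide (At611_key T P b < At611_key T P a)) (At611_orb P x) x

theorem At611_rem_ok {k : ℕ} {T : List (List ℕ)} {P : List ℕ} (hT : T.length = k)
    (hP : P.Perm (List.range k)) :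
    At611_Rem k (fun x => P.getD x 0) (fun x => ent T x (P.getD x 0)) (At611_rem T P) := by
  have hf := At611_bij_of_perm hP
  have hself : ∀ x < k, x ∈ At611_orb P x := fun x hx => (At611_mem_orb hP hx x).2 ⟨0, rfl⟩
  have hmem : ∀ x < k, ∃ t, (fun x => P.getD x 0)^[t] x = At611_rem T P x := fun x hx => by
    refine (At611_mem_orb hP hx _).1 ?_
    rcases List.mem_cons.1 (At611_pick_mem (fun a b => decide (At611_key T P b < At611_key T P a))
      (At611_orb P x) x) with h | h
    · unfold At611_rem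
      rw [h]
      exact hself x hx
    · exact h
  have hlt : ∀ x < k, At611_rem T P x < k := fun x hx => by
    obtain ⟨t, ht⟩ := hmem x hx
    rw [← ht]
    exact hf.iter_lt t hx
  have hmin : ∀ x < k, ∀ t, At611_key T P (At611_rem T P x) ≤
      At611_key T P ((fun x => P.getD x 0)^[t] x) := fun x hx t =>
    At611_pick_min (At611_key T P) (At611_orb P x) x _
      (List.mem_cons_of_mem _ ((At611_mem_orb hP hx _).2 ⟨t, rfl⟩))
  have hkey : ∀ x < k, ∀ y < k, At611_key T P x = At611_key T P y → x = y := by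
    intro x hx y hy h
    unfold At611_key at h
    rw [hT] at h
    have h1 := congrArg (fun z => z % k) h
    beta_reduce at h1
    rw [Nat.mul_add_mod', Nat.mul_add_mod', Nat.mod_eq_of_lt hx, Nat.mod_eq_of_lt hy] at h1
    exact h1
  refine ⟨hlt, hmem, fun x hx => ?_, fun x hx => ?_⟩
  · have hfx : P.getD x 0 < k := hf.maps x hx
    refine hkey _ (hlt _ hfx) _ (hlt _ hx) (le_antisymm ?_ ?_)
    · obtain ⟨t, ht⟩ := hmem x hx
      obtain ⟨n, hn, -, hn1⟩ := hf.periodic hx
      have h1 : (fun x => P.getD x 0)^[t + (n - 1)] (P.getD x 0) = At611_rem T P x := by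
        have h2 : (fun x => P.getD x 0)^[n] x = (fun x => P.getD x 0)^[n - 1] (P.getD x 0) := by
          obtain ⟨c, rfl⟩ : ∃ c, n = c + 1 := ⟨n - 1, by omega⟩
          rfl
        rw [iterate_add_apply, ← h2, hn1, ht]
      rw [← h1]
      exact hmin _ hfx _
    · obtain ⟨t, ht⟩ := hmem _ hfx
      rw [← ht]
      exact hmin x hx (t + 1)
  · have h1 := hmin x hx 0
    rw [iterate_zero, id_eq] at h1
    unfold At611_key at h1
    rw [hT] at h1
    by_contra hcon
    have h2 : ent T x (P.getD x 0) + 1 ≤ ent T (At611_rem T P x) (P.getD (At611_rem T P x) 0) := by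
      have := not_le.1 hcon
      exact this
    have h3 := Nat.mul_le_mul_right k h2
    rw [add_mul, one_mul] at h3
    have h4 : At611_rem T P x < k := hlt x hx
    omega

/-! ### Paths -/

theorem At611_pathV_eq (W : ℕ → ℕ → ℕ) (P : List ℕ) :
    pathV W P = ∑ i ∈ range (P.length - 1), W (P.getD i 0) (P.getD (i + 1) 0) := by
  induction P with
  | nil => rfl
  | cons a P ih =>
    cases P with
    | nil => rfl
    | cons b P =>
      have h : (a :: b :: P).length - 1 = (b :: P).length - 1 + 1 := by simp only [List.length_cons, add_tsub_cancel_right, Nat.add_left_cancel_iff]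
      rw [h, sum_range_succ']
      have h2 : pathV W (a :: b :: P) = W a b + pathV W (b :: P) := rfl
      rw [h2, ih, add_comm]
      rfl

theorem At611_pathV_zip (W : ℕ → ℕ → ℕ) (P : List ℕ) :
    pathV W P = ((P.zip P.tail).map (fun e => W e.1 e.2)).sum := by
  induction P with
  | nil => rfl
  | cons a P ih =>
    cases P with
    | nil => rfl
    | cons b P =>
      have h2 : pathV W (a :: b :: P) = W a b + pathV W (b :: P) := rfl
      rw [h2, ih]
      rfl

theorem At611_path {k : ℕ} {P : List ℕ} (hP : P.Perm (List.range k)) :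
    ∃ (S0 : Finset ℕ) (s : ℕ → ℕ), S0 ⊆ range k ∧ (∀ x ∈ S0, s x < k) ∧ Set.InjOn s S0 ∧
      (∀ x ∈ S0, s x ≠ x) ∧ (∀ x ∈ S0, s x ∈ S0 → s (s x) ≠ x) ∧
      ∀ W : ℕ → ℕ → ℕ, pathV W P = ∑ x ∈ S0, W x (s x) := by
  classical
  have hl : P.length = k := by simpa using hP.length_eq
  have hn : P.Nodup := hP.nodup_iff.2 List.nodup_range
  have hinj := (At611_bij_of_perm hP).inj
  have hs : ∀ i < k, P.getD (P.idxOf (P.getD i 0) + 1) 0 = P.getD (i + 1) 0 := by
    intro i hi
    rw [List.getD_eq_getElem _ _ (show i < P.length by omega), hn.idxOf_getElem]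
  set S0 : Finset ℕ := (range (k - 1)).image (fun i => P.getD i 0) with hS0
  have hmem : ∀ x ∈ S0, ∃ i, i + 1 < k ∧ P.getD i 0 = x := by
    intro x hx
    rw [hS0, mem_image] at hx
    obtain ⟨i, hi, rfl⟩ := hx
    rw [Finset.mem_range] at hi
    exact ⟨i, by omega, rfl⟩
  refine ⟨S0, fun x => P.getD (P.idxOf x + 1) 0, ?_, ?_, ?_, ?_, ?_, ?_⟩
  · intro x hx
    obtain ⟨i, hi, rfl⟩ := hmem x hx
    rw [Finset.mem_range]
    exact At611_perm_getD hP (by omega)
  · intro x hx
    obtain ⟨i, hi, rfl⟩ := hmem x hx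
    beta_reduce
    rw [hs i (by omega)]
    exact At611_perm_getD hP hi
  · intro x hx y hy hxy
    obtain ⟨i, hi, rfl⟩ := hmem x hx
    obtain ⟨j, hj, rfl⟩ := hmem y hy
    beta_reduce at hxy
    rw [hs i (by omega), hs j (by omega)] at hxy
    have := hinj _ hi _ hj hxy
    have h2 : i = j := by omega
    rw [h2]
  · intro x hx h
    obtain ⟨i, hi, rfl⟩ := hmem x hx
    beta_reduce at h
    rw [hs i (by omega)] at h
    have := hinj _ hi _ (by omega) h
    omega
  · intro x hx hx2 h
    obtain ⟨i, hi, rfl⟩ := hmem x hx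
    beta_reduce at h hx2
    rw [hs i (by omega)] at h hx2
    obtain ⟨j, hj, hj2⟩ := hmem _ hx2
    have h3 := hinj _ (by omega) _ hi hj2
    rw [hs (i + 1) hi] at h
    have h4 := hinj _ (by omega) _ (by omega) h
    omega
  · intro W
    rw [At611_pathV_eq, hl, hS0, sum_image]
    · refine sum_congr rfl fun i hi => ?_
      rw [Finset.mem_range] at hi
      beta_reduce
      rw [hs i (by omega)]
    · intro i hi j hj h
      simp only [coe_range, Set.mem_Iio] at hi hj
      exact hinj _ (by omega) _ (by omega) h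


/-! ### The algorithm -/

/-- opening an assignment at the lightest arc of every cycle -/
def At611_open (T : List (List ℕ)) (P : List ℕ) : List (ℕ × ℕ) :=
  ((List.range T.length).filter (fun x => decide (At611_rem T P x ≠ x))).map
    (fun x => (x, P.getD x 0))

/-- the matrix with zero diagonal -/
def At611_zd (M : List (List ℕ)) : List (List ℕ) :=
  At611_tab M.length (fun i j => if i = j then 0 else ent M i j)

/-- the second matrix -/
def At611_T2 (T : List (List ℕ)) (P : List ℕ) (v : List Bool) (B : ℕ) : List (List ℕ) :=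
  At611_tab T.length (At611_m2 (ent T) (fun x => P.getD x 0) (At611_rem T P)
    (At611_kept (At611_rem T P) (fun i => v.getD i false)) B)

/-- the large constant -/
def At611_big (u : List Unit) (M : List (List ℕ)) : ℕ := M.length * u.length + u.length + 1

/-- the candidate for a choice of bits -/
def At611_cand (asg : List Unit × List (List ℕ) → List ℕ) (u : List Unit) (M : List (List ℕ))
    (v : List Bool) : List (ℕ × ℕ) :=
  At611_open (At611_T2 (At611_zd M) (asg (u, At611_zd M)) v (At611_big u M))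
    (asg (List.replicate (At611_big u M) (),
      At611_T2 (At611_zd M) (asg (u, At611_zd M)) v (At611_big u M)))

/-- the candidates -/
def At611_cands (asg : List Unit × List (List ℕ) → List ℕ) (u : List Unit) (M : List (List ℕ)) :
    List (List (ℕ × ℕ)) :=
  At611_open (At611_zd M) (asg (u, At611_zd M)) :: (At611_fam (Nat.size M.length)).map (At611_cand asg u M)

/-- the algorithm -/
def At611_alg (asg : List Unit × List (List ℕ) → List ℕ) (join : List Unit × List (ℕ × ℕ) → List ℕ)
    (u : List Unit) (M : List (List ℕ)) : List ℕ :=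
  At611_pick (fun a b => decide (pathV (ent M) a < pathV (ent M) b))
    ((At611_cands asg u M).map (fun F => join (List.replicate M.length (), F)))
    (List.range M.length)

theorem At611_pick_max {γ : Type*} (key : γ → ℕ) (l : List γ) (x : γ) :
    ∀ y ∈ x :: l, key y ≤ key (At611_pick (fun a b => decide (key a < key b)) l x) := by
  induction l generalizing x with
  | nil => intro y hy; simp at hy; subst hy; exact le_rfl
  | cons b l ih =>
    intro y hy
    have h : At611_pick (fun a b => decide (key a < key b)) (b :: l) x =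
      At611_pick (fun a b => decide (key a < key b)) l (if key x < key b then b else x) := by
      simp [At611_pick]
    rw [h]
    have h1 := ih (if key x < key b then b else x)
    have h2 := h1 _ (List.mem_cons_self)
    by_cases hc : key x < key b
    · rw [if_pos hc] at h1 h2 ⊢
      rcases List.mem_cons.1 hy with rfl | hy
      · omega
      · exact h1 y hy
    · rw [if_neg hc] at h1 h2 ⊢
      rcases List.mem_cons.1 hy with rfl | hy
      · exact h2
      · rcases List.mem_cons.1 hy with rfl | hy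
        · omega
        · exact h1 y (by simp [hy])

theorem At611_open_eq {k : ℕ} {T : List (List ℕ)} (hT : T.length = k) (P : List ℕ) :
    At611_open T P = At611_arcs k (fun x => P.getD x 0) (At611_rem T P) := by
  rw [At611_open, hT]; rfl

theorem At611_ent_le {M : List (List ℕ)} {B : ℕ} (hM : SqMat M B) {i j : ℕ} (hi : i < M.length)
    (hj : j < M.length) : ent M i j ≤ B := by
  have h1 : M.getD i [] = M[i] := List.getD_eq_getElem _ _ hi
  have h2 : M[i] ∈ M := List.getElem_mem hi
  have h3 := hM.1 _ h2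
  unfold ent
  rw [h1, List.getD_eq_getElem _ _ (by omega)]
  exact hM.2 _ h2 _ (List.getElem_mem _)

theorem At611_alg_spec {asg : List Unit × List (List ℕ) → List ℕ}
    {join : List Unit × List (ℕ × ℕ) → List ℕ}
    (hasg : ∀ u M, SqMat M u.length → (asg (u, M)).Perm (List.range M.length) ∧
      ∀ P : List ℕ, P.Perm (List.range M.length) → asgVal M P ≤ asgVal M (asg (u, M)))
    (hjoin : ∀ u F, PathSys F → (∀ e ∈ F, e.1 < u.length ∧ e.2 < u.length) →
      (join (u, F)).Perm (List.range u.length) ∧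
      ∀ W : ℕ → ℕ → ℕ, (F.map (fun e => W e.1 e.2)).sum ≤ pathV W (join (u, F)))
    (u : List Unit) (M : List (List ℕ)) (hM : SqMat M u.length) :
    (At611_alg asg join u M).Perm (List.range M.length) ∧
      ∀ P : List ℕ, P.Perm (List.range M.length) →
        6 * pathV (ent M) P ≤ 11 * pathV (ent M) (At611_alg asg join u M) := by
  set k := M.length with hk
  set m : ℕ → ℕ → ℕ := fun i j => if i = j then 0 else ent M i j with hm
  set T := At611_zd M with hTd
  have hT : T.length = k := At611_tab_length _ _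
  have hmU : ∀ x < k, ∀ y < k, m x y ≤ u.length := fun x hx y hy => by
    simp only [hm]
    split_ifs
    · exact Nat.zero_le _
    · exact At611_ent_le hM hx hy
  have hTsq : SqMat T u.length := At611_sq_tab hmU
  set P := asg (u, T) with hPd
  have hP : P.Perm (List.range k) := by
    have := (hasg u T hTsq).1
    rwa [hT] at this
  have hPo : ∀ Q : List ℕ, Q.Perm (List.range k) → asgVal T Q ≤ asgVal T P := fun Q hQ =>
    (hasg u T hTsq).2 Q (by rw [hT]; exact hQ)
  have hf := At611_bij_of_perm hP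
  have hentT : ∀ x < k, ∀ y < k, ent T x y = m x y := fun x hx y hy => At611_ent_tab hx hy
  have ho : At611_Opt k m (fun x => P.getD x 0) := At611_opt_of_asg hP hPo
  have hr0 := At611_rem_ok hT hP
  have hr : At611_Rem k (fun x => P.getD x 0) (fun x => m x (P.getD x 0)) (At611_rem T P) := by
    refine ⟨hr0.lt, hr0.reach, hr0.step, fun x hx => ?_⟩
    have := hr0.min x hx
    beta_reduce at this ⊢
    rwa [hentT _ (hr0.lt x hx) _ (hf.maps _ (hr0.lt x hx)), hentT _ hx _ (hf.maps _ hx)] at this
  have h0 : ∀ x, m x x = 0 := fun x => by simp [hm]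
  set B := At611_big u M with hB
  have hB1 : k * u.length < B := by rw [hB, At611_big, ← hk]; omega
  have hB2 : u.length < B := by rw [hB, At611_big, ← hk]; omega
  -- second stage
  have h2 : ∀ v : List Bool, ∃ (g rem2 : ℕ → ℕ), At611_Bij k g ∧
      At611_Opt k (At611_m2 m (fun x => P.getD x 0) (At611_rem T P)
        (At611_kept (At611_rem T P) (fun i => v.getD i false)) B) g ∧
      At611_Rem k g (fun x => At611_m2 m (fun x => P.getD x 0) (At611_rem T P)
        (At611_kept (At611_rem T P) (fun i => v.getD i false)) B x (g x)) rem2 ∧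
      At611_cand asg u M v = At611_arcs k g rem2 := by
    intro v
    set F2 := At611_m2 (ent T) (fun x => P.getD x 0) (At611_rem T P)
      (At611_kept (At611_rem T P) (fun i => v.getD i false)) B with hF2
    have hF2m : ∀ x < k, ∀ y < k, F2 x y = At611_m2 m (fun x => P.getD x 0) (At611_rem T P)
        (At611_kept (At611_rem T P) (fun i => v.getD i false)) B x y := fun x hx y hy => by
      simp only [hF2, At611_m2]
      rw [hentT x hx y hy]
    set T2 := At611_T2 T P v B with hT2
    have hT2e : T2 = At611_tab k F2 := by rw [hT2, At611_T2, hT]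
    have hT2l : T2.length = k := by rw [hT2e, At611_tab_length]
    have hsq : SqMat T2 B := by
      rw [hT2e]
      refine At611_sq_tab fun x hx y hy => ?_
      rw [hF2m x hx y hy]
      exact At611_m2_le hmU hB2.le hx hy
    have hl : (List.replicate B ()).length = B := List.length_replicate
    have h3 := hasg (List.replicate B ()) T2 (by rw [hl]; exact hsq)
    set Q := asg (List.replicate B (), T2) with hQd
    have hQ : Q.Perm (List.range k) := by
      have := h3.1
      rwa [hT2l] at this
    have hg := At611_bij_of_perm hQ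
    have hrQ := At611_rem_ok hT2l hQ
    have hoQ : At611_Opt k F2 (fun x => Q.getD x 0) := by
      refine At611_opt_of_asg hQ fun Q' hQ' => ?_
      rw [← hT2e]
      exact h3.2 Q' (by rw [hT2l]; exact hQ')
    refine ⟨fun x => Q.getD x 0, At611_rem T2 Q, hg, ?_, ?_, ?_⟩
    · intro S h hS hlt hinj
      have h4 := hoQ S h hS hlt hinj
      have e1 : ∑ x ∈ S, F2 x (h x) = ∑ x ∈ S, At611_m2 m (fun x => P.getD x 0) (At611_rem T P)
          (At611_kept (At611_rem T P) (fun i => v.getD i false)) B x (h x) :=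
        sum_congr rfl fun x hx => hF2m x (by simpa using hS hx) _ (hlt x hx)
      have e2 : ∑ x ∈ range k, F2 x (Q.getD x 0) = ∑ x ∈ range k,
          At611_m2 m (fun x => P.getD x 0) (At611_rem T P)
          (At611_kept (At611_rem T P) (fun i => v.getD i false)) B x (Q.getD x 0) :=
        sum_congr rfl fun x hx => hF2m x (by simpa using hx) _ (hg.maps x (by simpa using hx))
      rw [← e1, ← e2]
      exact h4
    · refine ⟨hrQ.lt, hrQ.reach, hrQ.step, fun x hx => ?_⟩
      have h4 := hrQ.min x hx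
      beta_reduce at h4 ⊢
      have h5 : ∀ y < k, ent T2 y (Q.getD y 0) = At611_m2 m (fun x => P.getD x 0) (At611_rem T P)
          (At611_kept (At611_rem T P) (fun i => v.getD i false)) B y (Q.getD y 0) := fun y hy => by
        rw [hT2e, At611_ent_tab hy (hg.maps y hy), hF2m y hy _ (hg.maps y hy)]
      rwa [h5 _ (hrQ.lt x hx), h5 x hx] at h4
    · exact At611_open_eq hT2l Q
  -- every candidate is a path system
  have hcand : ∀ F ∈ At611_cands asg u M, ∃ g rem w, At611_Bij k g ∧ At611_Rem k g w rem ∧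
      F = At611_arcs k g rem := by
    intro F hF
    rw [At611_cands, List.mem_cons, List.mem_map] at hF
    rcases hF with rfl | ⟨v, -, rfl⟩
    · exact ⟨_, _, _, hf, hr0, At611_open_eq hT P⟩
    · obtain ⟨g, rem2, hg, -, hr2, he⟩ := h2 v
      exact ⟨g, rem2, _, hg, hr2, he⟩
  have hlk : (List.replicate k ()).length = k := List.length_replicate
  have hJ : ∀ F ∈ At611_cands asg u M, (join (List.replicate k (), F)).Perm (List.range k) ∧
      ∀ W : ℕ → ℕ → ℕ, (F.map (fun e => W e.1 e.2)).sum ≤ pathV W (join (List.replicate k (), F)) := by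
    intro F hF
    obtain ⟨g, rem, w, hg, hrm, rfl⟩ := hcand F hF
    have := hjoin (List.replicate k ()) _ (At611_pathSys hg hrm) (fun e he => by
      obtain ⟨a, b⟩ := e
      obtain ⟨h3, -, h4⟩ := At611_mem_arcs.1 he
      rw [hlk]
      exact ⟨h3, by rw [h4]; exact hg.maps a h3⟩)
    rwa [hlk] at this
  set best := pathV (ent M) (At611_alg asg join u M) with hbest
  have hbest' : ∀ F ∈ At611_cands asg u M, (F.map (fun e => ent M e.1 e.2)).sum ≤ best := by
    intro F hF
    refine ((hJ F hF).2 (ent M)).trans ?_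
    exact At611_pick_max (fun a => pathV (ent M) a) _ _ _
      (List.mem_cons_of_mem _ (List.mem_map.2 ⟨F, hF, rfl⟩))
  have hval : ∀ (g rem : ℕ → ℕ), At611_arcs k g rem ∈ At611_cands asg u M →
      ∑ x ∈ range k with rem x ≠ x, m x (g x) ≤ best := by
    intro g rem h
    refine le_trans ?_ (hbest' _ h)
    rw [At611_arcs_sum]
    refine sum_le_sum fun x _ => ?_
    simp only [hm]
    split_ifs
    · exact Nat.zero_le _
    · exact le_rfl
  constructor
  · have h3 := At611_pick_mem (fun a b => decide (pathV (ent M) a < pathV (ent M) b))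
      ((At611_cands asg u M).map (fun F => join (List.replicate M.length (), F)))
      (List.range M.length)
    rcases List.mem_cons.1 h3 with h4 | h4
    · unfold At611_alg
      rw [h4]
    · obtain ⟨F, hF, h5⟩ := List.mem_map.1 h4
      unfold At611_alg
      rw [← h5]
      exact (hJ F hF).1
  · intro Q hQ
    obtain ⟨S0, s, hS, hs, hsi, hne, hn2, hpath⟩ := At611_path hQ
    have h3 : pathV (ent M) Q = ∑ x ∈ S0, m x (s x) := by
      rw [hpath]
      refine sum_congr rfl fun x hx => ?_
      simp only [hm]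
      rw [if_neg (Ne.symm (hne x hx))]
    rw [h3]
    refine At611_main (e := Nat.size k) (Nat.lt_size_self k).le hf hr h0 ho hS hs hsi hne hn2 ?_ ?_
    · refine hval _ _ ?_
      rw [← At611_open_eq hT P]
      exact List.mem_cons_self
    · intro v hv
      obtain ⟨g, rem2, hg, ho2, hr2, he⟩ := h2 v
      refine (At611_B hf hr h0 hmU hB1 hB2 hg ho2 hr2 hS hs hsi).trans ?_
      refine Nat.mul_le_mul_left _ (hval _ _ ?_)
      rw [← he, At611_cands]
      exact List.mem_cons_of_mem _ (List.mem_map.2 ⟨v, hv, rfl⟩)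


/-! ### Polynomial time -/

section PT

variable {A : Set Word} {α β γ : Type*} [Enc α] [Enc β] [Enc γ]

theorem At611_PT_pick {c : α → γ → γ → Bool} {l : α → List γ} {x : α → γ} (hl : PT A l) (hx : PT A x)
    (hc : PT A (fun p : α × γ × γ => c p.1 p.2.1 p.2.2)) :
    PT A (fun a => At611_pick (c a) (l a) (x a)) := by
  unfold At611_pick
  have hb : PBd (fun a => esize (l a) + esize (x a)) := hl.pbd.add hx.pbd
  refine PT.foldl (f := fun a s y => if c a s y = true then y else s) hl hx ?_ hb ?_
  · exact PT.ite (hc.congr fun p => by simp) PT.snd'.snd PT.snd'.fst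
  · intro a i
    have h := At611_pick_mem (c a) ((l a).take i) (x a)
    unfold At611_pick at h
    rcases List.mem_cons.1 h with h | h
    · rw [h]; omega
    · have h1 := esize_le_of_mem (List.mem_of_mem_take h)
      omega

theorem At611_PT_ent {M : α → List (List ℕ)} {i j : α → ℕ} (hM : PT A M) (hi : PT A i)
    (hj : PT A j) : PT A (fun a => ent (M a) (i a) (j a)) :=
  PT.getD (PT.getD hM hi (PT.const [])) hj (PT.const 0)

theorem At611_PT_tab {k : α → ℕ} {F : α → ℕ → ℕ → ℕ} (hk : PT A k) (hkb : PBd k)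
    (hF : PT A (fun p : α × ℕ × ℕ => F p.1 p.2.1 p.2.2)) :
    PT A (fun a => At611_tab (k a) (F a)) := by
  unfold At611_tab
  have h1 : PT A (fun p : α × ℕ => List.range (k p.1)) :=
    PT.range (hk.comp PT.fst') (hkb.comp (PT.fst' (A := A)))
  refine PT.map (f := fun a i => (List.range (k a)).map (fun j => F a i j))
    (PT.range hk hkb) ?_
  refine PT.map (α := α × ℕ) (f := fun p j => F p.1 p.2 j) h1 ?_
  exact hF.comp (PT.fst'.fst.pair (PT.fst'.snd.pair PT.snd'))

theorem At611_esize_getD (P : List ℕ) (i : ℕ) : esize (P.getD i 0) ≤ esize P := by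
  by_cases h : i < P.length
  · rw [List.getD_eq_getElem _ _ h]
    exact esize_le_of_mem (List.getElem_mem h)
  · rw [List.getD_eq_default _ _ (by omega)]
    exact Nat.zero_le _

theorem At611_PT_orb {P : α → List ℕ} {x : α → ℕ} (hP : PT A P) (hx : PT A x) :
    PT A (fun a => At611_orb (P a) (x a)) := by
  unfold At611_orb
  have hb : PBd (fun a => ((P a).length + 1) *
      (2 * (esize (x a) + esize (P a)) + 1)) := by
    have h1 := hP.pbd
    have h2 := hx.pbd
    have h3 := PBd.length hP
    exact (h3.add (PBd.const 1)).mul (((PBd.const 2).mul (h2.add h1)).add (PBd.const 1))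
  refine PT.foldl (f := fun a l _ => (P a).getD (l.headD 0) 0 :: l) hP (PT.cons hx (PT.const []))
    (PT.cons (PT.getD (hP.comp PT.fst') (PT.headD PT.snd'.fst (PT.const 0)) (PT.const 0))
      PT.snd'.fst) hb ?_
  intro a i
  have key : ∀ (L : List ℕ) (l : List ℕ) (n : ℕ),
      (∀ y ∈ l, esize y ≤ esize (x a) + esize (P a)) → l.length ≤ n →
      (∀ y ∈ L.foldl (fun l _ => (P a).getD (l.headD 0) 0 :: l) l,
        esize y ≤ esize (x a) + esize (P a)) ∧
      (L.foldl (fun l _ => (P a).getD (l.headD 0) 0 :: l) l).length ≤ L.length + n := by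
    intro L
    induction L with
    | nil => intro l n h1 h2; exact ⟨h1, by simpa only [List.headD_eq_head?_getD, List.getD_eq_getElem?_getD, List.foldl_nil, List.length_nil,     zero_add] using h2⟩
    | cons b L ih =>
      intro l n h1 h2
      have h3 := ih ((P a).getD (l.headD 0) 0 :: l) (n + 1) (fun y hy => by
        rcases List.mem_cons.1 hy with rfl | hy
        · exact (At611_esize_getD _ _).trans (Nat.le_add_left _ _)
        · exact h1 y hy) (by simpa only [List.headD_eq_head?_getD, List.getD_eq_getElem?_getD, List.length_cons,     add_le_add_iff_right] using h2)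
      rw [List.foldl_cons, List.length_cons]
      refine ⟨h3.1, ?_⟩
      have := h3.2
      omega
  obtain ⟨h1, h2⟩ := key ((P a).take i) [x a] 1 (fun y hy => by
    rw [List.mem_singleton] at hy
    rw [hy]
    exact Nat.le_add_right _ _) le_rfl
  refine (esize_list_le h1).trans (Nat.mul_le_mul_right _ (h2.trans ?_))
  have : ((P a).take i).length ≤ (P a).length := by simp only [List.length_take, inf_le_right]
  omega

theorem At611_PT_key {T : α → List (List ℕ)} {P : α → List ℕ} {b : α → ℕ} (hT : PT A T)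
    (hP : PT A P) (hb : PT A b) : PT A (fun a => At611_key (T a) (P a) (b a)) := by
  unfold At611_key
  exact PT.add (PT.mul (At611_PT_ent hT hb (PT.getD hP hb (PT.const 0))) (PT.length hT)) hb

theorem At611_PT_rem {T : α → List (List ℕ)} {P : α → List ℕ} {x : α → ℕ} (hT : PT A T)
    (hP : PT A P) (hx : PT A x) : PT A (fun a => At611_rem (T a) (P a) (x a)) := by
  unfold At611_rem
  refine At611_PT_pick (c := fun a y z => decide (At611_key (T a) (P a) z < At611_key (T a) (P a) y))
    (At611_PT_orb hP hx) hx ?_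
  exact PT.lt (At611_PT_key (hT.comp PT.fst') (hP.comp PT.fst') PT.snd'.snd)
    (At611_PT_key (hT.comp PT.fst') (hP.comp PT.fst') PT.snd'.fst)

theorem At611_PT_open {T : α → List (List ℕ)} {P : α → List ℕ} (hT : PT A T) (hP : PT A P) :
    PT A (fun a => At611_open (T a) (P a)) := by
  unfold At611_open
  refine PT.map (f := fun a x => (x, (P a).getD x 0)) ?_ ?_
  · refine PT.filter (f := fun a x => decide (At611_rem (T a) (P a) x ≠ x))
      (PT.range (PT.length hT) (PBd.length hT)) ?_
    exact PT.decide_not (p := fun q : α × ℕ => At611_rem (T q.1) (P q.1) q.2 = q.2)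
      (PT.eqNat (At611_PT_rem (hT.comp PT.fst') (hP.comp PT.fst') PT.snd') PT.snd')
  · exact PT.pair PT.snd' (PT.getD (hP.comp PT.fst') PT.snd' (PT.const 0))

theorem At611_PT_zd {M : α → List (List ℕ)} (hM : PT A M) : PT A (fun a => At611_zd (M a)) := by
  unfold At611_zd
  refine At611_PT_tab (F := fun a i j => if i = j then 0 else ent (M a) i j) (PT.length hM)
    (PBd.length hM) ?_
  exact PT.ite (p := fun q : α × ℕ × ℕ => q.2.1 = q.2.2) (PT.eqNat PT.snd'.fst PT.snd'.snd)
    (PT.const 0) (At611_PT_ent (hM.comp PT.fst') PT.snd'.fst PT.snd'.snd)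

theorem At611_PT_big {u : α → List Unit} {M : α → List (List ℕ)} (hu : PT A u) (hM : PT A M) :
    PT A (fun a => At611_big (u a) (M a)) := by
  unfold At611_big
  exact PT.add (PT.add (PT.mul (PT.length hM) (PT.length hu)) (PT.length hu)) (PT.const 1)

theorem At611_PBd_big {u : α → List Unit} {M : α → List (List ℕ)} (hu : PT A u) (hM : PT A M) :
    PBd (fun a => At611_big (u a) (M a)) := by
  unfold At611_big
  exact (((PBd.length hM).mul (PBd.length hu)).add (PBd.length hu)).add (PBd.const 1)

theorem At611_PT_T2 {T : α → List (List ℕ)} {P : α → List ℕ} {v : α → List Bool} {B : α → ℕ}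
    (hT : PT A T) (hP : PT A P) (hv : PT A v) (hB : PT A B) :
    PT A (fun a => At611_T2 (T a) (P a) (v a) (B a)) := by
  unfold At611_T2
  refine At611_PT_tab (F := fun a => At611_m2 (ent (T a)) (fun x => (P a).getD x 0) (At611_rem (T a) (P a))
    (At611_kept (At611_rem (T a) (P a)) (fun i => (v a).getD i false)) (B a)) (PT.length hT)
    (PBd.length hT) ?_
  unfold At611_m2 At611_kept
  have hT' : PT A (fun q : α × ℕ × ℕ => T q.1) := hT.comp PT.fst'
  have hP' : PT A (fun q : α × ℕ × ℕ => P q.1) := hP.comp PT.fst'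
  have hx : PT A (fun q : α × ℕ × ℕ => q.2.1) := PT.snd'.fst
  have hy : PT A (fun q : α × ℕ × ℕ => q.2.2) := PT.snd'.snd
  have hrx := At611_PT_rem hT' hP' hx
  have hry := At611_PT_rem hT' hP' hy
  refine PT.ite ?_ ?_ ?_
  · have h1 := PT.xor (PT.eqNat hx hrx) (PT.getD (hv.comp PT.fst') hrx (PT.const false))
    refine h1.congr fun q => ?_
    beta_reduce
    generalize decide (q.2.1 = At611_rem (T q.1) (P q.1) q.2.1) = X
    generalize (v q.1).getD (At611_rem (T q.1) (P q.1) q.2.1) false = Y
    cases X <;> cases Y <;> rfl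
  · exact PT.ite (PT.eqNat hy (PT.getD hP' hx (PT.const 0))) (hB.comp PT.fst') (PT.const 0)
  · exact PT.ite (PT.eqNat hrx hry) (PT.const 0) (At611_PT_ent hT' hx hy)

theorem At611_PT_pathV {M : α → List (List ℕ)} {P : α → List ℕ} (hM : PT A M) (hP : PT A P) :
    PT A (fun a => pathV (ent (M a)) (P a)) := by
  simp only [At611_pathV_zip]
  refine PT.sum (PT.map (f := fun a (e : ℕ × ℕ) => ent (M a) e.1 e.2) (PT.zip hP (PT.tail hP)) ?_)
  exact At611_PT_ent (hM.comp PT.fst') PT.snd'.fst PT.snd'.snd

theorem At611_PT_step : PT A At611_step := by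
  unfold At611_step
  refine PT.flatMap (l := fun H : List (List Bool) => H)
    (f := fun _ v => [v ++ v, v ++ v.map (fun b => !b)]) PT.id ?_
  have hv : PT A (fun q : List (List Bool) × List Bool => q.2) := PT.snd'
  have hm : PT A (fun q : List (List Bool) × List Bool => q.2.map (fun b => !b)) :=
    PT.map (f := fun _ b => !b) hv (PT.not PT.snd')
  exact PT.cons (PT.append hv hv) (PT.cons (PT.append hv hm) (PT.const []))

theorem At611_esize_fam (j : ℕ) : esize (At611_fam j) ≤ 14 * (2 ^ j) ^ 2 := by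
  have h1 : ∀ v ∈ At611_fam j, esize v ≤ 3 * 2 ^ j := by
    intro v hv
    have h2 : ∀ b ∈ v, esize b ≤ 1 := fun b _ => le_rfl
    have h3 := esize_list_le h2
    rw [At611_fam_mem j v hv] at h3
    omega
  have h4 := esize_list_le h1
  rw [At611_fam_length] at h4
  refine h4.trans ?_
  have h5 : 1 ≤ 2 ^ j := Nat.one_le_two_pow
  rw [pow_succ]
  nlinarith

theorem At611_PT_fam {k : α → ℕ} (hk : PT A k) (hkb : PBd k) :
    PT A (fun a => At611_fam (Nat.size (k a))) := by
  have hs : PT A (fun a => Nat.size (k a)) := PT.natSize hk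
  have hsb : PBd (fun a => Nat.size (k a)) := hkb.mono fun a => Nat.size_le.2 Nat.lt_two_pow_self
  have hb : PBd (fun a => 14 * (2 * k a + 1) ^ 2) :=
    (PBd.const 14).mul ((((PBd.const 2).mul hkb).add (PBd.const 1)).pow 2)
  refine PT.iterate (step := At611_step) (init := fun _ => [[false], [true]]) hs hsb (PT.const _)
    At611_PT_step hb ?_
  intro a j hj
  refine (At611_esize_fam j).trans (Nat.mul_le_mul_left _ (Nat.pow_le_pow_left ?_ 2))
  have h1 : 2 ^ j ≤ 2 ^ Nat.size (k a) := Nat.pow_le_pow_right (by norm_num) hj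
  refine h1.trans ?_
  by_cases h0 : k a = 0
  · rw [h0]; simp
  · have h2 : 0 < Nat.size (k a) := Nat.size_pos.2 (Nat.pos_of_ne_zero h0)
    have h3 : Nat.size (k a) - 1 < Nat.size (k a) := by omega
    have h4 := Nat.lt_size.1 h3
    have h5 : 2 ^ Nat.size (k a) = 2 * 2 ^ (Nat.size (k a) - 1) := by
      rw [← pow_succ']
      congr 1
      omega
    omega

theorem At611_PT_alg {asg : List Unit × List (List ℕ) → List ℕ}
    {join : List Unit × List (ℕ × ℕ) → List ℕ} (ha : PT A asg) (hj : PT A join) :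
    PT A (fun p : List Unit × List (List ℕ) => At611_alg asg join p.1 p.2) := by
  have hu : PT A (fun p : List Unit × List (List ℕ) => p.1) := PT.fst'
  have hM : PT A (fun p : List Unit × List (List ℕ) => p.2) := PT.snd'
  have hT := At611_PT_zd hM
  have hP : PT A (fun p : List Unit × List (List ℕ) => asg (p.1, At611_zd p.2)) :=
    ha.comp (hu.pair hT)
  have hkb : PBd (fun p : List Unit × List (List ℕ) => p.2.length) := PBd.length hM
  have hrep : PT A (fun p : List Unit × List (List ℕ) => List.replicate p.2.length ()) :=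
    PT.replicate (PT.length hM) hkb (PT.const ())
  have hcands : PT A (fun p : List Unit × List (List ℕ) => At611_cands asg p.1 p.2) := by
    unfold At611_cands
    refine PT.cons (At611_PT_open hT hP) ?_
    refine PT.map (f := fun (p : List Unit × List (List ℕ)) v => At611_cand asg p.1 p.2 v)
      (At611_PT_fam (PT.length hM) hkb) ?_
    unfold At611_cand
    have hB : PT A (fun q : (List Unit × List (List ℕ)) × List Bool => At611_big q.1.1 q.1.2) :=
      At611_PT_big (hu.comp PT.fst') (hM.comp PT.fst')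
    have hBb : PBd (fun q : (List Unit × List (List ℕ)) × List Bool => At611_big q.1.1 q.1.2) :=
      At611_PBd_big (hu.comp PT.fst') (hM.comp PT.fst')
    have h2 := At611_PT_T2 (hT.comp (PT.fst' (α := List Unit × List (List ℕ)) (β := List Bool)))
      (hP.comp PT.fst') PT.snd' hB
    exact At611_PT_open h2 (ha.comp ((PT.replicate hB hBb (PT.const ())).pair h2))
  unfold At611_alg
  refine At611_PT_pick (c := fun (p : List Unit × List (List ℕ)) a b =>
    decide (pathV (ent p.2) a < pathV (ent p.2) b)) ?_ (PT.range (PT.length hM) hkb) ?_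
  · refine PT.map (f := fun (p : List Unit × List (List ℕ)) F =>
      join (List.replicate p.2.length (), F)) hcands ?_
    exact hj.comp ((hrep.comp PT.fst').pair PT.snd')
  · exact PT.lt (At611_PT_pathV (hM.comp PT.fst') PT.snd'.fst)
      (At611_PT_pathV (hM.comp PT.fst') PT.snd'.snd)

end PT

theorem atsp611 : AssignAlg → JoinAlg → AtspAlg 6 11 := by
  rintro ⟨asg, ha, hasg⟩ ⟨join, hj, hjoin⟩
  exact ⟨fun p => At611_alg asg join p.1 p.2, At611_PT_alg ha hj, fun u M hM =>
    At611_alg_spec hasg hjoin u M hM⟩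

end Vale.Agent.P333.U
end
end

section

section

/-!
P333, upper bound: the bound on periodic words all of whose windows occur in a word. The periodic
words with period at most `l` whose windows of length `l + 1` occur in `T` are closed walks of the
Rauzy graph of order `l` of `T`; if the edges leaving their smallest vertices are removed, then the
graph stays connected.
-/

set_option linter.all false

namespace Vale.Agent.P333.U

/-! ### Windows -/

/-- Window of length `m` at `k`. -/
def rwin (X : ℕ → ℕ) (k m : ℕ) : List ℕ := (List.range m).map (fun j => X (k + j))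

theorem rwin_length (X : ℕ → ℕ) (k m : ℕ) : (rwin X k m).length = m := by simp [rwin]

theorem rwin_add (X : ℕ → ℕ) (k a b : ℕ) :
    rwin X k (a + b) = rwin X k a ++ rwin X (k + a) b := by
  unfold rwin
  rw [List.range_add, List.map_append, List.map_map]
  congr 1
  refine List.map_congr_left fun j _ => ?_
  simp only [Function.comp]
  congr 1
  omega

theorem rwin_succ (X : ℕ → ℕ) (k m : ℕ) : rwin X k (m + 1) = X k :: rwin X (k + 1) m := by
  have h := rwin_add X k 1 m
  rw [Nat.add_comm 1 m] at h
  rw [h]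
  rfl

theorem rwin_eq {X Y : ℕ → ℕ} {i j m : ℕ} :
    rwin X i m = rwin Y j m ↔ ∀ t < m, X (i + t) = Y (j + t) := by
  unfold rwin
  simp only [List.map_inj_left, List.mem_range]

/-! ### The lexicographic order -/

theorem lex_cons {x y : ℕ} {a b : List ℕ} : x :: a ≤ y :: b ↔ x < y ∨ (x = y ∧ a ≤ b) := by
  have h1 : (y :: b < x :: a) ↔ y < x ∨ (y = x ∧ b < a) := List.cons_lt_cons_iff
  rw [← not_lt, h1, ← not_lt (a := b) (b := a)]
  rcases lt_trichotomy x y with h | h | h
  · simp only [h.ne', false_and, or_false, not_lt, h.le, h, true_or]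
  · subst h; simp
  · simp only [h, true_or, not_true_eq_false, h.ne', not_lt, false_and, or_false, false_iff, h.le]

theorem lex_cancel {a b c : List ℕ} (h : a ++ b ≤ a ++ c) : b ≤ c := by
  induction a with
  | nil => exact h
  | cons x a ih =>
    rw [List.cons_append, List.cons_append, lex_cons] at h
    rcases h with h | h
    · exact absurd h (lt_irrefl _)
    · exact ih h.2

theorem lex_prefix {a b c d : List ℕ} (hl : a.length = c.length) (h : a ++ b ≤ c ++ d) : a ≤ c := by
  induction a generalizing c with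
  | nil =>
    have : c = [] := by simpa using hl.symm
    rw [this]
  | cons x a ih =>
    cases c with
    | nil => simp at hl
    | cons y c =>
      rw [List.cons_append, List.cons_append, lex_cons] at h
      rw [lex_cons]
      rcases h with h | h
      · exact Or.inl h
      · exact Or.inr ⟨h.1, ih (by simpa using hl) h.2⟩

/-! ### Periodic words -/

/-- `p` is the smallest period of `X`. -/
structure Per (X : ℕ → ℕ) (p : ℕ) : Prop where
  pos : 0 < p
  per : ∀ k, X (k + p) = X k
  min : ∀ q, 0 < q → q < p → ¬ ∀ k, X (k + q) = X k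

theorem per_mul {X : ℕ → ℕ} {p : ℕ} (h : ∀ k, X (k + p) = X k) (k m : ℕ) :
    X (k + p * m) = X k := by
  induction m with
  | zero => simp
  | succ m ih => rw [Nat.mul_succ, ← Nat.add_assoc, h, ih]

theorem per_mod {X : ℕ → ℕ} {p : ℕ} (h : ∀ k, X (k + p) = X k) (k : ℕ) : X (k % p) = X k := by
  have := per_mul h (k % p) (k / p)
  rw [Nat.mod_add_div] at this
  exact this.symm

theorem Per.shift {X : ℕ → ℕ} {p : ℕ} (h : Per X p) (i : ℕ) : Per (fun k => X (i + k)) p where
  pos := h.pos
  per := fun k => by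
    beta_reduce
    rw [← Nat.add_assoc]
    exact h.per _
  min := fun q hq hqp hper => h.min q hq hqp fun k => by
    have hi : i ≤ k + p * i := by
      have := Nat.le_mul_of_pos_left i h.pos
      omega
    have h1 := hper (k + p * i - i)
    beta_reduce at h1
    have e1 : i + (k + p * i - i + q) = k + q + p * i := by omega
    have e2 : i + (k + p * i - i) = k + p * i := by omega
    rw [e1, e2, per_mul h.per, per_mul h.per] at h1
    exact h1

theorem per_unique_aux {X Y : ℕ → ℕ} {p q l : ℕ} (hX : Per X p) (hY : Per Y q) (hpq : p ≤ q)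
    (hq : q ≤ l) (he : ∀ t < l, X t = Y t) (mX : ∀ i, rwin X 0 l ≤ rwin X i l)
    (mY : ∀ i, rwin Y 0 l ≤ rwin Y i l) (k : ℕ) : X k = Y k := by
  have hp := hX.pos
  rcases Nat.eq_zero_or_pos (q % p) with hr | hr
  · -- `p` divides `q`
    have hXY : ∀ k, X k = Y k := by
      intro k
      have h1 : k % q < q := Nat.mod_lt _ hY.pos
      rw [← per_mod hY.per k, ← he _ (by omega)]
      have h2 : ∀ k, X (k + q) = X k := fun k => by
        have := per_mul hX.per k (q / p)
        rwa [Nat.mul_div_cancel' (Nat.dvd_of_mod_eq_zero hr)] at this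
      exact (per_mod h2 k).symm
    exact hXY k
  · exfalso
    set r := q % p with hrd
    have hrp : r < p := Nat.mod_lt _ hp
    have hq' : p * (q / p) + r = q := Nat.div_add_mod q p
    have hm : 1 ≤ q / p := by
      rw [Nat.le_div_iff_mul_le hp]
      omega
    have hpm : p ≤ p * (q / p) := Nat.le_mul_of_pos_right p hm
    obtain ⟨s, rfl⟩ : ∃ s, l = r + s := ⟨l - r, by omega⟩
    -- the window of `Y` at `q - r`
    have e1 : rwin Y (q - r) (r + s) = rwin X 0 r ++ rwin X 0 s := by
      rw [rwin_add]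
      congr 1
      · rw [rwin_eq]
        intro t ht
        rw [← he _ (by omega)]
        have : q - r + t = 0 + t + p * (q / p) := by omega
        rw [this, per_mul hX.per]
      · rw [rwin_eq]
        intro t ht
        rw [he _ (by omega : 0 + t < r + s)]
        have : q - r + r + t = 0 + t + q := by omega
        rw [this, hY.per]
    have e2 : rwin Y 0 (r + s) = rwin X 0 r ++ rwin X r s := by
      have : rwin Y 0 (r + s) = rwin X 0 (r + s) := by
        rw [rwin_eq]
        intro t ht
        exact (he _ (by omega)).symm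
      rw [this, rwin_add, Nat.zero_add]
    have h1 : rwin X r s ≤ rwin X 0 s := by
      have := mY (q - r)
      rw [e1, e2] at this
      exact lex_cancel this
    have h2 : rwin X 0 s ≤ rwin X r s := by
      have := mX r
      rw [Nat.add_comm r s, rwin_add, rwin_add] at this
      exact lex_prefix (by rw [rwin_length, rwin_length]) this
    have h3 := rwin_eq.1 (le_antisymm h1 h2)
    refine hX.min r hr hrp fun k => ?_
    have h4 := h3 (k % p) (by have := Nat.mod_lt k hp; omega)
    rw [Nat.zero_add, per_mod hX.per] at h4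
    rw [← h4]
    have h5 : k + r = (r + k % p) + p * (k / p) := by
      have := Nat.mod_add_div k p
      omega
    rw [h5, per_mul hX.per]

/-- The smallest window determines a periodic word. -/
theorem per_unique {X Y : ℕ → ℕ} {p q l : ℕ} (hX : Per X p) (hY : Per Y q) (hp : p ≤ l)
    (hq : q ≤ l) (he : rwin X 0 l = rwin Y 0 l) (mX : ∀ i, rwin X 0 l ≤ rwin X i l)
    (mY : ∀ i, rwin Y 0 l ≤ rwin Y i l) (k : ℕ) : X k = Y k := by
  have he' : ∀ t < l, X t = Y t := fun t ht => by
    have := rwin_eq.1 he t ht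
    simpa using this
  rcases le_total p q with h | h
  · exact per_unique_aux hX hY h hq he' mX mY k
  · exact (per_unique_aux hY hX h hp (fun t ht => (he' t ht).symm) mY mX k).symm

/-! ### Connected graphs -/

theorem card_le_of_conn {β : Type} (V : Finset (List ℕ)) (F : Finset β) (s t : β → List ℕ)
    (hs : ∀ e ∈ F, s e ∈ V) (ht : ∀ e ∈ F, t e ∈ V) (hV : V.Nonempty)
    (hc : ∀ a ∈ V, ∀ b ∈ V, Relation.EqvGen (fun a b => ∃ e ∈ F, s e = a ∧ t e = b) a b) :
    V.card ≤ F.card + 1 := by
  classical
  let G : SimpleGraph V := SimpleGraph.fromRel (fun a b => ∃ e ∈ F, s e = a.1 ∧ t e = b.1)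
  have hreach : ∀ a b, Relation.EqvGen (fun a b => ∃ e ∈ F, s e = a ∧ t e = b) a b →
      a = b ∨ ∃ (ha : a ∈ V) (hb : b ∈ V), G.Reachable ⟨a, ha⟩ ⟨b, hb⟩ := by
    intro a b h
    induction h with
    | rel a b h =>
      by_cases hab : a = b
      · exact Or.inl hab
      · right
        have h' := h
        obtain ⟨e, he, rfl, rfl⟩ := h'
        refine ⟨hs e he, ht e he, SimpleGraph.Adj.reachable ?_⟩
        rw [SimpleGraph.fromRel_adj]
        exact ⟨fun h0 => hab (congrArg Subtype.val h0), Or.inl h⟩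
    | refl a => exact Or.inl rfl
    | symm a b _ ih =>
      rcases ih with rfl | ⟨ha, hb, h⟩
      · exact Or.inl rfl
      · exact Or.inr ⟨hb, ha, h.symm⟩
    | trans a b c _ _ ih1 ih2 =>
      rcases ih1 with rfl | ⟨ha, hb, h⟩
      · exact ih2
      · rcases ih2 with rfl | ⟨hb', hc', h'⟩
        · exact Or.inr ⟨ha, hb, h⟩
        · exact Or.inr ⟨ha, hc', h.trans h'⟩
  have hconn : G.Connected := by
    haveI : Nonempty V := ⟨⟨hV.choose, hV.choose_spec⟩⟩
    refine ⟨fun a b => ?_⟩
    rcases hreach a.1 b.1 (hc a.1 a.2 b.1 b.2) with h | ⟨_, _, h⟩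
    · rw [Subtype.ext h]
    · exact h
  have h1 := hconn.card_vert_le_card_edgeSet_add_one
  rw [Nat.card_eq_fintype_card, Fintype.card_coe] at h1
  refine h1.trans (Nat.add_le_add_right ?_ 1)
  have h2 : G.edgeSet ⊆ ((F.attach.image (fun e : {x // x ∈ F} =>
      s(⟨s e.1, hs e.1 e.2⟩, ⟨t e.1, ht e.1 e.2⟩)) : Finset (Sym2 V)) : Set (Sym2 V)) := by
    intro x hx
    induction x using Sym2.ind with
    | _ a b =>
      rw [SimpleGraph.mem_edgeSet, SimpleGraph.fromRel_adj] at hx
      rw [Finset.mem_coe, Finset.mem_image]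
      rcases hx.2 with ⟨e, he, h3, h4⟩ | ⟨e, he, h3, h4⟩
      · refine ⟨⟨e, he⟩, Finset.mem_attach _ _, ?_⟩
        rw [Sym2.eq_iff]
        exact Or.inl ⟨Subtype.ext h3, Subtype.ext h4⟩
      · refine ⟨⟨e, he⟩, Finset.mem_attach _ _, ?_⟩
        rw [Sym2.eq_iff]
        exact Or.inr ⟨Subtype.ext h3, Subtype.ext h4⟩
  calc Nat.card G.edgeSet ≤ _ := Set.ncard_le_ncard h2 (Finset.finite_toSet _)
    _ = _ := Set.ncard_coe_finset _
    _ ≤ F.attach.card := Finset.card_image_le
    _ = F.card := Finset.card_attach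

/-! ### Factors -/

/-- The set of factors of length `l`. -/
def facs (T : List ℕ) (l : ℕ) : Finset (List ℕ) :=
  ((List.range (T.length - l + 1)).map (fun i => (T.drop i).take l)).toFinset

theorem mem_facs {T : List ℕ} {l : ℕ} (hl : l ≤ T.length) {x : List ℕ} :
    x ∈ facs T l ↔ x <:+: T ∧ x.length = l := by
  unfold facs
  simp only [List.mem_toFinset, List.mem_map, List.mem_range]
  constructor
  · rintro ⟨i, hi, rfl⟩
    refine ⟨(List.take_prefix _ _).isInfix.trans (List.drop_suffix _ _).isInfix, ?_⟩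
    rw [List.length_take, List.length_drop]
    omega
  · rintro ⟨⟨a, b, rfl⟩, rfl⟩
    refine ⟨a.length, ?_, ?_⟩
    · simp only [List.length_append]
      omega
    · simp [List.append_assoc]

theorem facs_conn {T : List ℕ} {l : ℕ} (hl : l < T.length) (R : List ℕ → List ℕ → Prop)
    (hR : ∀ x ∈ facs T (l + 1), Relation.EqvGen R (x.take l) x.tail) :
    ∀ a ∈ facs T l, ∀ b ∈ facs T l, Relation.EqvGen R a b := by
  have key : ∀ i, i ≤ T.length - l → Relation.EqvGen R ((T.drop 0).take l) ((T.drop i).take l) := by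
    intro i
    induction i with
    | zero => intro _; exact Relation.EqvGen.refl _
    | succ i ih =>
      intro hi
      refine (ih (by omega)).trans _ _ _ ?_
      have hx : (T.drop i).take (l + 1) ∈ facs T (l + 1) := by
        unfold facs
        simp only [List.mem_toFinset, List.mem_map, List.mem_range]
        exact ⟨i, by omega, rfl⟩
      have h1 := hR _ hx
      have e1 : ((T.drop i).take (l + 1)).take l = (T.drop i).take l := by
        rw [List.take_take, min_eq_left (by omega)]
      have e2 : ((T.drop i).take (l + 1)).tail = (T.drop (i + 1)).take l := by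
        rw [← List.drop_one, List.drop_take, List.drop_drop]
        rfl
      rw [e1, e2] at h1
      exact h1
  intro a ha b hb
  unfold facs at ha hb
  simp only [List.mem_toFinset, List.mem_map, List.mem_range] at ha hb
  obtain ⟨i, hi, rfl⟩ := ha
  obtain ⟨j, hj, rfl⟩ := hb
  exact ((key i (by omega)).symm _ _).trans _ _ _ (key j (by omega))

theorem rwin_take (X : ℕ → ℕ) (k l : ℕ) : (rwin X k (l + 1)).take l = rwin X k l := by
  rw [rwin_add, List.take_append_of_le_length (by rw [rwin_length]),
    List.take_of_length_le (by rw [rwin_length])]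

theorem rwin_tail (X : ℕ → ℕ) (k l : ℕ) : (rwin X k (l + 1)).tail = rwin X (k + 1) l := by
  rw [rwin_succ]
  rfl

theorem rwin_shift (X : ℕ → ℕ) (i j l : ℕ) :
    rwin (fun k => X (i + k)) j l = rwin X (i + j) l := by
  unfold rwin
  refine List.map_congr_left fun t _ => ?_
  simp only [Nat.add_assoc]

theorem rwin_mod {X : ℕ → ℕ} {p : ℕ} (h : ∀ k, X (k + p) = X k) (i l : ℕ) :
    rwin X (i % p) l = rwin X i l := by
  rw [rwin_eq]
  intro t _
  have h1 : i + t = (i % p + t) + p * (i / p) := by
    have := Nat.mod_add_div i p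
    omega
  rw [h1, per_mul h]

theorem exists_min_win {X : ℕ → ℕ} {p : ℕ} (h : Per X p) (l : ℕ) :
    ∃ m, ∀ i, rwin X m l ≤ rwin X i l := by
  obtain ⟨m, -, hm⟩ := Finset.exists_min_image (Finset.range p) (fun i => rwin X i l)
    ⟨0, Finset.mem_range.2 h.pos⟩
  refine ⟨m, fun i => ?_⟩
  rw [← rwin_mod h.per i l]
  exact hm _ (Finset.mem_range.2 (Nat.mod_lt _ h.pos))

/-- Inside of a period the windows are distinct. -/
theorem Per.win_ne {X : ℕ → ℕ} {p l : ℕ} (h : Per X p) (hp : p ≤ l) (k : ℕ) {j : ℕ} (hj : 0 < j)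
    (hjp : j < p) : rwin X (k + j) l ≠ rwin X k l := by
  intro he
  rw [rwin_eq] at he
  refine (h.shift k).min j hj hjp fun t => ?_
  beta_reduce
  have h1 := he (t % p) ((Nat.mod_lt t h.pos).trans_le hp)
  have e1 : k + (t + j) = (k + j + t % p) + p * (t / p) := by
    have := Nat.mod_add_div t p
    omega
  have e2 : k + t = (k + t % p) + p * (t / p) := by
    have := Nat.mod_add_div t p
    omega
  rw [e1, e2, per_mul h.per, per_mul h.per, h1]

theorem level_bound {ι : Type} [Fintype ι] (T : List ℕ) (W : ι → ℕ → ℕ) (w o : ι → ℕ)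
    (hP : ∀ c, Per (W c) (w c))
    (hne : ∀ c c', c ≠ c' → ¬ ∃ s, ∀ k, W c k = W c' (k + s))
    (hin : ∀ c k, rwin (W c) k (o c + 1) <:+: T) (l : ℕ) (hl : l < T.length) :
    (Finset.univ.filter (fun c => w c ≤ l ∧ l ≤ o c)).card + (facs T l).card ≤
      (facs T (l + 1)).card + 1 := by
  classical
  set A := Finset.univ.filter (fun c => w c ≤ l ∧ l ≤ o c) with hA
  have hAm : ∀ c ∈ A, w c ≤ l ∧ l ≤ o c := fun c hc => by
    simpa only [hA, Finset.mem_filter, Finset.mem_univ, true_and] using hc
  choose m hm using fun c => exists_min_win (hP c) l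
  -- the smallest windows determine the words
  have hinj : ∀ c ∈ A, ∀ c' ∈ A, rwin (W c) (m c) l = rwin (W c') (m c') l → c = c' := by
    intro c hc c' hc' he
    by_contra hcc
    have h1 := per_unique ((hP c).shift (m c)) ((hP c').shift (m c')) (hAm c hc).1 (hAm c' hc').1
      (by rw [rwin_shift, rwin_shift]; exact he)
      (fun i => by rw [rwin_shift, rwin_shift]; exact hm c _)
      (fun i => by rw [rwin_shift, rwin_shift]; exact hm c' _)
    refine hne c c' hcc ⟨m c' + w c * m c - m c, fun k => ?_⟩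
    have h0 : m c ≤ w c * m c := Nat.le_mul_of_pos_left _ (hP c).pos
    have h2 := h1 (k + w c * m c - m c)
    beta_reduce at h2
    have e1 : m c + (k + w c * m c - m c) = k + w c * m c := by omega
    have e2 : m c' + (k + w c * m c - m c) = k + (m c' + w c * m c - m c) := by omega
    rw [e1, e2, per_mul (hP c).per] at h2
    exact h2
  -- the edges of the closed walks are factors
  have hedge : ∀ c ∈ A, ∀ k, rwin (W c) k (l + 1) ∈ facs T (l + 1) := by
    intro c hc k
    rw [mem_facs (by omega)]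
    refine ⟨?_, rwin_length _ _ _⟩
    have h1 := hin c k
    have h2 : o c + 1 = (l + 1) + (o c - l) := by have := (hAm c hc).2; omega
    rw [h2, rwin_add] at h1
    exact (List.prefix_append _ _).isInfix.trans h1
  set F := (facs T (l + 1)) \ A.image (fun c => rwin (W c) (m c) (l + 1)) with hF
  set R : List ℕ → List ℕ → Prop := fun a b => ∃ x ∈ F, x.take l = a ∧ x.tail = b with hR
  have claim : ∀ N, ∀ c ∈ A, (A.filter (fun c' => rwin (W c) (m c) l < rwin (W c') (m c') l)).card
      = N → Relation.EqvGen R (rwin (W c) (m c) l) (rwin (W c) (m c + 1) l) := by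
    intro N
    induction N using Nat.strong_induction_on with
    | _ N ih =>
      intro c hc hN
      have hstep : ∀ j, 0 < j → j < w c →
          Relation.EqvGen R (rwin (W c) (m c + j) l) (rwin (W c) (m c + (j + 1)) l) := by
        intro j hj hjw
        by_cases hx : rwin (W c) (m c + j) (l + 1) ∈ F
        · refine Relation.EqvGen.rel _ _ ⟨_, hx, rwin_take _ _ _, ?_⟩
          rw [rwin_tail, Nat.add_assoc]
        · have hx' : rwin (W c) (m c + j) (l + 1) ∈ A.image (fun c => rwin (W c) (m c) (l + 1)) := by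
            by_contra h
            exact hx (Finset.mem_sdiff.2 ⟨hedge c hc _, h⟩)
          obtain ⟨c', hc', he⟩ := Finset.mem_image.1 hx'
          have e1 : rwin (W c') (m c') l = rwin (W c) (m c + j) l := by
            rw [← rwin_take, he, rwin_take]
          have e2 : rwin (W c') (m c' + 1) l = rwin (W c) (m c + (j + 1)) l := by
            rw [← rwin_tail, he, rwin_tail, Nat.add_assoc]
          have hlt : rwin (W c) (m c) l < rwin (W c') (m c') l := by
            rw [e1]
            exact lt_of_le_of_ne (hm c _) (Ne.symm ((hP c).win_ne (hAm c hc).1 (m c) hj hjw))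
          have hcard : (A.filter (fun c'' => rwin (W c') (m c') l < rwin (W c'') (m c'') l)).card
              < N := by
            rw [← hN]
            refine Finset.card_lt_card ⟨?_, ?_⟩
            · intro c'' h''
              rw [Finset.mem_filter] at h'' ⊢
              exact ⟨h''.1, hlt.trans h''.2⟩
            · intro hsub
              have := hsub (Finset.mem_filter.2 ⟨hc', hlt⟩)
              exact lt_irrefl _ (Finset.mem_filter.1 this).2
          have := ih _ hcard c' hc' rfl
          rw [e1, e2] at this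
          exact this
      have hpath : ∀ j, 0 < j → j ≤ w c →
          Relation.EqvGen R (rwin (W c) (m c + 1) l) (rwin (W c) (m c + j) l) := by
        intro j hj
        induction j with
        | zero => exact absurd hj (lt_irrefl _)
        | succ j ihj =>
          intro hjw
          rcases Nat.eq_zero_or_pos j with rfl | h0
          · exact Relation.EqvGen.refl _
          · exact (ihj h0 (by omega)).trans _ _ _ (hstep j h0 (by omega))
      have h1 := hpath (w c) (hP c).pos le_rfl
      have e3 : rwin (W c) (m c + w c) l = rwin (W c) (m c) l := by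
        rw [rwin_eq]
        intro t _
        rw [Nat.add_right_comm, (hP c).per]
      rw [e3] at h1
      exact h1.symm _ _
  have hall : ∀ x ∈ facs T (l + 1), Relation.EqvGen R (x.take l) x.tail := by
    intro x hx
    by_cases hxF : x ∈ F
    · exact Relation.EqvGen.rel _ _ ⟨x, hxF, rfl, rfl⟩
    · have hx' : x ∈ A.image (fun c => rwin (W c) (m c) (l + 1)) := by
        by_contra h
        exact hxF (Finset.mem_sdiff.2 ⟨hx, h⟩)
      obtain ⟨c, hc, rfl⟩ := Finset.mem_image.1 hx'
      rw [rwin_take, rwin_tail]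
      exact claim _ c hc rfl
  have hV : (facs T l).card ≤ F.card + 1 := by
    refine card_le_of_conn (facs T l) F (fun x => x.take l) (fun x => x.tail) ?_ ?_ ?_
      (facs_conn hl R hall)
    · intro x hx
      have := (mem_facs (by omega)).1 (Finset.mem_sdiff.1 hx).1
      rw [mem_facs (by omega)]
      refine ⟨(List.take_prefix _ _).isInfix.trans this.1, ?_⟩
      rw [List.length_take, this.2]
      omega
    · intro x hx
      have := (mem_facs (by omega)).1 (Finset.mem_sdiff.1 hx).1
      rw [mem_facs (by omega)]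
      refine ⟨(List.tail_suffix _).isInfix.trans this.1, ?_⟩
      rw [List.length_tail, this.2]
      omega
    · refine ⟨T.take l, ?_⟩
      rw [mem_facs (by omega)]
      exact ⟨(List.take_prefix _ _).isInfix, by rw [List.length_take]; omega⟩
  have hsub : A.image (fun c => rwin (W c) (m c) (l + 1)) ⊆ facs T (l + 1) := by
    intro x hx
    obtain ⟨c, hc, rfl⟩ := Finset.mem_image.1 hx
    exact hedge c hc _
  have hcardA : (A.image (fun c => rwin (W c) (m c) (l + 1))).card = A.card := by
    refine Finset.card_image_of_injOn ?_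
    intro c hc c' hc' he
    refine hinj c hc c' hc' ?_
    beta_reduce at he
    rw [← rwin_take, he, rwin_take]
  have hcardF : F.card + A.card = (facs T (l + 1)).card := by
    rw [← hcardA]
    exact Finset.card_sdiff_add_card_eq_card hsub
  omega

/-- The bound on periodic words all of whose windows occur in a word. -/
theorem rauzyBound : RauzyBound := by
  intro ι _ T W w o hpos hper hmin hne hin
  have hP : ∀ c, Per (W c) (w c) := fun c => ⟨hpos c, hper c, hmin c⟩
  have hin' : ∀ c k, rwin (W c) k (o c + 1) <:+: T := hin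
  have ho : ∀ c, o c + 1 ≤ T.length := fun c => by
    have := (hin' c 0).length_le
    rwa [rwin_length] at this
  set n := T.length with hn
  set A : ℕ → ℕ := fun l => (Finset.univ.filter (fun c => w c ≤ l ∧ l ≤ o c)).card with hA
  have e1 : ∑ c, (o c + 1 - w c) = ∑ l ∈ Finset.range n, A l := by
    have h1 : ∀ c, o c + 1 - w c = ∑ l ∈ Finset.range n, (if w c ≤ l ∧ l ≤ o c then 1 else 0) := by
      intro c
      rw [← Finset.card_filter]
      have : (Finset.range n).filter (fun l => w c ≤ l ∧ l ≤ o c) = Finset.Ico (w c) (o c + 1) := by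
        ext l
        simp only [Finset.mem_filter, Finset.mem_range, Finset.mem_Ico]
        have := ho c
        omega
      rw [this, Nat.card_Ico]
    calc ∑ c, (o c + 1 - w c)
        = ∑ c, ∑ l ∈ Finset.range n, (if w c ≤ l ∧ l ≤ o c then 1 else 0) :=
          Finset.sum_congr rfl fun c _ => h1 c
      _ = ∑ l ∈ Finset.range n, ∑ c, (if w c ≤ l ∧ l ≤ o c then 1 else 0) := Finset.sum_comm
      _ = ∑ l ∈ Finset.range n, A l := by
          refine Finset.sum_congr rfl fun l _ => ?_
          simp only [hA]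
          rw [Finset.card_filter]
  have h2 : ∑ l ∈ Finset.range n, (A l + (facs T l).card) ≤
      ∑ l ∈ Finset.range n, ((facs T (l + 1)).card + 1) := by
    refine Finset.sum_le_sum fun l hl => ?_
    exact level_bound T W w o hP hne hin' l (Finset.mem_range.1 hl)
  rw [Finset.sum_add_distrib, Finset.sum_add_distrib, Finset.sum_const, Finset.card_range,
    smul_eq_mul, mul_one] at h2
  have h3 : ∑ l ∈ Finset.range n, (facs T (l + 1)).card + (facs T 0).card =
      ∑ l ∈ Finset.range n, (facs T l).card + (facs T n).card := by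
    have a1 := Finset.sum_range_succ' (fun l => (facs T l).card) n
    have a2 := Finset.sum_range_succ (fun l => (facs T l).card) n
    beta_reduce at a1 a2
    omega
  have h4 : (facs T n).card ≤ 1 := by
    refine (List.toFinset_card_le _).trans ?_
    rw [List.length_map, List.length_range, hn, Nat.sub_self]
  have h5 : 1 ≤ (facs T 0).card := by
    refine Finset.card_pos.2 ⟨[], ?_⟩
    rw [mem_facs (Nat.zero_le _)]
    exact ⟨List.nil_infix, rfl⟩
  rw [e1]
  omega

end Vale.Agent.P333.U
end
end

section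

section

section

/-!
Definitions of the variable gadgets (amplifiers) for problem P333.

A variable has `k` occurrences and `t` copies of each; its contacts (slots) are the elements of
`C = Fin k × Fin t`.  The 0-chain is cyclic: a contact `c`, then the `β + 1` blocks
`(c, 0), ..., (c, β)`, then the next contact `nxt c`, and so on.  The 1-chain is a cyclic order `n1`
of all the blocks.
-/

namespace Vale.Agent.P333

/-- `rise a b = 1` if `a` is false and `b` is true, and `0` otherwise. -/
def rise (a b : Bool) : ℕ := if a = false ∧ b = true then 1 else 0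

/-- The cyclic successor permutation of a finite enumeration. -/
def rot {n : ℕ} {C : Type*} (e : Fin n ≃ C) : Equiv.Perm C :=
  (e.symm.trans (finRotate n)).trans e

section

variable {C : Type*} {β : ℕ}

/-- The block after the block `b` in the 0-chain, contacts skipped. -/
def s0 (nxt : Equiv.Perm C) (b : C × Fin (β + 1)) : C × Fin (β + 1) :=
  if h : (b.2 : ℕ) + 1 < β + 1 then (b.1, ⟨(b.2 : ℕ) + 1, h⟩) else (nxt b.1, 0)

/-- Number of rises of a state `(m, x)` (blocks, contacts) along the 0-chain. -/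
def rises0 [Fintype C] (nxt : Equiv.Perm C) (m : C × Fin (β + 1) → Bool) (x : C → Bool) : ℕ :=
  ∑ c, (rise (x c) (m (c, 0)) + ∑ j : Fin β, rise (m (c, j.castSucc)) (m (c, j.succ))
    + rise (m (c, Fin.last β)) (x (nxt c)))

/-- Number of rises of a state of the blocks along the 1-chain. -/
def rises1 [Fintype C] (n1 : Equiv.Perm (C × Fin (β + 1))) (m : C × Fin (β + 1) → Bool) : ℕ :=
  ∑ b, rise (m b) (m (n1 b))

end

/-- The expansion property with additive error `ε k t`. -/
def Expands (k t β : ℕ) (ε : ℝ) (nxt : Equiv.Perm (Fin k × Fin t))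
    (n1 : Equiv.Perm ((Fin k × Fin t) × Fin (β + 1))) : Prop :=
  ∀ (m : (Fin k × Fin t) × Fin (β + 1) → Bool) (x : Fin k × Fin t → Bool) (U : Finset (Fin k)),
    (Finset.univ.filter (fun c => x c = true)).card + t * U.card ≤ k * t →
    ((Finset.univ.filter (fun c => x c = true ∧ c.1 ∈ U)).card : ℝ)
      ≤ rises0 nxt m x + rises1 n1 m + ε * (k * t)

/-- The number of coincidences of the two chains is at most `ε k t`. -/
def FewCoinc (k t β : ℕ) (ε : ℝ) (nxt : Equiv.Perm (Fin k × Fin t))
    (n1 : Equiv.Perm ((Fin k × Fin t) × Fin (β + 1))) : Prop :=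
  ((Finset.univ.filter (fun b => n1 b = s0 nxt b ∨ n1 (s0 nxt b) = b)).card : ℝ) ≤ ε * (k * t)

/-- An amplifier: cyclic orders of the contacts and of the blocks. -/
structure Amp (k t β : ℕ) (ε : ℝ) where
  e0 : Fin (k * t) ≃ Fin k × Fin t
  e1 : Fin (k * t * (β + 1)) ≃ (Fin k × Fin t) × Fin (β + 1)
  expands : Expands k t β ε (rot e0) (rot e1)
  coinc : FewCoinc k t β ε (rot e0) (rot e1)

end Vale.Agent.P333
end
end
end

section

section

section

/-!
The block system of the reduction from E3-LIN2 to the shortest common superstring problem (P333).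

`E` is the set of (copies of) equations, a contact is a pair `(e, i)` with `i : Fin 3`.  Each contact
`c` is followed by the variable blocks `(c, 0), ..., (c, β)` in the 0-chain.
-/

namespace Vale.Agent.P333

open Finset

/-- The alphabet: letters `L b` (variable blocks), `r c` (contacts) and `o e` (equations). -/
inductive Letter (E : Type) (β : ℕ) : Type
  | L (b : (E × Fin 3) × Fin (β + 1)) : Letter E β
  | r (c : E × Fin 3) : Letter E β
  | o (e : E) : Letter E β
  deriving DecidableEq

/-- The data of the construction. -/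
structure Data (E : Type) (β : ℕ) where
  /-- right hand side of the equation -/
  par : E → Bool
  /-- next contact in the 0-chain -/
  nxt : Equiv.Perm (E × Fin 3)
  /-- next block in the 1-chain -/
  n1 : Equiv.Perm ((E × Fin 3) × Fin (β + 1))
  /-- next even equation in the trunk -/
  tr : Equiv.Perm {e : E // par e = false}

namespace Data

variable {E : Type} {β : ℕ} (D : Data E β)

/-- The end letter of the 0-link of a variable block. -/
def endL (b : (E × Fin 3) × Fin (β + 1)) : Letter E β :=
  if (b.2 : ℕ) + 1 < β + 1 then Letter.L (s0 D.nxt b) else Letter.r (D.nxt b.1)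

/-- The two strings of a variable block. -/
def strV (b : (E × Fin 3) × Fin (β + 1)) : Bool → List (Letter E β)
  | true => [Letter.L (D.n1.symm b), Letter.L b, D.endL b]
  | false => [Letter.L b, D.endL b, Letter.L (D.n1.symm b), Letter.L b]

/-- The three strings of the closed word of a contact. -/
def strH (c : E × Fin 3) (i : Fin 3) : List (Letter E β) :=
  let s : Letter E β := Letter.L (c, 0)
  let r : Letter E β := Letter.r c
  let r' : Letter E β := Letter.r (c.1, c.2 + 2)
  let o : Letter E β := Letter.o c.1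
  if D.par c.1 = true then
    (if i = 0 then [s, r, o] else if i = 1 then [r, o, r'] else [o, r', s, r])
  else
    (if i = 0 then [r, s, r', o] else if i = 1 then [r', o, r] else [o, r, s])

/-- The forced string of a contact of an odd equation. -/
def strF (c : E × Fin 3) : List (Letter E β) := [Letter.r c, Letter.L (c, 0)]

/-- The trunk string of an even equation. -/
def strK (e : {e : E // D.par e = false}) : List (Letter E β) :=
  [Letter.o e.1, Letter.o (D.tr e).1]

/-- Coincidences of the two chains. -/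
def Bad (b : (E × Fin 3) × Fin (β + 1)) : Prop :=
  D.n1 b = s0 D.nxt b ∨ D.n1 (s0 D.nxt b) = b

/-- index type of all strings -/
abbrev WdG (D : Data E β) (P : (E × Fin 3) × Fin (β + 1) → Prop) : Type :=
  ({b : (E × Fin 3) × Fin (β + 1) // P b} × Bool) ⊕ (((E × Fin 3) × Fin 3) ⊕
    ({c : E × Fin 3 // D.par c.1 = true} ⊕ {e : E // D.par e = false}))

/-- index type of all blocks -/
abbrev BlG (D : Data E β) (P : (E × Fin 3) × Fin (β + 1) → Prop) : Type :=
  {b : (E × Fin 3) × Fin (β + 1) // P b} ⊕ ((E × Fin 3) ⊕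
    ({c : E × Fin 3 // D.par c.1 = true} ⊕ {e : E // D.par e = false}))

variable {P : (E × Fin 3) × Fin (β + 1) → Prop}

def str : D.WdG P → List (Letter E β)
  | Sum.inl (b, y) => D.strV b.1 y
  | Sum.inr (Sum.inl (c, i)) => D.strH c i
  | Sum.inr (Sum.inr (Sum.inl c)) => strF c.1
  | Sum.inr (Sum.inr (Sum.inr e)) => D.strK e

def blk : D.WdG P → D.BlG P
  | Sum.inl (b, _) => Sum.inl b
  | Sum.inr (Sum.inl (c, _)) => Sum.inr (Sum.inl c)
  | Sum.inr (Sum.inr (Sum.inl c)) => Sum.inr (Sum.inr (Sum.inl c))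
  | Sum.inr (Sum.inr (Sum.inr e)) => Sum.inr (Sum.inr (Sum.inr e))

def dH (c : E × Fin 3) (i : Fin 3) : ℕ :=
  if D.par c.1 = true then (if i = 2 then 2 else 1) else (if i = 0 then 2 else 1)

def dd : D.WdG P → ℕ
  | Sum.inl (_, y) => if y then 1 else 2
  | Sum.inr (Sum.inl (c, i)) => D.dH c i
  | Sum.inr (Sum.inr (Sum.inl _)) => 0
  | Sum.inr (Sum.inr (Sum.inr _)) => 0

def nx : Equiv.Perm (D.WdG P) :=
  Equiv.sumCongr ((Equiv.refl _).prodCongr Equiv.boolNot)
    (Equiv.sumCongr ((Equiv.refl _).prodCongr (finRotate 3)) (Equiv.refl _))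

/-- first letter -/
def srcV (b : (E × Fin 3) × Fin (β + 1)) : Bool → Letter E β
  | true => Letter.L (D.n1.symm b)
  | false => Letter.L b

def tgtV (b : (E × Fin 3) × Fin (β + 1)) : Bool → Letter E β
  | true => Letter.L b
  | false => D.endL b

def srcH (c : E × Fin 3) (i : Fin 3) : Letter E β :=
  if D.par c.1 = true then
    (if i = 0 then Letter.L (c, 0) else if i = 1 then Letter.r c else Letter.o c.1)
  else
    (if i = 0 then Letter.r c else if i = 1 then Letter.r (c.1, c.2 + 2) else Letter.o c.1)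

def tgtH (c : E × Fin 3) (i : Fin 3) : Letter E β :=
  if D.par c.1 = true then
    (if i = 0 then Letter.r c else if i = 1 then Letter.o c.1 else Letter.r (c.1, c.2 + 2))
  else
    (if i = 0 then Letter.L (c, 0) else if i = 1 then Letter.o c.1 else Letter.r c)

def src : D.WdG P → Letter E β
  | Sum.inl (b, y) => D.srcV b.1 y
  | Sum.inr (Sum.inl (c, i)) => D.srcH c i
  | Sum.inr (Sum.inr (Sum.inl c)) => Letter.r c.1
  | Sum.inr (Sum.inr (Sum.inr e)) => Letter.o e.1

def tgt : D.WdG P → Letter E β
  | Sum.inl (b, y) => D.tgtV b.1 y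
  | Sum.inr (Sum.inl (c, i)) => D.tgtH c i
  | Sum.inr (Sum.inr (Sum.inl c)) => Letter.L (c.1, 0)
  | Sum.inr (Sum.inr (Sum.inr e)) => Letter.o (D.tr e).1

theorem blk_nx (w : D.WdG P) : D.blk (D.nx w) = D.blk w := by
  rcases w with ⟨b, y⟩ | ⟨c, i⟩ | c | e <;> rfl

theorem blk_surj (b : D.BlG P) : ∃ w, D.blk w = b := by
  rcases b with b | c | c | e
  · exact ⟨Sum.inl (b, true), rfl⟩
  · exact ⟨Sum.inr (Sum.inl (c, 0)), rfl⟩
  · exact ⟨Sum.inr (Sum.inr (Sum.inl c)), rfl⟩
  · exact ⟨Sum.inr (Sum.inr (Sum.inr e)), rfl⟩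

theorem str_len (w : D.WdG P) : (D.str w).length = D.dd w + 2 := by
  rcases w with ⟨b, y⟩ | ⟨c, i⟩ | c | e
  · cases y <;> rfl
  · simp only [str, strH, dd, dH]
    by_cases h : D.par c.1 = true
    · simp only [h, if_true]; fin_cases i <;> rfl
    · simp only [h]; fin_cases i <;> rfl
  · rfl
  · rfl

theorem str_fst (w : D.WdG P) : (D.str w)[0]? = some (D.src w) := by
  rcases w with ⟨b, y⟩ | ⟨c, i⟩ | c | e
  · cases y <;> rfl
  · simp only [str, strH, src, srcH]
    by_cases h : D.par c.1 = true
    · simp only [h, if_true]; fin_cases i <;> rfl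
    · simp only [h]; fin_cases i <;> rfl
  · rfl
  · rfl

theorem str_lst (w : D.WdG P) : (D.str w)[D.dd w + 1]? = some (D.tgt (D.nx w)) := by
  rcases w with ⟨b, y⟩ | ⟨c, i⟩ | c | e
  · cases y <;> rfl
  · simp only [str, strH, dd, dH, tgt, nx, Equiv.sumCongr_apply, Equiv.prodCongr_apply, Sum.map_inr, Sum.map_inl, Prod.map, Equiv.refl_apply, tgtH]
    by_cases h : D.par c.1 = true
    · simp only [h, if_true]; fin_cases i <;> rfl
    · simp only [h]; fin_cases i <;> rfl
  · rfl
  · rfl

theorem dd_zero (w : D.WdG P) (h : D.dd w = 0) : D.nx w = w := by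
  rcases w with ⟨b, y⟩ | ⟨c, i⟩ | c | e
  · cases y <;> simp [dd] at h
  · simp only [dd, dH] at h; split_ifs at h
  · rfl
  · rfl

/-! ### openings -/

/-- The closed word of a block, opened at a cut word. -/
def openV (b : (E × Fin 3) × Fin (β + 1)) : Bool → List (Letter E β)
  | true => [Letter.L (D.n1.symm b), Letter.L b, D.endL b, Letter.L (D.n1.symm b), Letter.L b]
  | false => [Letter.L b, D.endL b, Letter.L (D.n1.symm b), Letter.L b, D.endL b]

def openH (c : E × Fin 3) (i : Fin 3) : List (Letter E β) :=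
  let s : Letter E β := Letter.L (c, 0)
  let r : Letter E β := Letter.r c
  let r' : Letter E β := Letter.r (c.1, c.2 + 2)
  let o : Letter E β := Letter.o c.1
  if D.par c.1 = true then
    (if i = 0 then [s, r, o, r', s, r] else if i = 1 then [r, o, r', s, r, o]
      else [o, r', s, r, o, r'])
  else
    (if i = 0 then [r, s, r', o, r, s] else if i = 1 then [r', o, r, s, r', o]
      else [o, r, s, r', o, r])

def openS {P : (E × Fin 3) × Fin (β + 1) → Prop} : D.WdG P → List (Letter E β)
  | Sum.inl (b, y) => D.openV b.1 y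
  | Sum.inr (Sum.inl (c, i)) => D.openH c i
  | Sum.inr (Sum.inr (Sum.inl c)) => strF c.1
  | Sum.inr (Sum.inr (Sum.inr e)) => D.strK e

/-- full block index type -/
abbrev BF : Type := D.BlG (fun _ => True)

abbrev WF : Type := D.WdG (fun _ => True)

def wt : D.BF → ℕ
  | Sum.inl _ => 4
  | Sum.inr (Sum.inl _) => 5
  | Sum.inr (Sum.inr (Sum.inl _)) => 1
  | Sum.inr (Sum.inr (Sum.inr _)) => 1


/-! ### equations of the definitions -/

theorem strV_true (b : (E × Fin 3) × Fin (β + 1)) :
    D.strV b true = [Letter.L (D.n1.symm b), Letter.L b, D.endL b] := by simp only [strV]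

theorem strV_false (b : (E × Fin 3) × Fin (β + 1)) :
    D.strV b false = [Letter.L b, D.endL b, Letter.L (D.n1.symm b), Letter.L b] := by
  simp only [strV]

theorem srcV_true (b : (E × Fin 3) × Fin (β + 1)) :
    D.srcV b true = Letter.L (D.n1.symm b) := by simp only [srcV]

theorem srcV_false (b : (E × Fin 3) × Fin (β + 1)) :
    D.srcV b false = Letter.L b := by simp only [srcV]

theorem tgtV_true (b : (E × Fin 3) × Fin (β + 1)) :
    D.tgtV b true = Letter.L b := by simp only [tgtV]

theorem tgtV_false (b : (E × Fin 3) × Fin (β + 1)) :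
    D.tgtV b false = D.endL b := by simp only [tgtV]

theorem openV_true (b : (E × Fin 3) × Fin (β + 1)) :
    D.openV b true = [Letter.L (D.n1.symm b), Letter.L b, D.endL b, Letter.L (D.n1.symm b),
      Letter.L b] := by simp only [openV]

theorem str_V (b : {b : (E × Fin 3) × Fin (β + 1) // P b}) (y : Bool) :
    D.str (P := P) (Sum.inl (b, y)) = D.strV b.1 y := by simp only [str]

theorem src_V (b : {b : (E × Fin 3) × Fin (β + 1) // P b}) (y : Bool) :
    D.src (P := P) (Sum.inl (b, y)) = D.srcV b.1 y := by simp only [src]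

theorem tgt_V (b : {b : (E × Fin 3) × Fin (β + 1) // P b}) (y : Bool) :
    D.tgt (P := P) (Sum.inl (b, y)) = D.tgtV b.1 y := by simp only [tgt]

theorem dd_V (b : {b : (E × Fin 3) × Fin (β + 1) // P b}) (y : Bool) :
    D.dd (P := P) (Sum.inl (b, y)) = if y = true then 1 else 2 := by simp only [dd]

theorem blk_V (b : {b : (E × Fin 3) × Fin (β + 1) // P b}) (y : Bool) :
    D.blk (P := P) (Sum.inl (b, y)) = Sum.inl b := by simp only [blk]

theorem openS_V (b : {b : (E × Fin 3) × Fin (β + 1) // P b}) (y : Bool) :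
    D.openS (P := P) (Sum.inl (b, y)) = D.openV b.1 y := by simp only [openS]

theorem wt_V (b : {b : (E × Fin 3) × Fin (β + 1) // True}) :
    D.wt (Sum.inl b) = 4 := by simp only [wt]

end Data

end Vale.Agent.P333
end
end
end

section

section

section

/-!
The overlap condition of the block system of the reduction (P333).
-/

namespace Vale.Agent.P333

open Finset

namespace Data

variable {E : Type} {β : ℕ} (D : Data E β)

theorem s0_lt (nxt : Equiv.Perm (E × Fin 3)) (b : (E × Fin 3) × Fin (β + 1))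
    (h : (b.2 : ℕ) + 1 < β + 1) : s0 nxt b = (b.1, ⟨(b.2 : ℕ) + 1, h⟩) := by
  unfold s0; rw [dif_pos h]

theorem s0_ge (nxt : Equiv.Perm (E × Fin 3)) (b : (E × Fin 3) × Fin (β + 1))
    (h : ¬ (b.2 : ℕ) + 1 < β + 1) : s0 nxt b = (nxt b.1, 0) := by
  unfold s0; rw [dif_neg h]

/-- letters at three consecutive positions -/
theorem endL_eq_L {b b' : (E × Fin 3) × Fin (β + 1)} (h : D.endL b = Letter.L b') :
    s0 D.nxt b = b' := by
  unfold endL at h
  split_ifs at h
  exact Letter.L.inj h

theorem endL_eq_r {b : (E × Fin 3) × Fin (β + 1)} {c : E × Fin 3} (h : D.endL b = Letter.r c) :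
    ¬ (b.2 : ℕ) + 1 < β + 1 ∧ D.nxt b.1 = c := by
  unfold endL at h
  split_ifs at h with h1
  exact ⟨h1, Letter.r.inj h⟩

theorem endL_ne_o {b : (E × Fin 3) × Fin (β + 1)} {e : E} : D.endL b ≠ Letter.o e := by
  unfold endL
  split_ifs <;> simp

theorem fin3_cases (i : Fin 3) : i = 0 ∨ i = 1 ∨ i = 2 := by
  fin_cases i <;> simp

theorem fin3_add2_ne (i : Fin 3) : i + 2 ≠ i := by
  fin_cases i <;> decide

/-- The overlap condition. -/
theorem ov (hβ : 1 ≤ β) (w w' : D.WdG (fun b => ¬ D.Bad b)) (hne : w ≠ w') (δ : ℕ)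
    (hδ : δ ≤ D.dd w)
    (hag : ∀ i, i < (D.str w').length → δ + i < (D.str w).length →
        (D.str w)[δ + i]? = (D.str w')[i]?) : δ = D.dd w ∧ w' = D.nx w := by
  have h0 := hag 0 (by rw [D.str_len]; omega) (by rw [D.str_len]; omega)
  have h1 := hag 1 (by rw [D.str_len]; omega) (by rw [D.str_len]; omega)
  have h2 : δ < D.dd w → 1 ≤ D.dd w' → (D.str w)[δ + 2]? = (D.str w')[2]? := fun ha hb =>
    hag 2 (by rw [D.str_len]; omega) (by rw [D.str_len]; omega)
  clear hag
  have hbd1 : ∀ a : (E × Fin 3) × Fin (β + 1), ¬ D.Bad a → D.n1 a ≠ s0 D.nxt a :=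
    fun a ha h => ha (Or.inl h)
  have hbd2 : ∀ a : (E × Fin 3) × Fin (β + 1), ¬ D.Bad a → D.n1 (s0 D.nxt a) ≠ a :=
    fun a ha h => ha (Or.inr h)
  have hlast : ∀ (c c' : E × Fin 3), D.endL (c, (0 : Fin (β + 1))) ≠ Letter.r c' := by
    intro c c' h
    have := (D.endL_eq_r h).1
    simp only [Fin.coe_ofNat_eq_mod, Nat.zero_mod, zero_add, lt_add_iff_pos_left, not_lt, nonpos_iff_eq_zero] at this
    omega
  have hparne : ∀ e : E, D.par e = true → D.par e = false → False := by
    intro e h h'; rw [h] at h'; exact Bool.noConfusion h'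
  rcases w with ⟨⟨b, hb⟩, y⟩ | ⟨c, i⟩ | ⟨c, hc⟩ | ⟨e, he⟩
  · rcases w' with ⟨⟨b', hb'⟩, y'⟩ | ⟨c', i'⟩ | ⟨c', hc'⟩ | ⟨e', he'⟩
    · cases y <;> cases y' <;> simp only [dd, if_true, Bool.false_eq_true, if_false] at hδ <;>
        interval_cases δ <;> simp [str, strV, dd] at h0 h1 h2
      · exact absurd (by simp [h0]) hne
      · exfalso
        have e1 := D.endL_eq_L h0
        apply hbd1 b hb
        rw [e1, h2]; simp
      · exfalso
        have e1 := D.endL_eq_L h1.symm
        apply hbd1 b' hb'
        rw [e1, ← h0]; simp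
      · exfalso
        have e1 := D.endL_eq_L h1
        apply hbd1 b hb
        rw [e1, h0]; simp
      · exfalso
        have e1 := D.endL_eq_L h2.symm
        apply hbd1 b' hb'
        rw [e1, ← h1]; simp
      · subst h0; exact ⟨rfl, rfl⟩
      · exfalso
        have e1 := D.endL_eq_L h1.symm
        apply hbd1 b' hb'
        rw [e1, ← h0]; simp
      · subst h0; exact ⟨rfl, rfl⟩
      · exact absurd (by simp [h0]) hne
      · exfalso
        have e1 := D.endL_eq_L h1
        apply hbd1 b hb
        rw [e1, h0]; simp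
    · exfalso
      by_cases hp : D.par c'.1 = true
      · rcases fin3_cases i' with rfl | rfl | rfl <;> cases y <;>
          simp only [dd, if_true, Bool.false_eq_true, if_false] at hδ <;>
          interval_cases δ <;> simp [str, strV, strH, hp, endL_ne_o, dd, dH] at h0 h1 h2
        · subst h0; exact hlast _ _ h1
      · rw [Bool.not_eq_true] at hp
        rcases fin3_cases i' with rfl | rfl | rfl <;> cases y <;>
          simp only [dd, if_true, Bool.false_eq_true, if_false] at hδ <;>
          interval_cases δ <;> simp [str, strV, strH, hp, endL_ne_o, dd, dH] at h0 h1 h2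
    · exfalso
      cases y <;>
        simp only [dd, if_true, Bool.false_eq_true, if_false] at hδ <;>
        interval_cases δ <;> simp [str, strV, strF] at h0 h1
      have e1 := D.endL_eq_r h0
      apply hbd2 b hb
      rw [s0_ge _ _ e1.1, e1.2, ← h1]; simp
    · exfalso
      cases y <;>
        simp only [dd, if_true, Bool.false_eq_true, if_false] at hδ <;>
        interval_cases δ <;> simp [str, strV, strK, endL_ne_o] at h0 h1
  · by_cases hp : D.par c.1 = true
    · rcases w' with ⟨⟨b', hb'⟩, y'⟩ | ⟨c', i'⟩ | ⟨c', hc'⟩ | ⟨e', he'⟩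
      · exfalso
        rcases fin3_cases i with rfl | rfl | rfl <;> cases y' <;>
          simp only [dd, dH, hp, ↓reduceIte, Fin.isValue, Fin.reduceEq] at hδ <;>
          interval_cases δ <;> simp [str, strV, strH, hp, dd, dH] at h0 h1 h2
        · subst h0; exact hlast _ _ h1.symm
      · by_cases hp' : D.par c'.1 = true
        · rcases fin3_cases i with rfl | rfl | rfl <;> rcases fin3_cases i' with rfl | rfl | rfl <;>
            simp [dd, dH, hp] at hδ <;>
            interval_cases δ <;> simp [str, strH, hp, hp', dd, dH] at h0 h1 h2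
          · subst h0; exact absurd rfl hne
          · subst h0; exact ⟨by simp [dd, dH, hp], rfl⟩
          · subst h0; exact absurd rfl hne
          · have := Prod.ext h1.1 h1.2; subst this; exact ⟨by simp [dd, dH, hp], rfl⟩
          · subst h0; exact ⟨by simp [dd, dH, hp], rfl⟩
          · subst h2; exact absurd rfl hne
        · exfalso
          rw [Bool.not_eq_true] at hp'
          rcases fin3_cases i with rfl | rfl | rfl <;> rcases fin3_cases i' with rfl | rfl | rfl <;>
            simp [dd, dH, hp] at hδ <;>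
            interval_cases δ <;> simp [str, strH, hp, hp', dd, dH] at h0 h1 h2
          all_goals
            have he : c.1 = c'.1 := by
              first
                | exact h0
                | exact h1
                | exact congrArg Prod.fst h0
                | exact congrArg Prod.fst h1
            rw [he] at hp
            rw [hp'] at hp
            exact Bool.noConfusion hp
      · exfalso
        rcases fin3_cases i with rfl | rfl | rfl <;>
          simp only [dd, dH, hp, ↓reduceIte, Fin.isValue, Fin.reduceEq] at hδ <;>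
          interval_cases δ <;> simp [str, strH, strF, hp] at h0 h1
        have h3 := congrArg Prod.snd (h0.trans h1.symm)
        exact fin3_add2_ne c.2 h3
      · exfalso
        rcases fin3_cases i with rfl | rfl | rfl <;>
          simp only [dd, dH, hp, ↓reduceIte, Fin.isValue, Fin.reduceEq] at hδ <;>
          interval_cases δ <;> simp [str, strH, strK, hp] at h0 h1
    · rw [Bool.not_eq_true] at hp
      rcases w' with ⟨⟨b', hb'⟩, y'⟩ | ⟨c', i'⟩ | ⟨c', hc'⟩ | ⟨e', he'⟩
      · exfalso
        rcases fin3_cases i with rfl | rfl | rfl <;> cases y' <;>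
          simp [dd, dH, hp] at hδ <;>
          interval_cases δ <;> simp [str, strV, strH, hp, dd, dH] at h0 h1 h2
      · by_cases hp' : D.par c'.1 = true
        · exfalso
          rcases fin3_cases i with rfl | rfl | rfl <;> rcases fin3_cases i' with rfl | rfl | rfl <;>
            simp [dd, dH, hp] at hδ <;>
            interval_cases δ <;> simp [str, strH, hp, hp', dd, dH] at h0 h1 h2
          all_goals
            have he : c.1 = c'.1 := by
              first
                | exact h0
                | exact h1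
                | exact congrArg Prod.fst h0
                | exact congrArg Prod.fst h1
            rw [he] at hp
            rw [hp'] at hp
            exact Bool.noConfusion hp
        · rw [Bool.not_eq_true] at hp'
          rcases fin3_cases i with rfl | rfl | rfl <;> rcases fin3_cases i' with rfl | rfl | rfl <;>
            simp [dd, dH, hp] at hδ <;>
            interval_cases δ <;> simp [str, strH, hp, hp', dd, dH] at h0 h1 h2
          · subst h0; exact absurd rfl hne
          · have := Prod.ext h0.1 h0.2; subst this; exact ⟨by simp [dd, dH, hp], rfl⟩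
          · subst h2; exact absurd rfl hne
          · subst h1; exact ⟨by simp [dd, dH, hp], rfl⟩
          · subst h0; exact ⟨by simp [dd, dH, hp], rfl⟩
          · subst h1; exact absurd rfl hne
      · exfalso
        rcases fin3_cases i with rfl | rfl | rfl <;>
          simp [dd, dH, hp] at hδ <;>
          interval_cases δ <;> simp [str, strH, strF, hp] at h0 h1
        all_goals
          subst h0
          exact hparne _ hc' hp
      · exfalso
        rcases fin3_cases i with rfl | rfl | rfl <;>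
          simp [dd, dH, hp] at hδ <;>
          interval_cases δ <;> simp [str, strH, strK, hp] at h0 h1
  · simp only [dd, Nat.le_zero] at hδ
    subst hδ
    rcases w' with ⟨⟨b', hb'⟩, y'⟩ | ⟨c', i'⟩ | ⟨c', hc'⟩ | ⟨e', he'⟩
    · exfalso
      cases y' <;> simp only [str, strF, add_zero, List.length_cons, List.length_nil, zero_add, Nat.reduceAdd, Order.lt_two_iff, zero_le, getElem?_pos, List.getElem_cons_zero, strV, Nat.ofNat_pos, Option.some.injEq, reduceCtorEq] at h0 h1
    · exfalso
      by_cases hp' : D.par c'.1 = true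
      · rcases fin3_cases i' with rfl | rfl | rfl <;> simp [str, strH, strF, hp'] at h0 h1
      · rw [Bool.not_eq_true] at hp'
        rcases fin3_cases i' with rfl | rfl | rfl <;> simp [str, strH, strF, hp'] at h0 h1
        subst h0
        exact hparne _ hc hp'
    · simp only [str, strF, add_zero, List.length_cons, List.length_nil, zero_add, Nat.reduceAdd, Order.lt_two_iff, zero_le, getElem?_pos, List.getElem_cons_zero, Option.some.injEq, Letter.r.injEq] at h0
      subst h0
      exact absurd rfl hne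
    · exfalso
      simp only [str, strF, add_zero, List.length_cons, List.length_nil, zero_add, Nat.reduceAdd, Order.lt_two_iff, zero_le, getElem?_pos, List.getElem_cons_zero, strK, Option.some.injEq, reduceCtorEq] at h0
  · simp only [dd, Nat.le_zero] at hδ
    subst hδ
    rcases w' with ⟨⟨b', hb'⟩, y'⟩ | ⟨c', i'⟩ | ⟨c', hc'⟩ | ⟨e', he'⟩
    · exfalso
      cases y' <;> simp only [str, strK, add_zero, List.length_cons, List.length_nil, zero_add, Nat.reduceAdd, Order.lt_two_iff, zero_le, getElem?_pos, List.getElem_cons_zero, strV, Nat.ofNat_pos, Option.some.injEq, reduceCtorEq] at h0 h1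
    · exfalso
      by_cases hp' : D.par c'.1 = true
      · rcases fin3_cases i' with rfl | rfl | rfl <;> simp [str, strH, strK, hp'] at h0 h1
      · rw [Bool.not_eq_true] at hp'
        rcases fin3_cases i' with rfl | rfl | rfl <;> simp [str, strH, strK, hp'] at h0 h1
    · exfalso
      simp only [str, strK, add_zero, List.length_cons, List.length_nil, zero_add, Nat.reduceAdd, Order.lt_two_iff, zero_le, getElem?_pos, List.getElem_cons_zero, strF, Option.some.injEq, reduceCtorEq] at h0
    · simp only [str, strK, add_zero, List.length_cons, List.length_nil, zero_add, Nat.reduceAdd, Order.lt_two_iff, zero_le, getElem?_pos, List.getElem_cons_zero, Option.some.injEq, Letter.o.injEq] at h0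
      subst h0
      exact absurd rfl hne

end Data

end Vale.Agent.P333
end
end
end

section

section

section

/-!
The local inequality of an equation gadget (P333).
-/

namespace Vale.Agent.P333

/-- indicator -/
def ind (b : Bool) : ℤ := if b then 1 else 0

/-- value of the test function at the letter `L b` -/
def fL (q : Bool) : ℤ := if q then -1 else 1

def coefE (i j : Fin 3) (p : Bool) : ℤ :=
  ind (i = 0) - ind (i = 2) + ind (j = 1) - ind (!p)

def coefO (i j : Fin 3) (p : Bool) : ℤ :=
  - ind (i = 0) + ind (i = 1) - ind (j = 2) + 1 - ind (!p)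

def coefo (i j k : Fin 3) : ℤ :=
  (ind (i = 2) - ind (i = 1)) + (ind (j = 2) - ind (j = 1)) + (ind (k = 2) - ind (k = 1))

def conE (i : Fin 3) (p q : Bool) : ℤ := ind (!p) - ind (i = 0) * fL q

def conO (i : Fin 3) (p q : Bool) : ℤ := ind (!p) + ind (i = 0) * fL q - fL q

def valE (i j k : Fin 3) (p0 p1 p2 q0 q1 q2 : Bool) : ℤ :=
  |coefE i j p0| + |coefE j k p1| + |coefE k i p2| + |coefo i j k|
    + (conE i p0 q0 + conE j p1 q1 + conE k p2 q2)

def valO (i j k : Fin 3) (p0 p1 p2 q0 q1 q2 : Bool) : ℤ :=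
  |coefO i j p0| + |coefO j k p1| + |coefO k i p2| + |coefo i j k|
    + (conO i p0 q0 + conO j p1 q1 + conO k p2 q2)

def goalv (par x0 x1 x2 p0 p1 p2 q0 q1 q2 : Bool) : ℤ :=
  2 * ((rise p0 x0 + rise x0 q0 + (rise p1 x1 + rise x1 q1) + (rise p2 x2 + rise x2 q2) : ℕ) : ℤ)
    + 2 * ind (xor x0 (xor x1 x2) != par)

set_option maxRecDepth 100000 in
theorem local_even : ∀ (i j k : Fin 3) (p0 p1 p2 q0 q1 q2 : Bool), ∃ x0 x1 x2 : Bool,
    goalv false x0 x1 x2 p0 p1 p2 q0 q1 q2 ≤ valE i j k p0 p1 p2 q0 q1 q2 := by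
  decide

set_option maxRecDepth 100000 in
theorem local_odd : ∀ (i j k : Fin 3) (p0 p1 p2 q0 q1 q2 : Bool), ∃ x0 x1 x2 : Bool,
    goalv true x0 x1 x2 p0 p1 p2 q0 q1 q2 ≤ valO i j k p0 p1 p2 q0 q1 q2 := by
  decide

end Vale.Agent.P333
end
end
end

section

section

section

/-!
Trails of opened blocks and the common superstrings obtained from them (P333).
-/

namespace Vale.Agent.P333

section

variable {Λ Bl : Type*}

/-- Merge the opened words of a trail, consecutive ones overlapping in one letter. -/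
def glue (O : Bl → List Λ) : List Bl → List Λ
  | [] => []
  | [a] => O a
  | a :: b :: l => (O a).dropLast ++ glue O (b :: l)

theorem glue_prefix (O : Bl → List Λ) (s t : Bl → Λ)
    (hs : ∀ b, (O b).head? = some (s b)) (ht : ∀ b, (O b).getLast? = some (t b))
    (hl : ∀ b, 2 ≤ (O b).length) :
    ∀ (l : List Bl) (a : Bl), List.IsChain (fun a b => t a = s b) (a :: l) →
      O a <+: glue O (a :: l) := by
  intro l
  induction l with
  | nil => intro a _; exact List.prefix_rfl
  | cons b l ih =>
    intro a h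
    rw [List.isChain_cons_cons] at h
    have h1 := ih b h.2
    obtain ⟨u, hu⟩ := h1
    have hsb := hs b
    obtain ⟨v, hv⟩ : ∃ v, O b = s b :: v := by
      cases hO : O b with
      | nil => rw [hO] at hsb; simp at hsb
      | cons x v => rw [hO] at hsb; simp at hsb; exact ⟨v, by rw [hsb]⟩
    have hta : (O a).dropLast ++ [t a] = O a := by
      have := ht a
      exact List.dropLast_append_getLast? _ this
    refine ⟨v ++ u, ?_⟩
    show O a ++ (v ++ u) = (O a).dropLast ++ glue O (b :: l)
    rw [← hu, hv, ← hta, h.1]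
    simp

theorem glue_infix (O : Bl → List Λ) (s t : Bl → Λ)
    (hs : ∀ b, (O b).head? = some (s b)) (ht : ∀ b, (O b).getLast? = some (t b))
    (hl : ∀ b, 2 ≤ (O b).length) :
    ∀ (l : List Bl), List.IsChain (fun a b => t a = s b) l → ∀ b ∈ l, O b <:+: glue O l := by
  intro l
  induction l with
  | nil => intro _ b hb; simp at hb
  | cons a l ih =>
    intro h b hb
    rcases List.mem_cons.1 hb with rfl | hb'
    · exact (glue_prefix O s t hs ht hl l b h).isInfix
    · cases l with
      | nil => simp at hb'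
      | cons c l =>
        have h' := ih (by rw [List.isChain_cons_cons] at h; exact h.2) b hb'
        show O b <:+: (O a).dropLast ++ glue O (c :: l)
        exact h'.trans (List.suffix_append _ _).isInfix

theorem glue_length (O : Bl → List Λ) (hl : ∀ b, 2 ≤ (O b).length) :
    ∀ (l : List Bl), (glue O l).length ≤ (l.map (fun b => (O b).length - 1)).sum + 1 := by
  intro l
  induction l with
  | nil => simp only [glue, List.length_nil, List.map_nil, List.sum_nil, zero_add, zero_le]
  | cons a l ih =>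
    cases l with
    | nil => have := hl a; simp only [glue, List.map_cons, List.map_nil, List.sum_cons, List.sum_nil, add_zero, ge_iff_le]; omega
    | cons c l =>
      show ((O a).dropLast ++ glue O (c :: l)).length ≤ _
      rw [List.length_append, List.length_dropLast, List.map_cons, List.sum_cons]
      omega

/-- Blocks in `X` are covered by at most `k` trails of total weight at most `w`. -/
def Cov (s t : Bl → Λ) (wt : Bl → ℕ) (X : Bl → Prop) (w k : ℕ) : Prop :=
  ∃ L : List (List Bl), L.length ≤ k ∧ (∀ l ∈ L, List.IsChain (fun a b => t a = s b) l) ∧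
    (∀ b, X b → b ∈ L.flatten) ∧ (L.flatten.map wt).sum ≤ w

theorem cov_empty (s t : Bl → Λ) (wt : Bl → ℕ) : Cov s t wt (fun _ => False) 0 0 :=
  ⟨[], by simp, by simp, by simp, by simp⟩

theorem cov_mono {s t : Bl → Λ} {wt : Bl → ℕ} {X Y : Bl → Prop} {w w' k k' : ℕ}
    (h : Cov s t wt X w k) (hXY : ∀ b, Y b → X b) (hw : w ≤ w') (hk : k ≤ k') :
    Cov s t wt Y w' k' := by
  obtain ⟨L, h1, h2, h3, h4⟩ := h
  exact ⟨L, h1.trans hk, h2, fun b hb => h3 b (hXY b hb), h4.trans hw⟩

theorem cov_add {s t : Bl → Λ} {wt : Bl → ℕ} {X : Bl → Prop} {w k : ℕ}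
    (h : Cov s t wt X w k) (z : List Bl) (hz : List.IsChain (fun a b => t a = s b) z) :
    Cov s t wt (fun b => X b ∨ b ∈ z) (w + (z.map wt).sum) (k + 1) := by
  obtain ⟨L, h1, h2, h3, h4⟩ := h
  refine ⟨z :: L, ?_, ?_, ?_, ?_⟩
  · simp; exact h1
  · intro l hl
    rcases List.mem_cons.1 hl with rfl | hl
    · exact hz
    · exact h2 l hl
  · intro b hb
    rw [List.flatten_cons, List.mem_append]
    rcases hb with hb | hb
    · exact Or.inr (h3 b hb)
    · exact Or.inl hb
  · rw [List.flatten_cons, List.map_append, List.sum_append]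
    omega

theorem cov_adds {s t : Bl → Λ} {wt : Bl → ℕ} {w k : ℕ} (Z : List (List Bl)) :
    ∀ {X : Bl → Prop}, Cov s t wt X w k →
    (∀ z ∈ Z, List.IsChain (fun a b => t a = s b) z) →
    Cov s t wt (fun b => X b ∨ b ∈ Z.flatten) (w + (Z.flatten.map wt).sum) (k + Z.length) := by
  induction Z generalizing w k with
  | nil => intro X h _; exact cov_mono h (fun b hb => by simpa using hb) (by simp) (by simp)
  | cons z Z ih =>
    intro X h hz
    have h1 := cov_add h z (hz z (by simp))
    have h2 := ih h1 (fun y hy => hz y (by simp [hy]))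
    refine cov_mono h2 ?_ ?_ ?_
    · intro b hb
      rw [List.flatten_cons, List.mem_append] at hb
      (clear * - hb; tauto)
    · rw [List.flatten_cons, List.map_append, List.sum_append]; omega
    · rw [List.length_cons]; omega

/-- Insert a closed trail at a visited letter. -/
theorem cov_insert {s t : Bl → Λ} {wt : Bl → ℕ} {X : Bl → Prop} {w k : ℕ}
    (h : Cov s t wt X w k) (z : List Bl) (hz : List.IsChain (fun a b => t a = s b) z)
    (a : Λ) (hh : ∀ b ∈ z.head?, s b = a) (hl : ∀ b ∈ z.getLast?, t b = a)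
    (ha : ∃ b, X b ∧ s b = a) :
    Cov s t wt (fun b => X b ∨ b ∈ z) (w + (z.map wt).sum) k := by
  obtain ⟨L, h1, h2, h3, h4⟩ := h
  obtain ⟨b, hb, hba⟩ := ha
  obtain ⟨l, hlL, hbl⟩ := List.mem_flatten.1 (h3 b hb)
  obtain ⟨L1, L2, rfl⟩ := List.append_of_mem hlL
  obtain ⟨l1, l2, rfl⟩ := List.append_of_mem hbl
  have hc := h2 _ hlL
  rw [List.isChain_append] at hc
  refine ⟨L1 ++ (l1 ++ (z ++ b :: l2)) :: L2, ?_, ?_, ?_, ?_⟩
  · simpa only [List.length_append, List.length_cons] using h1
  · intro l hl'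
    rw [List.mem_append, List.mem_cons] at hl'
    rcases hl' with hl' | rfl | hl'
    · exact h2 l (by simp [hl'])
    · rw [List.isChain_append, List.isChain_append]
      refine ⟨hc.1, ⟨hz, hc.2.1, ?_⟩, ?_⟩
      · intro x hx y hy
        have : y = b := by simpa using hy.symm
        rw [this, hl x hx, hba]
      · intro x hx y hy
        have h5 := hc.2.2 x hx b (by simp)
        rw [h5, hba]
        cases z with
        | nil =>
          have : y = b := by simpa using hy.symm
          rw [this, hba]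
        | cons z0 z =>
          have : y = z0 := by simpa using hy.symm
          rw [this]; exact (hh z0 (by simp)).symm
    · exact h2 l (by simp [hl'])
  · intro c hc'
    have key : c ∈ (L1 ++ (l1 ++ b :: l2) :: L2).flatten ∨ c ∈ z := by
      rcases hc' with h | h
      · exact Or.inl (h3 c h)
      · exact Or.inr h
    simp only [List.flatten_append, List.flatten_cons, List.mem_append, List.mem_cons] at key ⊢
    (clear * - hc hc' key; tauto)
  · simp only [List.flatten_append, List.flatten_cons, List.map_append, List.sum_append,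
      List.map_cons, List.sum_cons] at h4 ⊢
    omega

theorem cov_inserts {s t : Bl → Λ} {wt : Bl → ℕ} {w k : ℕ} (X0 : Bl → Prop)
    (Z : List (List Bl)) :
    ∀ {X : Bl → Prop}, Cov s t wt X w k → (∀ b, X0 b → X b) →
    (∀ z ∈ Z, List.IsChain (fun a b => t a = s b) z ∧ ∃ a, (∀ b ∈ z.head?, s b = a) ∧
      (∀ b ∈ z.getLast?, t b = a) ∧ ∃ b, X0 b ∧ s b = a) →
    Cov s t wt (fun b => X b ∨ b ∈ Z.flatten) (w + (Z.flatten.map wt).sum) k := by
  induction Z generalizing w with
  | nil => intro X h _ _; exact cov_mono h (fun b hb => by simpa using hb) (by simp) (by simp)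
  | cons z Z ih =>
    intro X h hX hz
    obtain ⟨hz1, a, hz2, hz3, b, hb, hba⟩ := hz z (by simp)
    have h1 := cov_insert h z hz1 a hz2 hz3 ⟨b, hX b hb, hba⟩
    have h2 := ih h1 (fun b hb => Or.inl (hX b hb)) (fun y hy => hz y (by simp [hy]))
    refine cov_mono h2 ?_ ?_ le_rfl
    · intro b hb
      rw [List.flatten_cons, List.mem_append] at hb
      (clear * - hb; tauto)
    · rw [List.flatten_cons, List.map_append, List.sum_append]; omega

/-- The superstring of a covering by trails. -/
theorem cov_super (O : Bl → List Λ) (s t : Bl → Λ)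
    (hs : ∀ b, (O b).head? = some (s b)) (ht : ∀ b, (O b).getLast? = some (t b))
    (hl : ∀ b, 2 ≤ (O b).length) {w k : ℕ}
    (h : Cov s t (fun b => (O b).length - 1) (fun _ => True) w k) :
    ∃ T : List Λ, (∀ b, O b <:+: T) ∧ T.length ≤ w + k := by
  obtain ⟨L, h1, h2, h3, h4⟩ := h
  refine ⟨(L.map (glue O)).flatten, ?_, ?_⟩
  · intro b
    obtain ⟨l, hlL, hbl⟩ := List.mem_flatten.1 (h3 b trivial)
    have h5 := glue_infix O s t hs ht hl l (h2 l hlL) b hbl
    obtain ⟨L1, L2, rfl⟩ := List.append_of_mem hlL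
    refine h5.trans ?_
    refine ⟨(L1.map (glue O)).flatten, (L2.map (glue O)).flatten, ?_⟩
    simp
  · have key : ∀ L : List (List Bl), ((L.map (glue O)).flatten).length
        ≤ (L.flatten.map (fun b => (O b).length - 1)).sum + L.length := by
      intro L
      induction L with
      | nil => simp
      | cons l L ih =>
        have := glue_length O hl l
        rw [List.map_cons, List.flatten_cons, List.length_append, List.flatten_cons,
          List.map_append, List.sum_append, List.length_cons]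
        omega
    have := key L
    omega

end

end Vale.Agent.P333
end
end
end

section

section

section

/-!
Functions computed in polynomial time by the machines of Mathlib, for arbitrary encodings by binary
words, are induced by functions of the class `FP` (adapted from the proof of `FP_of_tm2`).
-/

namespace Vale.Agent.P333

open Function Turing Vale.Agent.Lib.PolyTime Vale.Agent.Lib.PolyTime.OfTM2

variable {A : Set Word}

/-- A function computed in polynomial time by a machine of Mathlib is induced by a function in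
`FP`; general encodings. -/
theorem exists_FP_of_tm2 {X Y : Type} {eX : X → Word} {eY : Y → Word} {f : X → Y}
    (M : TM2ComputableInPolyTime eX eY f) : ∃ g : Word → Word, FP A g ∧ ∀ x, g (eX x) = eY (f x) := by
  have hK : Fintype M.tm.K := M.tm.kFin
  have hΛ : Fintype M.tm.Λ := M.tm.ΛFin
  have hσ : Fintype M.tm.σ := M.tm.σFin
  set inp : Bool → M.tm.Γ M.tm.k₀ := M.inputAlphabet.invFun with hinp
  set out : Bool → M.tm.Γ M.tm.k₁ := M.outputAlphabet.invFun with hout
  obtain ⟨T, hT⟩ : ∃ T : List (Σ k, M.tm.Γ k), ∀ x, x ∈ T ↔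
      x ∈ ((⋃ l, pushes (M.tm.m l)) ∪ (Set.range (fun b => (⟨M.tm.k₀, inp b⟩ : Σ k, M.tm.Γ k)) ∪
        Set.range fun b => (⟨M.tm.k₁, out b⟩ : Σ k, M.tm.Γ k))) := by
    have hfin : ((⋃ l, pushes (M.tm.m l)) ∪ (Set.range (fun b => (⟨M.tm.k₀, inp b⟩ :
        Σ k, M.tm.Γ k)) ∪ Set.range fun b => (⟨M.tm.k₁, out b⟩ : Σ k, M.tm.Γ k))).Finite :=
      (Set.finite_iUnion fun l => pushes_finite (M.tm.m l)).union
        ((Set.finite_range _).union (Set.finite_range _))
    exact ⟨hfin.toFinset.toList, fun x => by rw [Finset.mem_toList, Set.Finite.mem_toFinset]⟩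
  have hT1 : ∀ l, ∀ x ∈ pushes (M.tm.m l), x ∈ T := fun l x hx =>
    (hT x).2 (Or.inl (Set.mem_iUnion.2 ⟨l, hx⟩))
  have hT2 : ∀ b, (⟨M.tm.k₀, inp b⟩ : Σ k, M.tm.Γ k) ∈ T := fun b =>
    (hT _).2 (Or.inr (Or.inl ⟨b, rfl⟩))
  have hT3 : ∀ b, (⟨M.tm.k₁, out b⟩ : Σ k, M.tm.Γ k) ∈ T := fun b =>
    (hT _).2 (Or.inr (Or.inr ⟨b, rfl⟩))
  -- the initial configuration
  set init : Raw → Fi (Option M.tm.Λ) × Fi M.tm.σ × (M.tm.K → List ℕ) := fun x =>
    (⟨some M.tm.main⟩, ⟨M.tm.initialState⟩, fun k =>
      if k = M.tm.k₀ then x.w.map (fun b => idx T M.tm.k₀ (inp b)) else []) with hinit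
  have hPinit : PT A init := by
    refine (PT.const _).pair ((PT.const _).pair (PT_pi fun k => ?_))
    by_cases h : k = M.tm.k₀
    · have h1 : PT A (fun x : Raw => x.w.map (fun b => idx T M.tm.k₀ (inp b))) := by
        refine PT.map (f := fun (_ : Raw) b => idx T M.tm.k₀ (inp b)) (PT.listOfRaw PT.id) ?_
        refine (PT.cond (c := fun p : Raw × Bool => p.2) PT.snd'
          (PT.const (idx T M.tm.k₀ (inp true))) (PT.const (idx T M.tm.k₀ (inp false)))).congr
          fun p => ?_
        cases p.2 <;> rfl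
      exact h1.congr fun x => by rw [if_pos h]
    · exact (PT.const ([] : List ℕ)).congr fun x => by rw [if_neg h]
  have hinit_eq : ∀ w : Word, init ⟨w⟩ = cf T (initList M.tm (w.map inp)) := by
    intro w
    simp only [hinit, cf, initList]
    refine Prod.ext rfl (Prod.ext rfl (funext fun k => ?_))
    by_cases h : k = M.tm.k₀
    · subst h
      simp [mp]
    · simp [mp, h]
  have hOk : ∀ w : Word, Ok T (initList M.tm (w.map inp)).stk := by
    intro w k γ hγ
    by_cases h : k = M.tm.k₀
    · subst h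
      simp only [initList, dite_true] at hγ
      obtain ⟨b, -, rfl⟩ := List.mem_map.1 hγ
      exact hT2 b
    · simp [initList, h] at hγ
  -- the clock
  obtain ⟨c, hc⟩ := (PB.of_polynomial M.time).exists_pb
  obtain ⟨u, hu, hu'⟩ := PT.exists_clock A Raw c
  obtain ⟨c', hc'⟩ := simStep_size T M.tm.m
  have hrun : PT A (fun x : Raw => (simStep T M.tm.m)^[esize (u x)] (init x)) := by
    have hB : PBd (fun x : Raw => (2 * Fintype.card (Option M.tm.Λ) +
        (2 * Fintype.card M.tm.σ + (esize (init x) + esize (u x) * c')) + 2)) := by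
      have := hPinit.pbd
      have := hu.pbd
      fun_prop
    refine PT.iterate_esize hu hPinit (PT_simStep T M.tm.m) hB fun x j hj => ?_
    refine (esize_cf _).trans ?_
    have h1 := hc' (init x) j
    have h4 : esize (init x).2.2 ≤ esize (init x) :=
      (esize_snd_le (init x).2).trans (esize_snd_le (init x))
    have h5 := Nat.mul_le_mul_right c' hj
    exact Nat.add_le_add_right (Nat.add_le_add_left (Nat.add_le_add_left
      (h1.trans (Nat.add_le_add h4 h5)) _) _) _
  have hfin : PT A (fun x : Raw => Raw.mk ((((simStep T M.tm.m)^[esize (u x)] (init x)).2.2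
      M.tm.k₁).map fun i => decide (i = idx T M.tm.k₁ (out true)))) := by
    refine PT.rawOfList (PT.map (f := fun (_ : Raw) i => decide (i = idx T M.tm.k₁ (out true)))
      (PT_apply hrun.snd.snd M.tm.k₁) ?_)
    exact PT.eqNat PT.snd' (PT.const _)
  obtain ⟨g, hg, hg'⟩ := hfin
  refine ⟨g, hg, fun x => ?_⟩
  obtain ⟨w, hw⟩ : ∃ w, eX x = w := ⟨_, rfl⟩
  rw [hw]
  have h1 := hg' ⟨w⟩
  have h2 : g w = (((simStep T M.tm.m)^[esize (u ⟨w⟩)] (init ⟨w⟩)).2.2
      M.tm.k₁).map fun i => decide (i = idx T M.tm.k₁ (out true)) := h1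
  rw [h2, hinit_eq, (simStep_iterate hT1 _ (hOk w) _).1]
  obtain ⟨⟨n, hn⟩, hnm⟩ := M.outputsFun x
  have hnm' : n ≤ M.time.eval (eX x).length := hnm
  rw [hw] at hn hnm'
  have h3 : n ≤ esize (u ⟨w⟩) := by
    rw [hu']
    exact hnm'.trans (hc _)
  rw [tstep_iterate' M.tm.m n _ _ hn rfl _ h3]
  have h4 : (cf T (haltList M.tm ((eY (f x)).map out))).2.2 M.tm.k₁ =
      (eY (f x)).map fun b => idx T M.tm.k₁ (out b) := by
    simp [cf, mp, haltList]
  refine (congrArg (List.map fun i => decide (i = idx T M.tm.k₁ (out true))) h4).trans ?_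
  rw [List.map_map]
  conv_rhs => rw [← List.map_id (eY (f x))]
  refine List.map_congr_left fun b _ => ?_
  cases b
  · simp only [Function.comp_apply, id_eq, decide_eq_false_iff_not]
    intro h5
    have := idx_inj (hT3 false) h5
    exact absurd (M.outputAlphabet.symm.injective this) (by decide)
  · simp


end Vale.Agent.P333
end
end
end

section

section

section

/-!
Counting lemma for random permutations: if the bad pairs `(U, W)` of subsets of equal size have
small total weight, then some permutation avoids all of them.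
-/

namespace Vale.Agent.P333

open Finset

/-- The permutations mapping `U` onto `W` are at most `|U|! (n - |U|)!`. -/
theorem card_perm_map_le {α : Type*} [Fintype α] [DecidableEq α] (U W : Finset α) :
    ((univ : Finset (Equiv.Perm α)).filter (fun π => U.map π.toEmbedding = W)).card
      ≤ U.card.factorial * (Fintype.card α - U.card).factorial := by
  classical
  by_cases hc : U.card = W.card
  · -- injection into equivalences
    have hUW : Fintype.card {x // x ∈ U} = Fintype.card {x // x ∈ W} := by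
      simpa only [Fintype.card_coe] using hc
    have hUW' : Fintype.card {x // ¬ x ∈ U} = Fintype.card {x // ¬ x ∈ W} := by
      rw [Fintype.card_subtype_compl, Fintype.card_subtype_compl]
      simp only [Fintype.card_coe, hc]
    have key : ∀ (π : {π : Equiv.Perm α // U.map π.toEmbedding = W}) (a : α),
        a ∈ U ↔ π.1 a ∈ W := by
      rintro ⟨π, rfl⟩ a
      exact (mem_map' π.toEmbedding).symm
    let f : {π : Equiv.Perm α // U.map π.toEmbedding = W} →
        ({x // x ∈ U} ≃ {x // x ∈ W}) × ({x // ¬ x ∈ U} ≃ {x // ¬ x ∈ W}) := fun π =>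
      ((π.1).subtypeEquiv (key π), (π.1).subtypeEquiv (fun a => not_congr (key π a)))
    have hf : Function.Injective f := by
      intro π σ h
      apply Subtype.ext
      apply Equiv.ext
      intro a
      by_cases ha : a ∈ U
      · have := congrArg (fun p => ((p.1 ⟨a, ha⟩ : {x // x ∈ W}) : α)) h
        simpa [f] using this
      · have := congrArg (fun p => ((p.2 ⟨a, ha⟩ : {x // ¬ x ∈ W}) : α)) h
        simpa [f] using this
    have h1 := Fintype.card_le_of_injective f hf
    rw [Fintype.card_prod, Fintype.card_equiv (Fintype.equivOfCardEq hUW),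
      Fintype.card_equiv (Fintype.equivOfCardEq hUW')] at h1
    rw [Fintype.card_subtype] at h1
    have h2 : Fintype.card {x // ¬ x ∈ U} = Fintype.card α - U.card := by
      rw [Fintype.card_subtype_compl]
      simp only [Fintype.card_coe]
    rw [h2] at h1
    simpa only [ge_iff_le, Fintype.card_coe] using h1
  · have : ((univ : Finset (Equiv.Perm α)).filter (fun π => U.map π.toEmbedding = W)) = ∅ := by
      apply filter_eq_empty_iff.mpr
      intro π _ h
      apply hc
      rw [← h, card_map]
    rw [this]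
    simp only [card_empty, zero_le]

/-- First moment: if the total weight of bad pairs is below one, a permutation without bad
images exists. -/
theorem exists_perm_of_weight_lt {α : Type*} [Fintype α] [DecidableEq α]
    (bad : Finset α → Finset α → Prop)
    (w : ℝ) (hw : w < 1)
    (h : ∀ (S : Finset (Finset α × Finset α)),
      (∀ p ∈ S, p.1.card = p.2.card ∧ bad p.1 p.2) →
      ∑ p ∈ S, (1 : ℝ) / ((Fintype.card α).choose p.1.card) ≤ w) :
    ∃ π : Equiv.Perm α, ∀ U : Finset α, ¬ bad U (U.map π.toEmbedding) := by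
  classical
  by_contra hcon
  push Not at hcon
  -- every permutation has a bad pair
  let S : Finset (Finset α × Finset α) :=
    univ.filter (fun p => p.1.card = p.2.card ∧ bad p.1 p.2)
  have hS := h S (by intro p hp; simpa only [mem_filter, mem_univ, true_and, S] using hp)
  let n := Fintype.card α
  have h1 : (n.factorial : ℝ) ≤ ∑ p ∈ S, ((p.1.card.factorial * (n - p.1.card).factorial : ℕ) : ℝ) := by
    have hcard : (univ : Finset (Equiv.Perm α)).card = n.factorial := by
      rw [card_univ, Fintype.card_perm]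
    have hsub : (univ : Finset (Equiv.Perm α)) ⊆
        S.biUnion (fun p => (univ : Finset (Equiv.Perm α)).filter
          (fun π => p.1.map π.toEmbedding = p.2)) := by
      intro π _
      obtain ⟨U, hU⟩ := hcon π
      rw [mem_biUnion]
      refine ⟨(U, U.map π.toEmbedding), ?_, ?_⟩
      · simp only [S, mem_filter, mem_univ, true_and, card_map]
        exact hU
      · simp only [mem_filter, mem_univ, and_self]
    have h2 := card_le_card hsub
    have h3 := h2.trans card_biUnion_le
    rw [hcard] at h3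
    have h4 : n.factorial ≤ ∑ p ∈ S, (p.1.card.factorial * (n - p.1.card).factorial) :=
      h3.trans (sum_le_sum fun p _ => card_perm_map_le p.1 p.2)
    exact_mod_cast h4
  have h2 : ∑ p ∈ S, ((p.1.card.factorial * (n - p.1.card).factorial : ℕ) : ℝ)
      = n.factorial * ∑ p ∈ S, (1 : ℝ) / (n.choose p.1.card) := by
    rw [mul_sum]
    apply sum_congr rfl
    intro p _
    have hle : p.1.card ≤ n := card_le_univ _
    have hc := Nat.choose_mul_factorial_mul_factorial hle
    have hpos : (0 : ℝ) < (n.choose p.1.card) := by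
      exact_mod_cast Nat.choose_pos hle
    rw [mul_one_div, eq_div_iff hpos.ne']
    have : ((n.choose p.1.card * p.1.card.factorial * (n - p.1.card).factorial : ℕ) : ℝ)
        = n.factorial := by exact_mod_cast hc
    rw [← this]
    push_cast
    ring
  have h3 : (0 : ℝ) < n.factorial := by exact_mod_cast Nat.factorial_pos n
  have h4 : (n.factorial : ℝ) ≤ n.factorial * w := by
    rw [h2] at h1
    exact h1.trans (mul_le_mul_of_nonneg_left hS h3.le)
  nlinarith only [h4, hw, h3]

end Vale.Agent.P333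
end
end
end

section

section

section

/-!
Weighted sums over words read by a finite automaton (general alphabet, homogeneous weights).
-/

namespace Vale.Agent.P333

open Finset

variable {S A : Type*}

/-- Additive cost along a word; `q` is the current state. -/
def csA (d : S → A → S) (c : S → A → ℕ) : (n : ℕ) → S → (Fin n → A) → ℕ
  | 0, _, _ => 0
  | n + 1, q, a => c q (a 0) + csA d c n (d q (a 0)) (fun i => a i.succ)

/-- Multiplicative weight along a word. -/
noncomputable def wtA (d : S → A → S) (h : S → A → ℝ) : (n : ℕ) → S → (Fin n → A) → ℝ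
  | 0, _, _ => 1
  | n + 1, q, a => h q (a 0) * wtA d h n (d q (a 0)) (fun i => a i.succ)

/-- One step of the transfer operator. -/
noncomputable def stepA [Fintype A] (d : S → A → S) (h : S → A → ℝ) (v : S → ℝ) : S → ℝ :=
  fun q => ∑ a, h q a * v (d q a)

theorem csA_succ (d : S → A → S) (c : S → A → ℕ) (n : ℕ) (q : S) (a : Fin (n + 1) → A) :
    csA d c (n + 1) q a = c q (a 0) + csA d c n (d q (a 0)) (fun i => a i.succ) := rfl

theorem wtA_succ (d : S → A → S) (h : S → A → ℝ) (n : ℕ) (q : S) (a : Fin (n + 1) → A) :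
    wtA d h (n + 1) q a = h q (a 0) * wtA d h n (d q (a 0)) (fun i => a i.succ) := rfl

theorem wtA_mul (d : S → A → S) (h g : S → A → ℝ) (n : ℕ) (q : S) (a : Fin n → A) :
    wtA d (fun b c => h b c * g b c) n q a = wtA d h n q a * wtA d g n q a := by
  induction n generalizing q with
  | zero => simp only [wtA, mul_one]
  | succ n ih => rw [wtA_succ, wtA_succ, wtA_succ, ih]; ring

theorem wtA_pow (d : S → A → S) (B : ℝ) (c : S → A → ℕ) (n : ℕ) (q : S) (a : Fin n → A) :
    wtA d (fun b e => B ^ c b e) n q a = B ^ csA d c n q a := by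
  induction n generalizing q with
  | zero => simp only [wtA, csA, pow_zero]
  | succ n ih => rw [wtA_succ, csA_succ, ih, pow_add]

theorem wtA_nonneg (d : S → A → S) {h : S → A → ℝ} (hh : ∀ b c, 0 ≤ h b c)
    (n : ℕ) (q : S) (a : Fin n → A) : 0 ≤ wtA d h n q a := by
  induction n generalizing q with
  | zero => simp only [wtA, zero_le_one]
  | succ n ih => rw [wtA_succ]; exact mul_nonneg (hh _ _) (ih _ _)

theorem sum_fun_succ [Fintype A] {n : ℕ} (F : (Fin (n + 1) → A) → ℝ) :
    ∑ a : Fin (n + 1) → A, F a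
      = ∑ x : A, ∑ a : Fin n → A, F (Fin.cons x a) := by
  rw [← (Fin.consEquiv (fun _ : Fin (n + 1) => A)).sum_comp, Fintype.sum_prod_type]
  rfl

/-- Total weight of all words. -/
theorem sum_wtA_le [Fintype A] (d : S → A → S) {h : S → A → ℝ} (hh : ∀ b c, 0 ≤ h b c)
    {v : S → ℝ} (hv1 : ∀ b, 1 ≤ v b) {R : ℝ} (hR : 0 ≤ R)
    (hv : ∀ b, stepA d h v b ≤ R * v b) (n : ℕ) (q : S) :
    ∑ a : Fin n → A, wtA d h n q a ≤ R ^ n * v q := by
  induction n generalizing q with
  | zero => simpa only [univ_unique, wtA, sum_const, card_singleton, one_smul, pow_zero, one_mul] using hv1 q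
  | succ n ih =>
    rw [sum_fun_succ]
    simp only [wtA_succ, Fin.cons_zero, Fin.cons_succ]
    calc ∑ x : A, ∑ a : Fin n → A, h q x * wtA d h n (d q x) a
        = ∑ x : A, h q x * ∑ a : Fin n → A, wtA d h n (d q x) a := by
          apply sum_congr rfl; intro x _; rw [mul_sum]
      _ ≤ ∑ x : A, h q x * (R ^ n * v (d q x)) := by
          apply sum_le_sum; intro x _
          exact mul_le_mul_of_nonneg_left (ih (d q x)) (hh q x)
      _ = R ^ n * stepA d h v q := by
          unfold stepA
          rw [mul_sum]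
          apply sum_congr rfl; intro x _; ring
      _ ≤ R ^ n * (R * v q) := mul_le_mul_of_nonneg_left (hv q) (pow_nonneg hR n)
      _ = R ^ (n + 1) * v q := by ring

/-- Automata remembering only the last letter. -/
theorem csA_eq_sum (e : A → S) (c : S → A → ℕ) (n : ℕ) (q : S) (a : Fin (n + 1) → A) :
    csA (fun _ x => e x) c (n + 1) q a
      = c q (a 0) + ∑ i : Fin n, c (e (a i.castSucc)) (a i.succ) := by
  induction n generalizing q with
  | zero => simp [csA]
  | succ n ih =>
    rw [csA_succ, ih, Fin.sum_univ_succ]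
    rfl

/-- State-independent costs. -/
theorem csA_const (d : S → A → S) (c : A → ℕ) (n : ℕ) (q : S) (a : Fin n → A) :
    csA d (fun _ x => c x) n q a = ∑ i, c (a i) := by
  induction n generalizing q with
  | zero => simp [csA]
  | succ n ih =>
    rw [csA_succ, ih, Fin.sum_univ_succ]

/-- Cyclic sums. -/
theorem sum_rotate (n : ℕ) (G : Fin (n + 1) → Fin (n + 1) → ℕ) :
    ∑ p, G p (finRotate (n + 1) p) = ∑ i : Fin n, G i.castSucc i.succ + G (Fin.last n) 0 := by
  rw [Fin.sum_univ_castSucc]
  congr 1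
  · apply sum_congr rfl
    intro i _
    congr 1
    rw [finRotate_succ_apply]
    exact Fin.coeSucc_eq_succ
  · rw [finRotate_last]

end Vale.Agent.P333
end
end
end

section

section

section

/-!
Cells (one contact followed by four blocks) and Chernoff certificates for the amplifier property.
-/

namespace Vale.Agent.P333

open Finset

/-- Number of ones of a word. -/
def bones {n : ℕ} (a : Fin n → Bool) : ℕ := ∑ i, (a i).toNat

/-- Rises inside a cell whose contact is off. -/
def cellOff (g : Fin 4 → Bool) : ℕ :=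
  rise false (g 0) + rise (g 0) (g 1) + rise (g 1) (g 2) + rise (g 2) (g 3)

/-- Marginal value of a contact between the blocks `p` and `n`, `w` tells whether it counts. -/
def alp (p n w : Bool) : ℕ := if w then p.toNat + n.toNat else (p && n).toNat

/-- Cells: the bit `w` of the contact and the bits of the four blocks. -/
abbrev Cell := Bool × (Fin 4 → Bool)

/-- The last block of a cell. -/
def lastB (l : Cell) : Bool := l.2 3

/-- Linear number of rises of a word, starting from `false`. -/
def linRise (n : ℕ) (f : Fin n → Bool) : ℕ := csA (fun _ x => x) rise n false f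

/-- Sum of the marginal values. -/
def sumA (K : ℕ) (l : Fin K → Cell) : ℕ := csA (fun _ x => lastB x) (fun q x => alp q (x.2 0) x.1) K false l

/-- Sum of the marginal values minus one. -/
def sumB (K : ℕ) (l : Fin K → Cell) : ℕ :=
  csA (fun _ x => lastB x) (fun q x => alp q (x.2 0) x.1 - 1) K false l

/-- Rises with all contacts off. -/
def sumOff (K : ℕ) (l : Fin K → Cell) : ℕ := ∑ p, cellOff (l p).2

/-- Number of marked contacts. -/
def wOnes (K : ℕ) (l : Fin K → Cell) : ℕ := ∑ p, (l p).1.toNat

/-- Number of blocks that are on. -/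
def bOnes (K : ℕ) (l : Fin K → Cell) : ℕ := ∑ p, bones (l p).2

/-- The bad event at the level of cells. -/
def bad1 (s K : ℕ) (l : Fin K → Cell) (f : Fin (K * 4) → Bool) : Prop :=
  s + (sumOff K l + linRise (K * 4) f) ≤ sumA K l ∧
  s + (sumOff K l + linRise (K * 4) f) ≤ sumB K l + (K - wOnes K l) ∧
  s + (sumOff K l + linRise (K * 4) f) ≤ 2 * (K - wOnes K l)

/-- One block step of the transfer operator. -/
noncomputable def cellT (lam y : ℝ) (v : Bool → ℝ) : Bool → ℝ :=
  fun q => v false + (if q then 1 else lam) * y * v true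

/-- Contact factor. -/
noncomputable def cellG (a b z : ℝ) (q n : Bool) : ℝ :=
  a ^ alp q n false * b ^ (alp q n false - 1) + z * (a ^ alp q n true * b ^ (alp q n true - 1))

/-- Certificate for the event `bad1`. -/
structure Cert1 where
  lam : ℝ
  a : ℝ
  b : ℝ
  c : ℝ
  z : ℝ
  y₀ : ℝ
  y₁ : ℝ
  R₀ : ℝ
  R₁ : ℝ
  v₀ : Bool → ℝ
  v₁ : Bool → ℝ
  lam_pos : 0 < lam
  lam_le : lam ≤ 1
  a_ge : 1 ≤ a
  b_ge : 1 ≤ b
  c_ge : 1 ≤ c
  habc : 1 ≤ a * b * c * lam
  z_pos : 0 < z
  y₀_pos : 0 < y₀
  y₁_pos : 0 < y₁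
  R₀_pos : 0 < R₀
  R₁_pos : 0 < R₁
  v₀_ge : ∀ q, 1 ≤ v₀ q
  v₁_ge : ∀ q, 1 ≤ v₁ q
  step₀ : ∀ q, cellG a b z q false * cellT lam y₀ (cellT lam y₀ (cellT lam y₀ v₀)) false
    + cellG a b z q true * (lam * y₀) * cellT lam y₀ (cellT lam y₀ (cellT lam y₀ v₀)) true
      ≤ R₀ * v₀ q
  step₁ : ∀ q, cellT lam y₁ v₁ q ≤ R₁ * v₁ q

theorem sum_fun4 (F : (Fin 4 → Bool) → ℝ) :
    ∑ g : Fin 4 → Bool, F g = ∑ b0 : Bool, ∑ b1 : Bool, ∑ b2 : Bool, ∑ b3 : Bool,
      F ![b0, b1, b2, b3] := by
  rw [sum_fun_succ]
  apply sum_congr rfl; intro b0 _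
  rw [sum_fun_succ]
  apply sum_congr rfl; intro b1 _
  rw [sum_fun_succ]
  apply sum_congr rfl; intro b2 _
  rw [sum_fun_succ]
  apply sum_congr rfl; intro b3 _
  rw [Fintype.sum_unique]
  rfl

/-- Evaluation of the cell step. -/
theorem cell_step (lam a b z y : ℝ) (v : Bool → ℝ) (q : Bool) :
    stepA (fun _ (x : Cell) => lastB x) (fun q x => lam ^ cellOff x.2 * a ^ alp q (x.2 0) x.1
      * b ^ (alp q (x.2 0) x.1 - 1) * z ^ x.1.toNat * y ^ bones x.2) v q
    = cellG a b z q false * cellT lam y (cellT lam y (cellT lam y v)) false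
    + cellG a b z q true * (lam * y) * cellT lam y (cellT lam y (cellT lam y v)) true := by
  unfold stepA
  rw [Fintype.sum_prod_type]
  simp only [sum_fun4, Fintype.sum_bool]
  cases q <;>
  simp [cellOff, rise, alp, bones, lastB, cellG, cellT, Fin.sum_univ_succ] <;> ring

end Vale.Agent.P333
end
end
end

section

section

section

/-!
Counting bad configurations with a certificate.
-/

namespace Vale.Agent.P333

open Finset

namespace Cert1

variable (C : Cert1)

theorem sum₀ (K : ℕ) :
    ∑ l : Fin K → Cell, C.lam ^ sumOff K l * C.a ^ sumA K l * C.b ^ sumB K l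
      * C.z ^ wOnes K l * C.y₀ ^ bOnes K l ≤ C.R₀ ^ K * C.v₀ false := by
  have hlam := C.lam_pos
  have ha : 0 < C.a := lt_of_lt_of_le one_pos C.a_ge
  have hb : 0 < C.b := lt_of_lt_of_le one_pos C.b_ge
  have hz := C.z_pos
  have hy := C.y₀_pos
  have h := sum_wtA_le (fun _ (x : Cell) => lastB x)
    (h := fun q x => C.lam ^ cellOff x.2 * C.a ^ alp q (x.2 0) x.1
      * C.b ^ (alp q (x.2 0) x.1 - 1) * C.z ^ x.1.toNat * C.y₀ ^ bones x.2)
    (by intro q b; positivity) C.v₀_ge C.R₀_pos.le
    (by intro q; rw [cell_step]; exact C.step₀ q) K false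
  refine le_trans (le_of_eq ?_) h
  apply sum_congr rfl
  intro l _
  rw [wtA_mul (fun _ (x : Cell) => lastB x) (fun q x => C.lam ^ cellOff x.2
      * C.a ^ alp q (x.2 0) x.1 * C.b ^ (alp q (x.2 0) x.1 - 1) * C.z ^ x.1.toNat)
      (fun _ x => C.y₀ ^ bones x.2),
    wtA_mul (fun _ (x : Cell) => lastB x) (fun q x => C.lam ^ cellOff x.2
      * C.a ^ alp q (x.2 0) x.1 * C.b ^ (alp q (x.2 0) x.1 - 1)) (fun _ x => C.z ^ x.1.toNat),
    wtA_mul (fun _ (x : Cell) => lastB x) (fun q x => C.lam ^ cellOff x.2
      * C.a ^ alp q (x.2 0) x.1) (fun q x => C.b ^ (alp q (x.2 0) x.1 - 1)),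
    wtA_mul (fun _ (x : Cell) => lastB x) (fun _ x => C.lam ^ cellOff x.2)
      (fun q x => C.a ^ alp q (x.2 0) x.1),
    wtA_pow _ C.lam (fun (_ : Bool) (x : Cell) => cellOff x.2),
    wtA_pow _ C.a (fun (q : Bool) (x : Cell) => alp q (x.2 0) x.1),
    wtA_pow _ C.b (fun (q : Bool) (x : Cell) => alp q (x.2 0) x.1 - 1),
    wtA_pow _ C.z (fun (_ : Bool) (x : Cell) => x.1.toNat),
    wtA_pow _ C.y₀ (fun (_ : Bool) (x : Cell) => bones x.2), csA_const _ (fun x : Cell => cellOff x.2),
    csA_const _ (fun x : Cell => x.1.toNat), csA_const _ (fun x : Cell => bones x.2)]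
  rfl

theorem sum₁ (n : ℕ) :
    ∑ f : Fin n → Bool, C.lam ^ linRise n f * C.y₁ ^ bones f ≤ C.R₁ ^ n * C.v₁ false := by
  have hlam := C.lam_pos
  have hy := C.y₁_pos
  have h := sum_wtA_le (fun _ (x : Bool) => x)
    (h := fun q x => C.lam ^ rise q x * C.y₁ ^ x.toNat)
    (by intro q b; positivity) C.v₁_ge C.R₁_pos.le
    (by
      intro q
      refine le_trans (le_of_eq ?_) (C.step₁ q)
      unfold stepA cellT
      rw [Fintype.sum_bool]
      cases q <;> simp [rise] <;> ring) n false
  refine le_trans (le_of_eq ?_) h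
  apply sum_congr rfl
  intro l _
  rw [wtA_mul (fun _ (x : Bool) => x) (fun q x => C.lam ^ rise q x) (fun _ x => C.y₁ ^ x.toNat),
    wtA_pow _ C.lam (fun q x => rise q x), wtA_pow _ C.y₁ (fun (_ : Bool) (x : Bool) => x.toNat),
    csA_const _ (fun x : Bool => x.toNat)]
  rfl

/-- Every bad configuration has weight at least one. -/
theorem one_le_weight {s K : ℕ} {l : Fin K → Cell} {f : Fin (K * 4) → Bool} (h : bad1 s K l f) :
    1 ≤ C.lam ^ s * (C.lam ^ sumOff K l * C.a ^ sumA K l * C.b ^ sumB K l)
      * C.lam ^ linRise (K * 4) f * (C.b * C.c ^ 2) ^ (K - wOnes K l) := by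
  obtain ⟨h1, h2, h3⟩ := h
  have hlam := C.lam_pos
  have ha : 0 < C.a := lt_of_lt_of_le one_pos C.a_ge
  have hb : 0 < C.b := lt_of_lt_of_le one_pos C.b_ge
  have hc : 0 < C.c := lt_of_lt_of_le one_pos C.c_ge
  set M := s + (sumOff K l + linRise (K * 4) f) with hM
  have e1 : C.a ^ M ≤ C.a ^ sumA K l := pow_le_pow_right₀ C.a_ge h1
  have e2 : C.b ^ M ≤ C.b ^ (sumB K l + (K - wOnes K l)) := pow_le_pow_right₀ C.b_ge h2
  have e3 : C.c ^ M ≤ C.c ^ (2 * (K - wOnes K l)) := pow_le_pow_right₀ C.c_ge h3
  calc (1 : ℝ) ≤ (C.a * C.b * C.c * C.lam) ^ M := one_le_pow₀ C.habc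
    _ = C.a ^ M * C.b ^ M * C.c ^ M * C.lam ^ M := by rw [mul_pow, mul_pow, mul_pow]
    _ ≤ C.a ^ sumA K l * C.b ^ (sumB K l + (K - wOnes K l)) * C.c ^ (2 * (K - wOnes K l))
        * C.lam ^ M := by gcongr
    _ = _ := by
        rw [hM, pow_add, pow_add, pow_add, mul_pow, ← pow_mul]
        ring

/-- The number of bad configurations with prescribed numbers of ones. -/
theorem card_le (s K w u : ℕ) (T : Finset ((Fin K → Cell) × (Fin (K * 4) → Bool)))
    (hT : ∀ p ∈ T, wOnes K p.1 = w ∧ bOnes K p.1 = u ∧ bones p.2 = u ∧ bad1 s K p.1 p.2) :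
    (T.card : ℝ) ≤ C.lam ^ s * (C.v₀ false * C.v₁ false)
      * (C.R₀ ^ K * C.R₁ ^ (K * 4) * (C.b * C.c ^ 2) ^ (K - w)
        / (C.z ^ w * (C.y₀ * C.y₁) ^ u)) := by
  have hlam := C.lam_pos
  have ha : 0 < C.a := lt_of_lt_of_le one_pos C.a_ge
  have hb : 0 < C.b := lt_of_lt_of_le one_pos C.b_ge
  have hc : 0 < C.c := lt_of_lt_of_le one_pos C.c_ge
  have hz := C.z_pos
  have hy₀ := C.y₀_pos
  have hy₁ := C.y₁_pos
  set f₀ : (Fin K → Cell) → ℝ := fun l =>
    C.lam ^ sumOff K l * C.a ^ sumA K l * C.b ^ sumB K l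
      * C.z ^ wOnes K l * C.y₀ ^ bOnes K l with hf₀
  set f₁ : (Fin (K * 4) → Bool) → ℝ := fun f => C.lam ^ linRise (K * 4) f * C.y₁ ^ bones f with hf₁
  set Q : ℝ := C.lam ^ s * (C.b * C.c ^ 2) ^ (K - w) / (C.z ^ w * (C.y₀ * C.y₁) ^ u) with hQ
  have hQ0 : 0 ≤ Q := by positivity
  have h1 : ∀ p ∈ T, (1 : ℝ) ≤ Q * (f₀ p.1 * f₁ p.2) := by
    intro p hp
    obtain ⟨hw, hu, hf, hb⟩ := hT p hp
    refine (C.one_le_weight hb).trans (le_of_eq ?_)
    simp only [hf₀, hf₁, hQ, hw, hu, hf]
    rw [mul_pow C.y₀]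
    field_simp
  have h2 : (T.card : ℝ) ≤ ∑ p ∈ T, Q * (f₀ p.1 * f₁ p.2) := by
    calc (T.card : ℝ) = ∑ p ∈ T, (1 : ℝ) := by simp
      _ ≤ _ := sum_le_sum h1
  have h3 : ∑ p ∈ T, Q * (f₀ p.1 * f₁ p.2)
      ≤ ∑ p : (Fin K → Cell) × (Fin (K * 4) → Bool), Q * (f₀ p.1 * f₁ p.2) := by
    apply sum_le_univ_sum_of_nonneg
    intro p
    positivity
  have h4 : ∑ p : (Fin K → Cell) × (Fin (K * 4) → Bool), Q * (f₀ p.1 * f₁ p.2)
      = Q * ((∑ l, f₀ l) * (∑ f, f₁ f)) := by
    rw [← mul_sum, Fintype.sum_prod_type, sum_mul_sum]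
  have h5 : (∑ l, f₀ l) * (∑ f, f₁ f)
      ≤ (C.R₀ ^ K * C.v₀ false) * (C.R₁ ^ (K * 4) * C.v₁ false) := by
    apply mul_le_mul (C.sum₀ K) (C.sum₁ (K * 4))
    · apply sum_nonneg
      intro f _
      positivity
    · have := C.R₀_pos
      have := lt_of_lt_of_le one_pos (C.v₀_ge false)
      (clear s w u T hT hlam ha hb hc hz hy₀ hy₁ f₀ hf₀ f₁ hf₁ Q hQ hQ0 h1 h2 h3 h4; positivity)
  calc (T.card : ℝ) ≤ Q * ((∑ l, f₀ l) * (∑ f, f₁ f)) := by
        rw [← h4]; exact h2.trans h3
    _ ≤ Q * ((C.R₀ ^ K * C.v₀ false) * (C.R₁ ^ (K * 4) * C.v₁ false)) := by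
        (clear * - h5 hlam hb hc hz hy₀ hy₁; gcongr)
    _ = _ := by
        rw [hQ]
        ring

end Cert1

end Vale.Agent.P333
end
end
end

section

section

section

/-!
Union bound over pairs of random permutations.
-/

namespace Vale.Agent.P333

open Finset

theorem bones_eq_card {n : ℕ} (a : Fin n → Bool) :
    bones a = ((univ : Finset (Fin n)).filter (fun i => a i = true)).card := by
  unfold bones
  rw [card_filter]
  apply sum_congr rfl
  intro i _
  cases a i <;> simp

theorem bones_perm {n : ℕ} (a : Fin n → Bool) (σ : Equiv.Perm (Fin n)) :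
    bones (fun i => a (σ i)) = bones a := by
  unfold bones
  exact Equiv.sum_comp σ (fun i => (a i).toNat)

theorem bones_le {n : ℕ} (a : Fin n → Bool) : bones a ≤ n := by
  rw [bones_eq_card]
  calc _ ≤ (univ : Finset (Fin n)).card := card_le_card (filter_subset _ _)
    _ = n := by simp only [card_univ, Fintype.card_fin]

/-- Permutations carrying one labelling to another. -/
theorem card_comp_eq_le {n : ℕ} (g h : Fin n → Bool) :
    ((univ : Finset (Equiv.Perm (Fin n))).filter (fun σ => (fun i => g (σ i)) = h)).card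
      ≤ (bones h).factorial * (n - bones h).factorial := by
  have h1 := card_perm_map_le ((univ : Finset (Fin n)).filter (fun i => h i = true))
    ((univ : Finset (Fin n)).filter (fun i => g i = true))
  rw [← bones_eq_card, Fintype.card_fin] at h1
  refine le_trans (card_le_card ?_) h1
  intro σ hσ
  rw [mem_filter] at hσ ⊢
  refine ⟨mem_univ _, ?_⟩
  ext i
  rw [mem_map, mem_filter]
  constructor
  · rintro ⟨j, hj, rfl⟩
    refine ⟨mem_univ _, ?_⟩
    have h2 : g (σ j) = h j := congrFun hσ.2 j
    rw [mem_filter] at hj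
    show g (σ j) = true
    rw [h2]
    exact hj.2
  · rintro ⟨_, hi⟩
    refine ⟨σ.symm i, ?_, by simp⟩
    rw [mem_filter]
    refine ⟨mem_univ _, ?_⟩
    have h2 : g (σ (σ.symm i)) = h (σ.symm i) := congrFun hσ.2 (σ.symm i)
    rw [Equiv.apply_symm_apply] at h2
    rw [← h2]
    exact hi

/-- The blocks of the cells, in the order of the 0-chain. -/
def flat {K : ℕ} (l : Fin K → Cell) : Fin (K * 4) → Bool := fun i =>
  (l (finProdFinEquiv.symm i).1).2 (finProdFinEquiv.symm i).2

theorem bones_flat {K : ℕ} (l : Fin K → Cell) : bones (flat l) = bOnes K l := by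
  unfold bones bOnes flat
  rw [Equiv.sum_comp finProdFinEquiv.symm (fun p : Fin K × Fin 4 => ((l p.1).2 p.2).toNat),
    Fintype.sum_prod_type]
  rfl

/-- The event: some labelling is bad. -/
def ev (K : ℕ) (P : (Fin K → Cell) → (Fin (K * 4) → Bool) → Prop) (V : Fin K → Bool)
    (p : Equiv.Perm (Fin K) × Equiv.Perm (Fin (K * 4))) : Prop :=
  ∃ l : Fin K → Cell, (fun i => (l i).1) = (fun i => V (p.1 i)) ∧
    P l (fun i => flat l (p.2 i))

open Classical in
theorem card_ev_le (K : ℕ) (P : (Fin K → Cell) → (Fin (K * 4) → Bool) → Prop)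
    (V : Fin K → Bool) (th : ℝ)
    (hth : ∀ (u : ℕ) (T : Finset ((Fin K → Cell) × (Fin (K * 4) → Bool))), u ≤ K * 4 →
      (∀ p ∈ T, wOnes K p.1 = bones V ∧ bOnes K p.1 = u ∧ bones p.2 = u ∧ P p.1 p.2) →
      (T.card : ℝ) * (1 / (K.choose (bones V) : ℝ)) * (1 / ((K * 4).choose u : ℝ)) ≤ th) :
    (((univ : Finset (Equiv.Perm (Fin K) × Equiv.Perm (Fin (K * 4)))).filter
      (fun p => ev K P V p)).card : ℝ)
      ≤ (K.factorial : ℝ) * ((K * 4).factorial : ℝ) * (((K * 4 : ℕ) + 1) * th) := by
  set w := bones V with hw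
  let Bad : Finset ((Fin K → Cell) × (Fin (K * 4) → Bool)) :=
    univ.filter (fun p => wOnes K p.1 = w ∧ bOnes K p.1 = bones p.2 ∧ P p.1 p.2)
  have hsub : (univ : Finset (Equiv.Perm (Fin K) × Equiv.Perm (Fin (K * 4)))).filter
      (fun p => ev K P V p) ⊆ Bad.biUnion (fun q =>
        ((univ : Finset (Equiv.Perm (Fin K))).filter
          (fun σ => (fun i => V (σ i)) = fun i => (q.1 i).1)) ×ˢ
        ((univ : Finset (Equiv.Perm (Fin (K * 4)))).filter
          (fun τ => (fun i => flat q.1 (τ i)) = q.2))) := by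
    intro p hp
    rw [mem_filter] at hp
    obtain ⟨l, hl, hb⟩ := hp.2
    rw [mem_biUnion]
    refine ⟨(l, fun i => flat l (p.2 i)), ?_, ?_⟩
    · simp only [Bad, mem_filter, mem_univ, true_and]
      refine ⟨?_, ?_, hb⟩
      · have h1 : wOnes K l = bones (fun i => (l i).1) := rfl
        rw [h1, hl, bones_perm]
      · rw [bones_perm, bones_flat]
    · simp only [mem_product, mem_filter, mem_univ, true_and]
      exact ⟨hl.symm, trivial⟩
  have h1 : ((univ : Finset (Equiv.Perm (Fin K) × Equiv.Perm (Fin (K * 4)))).filter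
      (fun p => ev K P V p)).card
      ≤ ∑ q ∈ Bad, (w.factorial * (K - w).factorial) *
        ((bones q.2).factorial * ((K * 4) - bones q.2).factorial) := by
    refine (card_le_card hsub).trans (card_biUnion_le.trans ?_)
    apply sum_le_sum
    intro q hq
    rw [card_product]
    simp only [Bad, mem_filter, mem_univ, true_and] at hq
    have h2 := card_comp_eq_le V (fun i => (q.1 i).1)
    have h3 : bones (fun i => (q.1 i).1) = w := hq.1
    rw [h3] at h2
    exact Nat.mul_le_mul h2 (card_comp_eq_le (flat q.1) q.2)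
  have h2 : (((univ : Finset (Equiv.Perm (Fin K) × Equiv.Perm (Fin (K * 4)))).filter
      (fun p => ev K P V p)).card : ℝ)
      ≤ ∑ q ∈ Bad, (K.factorial : ℝ) * ((K * 4).factorial : ℝ) *
        (1 / (K.choose w : ℝ) * (1 / ((K * 4).choose (bones q.2) : ℝ))) := by
    have h3 : (((univ : Finset (Equiv.Perm (Fin K) × Equiv.Perm (Fin (K * 4)))).filter
      (fun p => ev K P V p)).card : ℝ)
      ≤ ((∑ q ∈ Bad, (w.factorial * (K - w).factorial) *
        ((bones q.2).factorial * ((K * 4) - bones q.2).factorial) : ℕ) : ℝ) := by exact_mod_cast h1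
    refine h3.trans (le_of_eq ?_)
    rw [Nat.cast_sum]
    apply sum_congr rfl
    intro q _
    have e1 := Nat.choose_mul_factorial_mul_factorial (bones_le V)
    have e2 := Nat.choose_mul_factorial_mul_factorial (bones_le q.2)
    rw [← hw] at e1
    have p1 : (0 : ℝ) < K.choose w := by exact_mod_cast Nat.choose_pos (bones_le V)
    have p2 : (0 : ℝ) < (K * 4).choose (bones q.2) := by exact_mod_cast Nat.choose_pos (bones_le q.2)
    have e1' : (K.choose w : ℝ) * w.factorial * (K - w).factorial = K.factorial := by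
      exact_mod_cast e1
    have e2' : ((K * 4).choose (bones q.2) : ℝ) * (bones q.2).factorial * ((K * 4) - bones q.2).factorial
        = (K * 4).factorial := by exact_mod_cast e2
    rw [← e1', ← e2']
    push_cast
    (clear * - p1 p2; field_simp)
  refine h2.trans ?_
  have h3 : ∑ q ∈ Bad, (K.factorial : ℝ) * ((K * 4).factorial : ℝ) *
        (1 / (K.choose w : ℝ) * (1 / ((K * 4).choose (bones q.2) : ℝ)))
      = (K.factorial : ℝ) * ((K * 4).factorial : ℝ) *
        ∑ q ∈ Bad, (1 / (K.choose w : ℝ) * (1 / ((K * 4).choose (bones q.2) : ℝ))) := by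
    rw [mul_sum]
  rw [h3]
  apply mul_le_mul_of_nonneg_left _ (by positivity)
  have h4 : ∑ q ∈ Bad, (1 / (K.choose w : ℝ) * (1 / ((K * 4).choose (bones q.2) : ℝ)))
      = ∑ u ∈ range ((K * 4) + 1), ∑ q ∈ Bad with bones q.2 = u,
        (1 / (K.choose w : ℝ) * (1 / ((K * 4).choose (bones q.2) : ℝ))) := by
    rw [sum_fiberwise_of_maps_to]
    intro q _
    rw [mem_range]
    have := bones_le q.2
    omega
  rw [h4]
  calc ∑ u ∈ range ((K * 4) + 1), ∑ q ∈ Bad with bones q.2 = u,
        (1 / (K.choose w : ℝ) * (1 / ((K * 4).choose (bones q.2) : ℝ)))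
      ≤ ∑ _u ∈ range ((K * 4) + 1), th := by
        apply sum_le_sum
        intro u hu
        rw [mem_range] at hu
        have e1 : ∑ q ∈ Bad with bones q.2 = u,
            (1 / (K.choose w : ℝ) * (1 / ((K * 4).choose (bones q.2) : ℝ)))
            = ((Bad.filter (fun q => bones q.2 = u)).card : ℝ) * (1 / (K.choose w : ℝ))
              * (1 / ((K * 4).choose u : ℝ)) := by
          rw [sum_congr rfl (g := fun _ => (1 / (K.choose w : ℝ) * (1 / ((K * 4).choose u : ℝ)))) (by
            intro q hq
            rw [(mem_filter.mp hq).2])]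
          rw [sum_const, nsmul_eq_mul, mul_assoc]
        rw [e1]
        apply hth u _ (by omega)
        intro q hq
        rw [mem_filter] at hq
        have h5 := hq.1
        simp only [Bad, mem_filter, mem_univ, true_and] at h5
        refine ⟨h5.1, ?_, hq.2, h5.2.2⟩
        rw [h5.2.1, hq.2]
    _ = (((K * 4) : ℕ) + 1) * th := by
        rw [sum_const, card_range, nsmul_eq_mul]
        push_cast
        ring

end Vale.Agent.P333
end
end
end

section

section

section

/-!
The reduction as a function on lists (P333), and its correctness.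
-/

namespace Vale.Agent.P333

open Finset

/-- symbol of a template: `(true, (i, τ), j)` is the block letter `L`, `(false, (i, τ), _)` is the
contact letter `r` of the copy `τ` of the occurrence `i`. -/
abbrev Sym := Bool × (ℕ × ℕ) × ℕ

section Codes

variable (t β : ℕ)

def codeL (q τ i j : ℕ) : ℕ := 3 * (((q * t + τ) * 3 + i) * (β + 1) + j)
def codeR (q τ i : ℕ) : ℕ := 3 * ((q * t + τ) * 3 + i) + 1
def codeO (q τ : ℕ) : ℕ := 3 * (q * t + τ) + 2

/-- the letter of a symbol, given the list of occurrences of the variable -/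
def inst (l : List (ℕ × ℕ)) (s : Sym) : ℕ :=
  if s.1 = true then codeL t β (l.getD s.2.1.1 (0, 0)).1 s.2.1.2 (l.getD s.2.1.1 (0, 0)).2 s.2.2
  else codeR t (l.getD s.2.1.1 (0, 0)).1 s.2.1.2 (l.getD s.2.1.1 (0, 0)).2

/-- the strings of the contacts of an equation -/
def hub (b : Bool) (q τ i : ℕ) : List (List ℕ) :=
  if b = true then
    [[codeL t β q τ i 0, codeR t q τ i, codeO t q τ],
     [codeR t q τ i, codeO t q τ, codeR t q τ ((i + 2) % 3)],
     [codeO t q τ, codeR t q τ ((i + 2) % 3), codeL t β q τ i 0, codeR t q τ i],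
     [codeR t q τ i, codeL t β q τ i 0]]
  else
    [[codeR t q τ i, codeL t β q τ i 0, codeR t q τ ((i + 2) % 3), codeO t q τ],
     [codeR t q τ ((i + 2) % 3), codeO t q τ, codeR t q τ i],
     [codeO t q τ, codeR t q τ i, codeL t β q τ i 0]]

end Codes

def indexed (J : List Eqn) : List (ℕ × Eqn) := (List.range J.length).zip J

def occs (J : List Eqn) : List (ℕ × (ℕ × ℕ)) :=
  (indexed J).flatMap
    (fun p => [(p.2.1.1, (p.1, 0)), (p.2.1.2.1, (p.1, 1)), (p.2.1.2.2, (p.1, 2))])

def occ (J : List Eqn) (v : ℕ) : List (ℕ × ℕ) :=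
  ((occs J).filter (fun p => decide (p.1 = v))).map Prod.snd

variable (tab : List (List (List Sym))) (t β : ℕ)

def G1 (J : List Eqn) : List (List ℕ) :=
  (occs J).flatMap (fun p =>
    (tab.getD (occ J p.1).length []).map (fun s => s.map (inst t β (occ J p.1))))

def cons3 : List (ℕ × ℕ) :=
  (List.range t).flatMap (fun τ => [(τ, 0), (τ, 1), (τ, 2)])

def G2 (J : List Eqn) : List (List ℕ) :=
  (indexed J).flatMap (fun p => (cons3 t).flatMap (fun c => hub t β p.2.2 p.1 c.1 c.2))

def evs (J : List Eqn) : List ℕ :=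
  ((indexed J).filter (fun p => !p.2.2)).flatMap
    (fun p => (List.range t).map (fun τ => codeO t p.1 τ))

def G3 (J : List Eqn) : List (List ℕ) :=
  ((evs t J).zip ((evs t J).tail ++ (evs t J).take 1)).map (fun p => [p.1, p.2])

def G (J : List Eqn) : List (List ℕ) := G1 tab t β J ++ (G2 t β J ++ G3 t J)

/-! ### templates -/

section Templates

variable {t β : ℕ} {K : ℕ} {ε : ℝ}

def symL (b : (Fin K × Fin t) × Fin (β + 1)) : Sym := (true, (b.1.1, b.1.2), b.2)
def symR (c : Fin K × Fin t) : Sym := (false, (c.1, c.2), 0)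

variable (A : Amp K t β ε)

def symEnd (b : (Fin K × Fin t) × Fin (β + 1)) : Sym :=
  if (b.2 : ℕ) + 1 < β + 1 then symL (s0 (rot A.e0) b) else symR (rot A.e0 b.1)

def tmplB (b : (Fin K × Fin t) × Fin (β + 1)) : List (List Sym) :=
  [[symL ((rot A.e1).symm b), symL b, symEnd A b],
    [symL b, symEnd A b, symL ((rot A.e1).symm b), symL b]]

noncomputable def tmpl : List (List Sym) :=
  (univ : Finset ((Fin K × Fin t) × Fin (β + 1))).toList.flatMap (tmplB A)

end Templates

/-! ### codes of letters -/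

def letterCode {M : ℕ} : Letter (Fin M × Fin t) β → ℕ
  | Letter.L b => codeL t β b.1.1.1 b.1.1.2 b.1.2 b.2
  | Letter.r c => codeR t c.1.1 c.1.2 c.2
  | Letter.o e => codeO t e.1 e.2

theorem mix_inj {a b c d n : ℕ} (hb : b < n) (hd : d < n) (h : a * n + b = c * n + d) :
    a = c ∧ b = d := by
  have h1 : (a * n + b) / n = (c * n + d) / n := by rw [h]
  have h2 : (a * n + b) % n = (c * n + d) % n := by rw [h]
  have hn : 0 < n := by omega
  rw [mul_comm a, mul_comm c, Nat.mul_add_div hn, Nat.mul_add_div hn, Nat.div_eq_of_lt hb,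
    Nat.div_eq_of_lt hd] at h1
  rw [mul_comm a, mul_comm c, Nat.mul_add_mod, Nat.mul_add_mod, Nat.mod_eq_of_lt hb,
    Nat.mod_eq_of_lt hd] at h2
  exact ⟨by omega, h2⟩

theorem letterCode_inj {M : ℕ} : Function.Injective (letterCode t β (M := M)) := by
  intro x y h
  rcases x with ⟨⟨⟨q, τ⟩, i⟩, j⟩ | ⟨⟨q, τ⟩, i⟩ | ⟨q, τ⟩ <;>
  rcases y with ⟨⟨⟨q', τ'⟩, i'⟩, j'⟩ | ⟨⟨q', τ'⟩, i'⟩ | ⟨q', τ'⟩ <;>
  simp only [letterCode, codeL, codeR, codeO] at h <;> try omega
  · have h1 := mix_inj j.2 j'.2 (by omega :
      ((q * t + τ : ℕ) * 3 + i) * (β + 1) + j = ((q' * t + τ' : ℕ) * 3 + i') * (β + 1) + j')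
    have h2 := mix_inj i.2 i'.2 h1.1
    have h3 := mix_inj τ.2 τ'.2 h2.1
    rw [Fin.ext h1.2, Fin.ext h2.2, Fin.ext h3.2, Fin.ext h3.1]
  · have h2 := mix_inj i.2 i'.2 (by omega :
      ((q * t + τ : ℕ) * 3 + i) = ((q' * t + τ' : ℕ) * 3 + i'))
    have h3 := mix_inj τ.2 τ'.2 h2.1
    rw [Fin.ext h2.2, Fin.ext h3.2, Fin.ext h3.1]
  · have h3 := mix_inj τ.2 τ'.2 (by omega : (q * t + τ : ℕ) = (q' * t + τ' : ℕ))
    rw [Fin.ext h3.2, Fin.ext h3.1]

end Vale.Agent.P333
end
end
end

section

section

section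

/-!
The reduction is computable in polynomial time (P333).
-/

namespace Vale.Agent.P333

open Vale.Agent.Lib.PolyTime

variable {A : Set Word} {α : Type} [Enc α]

section

variable (t β : ℕ)

theorem PT_codeL {q τ i j : α → ℕ} (hq : PT A q) (hτ : PT A τ) (hi : PT A i) (hj : PT A j) :
    PT A (fun a => codeL t β (q a) (τ a) (i a) (j a)) := by
  unfold codeL
  exact PT.mul (PT.const 3) (PT.add (PT.mul (PT.add (PT.mul (PT.add (PT.mul hq (PT.const t)) hτ)
    (PT.const 3)) hi) (PT.const (β + 1))) hj)

theorem PT_codeR {q τ i : α → ℕ} (hq : PT A q) (hτ : PT A τ) (hi : PT A i) :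
    PT A (fun a => codeR t (q a) (τ a) (i a)) := by
  unfold codeR
  exact PT.add (PT.mul (PT.const 3) (PT.add (PT.mul (PT.add (PT.mul hq (PT.const t)) hτ)
    (PT.const 3)) hi)) (PT.const 1)

theorem PT_codeO {q τ : α → ℕ} (hq : PT A q) (hτ : PT A τ) :
    PT A (fun a => codeO t (q a) (τ a)) := by
  unfold codeO
  exact PT.add (PT.mul (PT.const 3) (PT.add (PT.mul hq (PT.const t)) hτ)) (PT.const 2)

theorem PT_iteBool {β' : Type} [Enc β'] {c : α → Bool} {f g : α → β'} (hc : PT A c) (hf : PT A f)
    (hg : PT A g) : PT A (fun a => if c a = true then f a else g a) :=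
  (PT.cond hc hf hg).congr fun a => by cases c a <;> rfl

theorem PT_inst {l : α → List (ℕ × ℕ)} {s : α → Sym} (hl : PT A l) (hs : PT A s) :
    PT A (fun a => inst t β (l a) (s a)) := by
  unfold inst
  have h1 : PT A (fun a => (l a).getD (s a).2.1.1 (0, 0)) :=
    PT.getD hl hs.snd.fst.fst (PT.const (0, 0))
  exact PT_iteBool hs.fst (PT_codeL t β h1.fst hs.snd.fst.snd h1.snd hs.snd.snd)
    (PT_codeR t h1.fst hs.snd.fst.snd h1.snd)

theorem PT_hub {b : α → Bool} {q τ i : α → ℕ} (hb : PT A b) (hq : PT A q) (hτ : PT A τ)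
    (hi : PT A i) : PT A (fun a => hub t β (b a) (q a) (τ a) (i a)) := by
  unfold hub
  have hs := PT_codeL t β hq hτ hi (PT.const 0)
  have hr := PT_codeR t hq hτ hi
  have ho := PT_codeO t hq hτ
  have hr' := PT_codeR t hq hτ (PT.mod (PT.add hi (PT.const 2)) (PT.const 3))
  have l2 : ∀ {x y : α → ℕ}, PT A x → PT A y → PT A (fun a => [x a, y a]) :=
    fun hx hy => PT.cons hx (PT.cons hy (PT.const []))
  have l3 : ∀ {x y z : α → ℕ}, PT A x → PT A y → PT A z → PT A (fun a => [x a, y a, z a]) :=
    fun hx hy hz => PT.cons hx (l2 hy hz)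
  have l4 : ∀ {x y z w : α → ℕ}, PT A x → PT A y → PT A z → PT A w →
      PT A (fun a => [x a, y a, z a, w a]) :=
    fun hx hy hz hw => PT.cons hx (l3 hy hz hw)
  exact PT_iteBool hb
    (PT.cons (l3 hs hr ho) (PT.cons (l3 hr ho hr') (PT.cons (l4 ho hr' hs hr)
      (PT.cons (l2 hr hs) (PT.const [])))))
    (PT.cons (l4 hr hs hr' ho) (PT.cons (l3 hr' ho hr) (PT.cons (l3 ho hr hs) (PT.const []))))

end

attribute [local irreducible] hub inst codeL codeR codeO

theorem PT_indexed {J : α → List Eqn} (hJ : PT A J) : PT A (fun a => indexed (J a)) := by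
  unfold indexed
  exact PT.zip (PT.range hJ.length (PBd.length hJ)) hJ

theorem PT_occs {J : α → List Eqn} (hJ : PT A J) : PT A (fun a => occs (J a)) := by
  unfold occs
  refine PT.flatMap (f := fun (_ : α) (p : ℕ × Eqn) =>
    [(p.2.1.1, (p.1, 0)), (p.2.1.2.1, (p.1, 1)), (p.2.1.2.2, (p.1, 2))]) (PT_indexed hJ) ?_
  have hp : PT A (fun p : α × (ℕ × Eqn) => p.2) := PT.snd'
  have h : ∀ {x : α × (ℕ × Eqn) → ℕ} (n : ℕ), PT A x →
      PT A (fun a : α × (ℕ × Eqn) => (x a, (a.2.1, n))) :=
    fun n hx => PT.pair hx (PT.pair hp.fst (PT.const n))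
  exact PT.cons (h 0 hp.snd.fst.fst) (PT.cons (h 1 hp.snd.fst.snd.fst)
    (PT.cons (h 2 hp.snd.fst.snd.snd) (PT.const [])))

theorem PT_occ {J : α → List Eqn} {v : α → ℕ} (hJ : PT A J) (hv : PT A v) :
    PT A (fun a => occ (J a) (v a)) := by
  unfold occ
  refine PT.map (f := fun (_ : α) (p : ℕ × (ℕ × ℕ)) => p.2) ?_ (PT.snd'.snd)
  exact PT.filter (f := fun (a : α) (p : ℕ × (ℕ × ℕ)) => decide (p.1 = v a)) (PT_occs hJ)
    (PT.eqNat PT.snd'.fst (hv.comp PT.fst'))

section

variable (tab : List (List (List Sym))) (t β : ℕ)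

theorem PT_G1 : PT A (fun J : List Eqn => G1 tab t β J) := by
  unfold G1
  refine PT.flatMap (f := fun (J : List Eqn) (p : ℕ × (ℕ × ℕ)) =>
    (tab.getD (occ J p.1).length []).map (fun s => s.map (inst t β (occ J p.1))))
    (PT_occs PT.id) ?_
  have hocc : PT A (fun p : List Eqn × (ℕ × (ℕ × ℕ)) => occ p.1 p.2.1) :=
    PT_occ PT.fst' PT.snd'.fst
  have h0 : PT A (fun p : ((List Eqn × (ℕ × (ℕ × ℕ))) × List Sym) × Sym => p.1.1) :=
    PT.fst (f := fun p : ((List Eqn × (ℕ × (ℕ × ℕ))) × List Sym) × Sym => p.1) PT.fst'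
  have h1 : PT A (fun p : ((List Eqn × (ℕ × (ℕ × ℕ))) × List Sym) × Sym =>
      occ p.1.1.1 p.1.1.2.1) :=
    PT.comp (g := fun p : List Eqn × (ℕ × (ℕ × ℕ)) => occ p.1 p.2.1) hocc h0
  have h2 : PT A (fun p : ((List Eqn × (ℕ × (ℕ × ℕ))) × List Sym) × Sym => p.2) := PT.snd'
  have h3 := PT_inst t β h1 h2
  have h4 : PT A (fun p : (List Eqn × (ℕ × (ℕ × ℕ))) × List Sym =>
      p.2.map (inst t β (occ p.1.1 p.1.2.1))) :=
    PT.map (l := fun p : (List Eqn × (ℕ × (ℕ × ℕ))) × List Sym => p.2)
      (f := fun (p : (List Eqn × (ℕ × (ℕ × ℕ))) × List Sym) (s : Sym) =>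
      inst t β (occ p.1.1 p.1.2.1) s) PT.snd' h3
  have h5 : PT A (fun p : List Eqn × (ℕ × (ℕ × ℕ)) =>
      tab.getD (occ p.1 p.2.1).length ([] : List (List Sym))) :=
    PT.getD (PT.const tab) hocc.length (PT.const [])
  exact PT.map (f := fun (p : List Eqn × (ℕ × (ℕ × ℕ))) (s : List Sym) =>
    s.map (inst t β (occ p.1 p.2.1))) h5 h4

theorem PT_G2aux : PT A (fun p : List Eqn × (ℕ × Eqn) =>
      (cons3 t).flatMap (fun c => hub t β p.2.2.2 p.2.1 c.1 c.2)) := by
  have h1 : PT A (fun p : (List Eqn × (ℕ × Eqn)) × (ℕ × ℕ) => p.1.2) :=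
    PT.snd (f := fun p : (List Eqn × (ℕ × Eqn)) × (ℕ × ℕ) => p.1) PT.fst'
  have h2 : PT A (fun p : (List Eqn × (ℕ × Eqn)) × (ℕ × ℕ) => p.2) := PT.snd'
  have h3 : PT A (fun p : (List Eqn × (ℕ × Eqn)) × (ℕ × ℕ) =>
      hub t β p.1.2.2.2 p.1.2.1 p.2.1 p.2.2) :=
    PT_hub t β h1.snd.snd h1.fst h2.fst h2.snd
  exact PT.flatMap (l := fun _ : List Eqn × (ℕ × Eqn) => cons3 t)
      (f := fun (p : List Eqn × (ℕ × Eqn)) (c : ℕ × ℕ) => hub t β p.2.2.2 p.2.1 c.1 c.2)
      (PT.const _) h3

theorem PT_indexed0 : PT A (fun J : List Eqn => indexed J) := PT_indexed PT.id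

theorem PT_G2aux' : PT A (fun J : List Eqn => (indexed J).flatMap (fun (p : ℕ × Eqn) =>
    (cons3 t).flatMap (fun c => hub t β p.2.2 p.1 c.1 c.2))) := by
  have h := PT.flatMap (l := fun J : List Eqn => indexed J)
    (f := fun (_ : List Eqn) (p : ℕ × Eqn) =>
    (cons3 t).flatMap (fun c => hub t β p.2.2 p.1 c.1 c.2)) PT_indexed0 (PT_G2aux (A := A) t β)
  exact h

theorem PT_G2 : PT A (fun J : List Eqn => G2 t β J) := PT_G2aux' t β

theorem PT_evs : PT A (fun J : List Eqn => evs t J) := by
  unfold evs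
  refine PT.flatMap (f := fun (_ : List Eqn) (p : ℕ × Eqn) =>
    (List.range t).map (fun τ => codeO t p.1 τ)) ?_ ?_
  · exact PT.filter (f := fun (_ : List Eqn) (p : ℕ × Eqn) => !p.2.2) (PT_indexed PT.id)
      (PT.not PT.snd'.snd.snd)
  · refine PT.map (f := fun (p : List Eqn × (ℕ × Eqn)) (τ : ℕ) => codeO t p.2.1 τ)
      (PT.const _) ?_
    exact PT_codeO t PT.fst'.snd.fst PT.snd'

theorem PT_G3 : PT A (fun J : List Eqn => G3 t J) := by
  unfold G3
  refine PT.map (f := fun (_ : List Eqn) (p : ℕ × ℕ) => [p.1, p.2]) ?_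
    (PT.cons PT.snd'.fst (PT.cons PT.snd'.snd (PT.const [])))
  exact PT.zip (PT_evs t) (PT.append (PT.tail (PT_evs t)) (PT.take (PT_evs t) (PT.const 1)))

theorem PT_G : PT A (fun J : List Eqn => G tab t β J) := by
  unfold G
  exact PT.append (PT_G1 tab t β) (PT.append (PT_G2 t β) (PT_G3 t))

end

end Vale.Agent.P333
end
end
end

section

section

section

/-!
Random permutations have few coincidences with a fixed cyclic order.
-/

namespace Vale.Agent.P333

open Finset

/-- Permutations with two prescribed values. -/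
theorem card_two_le {n : ℕ} (x y c d : Fin n) (hxy : x ≠ y) :
    ((univ : Finset (Equiv.Perm (Fin n))).filter (fun σ => σ x = c ∧ σ y = d)).card
      ≤ (n - 2).factorial := by
  classical
  by_cases hcd : c = d
  · have : (univ : Finset (Equiv.Perm (Fin n))).filter (fun σ => σ x = c ∧ σ y = d) = ∅ := by
      apply filter_eq_empty_iff.mpr
      intro σ _ h
      apply hxy
      apply σ.injective
      rw [h.1, h.2, hcd]
    rw [this]
    simp
  · have key : ∀ (σ : {σ : Equiv.Perm (Fin n) // σ x = c ∧ σ y = d}) (a : Fin n),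
        (a ≠ x ∧ a ≠ y) ↔ (σ.1 a ≠ c ∧ σ.1 a ≠ d) := by
      rintro ⟨σ, h1, h2⟩ a
      constructor
      · rintro ⟨h3, h4⟩
        refine ⟨fun h => h3 (σ.injective (h.trans h1.symm)), fun h => h4 (σ.injective (h.trans h2.symm))⟩
      · rintro ⟨h3, h4⟩
        refine ⟨?_, ?_⟩
        · rintro rfl; exact h3 h1
        · rintro rfl; exact h4 h2
    let f : {σ : Equiv.Perm (Fin n) // σ x = c ∧ σ y = d} →
        ({a : Fin n // a ≠ x ∧ a ≠ y} ≃ {a : Fin n // a ≠ c ∧ a ≠ d}) := fun σ =>
      (σ.1).subtypeEquiv (key σ)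
    have hf : Function.Injective f := by
      intro σ ρ h
      apply Subtype.ext
      apply Equiv.ext
      intro a
      by_cases hax : a = x
      · rw [hax, σ.2.1, ρ.2.1]
      · by_cases hay : a = y
        · rw [hay, σ.2.2, ρ.2.2]
        · have := congrArg (fun p => ((p ⟨a, hax, hay⟩ : {a : Fin n // a ≠ c ∧ a ≠ d}) : Fin n)) h
          simpa [f] using this
    have h1 := Fintype.card_le_of_injective f hf
    have cc : ∀ u v : Fin n, u ≠ v → Fintype.card {a : Fin n // a ≠ u ∧ a ≠ v} = n - 2 := by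
      intro u v huv
      rw [Fintype.card_subtype]
      have : (univ : Finset (Fin n)).filter (fun a => a ≠ u ∧ a ≠ v) = ({u, v} : Finset (Fin n))ᶜ := by
        ext a
        simp only [ne_eq, mem_filter, mem_univ, true_and, compl_insert, mem_erase, mem_compl, mem_singleton]
      rw [this, card_compl, Fintype.card_fin, card_pair huv]
    have hcard : Fintype.card {a : Fin n // a ≠ x ∧ a ≠ y} = Fintype.card {a : Fin n // a ≠ c ∧ a ≠ d} := by
      rw [cc x y hxy, cc c d hcd]
    rw [Fintype.card_equiv (Fintype.equivOfCardEq hcard), cc x y hxy, Fintype.card_subtype] at h1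
    exact h1

/-- Number of coincidences of a permutation with the rotation. -/
def coinc {n : ℕ} (τ : Equiv.Perm (Fin n)) : ℕ :=
  ((univ : Finset (Fin n)).filter (fun i => τ (finRotate n i) = finRotate n (τ i))).card
  + ((univ : Finset (Fin n)).filter (fun i => finRotate n (τ (finRotate n i)) = τ i)).card

theorem finRotate_ne {n : ℕ} (hn : 2 ≤ n) (i : Fin n) : i ≠ finRotate n i := by
  obtain ⟨m, rfl⟩ : ∃ m, n = m + 1 := ⟨n - 1, by omega⟩
  intro h
  have h1 : (i : ℕ) = (finRotate (m + 1) i : ℕ) := congrArg Fin.val h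
  rw [coe_finRotate] at h1
  split_ifs at h1 with h2
  · rw [h2] at h1
    simp at h1
    omega
  · omega

theorem sum_coinc_le {n : ℕ} (hn : 2 ≤ n) :
    ∑ τ : Equiv.Perm (Fin n), coinc τ ≤ 2 * (n * (n * (n - 2).factorial)) := by
  classical
  unfold coinc
  rw [sum_add_distrib, two_mul]
  have e1 : ∀ (P : Equiv.Perm (Fin n) → Fin n → Prop) [∀ τ, DecidablePred (P τ)],
      ∑ τ : Equiv.Perm (Fin n), ((univ : Finset (Fin n)).filter (fun i => P τ i)).card
      = ∑ i : Fin n, ((univ : Finset (Equiv.Perm (Fin n))).filter (fun τ => P τ i)).card := by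
    intro P _
    simp only [card_filter]
    exact sum_comm
  apply Nat.add_le_add
  · rw [e1]
    calc ∑ i : Fin n, ((univ : Finset (Equiv.Perm (Fin n))).filter
          (fun τ => τ (finRotate n i) = finRotate n (τ i))).card
        ≤ ∑ _i : Fin n, n * (n - 2).factorial := by
          apply sum_le_sum
          intro i _
          calc ((univ : Finset (Equiv.Perm (Fin n))).filter
                (fun τ => τ (finRotate n i) = finRotate n (τ i))).card
              ≤ ((univ : Finset (Fin n)).biUnion (fun c =>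
                (univ : Finset (Equiv.Perm (Fin n))).filter
                  (fun τ => τ i = c ∧ τ (finRotate n i) = finRotate n c))).card := by
                apply card_le_card
                intro τ hτ
                rw [mem_filter] at hτ
                rw [mem_biUnion]
                exact ⟨τ i, mem_univ _, by rw [mem_filter]; exact ⟨mem_univ _, rfl, hτ.2⟩⟩
            _ ≤ ∑ c : Fin n, ((univ : Finset (Equiv.Perm (Fin n))).filter
                  (fun τ => τ i = c ∧ τ (finRotate n i) = finRotate n c)).card := card_biUnion_le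
            _ ≤ ∑ _c : Fin n, (n - 2).factorial := by
                apply sum_le_sum
                intro c _
                exact card_two_le i (finRotate n i) c (finRotate n c) (finRotate_ne hn i)
            _ = n * (n - 2).factorial := by simp only [sum_const, card_univ, Fintype.card_fin, smul_eq_mul]
      _ = n * (n * (n - 2).factorial) := by simp only [sum_const, card_univ, Fintype.card_fin, smul_eq_mul]
  · rw [e1]
    calc ∑ i : Fin n, ((univ : Finset (Equiv.Perm (Fin n))).filter
          (fun τ => finRotate n (τ (finRotate n i)) = τ i)).card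
        ≤ ∑ _i : Fin n, n * (n - 2).factorial := by
          apply sum_le_sum
          intro i _
          calc ((univ : Finset (Equiv.Perm (Fin n))).filter
                (fun τ => finRotate n (τ (finRotate n i)) = τ i)).card
              ≤ ((univ : Finset (Fin n)).biUnion (fun c =>
                (univ : Finset (Equiv.Perm (Fin n))).filter
                  (fun τ => τ i = finRotate n c ∧ τ (finRotate n i) = c))).card := by
                apply card_le_card
                intro τ hτ
                rw [mem_filter] at hτ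
                rw [mem_biUnion]
                exact ⟨τ (finRotate n i), mem_univ _, by
                  rw [mem_filter]; exact ⟨mem_univ _, hτ.2.symm, rfl⟩⟩
            _ ≤ ∑ c : Fin n, ((univ : Finset (Equiv.Perm (Fin n))).filter
                  (fun τ => τ i = finRotate n c ∧ τ (finRotate n i) = c)).card := card_biUnion_le
            _ ≤ ∑ _c : Fin n, (n - 2).factorial := by
                apply sum_le_sum
                intro c _
                exact card_two_le i (finRotate n i) (finRotate n c) c (finRotate_ne hn i)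
            _ = n * (n - 2).factorial := by simp
      _ = n * (n * (n - 2).factorial) := by simp

/-- Markov bound for the coincidences. -/
theorem card_coinc_le {n : ℕ} (hn : 4 ≤ n) {L : ℝ} (hL : 0 < L) :
    (((univ : Finset (Equiv.Perm (Fin n))).filter (fun τ => L < coinc τ)).card : ℝ)
      ≤ (n.factorial : ℝ) * (3 / L) := by
  classical
  have h1 : (((univ : Finset (Equiv.Perm (Fin n))).filter (fun τ => L < coinc τ)).card : ℝ) * L
      ≤ ∑ τ : Equiv.Perm (Fin n), (coinc τ : ℝ) := by
    calc (((univ : Finset (Equiv.Perm (Fin n))).filter (fun τ => L < coinc τ)).card : ℝ) * L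
        = ∑ _τ ∈ (univ : Finset (Equiv.Perm (Fin n))).filter (fun τ => L < coinc τ), L := by
          rw [sum_const, nsmul_eq_mul]
      _ ≤ ∑ τ ∈ (univ : Finset (Equiv.Perm (Fin n))).filter (fun τ => L < coinc τ),
          (coinc τ : ℝ) := by
          apply sum_le_sum
          intro τ hτ
          exact (mem_filter.mp hτ).2.le
      _ ≤ ∑ τ : Equiv.Perm (Fin n), (coinc τ : ℝ) := by
          apply sum_le_univ_sum_of_nonneg
          intro τ
          positivity
  have h2 : ∑ τ : Equiv.Perm (Fin n), (coinc τ : ℝ)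
      ≤ 2 * ((n : ℝ) * (n * ((n - 2).factorial : ℝ))) := by
    have := sum_coinc_le (n := n) (by omega)
    exact_mod_cast this
  have h3 : (n.factorial : ℝ) = n * ((n - 1) * ((n - 2).factorial : ℝ)) := by
    obtain ⟨m, rfl⟩ : ∃ m, n = m + 2 := ⟨n - 2, by omega⟩
    rw [show m + 2 - 2 = m by omega, Nat.factorial_succ, Nat.factorial_succ]
    push_cast
    ring
  have hn' : (4 : ℝ) ≤ n := by exact_mod_cast hn
  have hf : (0 : ℝ) < ((n - 2).factorial : ℝ) := by exact_mod_cast Nat.factorial_pos _
  rw [mul_div_assoc', le_div_iff₀ hL]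
  refine (h1.trans h2).trans ?_
  rw [h3]
  have h4 : 2 * (n : ℝ) ≤ 3 * (n - 1) := by linarith only [hn']
  have h5 : 0 ≤ (n : ℝ) * ((n - 2).factorial : ℝ) := by positivity
  calc 2 * ((n : ℝ) * (n * ((n - 2).factorial : ℝ))) = (2 * n) * (n * ((n - 2).factorial : ℝ)) := by ring
    _ ≤ (3 * (n - 1)) * (n * ((n - 2).factorial : ℝ)) := mul_le_mul_of_nonneg_right h4 h5
    _ = _ := by ring

end Vale.Agent.P333
end
end
end

section

section

/-!
P333, upper bound: the insertion lemma and Lemma B.
-/

namespace Vale.Agent.P333.U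

/-- The merge of a cycle is a prefix of once around the cycle followed by the first string. -/
theorem mergeL_prefix_once (c : List (List ℕ)) :
    mergeL c <+: (mergeL c).take (cycW c) ++ c.headD [] := by
  have hl := length_mergeL' c
  have hO := cycO_le_head c
  obtain ⟨v, hv⟩ := headD_prefix_mergeL c
  rw [List.prefix_iff_eq_take]
  apply List.ext_getElem
  · simp only [List.length_take, List.length_append]
    omega
  · intro i h1 h2
    rw [List.getElem_take]
    by_cases h : i < cycW c
    · rw [List.getElem_append_left (by rw [List.length_take]; omega), List.getElem_take]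
    · obtain ⟨j, rfl⟩ : ∃ j, i = cycW c + j := ⟨i - cycW c, by omega⟩
      have hlen : ((mergeL c).take (cycW c)).length = cycW c := by
        rw [List.length_take]; omega
      rw [List.getElem_append_right (by omega)]
      have e1 := getD_mergeL_add c (i := j) (by omega)
      rw [List.getD_eq_getElem _ _ (by omega)] at e1
      rw [e1]
      conv_lhs => rw [← hv]
      rw [List.getD_append _ _ _ _ (by omega), List.getD_eq_getElem _ _ (by omega)]
      congr 1
      omega

/-- The text with the words of the cycles inserted. -/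
def bld (T : List ℕ) (pos : List (List ℕ) → ℕ) : ℕ → List (List (List ℕ)) → List ℕ
  | q, [] => T.drop q
  | q, c :: F => (T.drop q).take (pos c - q) ++ ((mergeL c).take (cycW c) ++ bld T pos (pos c) F)

theorem length_bld (T : List ℕ) (pos : List (List ℕ) → ℕ) :
    ∀ (F : List (List (List ℕ))) (q : ℕ), q ≤ T.length → (∀ c ∈ F, q ≤ pos c ∧ pos c ≤ T.length) →
      F.Pairwise (fun c c' => pos c ≤ pos c') →
      (bld T pos q F).length = T.length - q + (F.map cycW).sum := by
  intro F
  induction F with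
  | nil => intro q _ _ _; simp only [bld, List.length_drop, List.map_nil, List.sum_nil, add_zero]
  | cons c F ih =>
    intro q hq h1 h2
    have hc := h1 c (by simp)
    have h3 := ih (pos c) hc.2 (fun d hd => ⟨(List.pairwise_cons.1 h2).1 d hd,
      (h1 d (List.mem_cons_of_mem _ hd)).2⟩) (List.pairwise_cons.1 h2).2
    have hl := length_mergeL' c
    rw [bld, List.length_append, List.length_append, h3, List.length_take, List.length_take,
      List.length_drop, List.map_cons, List.sum_cons]
    omega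

theorem prefix_bld {T : List ℕ} {pos : List (List ℕ) → ℕ} :
    ∀ (F : List (List (List ℕ))) (q : ℕ) (R : List ℕ), R <+: T.drop q →
      (∀ c ∈ F, q ≤ pos c ∧ ¬ c.headD [] <:+: R ∧ c.headD [] <+: T.drop (pos c)) →
      F.Pairwise (fun c c' => pos c ≤ pos c' ∧ ¬ c'.headD [] <:+: c.headD []) →
      R <+: bld T pos q F := by
  intro F
  induction F with
  | nil => intro q R hR _ _; simpa [bld] using hR
  | cons c F ih =>
    intro q R hR h1 h2
    obtain ⟨hq, hnin, hpre⟩ := h1 c (by simp)
    obtain ⟨h3, h4⟩ := List.pairwise_cons.1 h2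
    -- the head of `c`
    have hQ : c.headD [] <+: bld T pos (pos c) F :=
      ih (pos c) _ hpre (fun d hd => ⟨(h3 d hd).1, (h3 d hd).2,
        (h1 d (List.mem_cons_of_mem _ hd)).2.2⟩) h4
    have hQ' : c.headD [] <+: (mergeL c).take (cycW c) ++ bld T pos (pos c) F := by
      have a1 : c.headD [] <+: (mergeL c).take (cycW c) ++ c.headD [] :=
        (headD_prefix_mergeL c).trans (mergeL_prefix_once c)
      exact a1.trans ((List.prefix_append_right_inj _).2 hQ)
    rw [bld]
    by_cases hlen : R.length ≤ pos c - q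
    · have : R <+: (T.drop q).take (pos c - q) := by
        rw [List.prefix_take_iff]
        exact ⟨hR, hlen⟩
      exact this.trans (List.prefix_append _ _)
    · have hRl : R.length ≤ T.length - q := by
        have := hR.length_le
        rwa [List.length_drop] at this
      -- split `R`
      have e1 : R.take (pos c - q) = (T.drop q).take (pos c - q) := by
        obtain ⟨v, hv⟩ := hR
        rw [← hv, List.take_append_of_le_length (by omega)]
      have e2 : R.drop (pos c - q) <+: T.drop (pos c) := by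
        have : (R.drop (pos c - q)) <+: (T.drop q).drop (pos c - q) := hR.drop _
        rw [List.drop_drop] at this
        have h5 : q + (pos c - q) = pos c := by omega
        rwa [h5] at this
      have e3 : R.drop (pos c - q) <+: c.headD [] := by
        rcases List.prefix_or_prefix_of_prefix e2 hpre with h | h
        · exact h
        · exfalso
          exact hnin (h.isInfix.trans (List.drop_suffix _ _).isInfix)
      have e4 : R = (T.drop q).take (pos c - q) ++ R.drop (pos c - q) := by
        rw [← e1, List.take_append_drop]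
      rw [e4]
      exact (List.prefix_append_right_inj _).2 (e3.trans hQ')

theorem infix_bld {T : List ℕ} {pos : List (List ℕ) → ℕ} :
    ∀ (F : List (List (List ℕ))) (q : ℕ),
      (∀ c ∈ F, c.headD [] <+: T.drop (pos c)) →
      F.Pairwise (fun c c' => pos c ≤ pos c' ∧ ¬ c'.headD [] <:+: c.headD []) →
      ∀ c ∈ F, mergeL c <:+: bld T pos q F := by
  intro F
  induction F with
  | nil => intro q _ _ c hc; simp at hc
  | cons d F ih =>
    intro q h1 h2 c hc
    obtain ⟨h3, h4⟩ := List.pairwise_cons.1 h2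
    rw [bld]
    rcases List.mem_cons.1 hc with rfl | hc
    · have hQ : c.headD [] <+: bld T pos (pos c) F :=
        prefix_bld F (pos c) _ (h1 c (by simp)) (fun d hd => ⟨(h3 d hd).1, (h3 d hd).2,
          h1 d (List.mem_cons_of_mem _ hd)⟩) h4
      have : mergeL c <+: (mergeL c).take (cycW c) ++ bld T pos (pos c) F :=
        (mergeL_prefix_once c).trans ((List.prefix_append_right_inj _).2 hQ)
      exact this.isInfix.trans (List.suffix_append _ _).isInfix
    · have := ih (pos d) (fun e he => h1 e (List.mem_cons_of_mem _ he)) h4 c hc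
      exact (this.trans (List.suffix_append _ _).isInfix).trans (List.suffix_append _ _).isInfix

/-- The insertion lemma. -/
theorem insertion : Insertion := by
  classical
  intro S L T hS hL hT
  have hhead : ∀ c ∈ L, c.headD [] ∈ S := by
    intro c hc
    obtain ⟨s, c', rfl⟩ := List.exists_cons_of_ne_nil (hL.ne c hc)
    exact hL.perm.mem_iff.1 (List.mem_flatten.2 ⟨_, hc, by simp⟩)
  -- heads are pairwise not contained in each other
  have hpw0 : L.flatten.Pairwise (fun s t => ¬ s <:+: t ∧ ¬ t <:+: s) :=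
    (hL.perm.pairwise_iff (fun {a b} hab => ⟨hab.2, hab.1⟩)).2 hS.2
  have hpw : L.Pairwise (fun c c' => ¬ c.headD [] <:+: c'.headD [] ∧
      ¬ c'.headD [] <:+: c.headD []) := by
    have h1 := (List.pairwise_flatten.1 hpw0).2
    refine List.Pairwise.imp_of_mem ?_ h1
    intro c c' hc hc' h
    obtain ⟨s, d, rfl⟩ := List.exists_cons_of_ne_nil (hL.ne c hc)
    obtain ⟨s', d', rfl⟩ := List.exists_cons_of_ne_nil (hL.ne c' hc')
    exact h s (by simp) s' (by simp)
  -- positions
  have hex : ∀ c ∈ L, ∃ a, a ≤ T.length ∧ c.headD [] <+: T.drop a := by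
    intro c hc
    obtain ⟨u, v, huv⟩ := hT _ (hhead c hc)
    refine ⟨u.length, ?_, v, ?_⟩
    · rw [← huv]; simp only [List.length_append]; omega
    · rw [← huv, List.append_assoc, List.drop_append_of_le_length (le_refl _), List.drop_length,
        List.nil_append]
  choose! pos hpos using hex
  set F := L.mergeSort (fun s t => decide (pos s ≤ pos t)) with hFdef
  have hFp : F.Perm L := List.mergeSort_perm _ _
  have hFs : F.Pairwise (fun s t => pos s ≤ pos t) := by
    have := List.pairwise_mergeSort (le := fun s t : List (List ℕ) => decide (pos s ≤ pos t))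
      (by intro a b c; simp only [decide_eq_true_eq]; omega) (by intro a b; simp; omega) L
    simpa using this
  have hFw : F.Pairwise (fun c c' => ¬ c.headD [] <:+: c'.headD [] ∧
      ¬ c'.headD [] <:+: c.headD []) :=
    (hFp.pairwise_iff (fun {a b} hab => ⟨hab.2, hab.1⟩)).2 hpw
  have hFpos : ∀ c ∈ F, pos c ≤ T.length ∧ c.headD [] <+: T.drop (pos c) :=
    fun c hc => hpos c (hFp.mem_iff.1 hc)
  have hF2 : F.Pairwise (fun c c' => pos c ≤ pos c' ∧ ¬ c'.headD [] <:+: c.headD []) :=
    List.Pairwise.imp (fun h => ⟨h.1, h.2.2⟩) (List.Pairwise.and hFs hFw)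
  refine ⟨bld T pos 0 F, ?_, ?_⟩
  · rw [length_bld T pos F 0 (Nat.zero_le _) (fun c hc => ⟨Nat.zero_le _, (hFpos c hc).1⟩) hFs,
      (hFp.map cycW).sum_eq]
    simp
  · intro c hc
    exact infix_bld F 0 (fun c hc => (hFpos c hc).2) hF2 c (hFp.mem_iff.2 hc)

theorem wordsB : WordsB := wordsB_of insertion

end Vale.Agent.P333.U
end
end

section

section

/-!
P333, upper bound: insertion of a vertex in a path colouring.
-/

namespace Vale.Agent.P333.U.CE

open Vale.Agent.Lib.PolyTime Relation

/-! ### Relations -/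

/-- Add an arc to a relation. -/
def addR (r : ℕ → ℕ → Prop) (x y : ℕ) : ℕ → ℕ → Prop := fun a b => r a b ∨ (a = x ∧ b = y)

theorem rtg_addR {r : ℕ → ℕ → Prop} {x y z w : ℕ} (h : ReflTransGen (addR r x y) z w) :
    ReflTransGen r z w ∨ (ReflTransGen r z x ∧ ReflTransGen r y w) := by
  induction h with
  | refl => exact Or.inl .refl
  | tail _ hs ih =>
    rcases ih with ih | ⟨ih1, ih2⟩
    · rcases hs with hs | ⟨rfl, rfl⟩
      · exact Or.inl (ih.tail hs)
      · exact Or.inr ⟨ih, .refl⟩
    · rcases hs with hs | ⟨rfl, rfl⟩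
      · exact Or.inr ⟨ih1, ih2.tail hs⟩
      · exact Or.inr ⟨ih1, .refl⟩

theorem tg_addR {r : ℕ → ℕ → Prop} {x y z w : ℕ} (h : TransGen (addR r x y) z w) :
    TransGen r z w ∨ (ReflTransGen r z x ∧ ReflTransGen r y w) := by
  induction h with
  | single hs =>
    rcases hs with hs | ⟨rfl, rfl⟩
    · exact Or.inl (.single hs)
    · exact Or.inr ⟨.refl, .refl⟩
  | tail _ hs ih =>
    rcases ih with ih | ⟨ih1, ih2⟩
    · rcases hs with hs | ⟨rfl, rfl⟩
      · exact Or.inl (ih.tail hs)
      · exact Or.inr ⟨ih.to_reflTransGen, .refl⟩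
    · rcases hs with hs | ⟨rfl, rfl⟩
      · exact Or.inr ⟨ih1, ih2.tail hs⟩
      · exact Or.inr ⟨ih1, .refl⟩

theorem acyc_addR {r : ℕ → ℕ → Prop} {x y : ℕ} (hr : ∀ z, ¬ TransGen r z z)
    (h : ¬ ReflTransGen r y x) (z : ℕ) : ¬ TransGen (addR r x y) z z := by
  intro hz
  rcases tg_addR hz with hz | ⟨h1, h2⟩
  · exact hr z hz
  · exact h (h2.trans h1)

theorem acyc_mono {r s : ℕ → ℕ → Prop} (hrs : ∀ a b, s a b → r a b)
    (hr : ∀ z, ¬ TransGen r z z) (z : ℕ) : ¬ TransGen s z z :=
  fun hz => hr z (TransGen.mono hrs _ _ hz)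

theorem not_rtg_in {r : ℕ → ℕ → Prop} {v y : ℕ} (hv : ∀ z, ¬ r z v) (hy : y ≠ v) :
    ¬ ReflTransGen r y v := by
  intro h
  rcases h.cases_tail with h | ⟨c, -, h⟩
  · exact hy h.symm
  · exact hv c h

theorem not_rtg_out {r : ℕ → ℕ → Prop} {v x : ℕ} (hv : ∀ z, ¬ r v z) (hx : x ≠ v) :
    ¬ ReflTransGen r v x := by
  intro h
  rcases h.cases_head with h | ⟨c, h, -⟩
  · exact hx h.symm
  · exact hv c h

theorem acyc_star {r : ℕ → ℕ → Prop} {v : ℕ} (hvo : ∀ z, ¬ r v z) (hvi : ∀ z, ¬ r z v)
    {X Y : ℕ → Prop} (hX : ∀ a b, X a → X b → a = b) (hY : ∀ a b, Y a → Y b → a = b)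
    (hXv : ∀ a, X a → a ≠ v) (hYv : ∀ a, Y a → a ≠ v)
    (hXY : ∀ a b, X a → Y b → ¬ ReflTransGen r b a) (hr : ∀ z, ¬ TransGen r z z) (z : ℕ) :
    ¬ TransGen (fun a b => r a b ∨ (X a ∧ b = v) ∨ (a = v ∧ Y b)) z z := by
  by_cases hx : ∃ x, X x
  · obtain ⟨x, hx⟩ := hx
    have h1 : ∀ z, ¬ TransGen (addR r x v) z z := acyc_addR hr (not_rtg_out hvo (hXv x hx))
    by_cases hy : ∃ y, Y y
    · obtain ⟨y, hy⟩ := hy
      refine acyc_mono (r := addR (addR r x v) v y) ?_ (acyc_addR h1 ?_) z
      · rintro a b (h | ⟨h, rfl⟩ | ⟨rfl, h⟩)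
        · exact Or.inl (Or.inl h)
        · exact Or.inl (Or.inr ⟨hX _ _ h hx, rfl⟩)
        · exact Or.inr ⟨rfl, hY _ _ h hy⟩
      · intro h
        rcases rtg_addR h with h | ⟨h, -⟩
        · exact not_rtg_in hvi (hYv y hy) h
        · exact hXY x y hx hy h
    · refine acyc_mono (r := addR r x v) ?_ h1 z
      rintro a b (h | ⟨h, rfl⟩ | ⟨rfl, h⟩)
      · exact Or.inl h
      · exact Or.inr ⟨hX _ _ h hx, rfl⟩
      · exact absurd ⟨_, h⟩ hy
  · by_cases hy : ∃ y, Y y
    · obtain ⟨y, hy⟩ := hy
      refine acyc_mono (r := addR r v y) ?_ (acyc_addR hr (not_rtg_in hvi (hYv y hy))) z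
      rintro a b (h | ⟨h, rfl⟩ | ⟨rfl, h⟩)
      · exact Or.inl h
      · exact absurd ⟨_, h⟩ hx
      · exact Or.inr ⟨rfl, hY _ _ h hy⟩
    · refine acyc_mono (r := r) ?_ hr z
      rintro a b (h | ⟨h, rfl⟩ | ⟨rfl, h⟩)
      · exact h
      · exact absurd ⟨_, h⟩ hx
      · exact absurd ⟨_, h⟩ hy

/-- Two ends of the same path are equal. -/
theorem end_unique {r : ℕ → ℕ → Prop} (ho : ∀ x y y', r x y → r x y' → y = y') {z a b : ℕ}
    (ha : ReflTransGen r z a) (hb : ReflTransGen r z b) (hae : ∀ w, ¬ r a w)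
    (hbe : ∀ w, ¬ r b w) : a = b := by
  induction ha using ReflTransGen.head_induction_on with
  | refl =>
    rcases hb.cases_head with h | ⟨c, h, -⟩
    · exact h
    · exact absurd h (hae c)
  | head h1 h2 ih =>
    rcases hb.cases_head with h | ⟨c, h, h'⟩
    · subst h
      exact absurd h1 (hbe _)
    · rw [ho _ _ _ h h1] at h'
      exact ih h'

/-! ### Path colourings -/

/-- Forget the colour. -/
def unc (e : ℕ × ℕ × ℕ) : ℕ × ℕ := (e.1, e.2.1)

/-- The relation of a colour class. -/
def crel (K : List (ℕ × ℕ × ℕ)) (κ : ℕ) : ℕ → ℕ → Prop := fun a b => (a, b, κ) ∈ K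

/-- Valid colourings, without the condition at the vertices of degree one. -/
structure PV (K : List (ℕ × ℕ × ℕ)) : Prop where
  lt : ∀ e ∈ K, e.2.2 < 3
  out : (K.map (fun e => (e.1, e.2.2))).Nodup
  inn : (K.map (fun e => (e.2.1, e.2.2))).Nodup
  acy : ∀ κ x, ¬ TransGen (crel K κ) x x

theorem mem_cls {K : List (ℕ × ℕ × ℕ)} {κ a b : ℕ} : (a, b) ∈ cls K κ ↔ (a, b, κ) ∈ K := by
  unfold cls
  constructor
  · intro h
    obtain ⟨⟨x, y, k⟩, h1, h2⟩ := List.mem_map.1 h
    rw [List.mem_filter] at h1
    simp only [beq_iff_eq, Prod.mk.injEq] at h1 h2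
    obtain ⟨h1, rfl⟩ := h1
    obtain ⟨rfl, rfl⟩ := h2
    exact h1
  · intro h
    exact List.mem_map.2 ⟨(a, b, κ), List.mem_filter.2 ⟨h, by simp⟩, rfl⟩

theorem nodup_iff_aux (K : List (ℕ × ℕ × ℕ)) (f : ℕ × ℕ × ℕ → ℕ) :
    (∀ κ, ((K.filter (fun e => e.2.2 == κ)).map f).Nodup) ↔
      (K.map (fun e => (f e, e.2.2))).Nodup := by
  simp only [List.Nodup, List.pairwise_map, List.pairwise_filter]
  simp only [List.pairwise_iff_getElem]
  constructor
  · intro h i j hi hj hij heq
    have heq' := Prod.mk.inj heq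
    exact h (K[j].2.2) i j hi hj hij (by simpa using heq'.2) (by simp) heq'.1
  · intro h κ i j hi hj hij h1 h2 heq
    apply h i j hi hj hij
    rw [beq_iff_eq] at h1 h2
    rw [heq, h1, h2]

theorem PV_iff (K : List (ℕ × ℕ × ℕ)) :
    PV K ↔ (∀ e ∈ K, e.2.2 < 3) ∧ ∀ κ, PathSys (cls K κ) := by
  have e1 : ∀ κ, (cls K κ).map Prod.fst = (K.filter (fun e => e.2.2 == κ)).map (fun e => e.1) := by
    intro κ
    simp [cls, List.map_map, Function.comp_def]
  have e2 : ∀ κ, (cls K κ).map Prod.snd =
      (K.filter (fun e => e.2.2 == κ)).map (fun e => e.2.1) := by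
    intro κ
    simp [cls, List.map_map, Function.comp_def]
  have e3 : ∀ κ, (fun a b => (a, b) ∈ cls K κ) = crel K κ := by
    intro κ
    funext a b
    exact propext mem_cls
  constructor
  · intro h
    refine ⟨h.lt, fun κ => ⟨?_, ?_, ?_⟩⟩
    · rw [e1]
      exact (nodup_iff_aux K (fun e => e.1)).2 h.out κ
    · rw [e2]
      exact (nodup_iff_aux K (fun e => e.2.1)).2 h.inn κ
    · intro x
      rw [e3]
      exact h.acy κ x
  · rintro ⟨h1, h2⟩
    refine ⟨h1, (nodup_iff_aux K (fun e => e.1)).1 fun κ => ?_,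
      (nodup_iff_aux K (fun e => e.2.1)).1 fun κ => ?_, fun κ x => ?_⟩
    · rw [← e1]
      exact (h2 κ).out
    · rw [← e2]
      exact (h2 κ).inn
    · rw [← e3]
      exact (h2 κ).acyc x

theorem col_iff (E : List (ℕ × ℕ)) (K : List (ℕ × ℕ × ℕ)) :
    Col E K ↔ (K.map unc).Perm E ∧ PV K ∧
      ∀ e ∈ K, ∀ f ∈ K, e.2.1 = f.1 → outN E f.1 = 1 → e.2.2 ≠ f.2.2 := by
  rw [PV_iff]
  constructor
  · intro h
    exact ⟨h.perm, ⟨h.lt, h.path⟩, h.flag⟩
  · rintro ⟨h1, ⟨h2, h3⟩, h4⟩
    exact ⟨h1, h2, h3, h4⟩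

theorem PV.perm {K K' : List (ℕ × ℕ × ℕ)} (h : PV K) (hK : K.Perm K') : PV K' := by
  refine ⟨fun e he => h.lt e (hK.mem_iff.2 he), (hK.map _).nodup_iff.1 h.out,
    (hK.map _).nodup_iff.1 h.inn, fun κ x hx => h.acy κ x ?_⟩
  refine TransGen.mono ?_ _ _ hx
  intro a b hab
  exact hK.mem_iff.2 hab

theorem PV.out_unique {K : List (ℕ × ℕ × ℕ)} (h : PV K) {x y y' κ : ℕ} (h1 : (x, y, κ) ∈ K)
    (h2 : (x, y', κ) ∈ K) : y = y' := by
  have := List.inj_on_of_nodup_map h.out h1 h2 rfl
  exact (Prod.mk.inj (Prod.mk.inj this).2).1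

theorem PV.in_unique {K : List (ℕ × ℕ × ℕ)} (h : PV K) {x x' y κ : ℕ} (h1 : (x, y, κ) ∈ K)
    (h2 : (x', y, κ) ∈ K) : x = x' := by
  have := List.inj_on_of_nodup_map h.inn h1 h2 rfl
  exact (Prod.mk.inj this).1

theorem PV.nodup {K : List (ℕ × ℕ × ℕ)} (h : PV K) : K.Nodup := List.Nodup.of_map _ h.out

theorem PV.sublist {K K' : List (ℕ × ℕ × ℕ)} (h : PV K) (hK : K'.Sublist K) : PV K' := by
  refine ⟨fun e he => h.lt e (hK.subset he), h.out.sublist (hK.map _),
    h.inn.sublist (hK.map _), fun κ x hx => h.acy κ x ?_⟩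
  refine TransGen.mono ?_ _ _ hx
  intro a b hab
  exact hK.subset hab

theorem PV.right {A K : List (ℕ × ℕ × ℕ)} (h : PV (A ++ K)) : PV K :=
  h.sublist (List.sublist_append_right A K)

/-- Insertion of a vertex. -/
theorem PV.star {K : List (ℕ × ℕ × ℕ)} {v : ℕ} {ins outs : List (ℕ × ℕ)} (hK : PV K)
    (hvo : ∀ z k, (v, z, k) ∉ K) (hvi : ∀ z k, (z, v, k) ∉ K)
    (hin : (ins.map Prod.snd).Nodup) (hout : (outs.map Prod.snd).Nodup)
    (h1 : ∀ p ∈ ins, p.1 ≠ v ∧ p.2 < 3 ∧ ∀ z, (p.1, z, p.2) ∉ K)
    (h2 : ∀ p ∈ outs, p.1 ≠ v ∧ p.2 < 3 ∧ ∀ z, (z, p.1, p.2) ∉ K)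
    (h3 : ∀ p ∈ ins, ∀ q ∈ outs, p.2 = q.2 → ¬ ReflTransGen (crel K p.2) q.1 p.1) :
    PV (K ++ (ins.map (fun p => (p.1, v, p.2)) ++ outs.map (fun p => (v, p.1, p.2)))) := by
  refine ⟨?_, ?_, ?_, ?_⟩
  · intro e he
    simp only [List.mem_append, List.mem_map] at he
    rcases he with he | ⟨p, hp, rfl⟩ | ⟨p, hp, rfl⟩
    · exact hK.lt e he
    · exact (h1 p hp).2.1
    · exact (h2 p hp).2.1
  · simp only [List.map_append, List.map_map, Function.comp_def]
    rw [List.nodup_append, List.nodup_append]
    refine ⟨hK.out, ⟨?_, ?_, ?_⟩, ?_⟩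
    · have : (ins.map (fun p => (p.1, p.2))) = ins := by simp
      rw [this]
      exact List.Nodup.of_map _ hin
    · have : outs.map (fun x => (v, x.2)) = (outs.map Prod.snd).map (fun k => (v, k)) := by
        simp [List.map_map, Function.comp_def]
      rw [this]
      exact hout.map (fun a b hab => (Prod.mk.inj hab).2)
    · intro a ha b hb hab
      subst hab
      simp only [List.mem_map] at ha hb
      obtain ⟨p, hp, rfl⟩ := ha
      obtain ⟨q, hq, hpq⟩ := hb
      exact (h1 p hp).1 (Prod.mk.inj hpq).1.symm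
    · intro a ha b hb hab
      subst hab
      simp only [List.mem_append, List.mem_map] at ha hb
      obtain ⟨⟨x, y, k⟩, he, rfl⟩ := ha
      rcases hb with ⟨p, hp, hpe⟩ | ⟨p, hp, hpe⟩
      · simp only [Prod.mk.injEq] at hpe
        obtain ⟨rfl, rfl⟩ := hpe
        exact (h1 p hp).2.2 y he
      · simp only [Prod.mk.injEq] at hpe
        obtain ⟨rfl, rfl⟩ := hpe
        exact hvo _ _ he
  · simp only [List.map_append, List.map_map, Function.comp_def]
    rw [List.nodup_append, List.nodup_append]
    refine ⟨hK.inn, ⟨?_, ?_, ?_⟩, ?_⟩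
    · have : ins.map (fun x => (v, x.2)) = (ins.map Prod.snd).map (fun k => (v, k)) := by
        simp [List.map_map, Function.comp_def]
      rw [this]
      exact hin.map (fun a b hab => (Prod.mk.inj hab).2)
    · have : (outs.map (fun p => (p.1, p.2))) = outs := by simp
      rw [this]
      exact List.Nodup.of_map _ hout
    · intro a ha b hb hab
      subst hab
      simp only [List.mem_map] at ha hb
      obtain ⟨p, hp, rfl⟩ := ha
      obtain ⟨q, hq, hpq⟩ := hb
      exact (h2 q hq).1 (Prod.mk.inj hpq).1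
    · intro a ha b hb hab
      subst hab
      simp only [List.mem_append, List.mem_map] at ha hb
      obtain ⟨⟨x, y, k⟩, he, rfl⟩ := ha
      rcases hb with ⟨p, hp, hpe⟩ | ⟨p, hp, hpe⟩
      · simp only [Prod.mk.injEq] at hpe
        obtain ⟨rfl, rfl⟩ := hpe
        exact hvi _ _ he
      · simp only [Prod.mk.injEq] at hpe
        obtain ⟨rfl, rfl⟩ := hpe
        exact (h2 p hp).2.2 x he
  · intro κ z
    refine acyc_mono (r := fun a b => crel K κ a b ∨ ((a, κ) ∈ ins ∧ b = v) ∨
      (a = v ∧ (b, κ) ∈ outs)) ?_ (acyc_star (fun z => hvo z κ) (fun z => hvi z κ) ?_ ?_ ?_ ?_ ?_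
        (hK.acy κ)) z
    · intro a b hab
      simp only [crel, List.mem_append, List.mem_map, Prod.mk.injEq] at hab
      rcases hab with h | ⟨⟨x, k⟩, h, rfl, rfl, rfl⟩ | ⟨⟨x, k⟩, h, rfl, rfl, rfl⟩
      · exact Or.inl h
      · exact Or.inr (Or.inl ⟨h, rfl⟩)
      · exact Or.inr (Or.inr ⟨rfl, h⟩)
    · intro a b ha hb
      exact (Prod.mk.inj (List.inj_on_of_nodup_map hin ha hb rfl)).1
    · intro a b ha hb
      exact (Prod.mk.inj (List.inj_on_of_nodup_map hout ha hb rfl)).1
    · intro a ha
      exact (h1 _ ha).1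
    · intro a ha
      exact (h2 _ ha).1
    · intro a b ha hb
      exact h3 _ ha _ hb rfl

end Vale.Agent.P333.U.CE
end
end

section

section

/-!
P333, upper bound: re-insertion of vertices in path colourings.
-/

namespace Vale.Agent.P333.U.CE

open Vale.Agent.Lib.PolyTime Relation

/-! ### Lists -/

theorem mem_vecs {n : ℕ} {cs : List ℕ} (h1 : cs.length = n) (h2 : ∀ x ∈ cs, x < 3) :
    cs ∈ vecs n := by
  induction n generalizing cs with
  | zero =>
    rw [List.length_eq_zero_iff] at h1
    simp [vecs, h1]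
  | succ n ih =>
    rcases cs with _ | ⟨c, cs⟩
    · simp at h1
    · have hc : c < 3 := h2 c (by simp)
      have := ih (by simpa using h1) (fun x hx => h2 x (by simp [hx]))
      simp only [vecs, List.mem_flatMap]
      refine ⟨cs, this, ?_⟩
      interval_cases c <;> simp

theorem paint_cons (i : ℕ × ℕ) (I : List (ℕ × ℕ)) (c : ℕ) (cs : List ℕ) :
    paint (i :: I) (c :: cs) = (i.1, i.2, c) :: paint I cs := rfl

theorem paint_exists {I : List (ℕ × ℕ)} {C : List (ℕ × ℕ × ℕ)} {n : ℕ}
    (h : (C.map unc).Perm I) (hI : I.length ≤ n) (hlt : ∀ e ∈ C, e.2.2 < 3) :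
    ∃ cs ∈ vecs n, (paint I cs).Perm C := by
  induction I generalizing C n with
  | nil =>
    have hC : C = [] := by simpa using h
    refine ⟨List.replicate n 0, mem_vecs (by simp) (by intro x hx; simp at hx; omega), ?_⟩
    simp [paint, hC]
  | cons i I ih =>
    rcases n with _ | n
    · simp at hI
    · have hi : i ∈ C.map unc := h.mem_iff.2 (by simp)
      obtain ⟨c, hc, rfl⟩ := List.mem_map.1 hi
      have hC : C.Perm (c :: C.erase c) := List.perm_cons_erase hc
      have h' : ((C.erase c).map unc).Perm I := by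
        have := (hC.map unc).symm.trans h
        simpa using this
      obtain ⟨cs, hcs, hp⟩ := ih (n := n) h' (by simpa only [List.length_cons, add_le_add_iff_right] using hI)
        (fun e he => hlt e (List.mem_of_mem_erase he))
      refine ⟨c.2.2 :: cs, ?_, ?_⟩
      · simp only [vecs, List.mem_flatMap]
        refine ⟨cs, hcs, ?_⟩
        have := hlt c hc
        generalize c.2.2 = k at this ⊢
        interval_cases k <;> simp
      · rw [paint_cons]
        exact (List.Perm.cons _ hp).trans hC.symm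

theorem eraseQ_exists {Q R : List (ℕ × ℕ)} {K : List (ℕ × ℕ × ℕ)}
    (h : (K.map unc).Perm (R ++ Q)) : ∃ A, A.map unc = Q ∧ K.Perm (A ++ eraseQ K Q) := by
  induction Q generalizing K with
  | nil => exact ⟨[], rfl, by simp [eraseQ]⟩
  | cons q Q ih =>
    have hq : q ∈ K.map unc := h.mem_iff.2 (by simp)
    obtain ⟨e, he, heq⟩ := List.mem_map.1 hq
    have hp : (fun e : ℕ × ℕ × ℕ => decide (e.1 = q.1) && decide (e.2.1 = q.2)) e = true := by
      subst heq
      simp [unc]
    obtain ⟨e', l1, l2, -, he', hK, hK'⟩ := List.exists_of_eraseP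
      (p := fun e : ℕ × ℕ × ℕ => decide (e.1 = q.1) && decide (e.2.1 = q.2)) he hp
    have heq' : unc e' = q := by
      simp only [Bool.and_eq_true, decide_eq_true_eq] at he'
      exact Prod.ext he'.1 he'.2
    have hperm : K.Perm (e' :: K.eraseP
        (fun e : ℕ × ℕ × ℕ => decide (e.1 = q.1) && decide (e.2.1 = q.2))) := by
      rw [hK', hK]
      exact List.perm_middle
    have h2 : ((K.eraseP (fun e : ℕ × ℕ × ℕ => decide (e.1 = q.1) && decide (e.2.1 = q.2))).map
        unc).Perm (R ++ Q) := by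
      have h3 := (hperm.map unc).symm.trans h
      rw [List.map_cons, heq'] at h3
      exact (List.perm_cons q).1 (h3.trans List.perm_middle)
    obtain ⟨A, hA, hA'⟩ := ih h2
    refine ⟨e' :: A, by simp [hA, heq'], ?_⟩
    exact hperm.trans (List.Perm.cons _ hA')

/-- Final step of all extensions. -/
theorem ext_finish {E Q R : List (ℕ × ℕ)} {U : List ℕ} {K : List (ℕ × ℕ × ℕ)}
    (hperm : (incE U E ++ R).Perm E) (hlen : (incE U E).length ≤ 8)
    (hK : ((eraseQ K Q).map unc).Perm R)
    (h : ∃ C, (C.map unc).Perm (incE U E) ∧ PV (eraseQ K Q ++ C) ∧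
      ∀ e ∈ eraseQ K Q ++ C, ∀ f ∈ eraseQ K Q ++ C, e.2.1 = f.1 → outN E f.1 = 1 →
        e.2.2 ≠ f.2.2) : ∃ cs ∈ vecs 8, Col E (eraseQ K Q ++ paint (incE U E) cs) := by
  obtain ⟨C, hC, hPV, hfl⟩ := h
  obtain ⟨cs, hcs, hp⟩ := paint_exists hC hlen
    (fun e he => hPV.lt e (List.mem_append_right _ he))
  refine ⟨cs, hcs, ?_⟩
  have hp2 : (eraseQ K Q ++ paint (incE U E) cs).Perm (eraseQ K Q ++ C) :=
    List.Perm.append_left _ hp
  rw [col_iff]
  refine ⟨?_, hPV.perm hp2.symm, ?_⟩
  · refine (hp2.map unc).trans ?_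
    rw [List.map_append]
    exact (hK.append hC).trans ((List.perm_append_comm).trans hperm)
  · intro e he f hf
    exact hfl e (hp2.mem_iff.1 he) f (hp2.mem_iff.1 hf)

/-! ### Free colours -/

theorem exists_free {l : List ℕ} (h : l.length ≤ 2) : ∃ α < 3, α ∉ l := by
  by_contra! hc
  have h1 : [0, 1, 2] ⊆ l := by
    intro x hx
    apply hc
    simp at hx
    omega
  have h2 := (List.subperm_of_subset (by decide : [0, 1, 2].Nodup) h1).length_le
  simp at h2
  omega

theorem outN_perm {E E' : List (ℕ × ℕ)} (h : E.Perm E') (v : ℕ) : outN E v = outN E' v :=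
  h.countP_eq _

theorem inN_perm {E E' : List (ℕ × ℕ)} (h : E.Perm E') (v : ℕ) : inN E v = inN E' v :=
  h.countP_eq _

theorem outN_unc (K : List (ℕ × ℕ × ℕ)) (a : ℕ) :
    outN (K.map unc) a = ((K.filter (fun e => e.1 == a)).map (fun e => e.2.2)).length := by
  rw [List.length_map, ← List.countP_eq_length_filter, outN, List.countP_map]
  rfl

theorem inN_unc (K : List (ℕ × ℕ × ℕ)) (a : ℕ) :
    inN (K.map unc) a = ((K.filter (fun e => e.2.1 == a)).map (fun e => e.2.2)).length := by
  rw [List.length_map, ← List.countP_eq_length_filter, inN, List.countP_map]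
  rfl

theorem free_out {E : List (ℕ × ℕ)} {K : List (ℕ × ℕ × ℕ)} (hp : (K.map unc).Perm E) (a : ℕ)
    (h2 : outN E a ≤ 2) (hb : outN E a = inN E a) :
    ∃ α < 3, (∀ z, (a, z, α) ∉ K) ∧ (outN E a = 1 → ∀ z, (z, a, α) ∉ K) := by
  have e1 := outN_unc K a
  have e2 := inN_unc K a
  rw [outN_perm hp] at e1
  rw [inN_perm hp] at e2
  by_cases h1 : outN E a = 1
  · obtain ⟨α, hα, hα'⟩ := exists_free (l := ((K.filter (fun e => e.1 == a)).map (fun e => e.2.2))
      ++ ((K.filter (fun e => e.2.1 == a)).map (fun e => e.2.2))) (by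
        rw [List.length_append]; omega)
    refine ⟨α, hα, fun z hz => hα' ?_, fun _ z hz => hα' ?_⟩
    · refine List.mem_append_left _ (List.mem_map.2 ⟨_, List.mem_filter.2 ⟨hz, ?_⟩, rfl⟩)
      simp
    · refine List.mem_append_right _ (List.mem_map.2 ⟨_, List.mem_filter.2 ⟨hz, ?_⟩, rfl⟩)
      simp
  · obtain ⟨α, hα, hα'⟩ := exists_free (l := ((K.filter (fun e => e.1 == a)).map
      (fun e => e.2.2))) (by omega)
    refine ⟨α, hα, fun z hz => hα' ?_, fun h => absurd h h1⟩
    refine List.mem_map.2 ⟨_, List.mem_filter.2 ⟨hz, ?_⟩, rfl⟩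
    simp

theorem free_in {E : List (ℕ × ℕ)} {K : List (ℕ × ℕ × ℕ)} (hp : (K.map unc).Perm E) (a : ℕ)
    (h2 : outN E a ≤ 2) (hb : outN E a = inN E a) :
    ∃ α < 3, (∀ z, (z, a, α) ∉ K) ∧ (outN E a = 1 → ∀ z, (a, z, α) ∉ K) := by
  have e1 := outN_unc K a
  have e2 := inN_unc K a
  rw [outN_perm hp] at e1
  rw [inN_perm hp] at e2
  by_cases h1 : outN E a = 1
  · obtain ⟨α, hα, hα'⟩ := exists_free (l := ((K.filter (fun e => e.1 == a)).map (fun e => e.2.2))
      ++ ((K.filter (fun e => e.2.1 == a)).map (fun e => e.2.2))) (by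
        rw [List.length_append]; omega)
    refine ⟨α, hα, fun z hz => hα' ?_, fun _ z hz => hα' ?_⟩
    · refine List.mem_append_right _ (List.mem_map.2 ⟨_, List.mem_filter.2 ⟨hz, ?_⟩, rfl⟩)
      simp
    · refine List.mem_append_left _ (List.mem_map.2 ⟨_, List.mem_filter.2 ⟨hz, ?_⟩, rfl⟩)
      simp
  · obtain ⟨α, hα, hα'⟩ := exists_free (l := ((K.filter (fun e => e.2.1 == a)).map
      (fun e => e.2.2))) (by omega)
    refine ⟨α, hα, fun z hz => hα' ?_, fun h => absurd h h1⟩
    refine List.mem_map.2 ⟨_, List.mem_filter.2 ⟨hz, ?_⟩, rfl⟩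
    simp

/-! ### The condition at vertices of degree one -/

/-- At the vertices of `D` no colour is both incoming and outgoing. -/
def Fl (D : ℕ → Prop) (K : List (ℕ × ℕ × ℕ)) : Prop :=
  ∀ x y z k, D y → (x, y, k) ∈ K → (y, z, k) ∈ K → False

theorem fl_iff (D : ℕ → Prop) (K : List (ℕ × ℕ × ℕ)) :
    Fl D K ↔ ∀ e ∈ K, ∀ f ∈ K, e.2.1 = f.1 → D f.1 → e.2.2 ≠ f.2.2 := by
  constructor
  · rintro h ⟨x, y, k⟩ he ⟨y', z, k'⟩ hf h1 h2 h3
    simp only at h1 h2 h3
    subst h1 h3
    exact h _ _ _ _ h2 he hf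
  · intro h x y z k hy h1 h2
    exact h _ h1 _ h2 rfl hy rfl

/-- The vertex `v` does not occur in `K`. -/
def Iso (v : ℕ) (K : List (ℕ × ℕ × ℕ)) : Prop :=
  (∀ z k, (v, z, k) ∉ K) ∧ ∀ z k, (z, v, k) ∉ K

/-! ### Vertices of degree two -/

theorem r3_ins {K : List (ℕ × ℕ × ℕ)} {D : ℕ → Prop} {v a b c d p q s t : ℕ} (hK : PV K)
    (hv : Iso v K) (hav : a ≠ v) (hbv : b ≠ v) (hcv : c ≠ v) (hdv : d ≠ v)
    (hp : p < 3) (hq : q < 3) (hs : s < 3) (ht : t < 3) (hpq : p ≠ q) (hst : s ≠ t)
    (ha : ∀ z, (a, z, p) ∉ K) (hb : ∀ z, (b, z, q) ∉ K) (hc : ∀ z, (z, c, s) ∉ K)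
    (hd : ∀ z, (z, d, t) ∉ K)
    (hps : p = s → ¬ ReflTransGen (crel K p) c a) (hpt : p = t → ¬ ReflTransGen (crel K p) d a)
    (hqs : q = s → ¬ ReflTransGen (crel K q) c b) (hqt : q = t → ¬ ReflTransGen (crel K q) d b)
    (hfl : Fl D K) (fa : D a → ∀ z, (z, a, p) ∉ K) (fb : D b → ∀ z, (z, b, q) ∉ K)
    (fc : D c → ∀ z, (c, z, s) ∉ K) (fd : D d → ∀ z, (d, z, t) ∉ K)
    (fac : a = c → D a → p ≠ s) (fad : a = d → D a → p ≠ t) (fbc : b = c → D b → q ≠ s)
    (fbd : b = d → D b → q ≠ t) :
    ∃ C, C.map unc = [(a, v), (b, v), (v, c), (v, d)] ∧ PV (K ++ C) ∧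
      Fl (fun y => D y ∧ y ≠ v) (K ++ C) := by
  refine ⟨[(a, v, p), (b, v, q), (v, c, s), (v, d, t)], rfl, ?_, ?_⟩
  · have := PV.star (K := K) (v := v) (ins := [(a, p), (b, q)]) (outs := [(c, s), (d, t)]) hK
      hv.1 hv.2 (by simp [hpq]) (by simp [hst]) ?_ ?_ ?_
    · simpa using this
    · simp only [List.mem_cons, List.not_mem_nil, or_false, forall_eq_or_imp, forall_eq]
      exact ⟨⟨hav, hp, ha⟩, hbv, hq, hb⟩
    · simp only [List.mem_cons, List.not_mem_nil, or_false, forall_eq_or_imp, forall_eq]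
      exact ⟨⟨hcv, hs, hc⟩, hdv, ht, hd⟩
    · simp only [List.mem_cons, List.not_mem_nil, or_false, forall_eq_or_imp, forall_eq]
      exact ⟨⟨hps, hpt⟩, hqs, hqt⟩
  · rintro x y z k ⟨hDy, hyv⟩ h1 h2
    simp only [List.mem_append, List.mem_cons, Prod.mk.injEq, List.not_mem_nil, or_false] at h1 h2
    rcases h1 with h1 | ⟨-, h1, -⟩ | ⟨-, h1, -⟩ | ⟨-, rfl, rfl⟩ | ⟨-, rfl, rfl⟩
    · rcases h2 with h2 | ⟨rfl, -, rfl⟩ | ⟨rfl, -, rfl⟩ | ⟨h2, -, -⟩ | ⟨h2, -, -⟩
      · exact hfl _ _ _ _ hDy h1 h2
      · exact fa hDy _ h1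
      · exact fb hDy _ h1
      · exact hyv h2
      · exact hyv h2
    · exact hyv h1
    · exact hyv h1
    · rcases h2 with h2 | ⟨h2, -, h3⟩ | ⟨h2, -, h3⟩ | ⟨h2, -, -⟩ | ⟨h2, -, -⟩
      · exact fc hDy _ h2
      · exact fac h2.symm (h2 ▸ hDy) h3.symm
      · exact fbc h2.symm (h2 ▸ hDy) h3.symm
      · exact hyv h2
      · exact hyv h2
    · rcases h2 with h2 | ⟨h2, -, h3⟩ | ⟨h2, -, h3⟩ | ⟨h2, -, -⟩ | ⟨h2, -, -⟩
      · exact fd hDy _ h2
      · exact fad h2.symm (h2 ▸ hDy) h3.symm
      · exact fbd h2.symm (h2 ▸ hDy) h3.symm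
      · exact hyv h2
      · exact hyv h2

end Vale.Agent.P333.U.CE
end
end

section

section

/-!
P333, upper bound: colourings extend along the moves.
-/

namespace Vale.Agent.P333.U.CE

open Vale.Agent.Lib.PolyTime Relation

theorem PV.cons_out {K : List (ℕ × ℕ × ℕ)} {a c κ : ℕ} (h : PV ((a, c, κ) :: K)) (z : ℕ) :
    (a, z, κ) ∉ K := by
  have := h.out
  rw [List.map_cons, List.nodup_cons] at this
  intro hz
  exact this.1 (List.mem_map.2 ⟨_, hz, rfl⟩)

theorem PV.cons_in {K : List (ℕ × ℕ × ℕ)} {a c κ : ℕ} (h : PV ((a, c, κ) :: K)) (z : ℕ) :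
    (z, c, κ) ∉ K := by
  have := h.inn
  rw [List.map_cons, List.nodup_cons] at this
  intro hz
  exact this.1 (List.mem_map.2 ⟨_, hz, rfl⟩)

theorem PV.no_back {K : List (ℕ × ℕ × ℕ)} {a c κ : ℕ} (h : PV K) (hac : (a, c, κ) ∈ K) :
    ¬ ReflTransGen (crel K κ) c a := by
  intro h'
  exact h.acy κ a (TransGen.head' hac h')

theorem crel_mono {K K' : List (ℕ × ℕ × ℕ)} (h : ∀ e ∈ K, e ∈ K') {κ a b : ℕ}
    (hr : ReflTransGen (crel K κ) a b) : ReflTransGen (crel K' κ) a b :=
  ReflTransGen.mono (fun _ _ hab => h _ hab) _ _ hr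

/-- Vertices of degree two. -/
theorem r3_core {E : List (ℕ × ℕ)} {K : List (ℕ × ℕ × ℕ)} {v a b c d κ1 κ2 : ℕ}
    (hp : (((a, c, κ1) :: (b, d, κ2) :: K).map unc).Perm E)
    (hbal : ∀ y, outN E y = inN E y) (hdeg : ∀ y, outN E y ≤ 2)
    (hK : PV ((a, c, κ1) :: (b, d, κ2) :: K))
    (hfl : Fl (fun y => outN E y = 1) ((a, c, κ1) :: (b, d, κ2) :: K))
    (hv : Iso v K) (hav : a ≠ v) (hbv : b ≠ v) (hcv : c ≠ v) (hdv : d ≠ v)
    (hac : a ≠ c) (hbd : b ≠ d) :
    ∃ C, C.map unc = [(a, v), (b, v), (v, c), (v, d)] ∧ PV (K ++ C) ∧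
      Fl (fun y => outN E y = 1 ∧ y ≠ v) (K ++ C) := by
  have hK0 : PV K := PV.right (A := [(a, c, κ1), (b, d, κ2)]) hK
  have hfl0 : Fl (fun y => outN E y = 1) K := fun x y z k hD h1 h2 =>
    hfl x y z k hD (by simp [h1]) (by simp [h2])
  have hk1 : κ1 < 3 := hK.lt (a, c, κ1) (by simp)
  have hk2 : κ2 < 3 := hK.lt (b, d, κ2) (by simp)
  have ha : ∀ z, (a, z, κ1) ∉ K := fun z hz => hK.cons_out z (by simp [hz])
  have hc : ∀ z, (z, c, κ1) ∉ K := fun z hz => hK.cons_in z (by simp [hz])
  have hK2 : PV ((b, d, κ2) :: K) := PV.right (A := [(a, c, κ1)]) hK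
  have hb : ∀ z, (b, z, κ2) ∉ K := fun z hz => hK2.cons_out z hz
  have hd : ∀ z, (z, d, κ2) ∉ K := fun z hz => hK2.cons_in z hz
  have hca : ¬ ReflTransGen (crel K κ1) c a := fun h =>
    hK.no_back (a := a) (c := c) (κ := κ1) (by simp) (crel_mono (by simp +contextual) h)
  have hdb : ¬ ReflTransGen (crel K κ2) d b := fun h =>
    hK.no_back (a := b) (c := d) (κ := κ2) (by simp) (crel_mono (by simp +contextual) h)
  have fa : outN E a = 1 → ∀ z, (z, a, κ1) ∉ K := fun h z hz =>
    hfl z a c κ1 h (by simp [hz]) (by simp)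
  have fb : outN E b = 1 → ∀ z, (z, b, κ2) ∉ K := fun h z hz =>
    hfl z b d κ2 h (by simp [hz]) (by simp)
  have fc : outN E c = 1 → ∀ z, (c, z, κ1) ∉ K := fun h z hz =>
    hfl a c z κ1 h (by simp) (by simp [hz])
  have fd : outN E d = 1 → ∀ z, (d, z, κ2) ∉ K := fun h z hz =>
    hfl b d z κ2 h (by simp) (by simp [hz])
  by_cases hκ : κ1 = κ2
  · subst hκ
    have hab : a ≠ b := by
      rintro rfl
      have h1 : c = d := hK.out_unique (x := a) (κ := κ1) (by simp) (by simp)
      subst h1
      exact hK.cons_out c (by simp)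
    have hcd : c ≠ d := by
      rintro rfl
      have h1 : a = b := hK.in_unique (y := c) (κ := κ1) (by simp) (by simp)
      exact hab h1
    have fad' : a = d → outN E a = 1 → False := by
      rintro rfl h
      exact hfl b a c κ1 h (by simp) (by simp)
    have fbc' : b = c → outN E b = 1 → False := by
      rintro rfl h
      exact hfl a b d κ1 h (by simp) (by simp)
    obtain ⟨α, hα, hα1, hα2⟩ := free_out hp a (hdeg a) (hbal a)
    obtain ⟨β, hβ, hβ1, hβ2⟩ := free_out hp b (hdeg b) (hbal b)
    obtain ⟨γ, hγ, hγ1, hγ2⟩ := free_in hp d (hdeg d) (hbal d)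
    obtain ⟨δ, hδ, hδ1, hδ2⟩ := free_in hp c (hdeg c) (hbal c)
    have hακ : α ≠ κ1 := by rintro rfl; exact hα1 c (by simp)
    have hβκ : β ≠ κ1 := by rintro rfl; exact hβ1 d (by simp)
    have hγκ : γ ≠ κ1 := by rintro rfl; exact hγ1 b (by simp)
    have hδκ : δ ≠ κ1 := by rintro rfl; exact hδ1 a (by simp)
    have ha' : ∀ z, (a, z, α) ∉ K := fun z hz => hα1 z (by simp [hz])
    have hb' : ∀ z, (b, z, β) ∉ K := fun z hz => hβ1 z (by simp [hz])
    have hd' : ∀ z, (z, d, γ) ∉ K := fun z hz => hγ1 z (by simp [hz])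
    have hc' : ∀ z, (z, c, δ) ∉ K := fun z hz => hδ1 z (by simp [hz])
    have fa' : outN E a = 1 → ∀ z, (z, a, α) ∉ K := fun h z hz => hα2 h z (by simp [hz])
    have fb' : outN E b = 1 → ∀ z, (z, b, β) ∉ K := fun h z hz => hβ2 h z (by simp [hz])
    have fd' : outN E d = 1 → ∀ z, (d, z, γ) ∉ K := fun h z hz => hγ2 h z (by simp [hz])
    have fc' : outN E c = 1 → ∀ z, (c, z, δ) ∉ K := fun h z hz => hδ2 h z (by simp [hz])
    by_cases o1 : β = γ ∧ ReflTransGen (crel K β) d b
    swap
    · exact r3_ins hK0 hv hav hbv hcv hdv hk1 hβ hk1 hγ hβκ.symm hγκ.symm ha hb' hc hd'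
        (fun _ => hca) (fun h => absurd h hγκ.symm) (fun h => absurd h hβκ)
        (fun h h' => o1 ⟨h, h'⟩) hfl0 fa fb' fc fd' (fun h => absurd h hac)
        (fun _ _ => hγκ.symm) (fun _ _ => hβκ) (fun h => absurd h hbd)
    by_cases o2 : α = δ ∧ ReflTransGen (crel K α) c a
    swap
    · exact r3_ins hK0 hv hav hbv hcv hdv hα hk1 hδ hk1 hακ hδκ ha' hb hc' hd
        (fun h h' => o2 ⟨h, h'⟩) (fun h => absurd h hακ) (fun h => absurd h hδκ.symm)
        (fun _ => hdb) hfl0 fa' fb fc' fd (fun h => absurd h hac)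
        (fun _ _ => hακ) (fun _ _ => hδκ.symm) (fun h => absurd h hbd)
    by_cases o3 : ReflTransGen (crel K κ1) d a ∨ (β = δ ∧ ReflTransGen (crel K β) c b)
    swap
    · push Not at o3
      exact r3_ins hK0 hv hav hbv hcv hdv hk1 hβ hδ hk1 hβκ.symm hδκ ha hb' hc' hd
        (fun h => absurd h hδκ.symm) (fun _ => o3.1) (fun h => o3.2 h)
        (fun h => absurd h hβκ) hfl0 fa fb' fc' fd (fun h => absurd h hac)
        (fun h h' => (fad' h h').elim) (fun h h' => (fbc' h h').elim) (fun h => absurd h hbd)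
    by_cases o4 : ReflTransGen (crel K κ1) c b ∨ (α = γ ∧ ReflTransGen (crel K α) d a)
    swap
    · push Not at o4
      exact r3_ins hK0 hv hav hbv hcv hdv hα hk1 hk1 hγ hακ hγκ.symm ha' hb hc hd'
        (fun h => absurd h hακ) (fun h => o4.2 h) (fun _ => o4.1)
        (fun h => absurd h hγκ.symm) hfl0 fa' fb fc fd' (fun h => absurd h hac)
        (fun h h' => (fad' h h').elim) (fun h h' => (fbc' h h').elim) (fun h => absurd h hbd)
    exfalso
    have hou : ∀ κ x y y', crel K κ x y → crel K κ x y' → y = y' := fun κ x y y' h h' =>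
      hK0.out_unique h h'
    rcases o3 with o3 | ⟨h3, o3⟩
    · rcases o4 with o4 | ⟨h4, o4⟩
      · -- a → c ⇝ b → d ⇝ a
        have e1 : ReflTransGen (crel ((a, c, κ1) :: (b, d, κ1) :: K) κ1) c b :=
          crel_mono (by simp +contextual) o4
        have e2 : ReflTransGen (crel ((a, c, κ1) :: (b, d, κ1) :: K) κ1) d a :=
          crel_mono (by simp +contextual) o3
        refine hK.acy κ1 a ?_
        have s1 : crel ((a, c, κ1) :: (b, d, κ1) :: K) κ1 a c := by simp [crel]
        have s2 : crel ((a, c, κ1) :: (b, d, κ1) :: K) κ1 b d := by simp [crel]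
        exact TransGen.head' s1 ((e1.tail s2).trans e2)
      · obtain ⟨h1, o1⟩ := o1
        have h5 : β = α := h1.trans h4.symm
        rw [h5] at o1 hb'
        exact hab (end_unique (hou α) o4 o1 ha' hb')
    · obtain ⟨h2, o2⟩ := o2
      have h5 : β = α := h3.trans h2.symm
      rw [h5] at o3 hb'
      exact hab (end_unique (hou α) o2 o3 ha' hb')
  · exact r3_ins hK0 hv hav hbv hcv hdv hk1 hk2 hk1 hk2 hκ hκ ha hb hc hd
      (fun _ => hca) (fun h => absurd h hκ) (fun h => absurd h (Ne.symm hκ))
      (fun _ => hdb) hfl0 fa fb fc fd (fun h => absurd h hac)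
      (fun _ _ => hκ) (fun _ _ => Ne.symm hκ) (fun h => absurd h hbd)

/-- Vertices of degree one, two neighbours. -/
theorem r1_core {E : List (ℕ × ℕ)} {K : List (ℕ × ℕ × ℕ)} {v a c κ : ℕ}
    (hp : (((a, c, κ) :: K).map unc).Perm E)
    (hbal : ∀ y, outN E y = inN E y) (hdeg : ∀ y, outN E y ≤ 2)
    (hK : PV ((a, c, κ) :: K))
    (hfl : Fl (fun y => outN E y = 1) ((a, c, κ) :: K))
    (hv : Iso v K) (hav : a ≠ v) (hcv : c ≠ v) (hac : a ≠ c) :
    ∃ C, C.map unc = [(a, v), (v, c)] ∧ PV (K ++ C) ∧
      Fl (fun y => outN E y = 1 ∨ y = v) (K ++ C) := by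
  have hK0 : PV K := PV.right (A := [(a, c, κ)]) hK
  have hfl0 : Fl (fun y => outN E y = 1) K := fun x y z k hD h1 h2 =>
    hfl x y z k hD (by simp [h1]) (by simp [h2])
  have hk1 : κ < 3 := hK.lt (a, c, κ) (by simp)
  have ha : ∀ z, (a, z, κ) ∉ K := fun z hz => hK.cons_out z hz
  have fa : outN E a = 1 → ∀ z, (z, a, κ) ∉ K := fun h z hz =>
    hfl z a c κ h (by simp [hz]) (by simp)
  obtain ⟨δ, hδ, hδ1, hδ2⟩ := free_in hp c (hdeg c) (hbal c)
  have hδκ : δ ≠ κ := by rintro rfl; exact hδ1 a (by simp)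
  have hc' : ∀ z, (z, c, δ) ∉ K := fun z hz => hδ1 z (by simp [hz])
  have fc' : outN E c = 1 → ∀ z, (c, z, δ) ∉ K := fun h z hz => hδ2 h z (by simp [hz])
  refine ⟨[(a, v, κ), (v, c, δ)], rfl, ?_, ?_⟩
  · have := PV.star (K := K) (v := v) (ins := [(a, κ)]) (outs := [(c, δ)]) hK0
      hv.1 hv.2 (by simp) (by simp) ?_ ?_ ?_
    · simpa using this
    · simp only [List.mem_cons, List.not_mem_nil, or_false, forall_eq]
      exact ⟨hav, hk1, ha⟩
    · simp only [List.mem_cons, List.not_mem_nil, or_false, forall_eq]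
      exact ⟨hcv, hδ, hc'⟩
    · simp only [List.mem_cons, List.not_mem_nil, or_false, forall_eq]
      exact fun h => absurd h.symm hδκ
  · intro x y z k hD h1 h2
    simp only [List.mem_append, List.mem_cons, Prod.mk.injEq, List.not_mem_nil, or_false] at h1 h2
    rcases h1 with h1 | ⟨rfl, rfl, rfl⟩ | ⟨rfl, rfl, rfl⟩
    · rcases h2 with h2 | ⟨rfl, rfl, rfl⟩ | ⟨rfl, rfl, rfl⟩
      · rcases hD with hD | rfl
        · exact hfl0 _ _ _ _ hD h1 h2
        · exact hv.1 _ _ h2
      · rcases hD with hD | hD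
        · exact fa hD _ h1
        · exact hav hD
      · exact hv.2 _ _ h1
    · rcases h2 with h2 | ⟨h, -⟩ | ⟨-, -, h⟩
      · exact hv.1 _ _ h2
      · exact hav h.symm
      · exact hδκ h.symm
    · rcases h2 with h2 | ⟨h, -⟩ | ⟨h, -⟩
      · rcases hD with hD | hD
        · exact fc' hD _ h2
        · exact hcv hD
      · exact hac h.symm
      · exact hcv h

/-- Vertices of degree one, one neighbour. -/
theorem r1'_core {E : List (ℕ × ℕ)} {K : List (ℕ × ℕ × ℕ)} {v a : ℕ}
    (hp : (K.map unc).Perm E)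
    (hbal : ∀ y, outN E y = inN E y) (hdega : outN E a ≤ 1)
    (hK : PV K) (hfl : Fl (fun y => outN E y = 1) K)
    (hv : Iso v K) (hav : a ≠ v) :
    ∃ C, C.map unc = [(a, v), (v, a)] ∧ PV (K ++ C) ∧
      Fl (fun y => (outN E y = 1 ∧ y ≠ a) ∨ y = v ∨ (y = a ∧ outN E a = 0)) (K ++ C) := by
  have e1 := outN_unc K a
  have e2 := inN_unc K a
  rw [outN_perm hp] at e1
  rw [inN_perm hp, ← hbal a] at e2
  obtain ⟨α, hα, hα1⟩ := exists_free (l := (K.filter (fun e => e.1 == a)).map
    (fun e => e.2.2)) (by omega)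
  obtain ⟨β, hβ, hβ1⟩ := exists_free (l := α :: (K.filter (fun e => e.2.1 == a)).map
    (fun e => e.2.2)) (by rw [List.length_cons]; omega)
  have ha : ∀ z, (a, z, α) ∉ K := fun z hz => hα1 (List.mem_map.2
    ⟨_, List.mem_filter.2 ⟨hz, by simp⟩, rfl⟩)
  have hb : ∀ z, (z, a, β) ∉ K := fun z hz => hβ1 (List.mem_cons_of_mem _ (List.mem_map.2
    ⟨_, List.mem_filter.2 ⟨hz, by simp⟩, rfl⟩))
  have hαβ : α ≠ β := fun h => hβ1 (by simp only [h, List.mem_cons, List.mem_map, List.mem_filter, beq_iff_eq, Prod.exists, exists_eq_right, true_or])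
  refine ⟨[(a, v, α), (v, a, β)], rfl, ?_, ?_⟩
  · have := PV.star (K := K) (v := v) (ins := [(a, α)]) (outs := [(a, β)]) hK
      hv.1 hv.2 (by simp) (by simp) ?_ ?_ ?_
    · simpa using this
    · simp only [List.mem_cons, List.not_mem_nil, or_false, forall_eq]
      exact ⟨hav, hα, ha⟩
    · simp only [List.mem_cons, List.not_mem_nil, or_false, forall_eq]
      exact ⟨hav, hβ, hb⟩
    · simp only [List.mem_cons, List.not_mem_nil, or_false, forall_eq]
      exact fun h => absurd h hαβ
  · intro x y z k hD h1 h2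
    have h0 : outN E a = 0 → (∀ z k, (a, z, k) ∉ K) ∧ ∀ z k, (z, a, k) ∉ K := by
      intro h0
      rw [h0] at e1 e2
      constructor
      · intro z k hz
        have : (a, z, k) ∈ K.filter (fun e => e.1 == a) := List.mem_filter.2 ⟨hz, by simp⟩
        have h3 := List.length_eq_zero_iff.1 e1.symm
        rw [List.map_eq_nil_iff] at h3
        rw [h3] at this
        simp at this
      · intro z k hz
        have : (z, a, k) ∈ K.filter (fun e => e.2.1 == a) := List.mem_filter.2 ⟨hz, by simp⟩
        have h3 := List.length_eq_zero_iff.1 e2.symm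
        rw [List.map_eq_nil_iff] at h3
        rw [h3] at this
        simp at this
    simp only [List.mem_append, List.mem_cons, Prod.mk.injEq, List.not_mem_nil, or_false] at h1 h2
    rcases h1 with h1 | ⟨rfl, rfl, rfl⟩ | ⟨rfl, rfl, rfl⟩
    · rcases h2 with h2 | ⟨rfl, rfl, rfl⟩ | ⟨rfl, rfl, rfl⟩
      · rcases hD with hD | rfl | ⟨rfl, hD⟩
        · exact hfl _ _ _ _ hD.1 h1 h2
        · exact hv.1 _ _ h2
        · exact (h0 hD).1 _ _ h2
      · rcases hD with hD | hD | ⟨-, hD⟩
        · exact hD.2 rfl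
        · exact hav hD
        · exact (h0 hD).2 _ _ h1
      · exact hv.2 _ _ h1
    · rcases h2 with h2 | ⟨h, -⟩ | ⟨-, -, h⟩
      · exact hv.1 _ _ h2
      · exact hav h.symm
      · exact hαβ h
    · rcases h2 with h2 | ⟨-, -, h⟩ | ⟨h, -⟩
      · rcases hD with hD | hD | ⟨-, hD⟩
        · exact hD.2 rfl
        · exact hav hD
        · exact (h0 hD).1 _ _ h2
      · exact hαβ h.symm
      · exact hav h

/-- The move `r2`. -/
theorem r2_core {D : ℕ → Prop} {K : List (ℕ × ℕ × ℕ)} {p q x y κ : ℕ}
    (hK : PV ((x, y, κ) :: K)) (hfl : Fl D ((x, y, κ) :: K))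
    (hp : Iso p K) (hq : Iso q K) (hxp : x ≠ p) (hxq : x ≠ q) (hyp : y ≠ p) (hyq : y ≠ q)
    (hpq : p ≠ q) (hxy : x ≠ y) :
    ∃ C, (C.map unc).Perm [(x, p), (p, q), (p, q), (q, p), (q, y)] ∧ PV (K ++ C) ∧
      Fl (fun u => D u ∧ u ≠ p ∧ u ≠ q) (K ++ C) := by
  have hK0 : PV K := PV.right (A := [(x, y, κ)]) hK
  have hfl0 : Fl D K := fun x y z k hD h1 h2 => hfl x y z k hD (by simp [h1]) (by simp [h2])
  have hk : κ < 3 := hK.lt (x, y, κ) (by simp)
  have hx : ∀ z, (x, z, κ) ∉ K := fun z hz => hK.cons_out z hz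
  have hy : ∀ z, (z, y, κ) ∉ K := fun z hz => hK.cons_in z hz
  have fx : D x → ∀ z, (z, x, κ) ∉ K := fun h z hz =>
    hfl z x y κ h (by simp [hz]) (by simp)
  have fy : D y → ∀ z, (y, z, κ) ∉ K := fun h z hz =>
    hfl x y z κ h (by simp) (by simp [hz])
  have hyx : ¬ ReflTransGen (crel K κ) y x := fun h =>
    hK.no_back (a := x) (c := y) (κ := κ) (by simp) (crel_mono (by simp +contextual) h)
  obtain ⟨κ', hκ'3, hκ'⟩ := exists_free (l := [κ]) (by simp)
  obtain ⟨κ'', hκ''3, hκ''⟩ := exists_free (l := [κ, κ']) (by simp)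
  simp only [List.mem_cons, List.not_mem_nil, or_false, not_or] at hκ' hκ''
  have hK1 : PV (K ++ [(q, y, κ)]) := by
    have := PV.star (K := K) (v := q) (ins := []) (outs := [(y, κ)]) hK0
      hq.1 hq.2 (by simp) (by simp) ?_ ?_ ?_
    · simpa using this
    · simp
    · simp only [List.mem_cons, List.not_mem_nil, or_false, forall_eq]
      exact ⟨hyq, hk, hy⟩
    · simp only [List.not_mem_nil, List.mem_cons, or_false, forall_eq, IsEmpty.forall_iff, implies_true]
  have hK2 : PV ((K ++ [(q, y, κ)]) ++ [(x, p, κ), (q, p, κ''), (p, q, κ), (p, q, κ')]) := by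
    have := PV.star (K := K ++ [(q, y, κ)]) (v := p) (ins := [(x, κ), (q, κ'')])
      (outs := [(q, κ), (q, κ')]) hK1 ?_ ?_ (by simpa using fun h => hκ''.1 h.symm)
      (by simpa using fun h => hκ' h.symm) ?_ ?_ ?_
    · simpa using this
    · intro z k hz
      simp only [List.mem_append, List.mem_cons, Prod.mk.injEq, List.not_mem_nil, or_false] at hz
      rcases hz with hz | ⟨h, -⟩
      · exact hp.1 _ _ hz
      · exact hpq h
    · intro z k hz
      simp only [List.mem_append, List.mem_cons, Prod.mk.injEq, List.not_mem_nil, or_false] at hz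
      rcases hz with hz | ⟨-, h, -⟩
      · exact hp.2 _ _ hz
      · exact hyp h.symm
    · simp only [List.mem_cons, List.not_mem_nil, or_false, forall_eq_or_imp, forall_eq]
      refine ⟨⟨hxp, hk, fun z hz => ?_⟩, hpq.symm, hκ''3, fun z hz => ?_⟩
      · simp only [List.mem_append, List.mem_cons, Prod.mk.injEq, List.not_mem_nil,
          or_false] at hz
        rcases hz with hz | ⟨h, -⟩
        · exact hx _ hz
        · exact hxq h
      · simp only [List.mem_append, List.mem_cons, Prod.mk.injEq, List.not_mem_nil,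
          or_false] at hz
        rcases hz with hz | ⟨-, -, h⟩
        · exact hq.1 _ _ hz
        · exact hκ''.1 h
    · simp only [List.mem_cons, List.not_mem_nil, or_false, forall_eq_or_imp, forall_eq]
      refine ⟨⟨hpq.symm, hk, fun z hz => ?_⟩, hpq.symm, hκ'3, fun z hz => ?_⟩
      · simp only [List.mem_append, List.mem_cons, Prod.mk.injEq, List.not_mem_nil,
          or_false] at hz
        rcases hz with hz | ⟨-, h, -⟩
        · exact hq.2 _ _ hz
        · exact hyq h.symm
      · simp only [List.mem_append, List.mem_cons, Prod.mk.injEq, List.not_mem_nil,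
          or_false] at hz
        rcases hz with hz | ⟨-, h, -⟩
        · exact hq.2 _ _ hz
        · exact hyq h.symm
    · simp only [List.mem_cons, List.not_mem_nil, or_false, forall_eq_or_imp, forall_eq]
      refine ⟨⟨fun _ h => ?_, fun h => absurd h.symm hκ'⟩, fun h => absurd h hκ''.1,
        fun h => absurd h hκ''.2⟩
      have h' : ReflTransGen (addR (crel K κ) q y) q x := by
        refine ReflTransGen.mono ?_ _ _ h
        intro a b hab
        simp only [crel, List.mem_append, List.mem_cons, Prod.mk.injEq, List.not_mem_nil,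
          or_false] at hab
        rcases hab with hab | ⟨rfl, rfl, -⟩
        · exact Or.inl hab
        · exact Or.inr ⟨rfl, rfl⟩
      rcases rtg_addR h' with h' | ⟨-, h'⟩
      · exact not_rtg_out (fun z => hq.1 z κ) hxq h'
      · exact hyx h'
  refine ⟨(q, y, κ) :: [(x, p, κ), (q, p, κ''), (p, q, κ), (p, q, κ')], ?_, ?_, ?_⟩
  · simp only [unc, List.map_cons, List.map_nil]
    rw [List.perm_iff_count]
    intro a
    simp only [List.count_cons, List.count_nil]
    ring
  · simpa using hK2
  · rintro u w z k ⟨hD, hwp, hwq⟩ h1 h2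
    simp only [List.mem_append, List.mem_cons, Prod.mk.injEq, List.not_mem_nil, or_false] at h1 h2
    have h1' : (u, w, k) ∈ K ∨ (w = y ∧ k = κ) := by
      rcases h1 with h1 | ⟨-, h, h'⟩ | ⟨-, h, -⟩ | ⟨-, h, -⟩ | ⟨-, h, -⟩ | ⟨-, h, -⟩
      · exact Or.inl h1
      · exact Or.inr ⟨h, h'⟩
      · exact absurd h hwp
      · exact absurd h hwp
      · exact absurd h hwq
      · exact absurd h hwq
    have h2' : (w, z, k) ∈ K ∨ (w = x ∧ k = κ) := by
      rcases h2 with h2 | ⟨h, -, h'⟩ | ⟨h, -, h'⟩ | ⟨h, -, -⟩ | ⟨h, -, -⟩ | ⟨h, -, -⟩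
      · exact Or.inl h2
      · exact absurd h hwq
      · exact Or.inr ⟨h, h'⟩
      · exact absurd h hwq
      · exact absurd h hwp
      · exact absurd h hwp
    clear h1 h2
    rcases h1' with h1 | ⟨rfl, rfl⟩
    · rcases h2' with h2 | ⟨rfl, rfl⟩
      · exact hfl0 _ _ _ _ hD h1 h2
      · exact fx hD _ h1
    · rcases h2' with h2 | ⟨h, -⟩
      · exact fy hD _ h2
      · exact hxy h.symm

end Vale.Agent.P333.U.CE
end
end

section

section

/-!
P333, upper bound: `ColMath` from its parts.
-/

namespace Vale.Agent.P333.U.CE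

open Vale.Agent.Lib.PolyTime Relation

/-! ### The arcs at the removed vertices -/

theorem incE_perm (U : List ℕ) (E : List (ℕ × ℕ)) : (incE U E ++ remE U E).Perm E :=
  List.filter_append_perm _ _

theorem outN_append (E F : List (ℕ × ℕ)) (v : ℕ) : outN (E ++ F) v = outN E v + outN F v :=
  List.countP_append ..

theorem inN_append (E F : List (ℕ × ℕ)) (v : ℕ) : inN (E ++ F) v = inN E v + inN F v :=
  List.countP_append ..

theorem outN_split (U : List ℕ) (E : List (ℕ × ℕ)) (v : ℕ) :
    outN E v = outN (incE U E) v + outN (remE U E) v := by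
  rw [← outN_append]
  exact (outN_perm (incE_perm U E) v).symm

theorem inN_split (U : List ℕ) (E : List (ℕ × ℕ)) (v : ℕ) :
    inN E v = inN (incE U E) v + inN (remE U E) v := by
  rw [← inN_append]
  exact (inN_perm (incE_perm U E) v).symm

theorem mem_remE {U : List ℕ} {E : List (ℕ × ℕ)} {e : ℕ × ℕ} (h : e ∈ remE U E) :
    e ∈ E ∧ e.1 ∉ U ∧ e.2 ∉ U := by
  simp only [remE, List.mem_filter, Bool.not_eq_eq_eq_not, Bool.not_true, Bool.or_eq_false_iff,
    decide_eq_false_iff_not] at h
  exact h

theorem mem_incE {U : List ℕ} {E : List (ℕ × ℕ)} {e : ℕ × ℕ} :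
    e ∈ incE U E ↔ e ∈ E ∧ (e.1 ∈ U ∨ e.2 ∈ U) := by
  simp [incE]

theorem incE_single {E : List (ℕ × ℕ)} {v : ℕ} (hl : ∀ e ∈ E, e.1 ≠ e.2) :
    (incE [v] E).Perm (inE v E ++ outE v E) := by
  have h := (List.filter_append_perm (fun e : ℕ × ℕ => e.2 == v) (incE [v] E)).symm
  have e1 : (incE [v] E).filter (fun e : ℕ × ℕ => e.2 == v) = inE v E := by
    rw [incE, inE, List.filter_filter]
    apply List.filter_congr
    intro e _
    by_cases h : e.2 = v <;> simp [h]
  have e2 : (incE [v] E).filter (fun e : ℕ × ℕ => !(e.2 == v)) = outE v E := by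
    rw [incE, outE, List.filter_filter]
    apply List.filter_congr
    intro e he
    have := hl e he
    rcases e with ⟨a, b⟩
    simp only at this ⊢
    by_cases h1 : a = v
    · subst h1
      simp [Ne.symm this]
    · by_cases h2 : b = v <;> simp [h1, h2]
  rw [e1, e2] at h
  exact h

theorem incE_pair {E : List (ℕ × ℕ)} {p q x y : ℕ} (hl : ∀ e ∈ E, e.1 ≠ e.2) (hpq : p ≠ q)
    (h1 : (inE p E).Perm [(x, p), (q, p)]) (h2 : outE p E = [(p, q), (p, q)])
    (h3 : inE q E = [(p, q), (p, q)]) (h4 : (outE q E).Perm [(q, p), (q, y)]) (hyp : y ≠ p) :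
    (incE [p, q] E).Perm [(x, p), (p, q), (p, q), (q, p), (q, y)] := by
  have h := (List.filter_append_perm (fun e : ℕ × ℕ => e.2 == p) (incE [p, q] E)).symm
  have e1 : (incE [p, q] E).filter (fun e : ℕ × ℕ => e.2 == p) = inE p E := by
    rw [incE, inE, List.filter_filter]
    apply List.filter_congr
    intro e _
    by_cases h : e.2 = p <;> simp [h]
  have h' := (List.filter_append_perm (fun e : ℕ × ℕ => e.1 == p)
    ((incE [p, q] E).filter (fun e : ℕ × ℕ => !(e.2 == p)))).symm
  have e2 : ((incE [p, q] E).filter (fun e : ℕ × ℕ => !(e.2 == p))).filter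
      (fun e : ℕ × ℕ => e.1 == p) = outE p E := by
    rw [incE, outE, List.filter_filter, List.filter_filter]
    apply List.filter_congr
    intro e he
    have := hl e he
    rcases e with ⟨a, b⟩
    simp only at this ⊢
    by_cases h1 : a = p
    · subst h1
      simp [Ne.symm this]
    · have h1' : (a == p) = false := by simpa using h1
      rw [h1']
      simp
  have e3 : ((incE [p, q] E).filter (fun e : ℕ × ℕ => !(e.2 == p))).filter
      (fun e : ℕ × ℕ => !(e.1 == p)) = (outE q E).filter (fun e => !(e.2 == p)) := by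
    rw [incE, outE, List.filter_filter, List.filter_filter, List.filter_filter]
    apply List.filter_congr
    intro e he
    have hq : e.2 = q → e = (p, q) := by
      intro h
      have : e ∈ inE q E := List.mem_filter.2 ⟨he, by simp [h]⟩
      rw [h3] at this
      simpa using this
    rcases e with ⟨a, b⟩
    simp only [Prod.mk.injEq] at hq ⊢
    by_cases ha : a = p
    · subst ha
      simp [hpq]
    · by_cases hb : b = q
      · exact absurd (hq hb).1 ha
      · by_cases hbp : b = p <;> by_cases haq : a = q <;> simp [ha, hb, hbp, haq, Ne.symm hpq]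
  rw [e1] at h
  rw [e2, e3, h2] at h'
  have h5 : ((outE q E).filter (fun e => !(e.2 == p))).Perm [(q, y)] := by
    have := h4.filter (fun e => !(e.2 == p))
    simpa [hyp] using this
  have h6 := h.trans ((h1.append h').trans
    ((List.Perm.refl _).append ((List.Perm.refl _).append h5)))
  refine h6.trans ?_
  rw [List.perm_iff_count]
  intro a
  simp only [List.count_cons, List.count_nil, List.cons_append, List.nil_append]
  ring

theorem eraseQ_nil (K : List (ℕ × ℕ × ℕ)) : eraseQ K [] = K := rfl

theorem fl_of_col {E : List (ℕ × ℕ)} {K : List (ℕ × ℕ × ℕ)} (h : Col E K) :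
    Fl (fun y => outN E y = 1) K := by
  rw [fl_iff]
  exact h.flag

theorem Fl.perm {D : ℕ → Prop} {K K' : List (ℕ × ℕ × ℕ)} (h : Fl D K) (hK : K.Perm K') :
    Fl D K' := fun x y z k hD h1 h2 => h x y z k hD (hK.mem_iff.2 h1) (hK.mem_iff.2 h2)

theorem iso_of_rem {U : List ℕ} {E : List (ℕ × ℕ)} {K : List (ℕ × ℕ × ℕ)} {v : ℕ} (hv : v ∈ U)
    (h : (K.map unc).Perm (remE U E)) : Iso v K := by
  constructor
  · intro z k hz
    have : (v, z) ∈ K.map unc := List.mem_map.2 ⟨_, hz, rfl⟩
    exact (mem_remE (h.mem_iff.1 this)).2.1 hv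
  · intro z k hz
    have : (z, v) ∈ K.map unc := List.mem_map.2 ⟨_, hz, rfl⟩
    exact (mem_remE (h.mem_iff.1 this)).2.2 hv

/-! ### The extensions -/

theorem ext_r1 {E : List (ℕ × ℕ)} {v a c : ℕ} (hE : GoodG E) (hi : inE v E = [(a, v)])
    (ho : outE v E = [(v, c)]) (hac : a ≠ c) (hE' : GoodG (moveE ([v], [(a, c)]) E))
    {K : List (ℕ × ℕ × ℕ)} (hK : Col (moveE ([v], [(a, c)]) E) K) :
    ∃ cs ∈ vecs 8, Col E (eraseQ K [(a, c)] ++ paint (incE [v] E) cs) := by
  have hKc := (col_iff _ _).1 hK
  obtain ⟨A, hA, hKA⟩ := eraseQ_exists (K := K) (Q := [(a, c)]) (R := remE [v] E) hKc.1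
  obtain ⟨κ, rfl⟩ : ∃ κ, A = [(a, c, κ)] := by
    rcases A with _ | ⟨⟨a', c', κ⟩, _ | ⟨e, A⟩⟩
    · simp at hA
    · simp only [List.map_cons, List.map_nil, unc, List.cons.injEq, Prod.mk.injEq, and_true] at hA
      obtain ⟨rfl, rfl⟩ := hA
      exact ⟨κ, rfl⟩
    · simp at hA
  simp only [List.cons_append, List.nil_append] at hKA
  set K0 := eraseQ K [(a, c)] with hK0
  have hp : (((a, c, κ) :: K0).map unc).Perm (remE [v] E ++ [(a, c)]) :=
    (hKA.map unc).symm.trans hKc.1
  have hp0 : (K0.map unc).Perm (remE [v] E) := by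
    rw [List.map_cons] at hp
    exact (List.perm_cons (a, c)).1 (hp.trans List.perm_append_comm)
  have hinc : (incE [v] E).Perm [(a, v), (v, c)] := by
    have := incE_single (v := v) hE.loop
    rwa [hi, ho] at this
  have hav : a ≠ v := by
    have : (a, v) ∈ inE v E := by rw [hi]; simp
    exact hE.loop _ (List.mem_filter.1 this).1
  have hcv : c ≠ v := by
    have : (v, c) ∈ outE v E := by rw [ho]; simp
    exact (hE.loop _ (List.mem_filter.1 this).1).symm
  refine ext_finish (incE_perm [v] E) (by rw [hinc.length_eq]; simp) hp0 ?_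
  obtain ⟨C, hC, hPV, hfl⟩ := r1_core hp hE'.bal hE'.deg (hKc.2.1.perm hKA)
    ((fl_of_col hK).perm hKA) (iso_of_rem (by simp) hp0) hav hcv hac
  refine ⟨C, by rw [hC]; exact hinc.symm, hPV, ?_⟩
  rw [← hK0]
  rw [fl_iff] at hfl
  intro e he f hf h1 h2
  refine hfl e he f hf h1 ?_
  by_cases hfv : f.1 = v
  · exact Or.inr hfv
  · left
    show outN (remE [v] E ++ [(a, c)]) f.1 = 1
    rw [← h2, outN_split [v] E, outN_append, outN_perm hinc, add_comm]
    congr 1
    simp [outN, List.countP_cons, Ne.symm hfv]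

theorem ext_r1' {E : List (ℕ × ℕ)} {v a : ℕ} (hE : GoodG E) (hi : inE v E = [(a, v)])
    (ho : outE v E = [(v, a)]) (hE' : GoodG (moveE ([v], []) E))
    {K : List (ℕ × ℕ × ℕ)} (hK : Col (moveE ([v], []) E) K) :
    ∃ cs ∈ vecs 8, Col E (eraseQ K [] ++ paint (incE [v] E) cs) := by
  have hKc := (col_iff _ _).1 hK
  have hp0 : (K.map unc).Perm (remE [v] E) := by simpa [moveE] using hKc.1
  have hinc : (incE [v] E).Perm [(a, v), (v, a)] := by
    have := incE_single (v := v) hE.loop
    rwa [hi, ho] at this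
  have hav : a ≠ v := by
    have : (a, v) ∈ inE v E := by rw [hi]; simp
    exact hE.loop _ (List.mem_filter.1 this).1
  have hs : ∀ y, y ≠ v → outN E y = (if a = y then 1 else 0) + outN (remE [v] E) y := by
    intro y hy
    rw [outN_split [v] E, outN_perm hinc]
    congr 1
    simp [outN, List.countP_cons, Ne.symm hy]
  have hE'b : ∀ y, outN (remE [v] E) y = inN (remE [v] E) y := by
    simpa [moveE] using hE'.bal
  refine ext_finish (incE_perm [v] E) (by rw [hinc.length_eq]; simp) hp0 ?_
  obtain ⟨C, hC, hPV, hfl⟩ := r1'_core hp0 hE'b (by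
      have := hs a hav
      have := hE.deg a
      simp only [ne_eq, Prod.forall, ↓reduceIte, ge_iff_le] at *
      omega) hKc.2.1
    (by
      have := fl_of_col hK
      simpa [moveE] using this) (iso_of_rem (by simp) hp0) hav
  refine ⟨C, by rw [hC]; exact hinc.symm, hPV, ?_⟩
  rw [eraseQ_nil]
  rw [fl_iff] at hfl
  intro e he f hf h1 h2
  refine hfl e he f hf h1 ?_
  by_cases hfv : f.1 = v
  · exact Or.inr (Or.inl hfv)
  · have h3 := hs f.1 hfv
    by_cases hfa : f.1 = a
    · right; right
      refine ⟨hfa, ?_⟩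
      rw [hfa] at h2 h3
      simp at h3
      omega
    · left
      rw [if_neg (Ne.symm hfa)] at h3
      exact ⟨by omega, hfa⟩

theorem ext_r3 {E : List (ℕ × ℕ)} {v a b c d : ℕ} (hE : GoodG E)
    (hi : inE v E = [(a, v), (b, v)]) (ho : (outE v E).Perm [(v, c), (v, d)]) (hac : a ≠ c)
    (hbd : b ≠ d) (hE' : GoodG (moveE ([v], [(a, c), (b, d)]) E))
    {K : List (ℕ × ℕ × ℕ)} (hK : Col (moveE ([v], [(a, c), (b, d)]) E) K) :
    ∃ cs ∈ vecs 8, Col E (eraseQ K [(a, c), (b, d)] ++ paint (incE [v] E) cs) := by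
  have hKc := (col_iff _ _).1 hK
  obtain ⟨A, hA, hKA⟩ := eraseQ_exists (K := K) (Q := [(a, c), (b, d)]) (R := remE [v] E) hKc.1
  obtain ⟨κ1, κ2, rfl⟩ : ∃ κ1 κ2, A = [(a, c, κ1), (b, d, κ2)] := by
    rcases A with _ | ⟨⟨a', c', κ1⟩, _ | ⟨⟨b', d', κ2⟩, _ | ⟨e, A⟩⟩⟩
    · simp at hA
    · simp at hA
    · simp only [List.map_cons, List.map_nil, unc, List.cons.injEq, Prod.mk.injEq, and_true] at hA
      obtain ⟨⟨rfl, rfl⟩, rfl, rfl⟩ := hA
      exact ⟨κ1, κ2, rfl⟩
    · simp at hA
  simp only [List.cons_append, List.nil_append] at hKA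
  set K0 := eraseQ K [(a, c), (b, d)] with hK0
  have hp : (((a, c, κ1) :: (b, d, κ2) :: K0).map unc).Perm
      (remE [v] E ++ [(a, c), (b, d)]) := (hKA.map unc).symm.trans hKc.1
  have hp0 : (K0.map unc).Perm (remE [v] E) := by
    rw [List.map_cons, List.map_cons] at hp
    exact (List.perm_cons (b, d)).1 ((List.perm_cons (a, c)).1 (hp.trans List.perm_append_comm))
  have hinc : (incE [v] E).Perm [(a, v), (b, v), (v, c), (v, d)] := by
    have := incE_single (v := v) hE.loop
    rw [hi] at this
    exact this.trans (List.Perm.append_left _ ho)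
  have hav : a ≠ v := by
    have : (a, v) ∈ inE v E := by rw [hi]; simp
    exact hE.loop _ (List.mem_filter.1 this).1
  have hbv : b ≠ v := by
    have : (b, v) ∈ inE v E := by rw [hi]; simp
    exact hE.loop _ (List.mem_filter.1 this).1
  have hcv : c ≠ v := by
    have : (v, c) ∈ outE v E := ho.mem_iff.2 (by simp)
    exact (hE.loop _ (List.mem_filter.1 this).1).symm
  have hdv : d ≠ v := by
    have : (v, d) ∈ outE v E := ho.mem_iff.2 (by simp)
    exact (hE.loop _ (List.mem_filter.1 this).1).symm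
  refine ext_finish (incE_perm [v] E) (by rw [hinc.length_eq]; simp) hp0 ?_
  obtain ⟨C, hC, hPV, hfl⟩ := r3_core hp hE'.bal hE'.deg (hKc.2.1.perm hKA)
    ((fl_of_col hK).perm hKA) (iso_of_rem (by simp) hp0) hav hbv hcv hdv hac hbd
  refine ⟨C, by rw [hC]; exact hinc.symm, hPV, ?_⟩
  rw [← hK0]
  rw [fl_iff] at hfl
  intro e he f hf h1 h2
  have h4 : f.1 ≠ v := by
    intro hfv
    rw [hfv] at h2
    have : outN E v = 2 := by
      have h5 : outN E v = (outE v E).length := List.countP_eq_length_filter ..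
      rw [h5, ho.length_eq]
      rfl
    omega
  refine hfl e he f hf h1 ⟨?_, h4⟩
  show outN (remE [v] E ++ [(a, c), (b, d)]) f.1 = 1
  rw [← h2, outN_split [v] E, outN_append, outN_perm hinc, add_comm]
  congr 1
  simp [outN, List.countP_cons, Ne.symm h4]

theorem ext_r2 {E : List (ℕ × ℕ)} {p q x y : ℕ} (hE : GoodG E)
    (h1 : (inE p E).Perm [(x, p), (q, p)]) (h2 : outE p E = [(p, q), (p, q)])
    (h3 : inE q E = [(p, q), (p, q)]) (h4 : (outE q E).Perm [(q, p), (q, y)]) (hxq : x ≠ q)
    (hyp : y ≠ p) (hxy : x ≠ y) {K : List (ℕ × ℕ × ℕ)}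
    (hK : Col (moveE ([p, q], [(x, y)]) E) K) :
    ∃ cs ∈ vecs 8, Col E (eraseQ K [(x, y)] ++ paint (incE [p, q] E) cs) := by
  have hKc := (col_iff _ _).1 hK
  obtain ⟨A, hA, hKA⟩ := eraseQ_exists (K := K) (Q := [(x, y)]) (R := remE [p, q] E) hKc.1
  obtain ⟨κ, rfl⟩ : ∃ κ, A = [(x, y, κ)] := by
    rcases A with _ | ⟨⟨a', c', κ⟩, _ | ⟨e, A⟩⟩
    · simp at hA
    · simp only [List.map_cons, List.map_nil, unc, List.cons.injEq, Prod.mk.injEq, and_true] at hA
      obtain ⟨rfl, rfl⟩ := hA
      exact ⟨κ, rfl⟩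
    · simp at hA
  simp only [List.cons_append, List.nil_append] at hKA
  set K0 := eraseQ K [(x, y)] with hK0
  have hp : (((x, y, κ) :: K0).map unc).Perm (remE [p, q] E ++ [(x, y)]) :=
    (hKA.map unc).symm.trans hKc.1
  have hp0 : (K0.map unc).Perm (remE [p, q] E) := by
    rw [List.map_cons] at hp
    exact (List.perm_cons (x, y)).1 (hp.trans List.perm_append_comm)
  have hpq : p ≠ q := by
    have : (p, q) ∈ outE p E := by rw [h2]; simp
    exact hE.loop _ (List.mem_filter.1 this).1
  have hxp : x ≠ p := by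
    have : (x, p) ∈ inE p E := h1.mem_iff.2 (by simp)
    exact hE.loop _ (List.mem_filter.1 this).1
  have hyq : y ≠ q := by
    have : (q, y) ∈ outE q E := h4.mem_iff.2 (by simp)
    exact (hE.loop _ (List.mem_filter.1 this).1).symm
  have hinc := incE_pair hE.loop hpq h1 h2 h3 h4 hyp
  refine ext_finish (incE_perm [p, q] E) (by rw [hinc.length_eq]; simp) hp0 ?_
  obtain ⟨C, hC, hPV, hfl⟩ := r2_core (hKc.2.1.perm hKA)
    ((fl_of_col hK).perm hKA) (iso_of_rem (by simp) hp0) (iso_of_rem (by simp) hp0)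
    hxp hxq hyp hyq hpq hxy
  refine ⟨C, hC.trans hinc.symm, hPV, ?_⟩
  rw [← hK0]
  rw [fl_iff] at hfl
  intro e he f hf h5 h6
  have hfp : f.1 ≠ p := by
    intro hfv
    rw [hfv] at h6
    have : outN E p = 2 := by
      have h5 : outN E p = (outE p E).length := List.countP_eq_length_filter ..
      rw [h5, h2]
      rfl
    omega
  have hfq : f.1 ≠ q := by
    intro hfv
    rw [hfv] at h6
    have : outN E q = 2 := by
      have h5 : outN E q = (outE q E).length := List.countP_eq_length_filter ..
      rw [h5, h4.length_eq]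
      rfl
    omega
  refine hfl e he f hf h5 ⟨?_, hfp, hfq⟩
  show outN (remE [p, q] E ++ [(x, y)]) f.1 = 1
  rw [← h6, outN_split [p, q] E, outN_append, outN_perm hinc, add_comm]
  congr 1
  simp [outN, List.countP_cons, Ne.symm hfp, Ne.symm hfq]

/-! ### Closed sets -/

theorem tg_union {r s : ℕ → ℕ → Prop} {U : ℕ → Prop} (hr : ∀ a b, r a b → ¬ U a ∧ ¬ U b)
    (hs : ∀ a b, s a b → U a ∧ U b) {x y : ℕ} (h : TransGen (fun a b => r a b ∨ s a b) x y) :
    (TransGen r x y ∧ ¬ U y) ∨ (TransGen s x y ∧ U y) := by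
  induction h with
  | single h =>
    rcases h with h | h
    · exact Or.inl ⟨.single h, (hr _ _ h).2⟩
    · exact Or.inr ⟨.single h, (hs _ _ h).2⟩
  | tail _ h ih =>
    rcases h with h | h
    · rcases ih with ih | ih
      · exact Or.inl ⟨ih.1.tail h, (hr _ _ h).2⟩
      · exact absurd ih.2 (hr _ _ h).1
    · rcases ih with ih | ih
      · exact absurd (hs _ _ h).1 ih.2
      · exact Or.inr ⟨ih.1.tail h, (hs _ _ h).2⟩

theorem PV.union {K C : List (ℕ × ℕ × ℕ)} {U : List ℕ} (hK : PV K) (hC : PV C)
    (h1 : ∀ e ∈ K, e.1 ∉ U ∧ e.2.1 ∉ U) (h2 : ∀ e ∈ C, e.1 ∈ U ∧ e.2.1 ∈ U) : PV (K ++ C) := by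
  refine ⟨?_, ?_, ?_, ?_⟩
  · intro e he
    rcases List.mem_append.1 he with he | he
    · exact hK.lt e he
    · exact hC.lt e he
  · rw [List.map_append, List.nodup_append]
    refine ⟨hK.out, hC.out, ?_⟩
    intro a ha b hb hab
    subst hab
    obtain ⟨e, he, rfl⟩ := List.mem_map.1 ha
    obtain ⟨f, hf, hfe⟩ := List.mem_map.1 hb
    have := (Prod.mk.inj hfe).1
    exact (h1 e he).1 (this ▸ (h2 f hf).1)
  · rw [List.map_append, List.nodup_append]
    refine ⟨hK.inn, hC.inn, ?_⟩
    intro a ha b hb hab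
    subst hab
    obtain ⟨e, he, rfl⟩ := List.mem_map.1 ha
    obtain ⟨f, hf, hfe⟩ := List.mem_map.1 hb
    have := (Prod.mk.inj hfe).1
    exact (h1 e he).2 (this ▸ (h2 f hf).2)
  · intro κ x hx
    have hx' : TransGen (fun a b => crel K κ a b ∨ crel C κ a b) x x := by
      refine TransGen.mono ?_ _ _ hx
      intro a b hab
      exact List.mem_append.1 hab
    rcases tg_union (U := fun a => a ∈ U) (fun a b h => h1 _ h) (fun a b h => h2 _ h) hx'
      with h | h
    · exact hK.acy κ x h.1
    · exact hC.acy κ x h.1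

theorem length_le_of_fst {U : List ℕ} {F : List (ℕ × ℕ)} (h : ∀ e ∈ F, e.1 ∈ U)
    (hd : ∀ v, outN F v ≤ 2) : F.length ≤ 2 * U.length := by
  induction U generalizing F with
  | nil =>
    rcases F with _ | ⟨e, F⟩
    · simp
    · exact absurd (h e (by simp)) (by simp)
  | cons u U ih =>
    have h1 := (List.filter_append_perm (fun e : ℕ × ℕ => e.1 == u) F).length_eq
    rw [List.length_append] at h1
    have h2 : (F.filter (fun e : ℕ × ℕ => e.1 == u)).length ≤ 2 := by
      rw [← List.countP_eq_length_filter]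
      exact hd u
    have h3 : (F.filter (fun e : ℕ × ℕ => !(e.1 == u))).length ≤ 2 * U.length := by
      apply ih
      · intro e he
        rw [List.mem_filter] at he
        have := h e he.1
        simp only [Bool.not_eq_eq_eq_not, Bool.not_true, beq_eq_false_iff_ne, ne_eq] at he
        simpa [he.2] using this
      · intro v
        exact ((List.filter_sublist (l := F)).countP_le (p := fun e : ℕ × ℕ => e.1 == v)).trans
          (hd v)
    rw [List.length_cons]
    omega

theorem goodG_incE {E : List (ℕ × ℕ)} {U : List ℕ} (hE : GoodG E)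
    (hc : ∀ e ∈ E, (e.1 ∈ U ↔ e.2 ∈ U)) : GoodG (incE U E) := by
  have h1 : ∀ v, v ∈ U → outN (incE U E) v = outN E v := by
    intro v hv
    rw [outN, outN, incE, List.countP_filter]
    apply List.countP_congr
    intro e _
    by_cases h : e.1 = v
    · simp [h, hv]
    · simp [h]
  have h2 : ∀ v, v ∈ U → inN (incE U E) v = inN E v := by
    intro v hv
    rw [inN, inN, incE, List.countP_filter]
    apply List.countP_congr
    intro e _
    by_cases h : e.2 = v
    · simp [h, hv]
    · simp [h]
  have h3 : ∀ v, v ∉ U → outN (incE U E) v = 0 := by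
    intro v hv
    rw [outN, List.countP_eq_zero]
    intro e he
    obtain ⟨he1, he2⟩ := mem_incE.1 he
    have := hc e he1
    simp only [beq_iff_eq]
    rintro rfl
    (clear * - he2 this hv; tauto)
  have h4 : ∀ v, v ∉ U → inN (incE U E) v = 0 := by
    intro v hv
    rw [inN, List.countP_eq_zero]
    intro e he
    obtain ⟨he1, he2⟩ := mem_incE.1 he
    have := hc e he1
    simp only [beq_iff_eq]
    rintro rfl
    (clear * - he2 this hv; tauto)
  have hs : (incE U E).Sublist E := List.filter_sublist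
  refine ⟨?_, ?_, ?_, ?_, ?_⟩
  · intro v
    by_cases hv : v ∈ U
    · rw [h1 v hv, h2 v hv, hE.bal v]
    · rw [h3 v hv, h4 v hv]
  · intro v
    exact (hs.countP_le).trans (hE.deg v)
  · intro e he
    exact hE.loop e (hs.subset he)
  · rintro p q ⟨h5, h6⟩
    exact hE.noD2 p q ⟨h5.trans (hs.count_le _), h6.trans (hs.count_le _)⟩
  · rintro p q r ⟨h5, h6, h7, h8, h9, h10⟩
    exact hE.noK3 p q r ⟨hs.subset h5, hs.subset h6, hs.subset h7, hs.subset h8, hs.subset h9,
      hs.subset h10⟩

theorem ext_m0 (hsm : SmallCol) {E : List (ℕ × ℕ)} {U : List ℕ} (hE : GoodG E)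
    (hU : U.length ≤ 4) (hc : ∀ e ∈ E, (e.1 ∈ U ↔ e.2 ∈ U))
    {K : List (ℕ × ℕ × ℕ)} (hK : Col (moveE (U, []) E) K) :
    ∃ cs ∈ vecs 8, Col E (eraseQ K [] ++ paint (incE U E) cs) := by
  have hKc := (col_iff _ _).1 hK
  have hp0 : (K.map unc).Perm (remE U E) := by simpa [moveE] using hKc.1
  have hgi := goodG_incE hE hc
  have hmem : ∀ e ∈ incE U E, e.1 ∈ U ∧ e.2 ∈ U := by
    intro e he
    obtain ⟨he1, he2⟩ := mem_incE.1 he
    have := hc e he1
    (clear * - hKc he2 this; tauto)
  obtain ⟨C, hC⟩ := hsm (incE U E) U hgi hU hmem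
  have hCc := (col_iff _ _).1 hC
  have hlen : (incE U E).length ≤ 8 :=
    (length_le_of_fst (fun e he => (hmem e he).1) hgi.deg).trans (by omega)
  refine ext_finish (incE_perm U E) hlen hp0 ⟨C, hCc.1, ?_, ?_⟩
  · refine PV.union (U := U) hKc.2.1 hCc.2.1 ?_ ?_
    · intro e he
      exact (mem_remE (hp0.mem_iff.1 (List.mem_map.2 ⟨e, he, rfl⟩))).2
    · intro e he
      exact hmem _ (hCc.1.mem_iff.1 (List.mem_map.2 ⟨e, he, rfl⟩))
  · rw [eraseQ_nil]
    have hKU : ∀ e ∈ K, e.1 ∉ U ∧ e.2.1 ∉ U := fun e he =>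
      (mem_remE (hp0.mem_iff.1 (List.mem_map.2 ⟨e, he, rfl⟩))).2
    have hCU : ∀ e ∈ C, e.1 ∈ U ∧ e.2.1 ∈ U := fun e he =>
      hmem _ (hCc.1.mem_iff.1 (List.mem_map.2 ⟨e, he, rfl⟩))
    intro e he f hf h1 h2
    rcases List.mem_append.1 he with he | he
    · rcases List.mem_append.1 hf with hf | hf
      · refine hKc.2.2 e he f hf h1 ?_
        have h3 : outN (incE U E) f.1 = 0 := by
          rw [outN, List.countP_eq_zero]
          intro g hg
          simp only [beq_iff_eq]
          intro h
          exact (hKU f hf).1 (h ▸ (hmem g hg).1)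
        have h4 := outN_split U E f.1
        have h5 : outN (moveE (U, []) E) f.1 = outN (remE U E) f.1 := by simp [moveE]
        omega
      · exact absurd (hCU f hf).1 (h1 ▸ (hKU e he).2)
    · rcases List.mem_append.1 hf with hf | hf
      · exact absurd (hCU e he).2 (h1 ▸ (hKU f hf).1)
      · refine hCc.2.2 e he f hf h1 ?_
        have h3 : outN (remE U E) f.1 = 0 := by
          rw [outN, List.countP_eq_zero]
          intro g hg
          simp only [beq_iff_eq]
          intro h
          exact (mem_remE hg).2.1 (h ▸ (hCU f hf).1)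
        have h4 := outN_split U E f.1
        omega

theorem moveExt_of_small (hsm : SmallCol) : MoveExt := by
  intro E U Q hE hm hE' K hK
  cases hm with
  | r1 v a c h1 h2 h3 => exact ext_r1 hE h1 h2 h3 hE' hK
  | r1' v a h1 h2 => exact ext_r1' hE h1 h2 hE' hK
  | r3 v a b c d h1 h2 h3 h4 => exact ext_r3 hE h1 h2 h3 h4 hE' hK
  | r2 p q x y h1 h2 h3 h4 h5 h6 h7 => exact ext_r2 hE h1 h2 h3 h4 h5 h6 h7 hK
  | m0 _ h1 h2 h3 h4 => exact ext_m0 hsm hE h2 h4 hK

end Vale.Agent.P333.U.CE
end
end

section

section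

/-!
P333, upper bound: `ColMath` from `MoveEx` and `SmallCol`.
-/

namespace Vale.Agent.P333.U

open Vale.Agent.Lib.PolyTime Relation CE

theorem mem_vtx_fst {E : List (ℕ × ℕ)} {e : ℕ × ℕ} (h : e ∈ E) : e.1 ∈ vtx E := by
  simp only [vtx, List.mem_append, List.mem_map]
  exact Or.inl ⟨e, h, rfl⟩

theorem mem_vtx_snd {E : List (ℕ × ℕ)} {e : ℕ × ℕ} (h : e ∈ E) : e.2 ∈ vtx E := by
  simp only [vtx, List.mem_append, List.mem_map]
  exact Or.inr ⟨e, h, rfl⟩

theorem isMove_vtx {E : List (ℕ × ℕ)} {U : List ℕ} {Q : List (ℕ × ℕ)} (h : IsMove E U Q) :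
    ∀ e ∈ Q, e.1 ∈ vtx E ∧ e.2 ∈ vtx E := by
  cases h with
  | r1 v a c h1 h2 h3 =>
    have e1 : (a, v) ∈ E := (List.mem_filter.1 (show (a, v) ∈ inE v E by rw [h1]; simp)).1
    have e2 : (v, c) ∈ E := (List.mem_filter.1 (show (v, c) ∈ outE v E by rw [h2]; simp)).1
    simp only [List.mem_cons, List.not_mem_nil, or_false, forall_eq]
    exact ⟨mem_vtx_fst e1, mem_vtx_snd e2⟩
  | r1' v a h1 h2 => simp
  | r3 v a b c d h1 h2 h3 h4 =>
    have e1 : (a, v) ∈ E := (List.mem_filter.1 (show (a, v) ∈ inE v E by rw [h1]; simp)).1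
    have e1' : (b, v) ∈ E := (List.mem_filter.1 (show (b, v) ∈ inE v E by rw [h1]; simp)).1
    have e2 : (v, c) ∈ E := (List.mem_filter.1 (show (v, c) ∈ outE v E from
      h2.mem_iff.2 (by simp))).1
    have e2' : (v, d) ∈ E := (List.mem_filter.1 (show (v, d) ∈ outE v E from
      h2.mem_iff.2 (by simp))).1
    simp only [List.mem_cons, List.not_mem_nil, or_false, forall_eq_or_imp, forall_eq]
    exact ⟨⟨mem_vtx_fst e1, mem_vtx_snd e2⟩, mem_vtx_fst e1', mem_vtx_snd e2'⟩
  | r2 p q x y h1 h2 h3 h4 h5 h6 h7 =>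
    have e1 : (x, p) ∈ E := (List.mem_filter.1 (show (x, p) ∈ inE p E from
      h1.mem_iff.2 (by simp))).1
    have e2 : (q, y) ∈ E := (List.mem_filter.1 (show (q, y) ∈ outE q E from
      h4.mem_iff.2 (by simp))).1
    simp only [List.mem_cons, List.not_mem_nil, or_false, forall_eq]
    exact ⟨mem_vtx_fst e1, mem_vtx_snd e2⟩
  | m0 _ h1 h2 h3 h4 => simp

theorem isMove_length {E : List (ℕ × ℕ)} {U : List ℕ} {Q : List (ℕ × ℕ)} (hE : GoodG E)
    (h : IsMove E U Q) : (moveE (U, Q) E).length < E.length := by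
  have h0 : (incE U E).length + (remE U E).length = E.length := by
    have := (incE_perm U E).length_eq
    rwa [List.length_append] at this
  have h1 : (moveE (U, Q) E).length = (remE U E).length + Q.length := by
    simp [moveE]
  suffices Q.length < (incE U E).length by omega
  clear h0 h1
  cases h with
  | r1 v a c h1 h2 h3 =>
    have := (incE_single (v := v) hE.loop).length_eq
    rw [this, h1, h2]
    simp
  | r1' v a h1 h2 =>
    have := (incE_single (v := v) hE.loop).length_eq
    rw [this, h1, h2]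
    simp only [List.length_nil, List.cons_append, List.nil_append, List.length_cons, zero_add, Nat.reduceAdd, Order.lt_two_iff, zero_le]
  | r3 v a b c d h1 h2 h3 h4 =>
    have := (incE_single (v := v) hE.loop).length_eq
    rw [this, List.length_append, h1, h2.length_eq]
    simp
  | r2 p q x y h1 h2 h3 h4 h5 h6 h7 =>
    have hpq : p ≠ q := by
      have : (p, q) ∈ outE p E := by rw [h2]; simp
      exact hE.loop _ (List.mem_filter.1 this).1
    have := (incE_pair hE.loop hpq h1 h2 h3 h4 h6).length_eq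
    rw [this]
    simp
  | m0 _ h1 h2 h3 h4 =>
    obtain ⟨u, hu⟩ := List.exists_mem_of_ne_nil U h1
    obtain ⟨e, he, rfl⟩ := List.mem_map.1 (h3 u hu)
    have : e ∈ incE U E := mem_incE.2 ⟨he, Or.inl hu⟩
    exact List.length_pos_of_mem this

/-- `ColMath` from its parts. -/
theorem colMath_of (hA : MoveEx) (hD : SmallCol) : ColMath := by
  refine ⟨cands, PT_cands, fun E hE => ⟨fun hne => ?_, fun mv hmv hg => ?_⟩⟩
  · obtain ⟨U, Q, h1, h2⟩ := hA E hE hne
    exact ⟨(U, Q), (mem_cands E (U, Q)).2 h1, h2⟩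
  · have hm : IsMove E mv.1 mv.2 := (mem_cands E mv).1 hmv
    exact ⟨isMove_length hE hm, isMove_vtx hm, fun K hK =>
      moveExt_of_small hD E mv.1 mv.2 hE hm hg K hK⟩

end Vale.Agent.P333.U
end
end

section

section

/-!
P333, upper bound: there is a move to a good graph.
-/

namespace Vale.Agent.P333.U

theorem mex_mem_rem {U : List ℕ} {E : List (ℕ × ℕ)} {e : ℕ × ℕ} :
    e ∈ remE U E ↔ e ∈ E ∧ e.1 ∉ U ∧ e.2 ∉ U := by
  simp [remE, List.mem_filter]

theorem mex_mem_in {v : ℕ} {E : List (ℕ × ℕ)} {e : ℕ × ℕ} : e ∈ inE v E ↔ e ∈ E ∧ e.2 = v := by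
  simp [inE]

theorem mex_mem_out {v : ℕ} {E : List (ℕ × ℕ)} {e : ℕ × ℕ} : e ∈ outE v E ↔ e ∈ E ∧ e.1 = v := by
  simp [outE]

theorem mex_in_len (E : List (ℕ × ℕ)) (v : ℕ) : (inE v E).length = inN E v := by
  rw [inN, List.countP_eq_length_filter]; rfl

theorem mex_out_len (E : List (ℕ × ℕ)) (v : ℕ) : (outE v E).length = outN E v := by
  rw [outN, List.countP_eq_length_filter]; rfl

theorem mex_rem_count (U : List ℕ) (E : List (ℕ × ℕ)) (e : ℕ × ℕ) :
    (remE U E).count e ≤ E.count e := List.Sublist.count_le _ List.filter_sublist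

theorem mex_outN_append (A B : List (ℕ × ℕ)) (w : ℕ) : outN (A ++ B) w = outN A w + outN B w :=
  List.countP_append

theorem mex_inN_append (A B : List (ℕ × ℕ)) (w : ℕ) : inN (A ++ B) w = inN A w + inN B w :=
  List.countP_append

theorem mex_sum_out (S : Finset ℕ) (p : ℕ) (E : List (ℕ × ℕ)) :
    ∑ y ∈ S, E.count (p, y) ≤ outN E p := by
  induction E with
  | nil => simp [outN]
  | cons e E ih =>
    have h1 : ∑ y ∈ S, (e :: E).count (p, y) =
        ∑ y ∈ S, E.count (p, y) + ∑ y ∈ S, (if e = (p, y) then 1 else 0) := by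
      rw [← Finset.sum_add_distrib]
      refine Finset.sum_congr rfl fun y _ => ?_
      rw [List.count_cons]
      simp
    have h2 : outN (e :: E) p = outN E p + if e.1 = p then 1 else 0 := by
      simp [outN, List.countP_cons]
    have h3 : ∑ y ∈ S, (if e = (p, y) then 1 else 0) ≤ if e.1 = p then 1 else 0 := by
      obtain ⟨a, b⟩ := e
      by_cases ha : a = p
      · subst ha
        simp only [Prod.mk.injEq, true_and, if_true]
        rw [Finset.sum_ite_eq S b (fun _ => 1)]
        split_ifs <;> simp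
      · simp [ha]
    omega

theorem mex_sum_in (S : Finset ℕ) (p : ℕ) (E : List (ℕ × ℕ)) :
    ∑ y ∈ S, E.count (y, p) ≤ inN E p := by
  induction E with
  | nil => simp [inN]
  | cons e E ih =>
    have h1 : ∑ y ∈ S, (e :: E).count (y, p) =
        ∑ y ∈ S, E.count (y, p) + ∑ y ∈ S, (if e = (y, p) then 1 else 0) := by
      rw [← Finset.sum_add_distrib]
      refine Finset.sum_congr rfl fun y _ => ?_
      rw [List.count_cons]
      simp
    have h2 : inN (e :: E) p = inN E p + if e.2 = p then 1 else 0 := by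
      simp [inN, List.countP_cons]
    have h3 : ∑ y ∈ S, (if e = (y, p) then 1 else 0) ≤ if e.2 = p then 1 else 0 := by
      obtain ⟨a, b⟩ := e
      by_cases ha : b = p
      · subst ha
        simp only [Prod.mk.injEq, and_true, if_true]
        rw [Finset.sum_ite_eq S a (fun _ => 1)]
        split_ifs <;> simp
      · simp [ha]
    omega

/-- a set of vertices with full degrees inside is closed -/
theorem mex_closed {E : List (ℕ × ℕ)} (hd : ∀ v, outN E v ≤ 2) (hd' : ∀ v, inN E v ≤ 2)
    {K : Finset ℕ} (ho : ∀ x ∈ K, 2 ≤ ∑ y ∈ K, E.count (x, y))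
    (hi : ∀ x ∈ K, 2 ≤ ∑ y ∈ K, E.count (y, x)) : ∀ e ∈ E, e.1 ∈ K ↔ e.2 ∈ K := by
  rintro ⟨x, z⟩ he
  constructor
  · intro hx
    by_contra hz
    have hz' : z ∉ K := hz
    have h1 := mex_sum_out (insert z K) x E
    rw [Finset.sum_insert hz'] at h1
    have h2 := List.count_pos_iff.2 he
    have h3 := ho x hx
    have h4 := hd x
    omega
  · intro hz
    by_contra hx
    have hx' : x ∉ K := hx
    have h1 := mex_sum_in (insert x K) z E
    rw [Finset.sum_insert hx'] at h1
    have h2 := List.count_pos_iff.2 he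
    have h3 := hi z hz
    have h4 := hd' z
    omega

/-- If the result of a move is not good, there is a bad set containing the source of an added
arc. -/
theorem mex_bad {E R Q : List (ℕ × ℕ)} (hE : GoodG E) (hR : ∀ e, R.count e ≤ E.count e)
    (hb : ∀ v, outN (R ++ Q) v = inN (R ++ Q) v) (hd : ∀ v, outN (R ++ Q) v ≤ 2)
    (hl : ∀ e ∈ R ++ Q, e.1 ≠ e.2) (hn : ¬ GoodG (R ++ Q)) :
    ∃ K : Finset ℕ, 2 ≤ K.card ∧ K.card ≤ 3 ∧ (∀ e ∈ R ++ Q, e.1 ∈ K ↔ e.2 ∈ K) ∧
      (∀ x ∈ K, ∀ y ∈ K, x ≠ y → (x, y) ∈ R ++ Q) ∧ ∃ e ∈ Q, e.1 ∈ K := by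
  have hd' : ∀ v, inN (R ++ Q) v ≤ 2 := fun v => by rw [← hb]; exact hd v
  have hRm : ∀ e, e ∈ R → e ∈ E := fun e he => by
    have h1 := List.count_pos_iff.2 he
    exact List.count_pos_iff.1 (lt_of_lt_of_le h1 (hR e))
  have hcases : (∃ p q, 2 ≤ (R ++ Q).count (p, q) ∧ 2 ≤ (R ++ Q).count (q, p)) ∨
      ∃ p q r, (p, q) ∈ R ++ Q ∧ (q, p) ∈ R ++ Q ∧ (q, r) ∈ R ++ Q ∧ (r, q) ∈ R ++ Q ∧
        (r, p) ∈ R ++ Q ∧ (p, r) ∈ R ++ Q := by
    by_contra hc
    rw [not_or] at hc
    refine hn ⟨hb, hd, hl, fun p q h => hc.1 ⟨p, q, h⟩, fun p q r h => hc.2 ⟨p, q, r, h⟩⟩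
  rcases hcases with ⟨p, q, h1, h2⟩ | ⟨p, q, r, h1, h2, h3, h4, h5, h6⟩
  · have m1 : (p, q) ∈ R ++ Q := List.count_pos_iff.1 (by omega)
    have m2 : (q, p) ∈ R ++ Q := List.count_pos_iff.1 (by omega)
    have hpq : p ≠ q := hl _ m1
    refine ⟨{p, q}, ?_, ?_, ?_, ?_, ?_⟩
    · rw [Finset.card_pair hpq]
    · rw [Finset.card_pair hpq]; norm_num
    · refine mex_closed hd hd' ?_ ?_
      · intro x hx
        rw [Finset.sum_pair hpq]
        simp only [Finset.mem_insert, Finset.mem_singleton] at hx
        rcases hx with rfl | rfl <;> omega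
      · intro x hx
        rw [Finset.sum_pair hpq]
        simp only [Finset.mem_insert, Finset.mem_singleton] at hx
        rcases hx with rfl | rfl <;> omega
    · intro x hx y hy hxy
      simp only [Finset.mem_insert, Finset.mem_singleton] at hx hy
      rcases hx with rfl | rfl <;> rcases hy with rfl | rfl
      · exact absurd rfl hxy
      · exact m1
      · exact m2
      · exact absurd rfl hxy
    · by_contra hc
      push Not at hc
      have hz : ∀ x y, x ∈ ({p, q} : Finset ℕ) → Q.count (x, y) = 0 := fun x y hx =>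
        List.count_eq_zero.2 fun hm => hc _ hm hx
      rw [List.count_append, hz p q (by simp)] at h1
      rw [List.count_append, hz q p (by simp)] at h2
      exact hE.noD2 p q ⟨by have := hR (p, q); omega, by have := hR (q, p); omega⟩
  · have hpq : p ≠ q := hl _ h1
    have hqr : q ≠ r := hl _ h3
    have hpr : p ≠ r := hl _ h6
    have c1 := List.count_pos_iff.2 h1
    have c2 := List.count_pos_iff.2 h2
    have c3 := List.count_pos_iff.2 h3
    have c4 := List.count_pos_iff.2 h4
    have c5 := List.count_pos_iff.2 h5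
    have c6 := List.count_pos_iff.2 h6
    have hcard : ({p, q, r} : Finset ℕ).card = 3 := Finset.card_eq_three.2 ⟨p, q, r, hpq, hpr, hqr, rfl⟩
    have hsum : ∀ f : ℕ → ℕ, ∑ y ∈ ({p, q, r} : Finset ℕ), f y = f p + (f q + f r) := by
      intro f
      rw [Finset.sum_insert (by simp [hpq, hpr]), Finset.sum_pair hqr]
    refine ⟨{p, q, r}, by omega, by omega, ?_, ?_, ?_⟩
    · refine mex_closed hd hd' ?_ ?_
      · intro x hx
        rw [hsum]
        simp only [Finset.mem_insert, Finset.mem_singleton] at hx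
        rcases hx with rfl | rfl | rfl <;> omega
      · intro x hx
        rw [hsum]
        simp only [Finset.mem_insert, Finset.mem_singleton] at hx
        rcases hx with rfl | rfl | rfl <;> omega
    · intro x hx y hy hxy
      simp only [Finset.mem_insert, Finset.mem_singleton] at hx hy
      rcases hx with rfl | rfl | rfl <;> rcases hy with rfl | rfl | rfl <;>
        first | exact absurd rfl hxy | assumption
    · by_contra hc
      push Not at hc
      have hz : ∀ x y, (x, y) ∈ R ++ Q → x ∈ ({p, q, r} : Finset ℕ) → (x, y) ∈ E := by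
        intro x y hm hx
        rcases List.mem_append.1 hm with h | h
        · exact hRm _ h
        · exact absurd hx (hc _ h)
      exact hE.noK3 p q r ⟨hz _ _ h1 (by simp), hz _ _ h2 (by simp), hz _ _ h3 (by simp),
        hz _ _ h4 (by simp), hz _ _ h5 (by simp), hz _ _ h6 (by simp)⟩

/-! ### degrees after removing vertices -/

theorem mex_rem_cons (U : List ℕ) (e : ℕ × ℕ) (E : List (ℕ × ℕ)) :
    remE U (e :: E) = if e.1 ∈ U ∨ e.2 ∈ U then remE U E else e :: remE U E := by
  by_cases h1 : e.1 ∈ U <;> by_cases h2 : e.2 ∈ U <;> simp [remE, h1, h2]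

theorem mex_out_rem (U : List ℕ) (E : List (ℕ × ℕ)) {w : ℕ} (hw : w ∉ U) :
    outN E w = outN (remE U E) w + E.countP (fun e => e.1 == w && decide (e.2 ∈ U)) := by
  induction E with
  | nil => rfl
  | cons e E ih =>
    unfold outN at *
    rw [List.countP_cons, List.countP_cons, ih, mex_rem_cons]
    by_cases h1 : e.1 = w
    · have h1' : e.1 ∉ U := by rw [h1]; exact hw
      by_cases h2 : e.2 ∈ U
      · simp [h1, h2]; omega
      · simp [h1, h2, hw]; omega
    · by_cases h2 : e.2 ∈ U <;> by_cases h3 : e.1 ∈ U <;>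
        simp [h1, h2, h3]

theorem mex_in_rem (U : List ℕ) (E : List (ℕ × ℕ)) {w : ℕ} (hw : w ∉ U) :
    inN E w = inN (remE U E) w + E.countP (fun e => e.2 == w && decide (e.1 ∈ U)) := by
  induction E with
  | nil => rfl
  | cons e E ih =>
    unfold inN at *
    rw [List.countP_cons, List.countP_cons, ih, mex_rem_cons]
    by_cases h1 : e.2 = w
    · have h1' : e.2 ∉ U := by rw [h1]; exact hw
      by_cases h2 : e.1 ∈ U
      · simp only [h1, BEq.rfl, ↓reduceIte, h2, true_or, decide_true, Bool.and_self]; omega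
      · simp only [h1, BEq.rfl, ↓reduceIte, h2, hw, or_self, List.countP_cons_of_pos, decide_false, Bool.and_false, Bool.false_eq_true, add_zero]; omega
    · by_cases h2 : e.1 ∈ U <;> by_cases h3 : e.2 ∈ U <;>
        simp [h1, h2, h3]

theorem mex_out_rem_mem (U : List ℕ) (E : List (ℕ × ℕ)) {w : ℕ} (hw : w ∈ U) :
    outN (remE U E) w = 0 := by
  rw [outN, List.countP_eq_zero]
  intro e he h
  rw [mex_mem_rem] at he
  exact he.2.1 (by simpa using (by simpa using h : e.1 = w) ▸ hw)

theorem mex_in_rem_mem (U : List ℕ) (E : List (ℕ × ℕ)) {w : ℕ} (hw : w ∈ U) :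
    inN (remE U E) w = 0 := by
  rw [inN, List.countP_eq_zero]
  intro e he h
  rw [mex_mem_rem] at he
  exact he.2.2 (by simpa using (by simpa using h : e.2 = w) ▸ hw)

/-- removing vertices keeps everything but the balance -/
theorem mex_sub_good {U : List ℕ} {E : List (ℕ × ℕ)} (hE : GoodG E)
    (hb : ∀ w ∉ U, outN (remE U E) w = inN (remE U E) w) : GoodG (moveE (U, []) E) := by
  have hm : moveE (U, []) E = remE U E := by simp [moveE]
  rw [hm]
  have hsub : ∀ e, e ∈ remE U E → e ∈ E := fun e he => (mex_mem_rem.1 he).1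
  refine ⟨fun w => ?_, fun w => ?_, fun e he => hE.loop e (hsub e he), ?_, ?_⟩
  · by_cases hw : w ∈ U
    · rw [mex_out_rem_mem U E hw, mex_in_rem_mem U E hw]
    · exact hb w hw
  · by_cases hw : w ∈ U
    · rw [mex_out_rem_mem U E hw]; omega
    · have := mex_out_rem U E hw
      have := hE.deg w
      omega
  · rintro p q ⟨h1, h2⟩
    exact hE.noD2 p q ⟨h1.trans (mex_rem_count U E _), h2.trans (mex_rem_count U E _)⟩
  · rintro p q r ⟨h1, h2, h3, h4, h5, h6⟩
    exact hE.noK3 p q r ⟨hsub _ h1, hsub _ h2, hsub _ h3, hsub _ h4, hsub _ h5, hsub _ h6⟩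

/-- removing a closed set -/
theorem mex_m0 {U : List ℕ} {E : List (ℕ × ℕ)} (hE : GoodG E) (h1 : U ≠ []) (h2 : U.length ≤ 4)
    (h3 : ∀ u ∈ U, u ∈ E.map Prod.fst) (h4 : ∀ e ∈ E, (e.1 ∈ U ↔ e.2 ∈ U)) :
    ∃ U Q, IsMove E U Q ∧ GoodG (moveE (U, Q) E) := by
  refine ⟨U, [], IsMove.m0 U h1 h2 h3 h4, mex_sub_good hE fun w hw => ?_⟩
  have e1 := mex_out_rem U E hw
  have e2 := mex_in_rem U E hw
  have z1 : E.countP (fun e => e.1 == w && decide (e.2 ∈ U)) = 0 := by
    rw [List.countP_eq_zero]
    intro e he h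
    simp only [Bool.and_eq_true, beq_iff_eq, decide_eq_true_eq] at h
    exact hw (h.1 ▸ (h4 e he).2 h.2)
  have z2 : E.countP (fun e => e.2 == w && decide (e.1 ∈ U)) = 0 := by
    rw [List.countP_eq_zero]
    intro e he h
    simp only [Bool.and_eq_true, beq_iff_eq, decide_eq_true_eq] at h
    exact hw (h.1 ▸ (h4 e he).1 h.2)
  have := hE.bal w
  omega

theorem mex_single_out (E : List (ℕ × ℕ)) {v w : ℕ} (hw : w ≠ v) :
    outN E w = outN (remE [v] E) w + (inE v E).countP (fun e => e.1 == w) := by
  rw [mex_out_rem [v] E (by simpa using hw), inE, List.countP_filter]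
  congr 2
  funext e
  by_cases h : e.2 = v <;> simp [h]

theorem mex_single_in (E : List (ℕ × ℕ)) {v w : ℕ} (hw : w ≠ v) :
    inN E w = inN (remE [v] E) w + (outE v E).countP (fun e => e.2 == w) := by
  rw [mex_in_rem [v] E (by simpa using hw), outE, List.countP_filter]
  congr 2
  funext e
  by_cases h : e.1 = v <;> simp [h]

/-- degrees after a splice at one vertex -/
theorem mex_splice {E Q : List (ℕ × ℕ)} (hE : GoodG E) {v : ℕ}
    (h1 : ∀ w, Q.countP (fun e => e.1 == w) = (inE v E).countP (fun e => e.1 == w))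
    (h2 : ∀ w, Q.countP (fun e => e.2 == w) = (outE v E).countP (fun e => e.2 == w)) :
    (∀ w, outN (remE [v] E ++ Q) w = inN (remE [v] E ++ Q) w) ∧
      (∀ w, outN (remE [v] E ++ Q) w ≤ 2) ∧ ∀ w, w ≠ v → outN (remE [v] E ++ Q) w = outN E w := by
  have z1 : outN Q v = 0 := by
    rw [outN, h1 v, List.countP_eq_zero]
    intro e he h
    rw [mex_mem_in] at he
    have : e.1 = v := by simpa using h
    exact hE.loop e he.1 (this.trans he.2.symm)
  have z2 : inN Q v = 0 := by
    rw [inN, h2 v, List.countP_eq_zero]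
    intro e he h
    rw [mex_mem_out] at he
    have : e.2 = v := by simpa using h
    exact hE.loop e he.1 (he.2.trans this.symm)
  have o1 : ∀ w, w ≠ v → outN (remE [v] E ++ Q) w = outN E w := by
    intro w hw
    rw [mex_outN_append, mex_single_out E hw, ← h1 w]; rfl
  have o2 : ∀ w, w ≠ v → inN (remE [v] E ++ Q) w = inN E w := by
    intro w hw
    rw [mex_inN_append, mex_single_in E hw, ← h2 w]; rfl
  have o3 : outN (remE [v] E ++ Q) v = 0 := by
    rw [mex_outN_append, mex_out_rem_mem [v] E (by simp), z1]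
  have o4 : inN (remE [v] E ++ Q) v = 0 := by
    rw [mex_inN_append, mex_in_rem_mem [v] E (by simp), z2]
  refine ⟨fun w => ?_, fun w => ?_, o1⟩
  · by_cases hw : w = v
    · rw [hw, o3, o4]
    · rw [o1 w hw, o2 w hw, hE.bal w]
  · by_cases hw : w = v
    · rw [hw, o3]; omega
    · rw [o1 w hw]; exact hE.deg w

/-- removing `v` and a bad set containing all its neighbours -/
theorem mex_m0_single {E Q : List (ℕ × ℕ)} (hE : GoodG E) {v : ℕ} {K : Finset ℕ}
    (hK2 : 2 ≤ K.card) (hK3 : K.card ≤ 3)
    (hcl : ∀ e ∈ remE [v] E ++ Q, e.1 ∈ K ↔ e.2 ∈ K)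
    (hcp : ∀ x ∈ K, ∀ y ∈ K, x ≠ y → (x, y) ∈ remE [v] E ++ Q)
    (hQ : ∀ e ∈ Q, (e.1, v) ∈ E) (hv : v ∈ E.map Prod.fst)
    (hi : ∀ e ∈ inE v E, e.1 ∈ K) (ho : ∀ e ∈ outE v E, e.2 ∈ K) :
    ∃ U Q, IsMove E U Q ∧ GoodG (moveE (U, Q) E) := by
  refine mex_m0 (U := v :: K.toList) hE (by simp) (by simp; omega) ?_ ?_
  · intro u hu
    rcases List.mem_cons.1 hu with rfl | hu
    · exact hv
    · rw [Finset.mem_toList] at hu
      obtain ⟨y, hy, hyu⟩ := Finset.exists_mem_ne (by omega : 1 < K.card) u
      rcases List.mem_append.1 (hcp u hu y hy hyu.symm) with h | h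
      · exact List.mem_map.2 ⟨_, (mex_mem_rem.1 h).1, rfl⟩
      · exact List.mem_map.2 ⟨_, hQ _ h, rfl⟩
  · intro e he
    simp only [List.mem_cons, Finset.mem_toList]
    by_cases h1 : e.1 = v
    · have := ho e (mex_mem_out.2 ⟨he, h1⟩)
      simp [h1, this]
    by_cases h2 : e.2 = v
    · have := hi e (mex_mem_in.2 ⟨he, h2⟩)
      simp [h2, this]
    · have := hcl e (List.mem_append_left _ (mex_mem_rem.2 ⟨he, by simpa using h1,
        by simpa using h2⟩))
      simp [h1, h2, this]

/-! ### the structure of the arcs at a vertex -/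

theorem mex_one_in {E : List (ℕ × ℕ)} {v : ℕ} (h : inN E v = 1) : ∃ a, inE v E = [(a, v)] := by
  obtain ⟨e, he⟩ := List.length_eq_one_iff.1 ((mex_in_len E v).trans h)
  have h2 := (mex_mem_in.1 (he ▸ List.mem_singleton_self e : e ∈ inE v E)).2
  exact ⟨e.1, by rw [he, ← h2]⟩

theorem mex_one_out {E : List (ℕ × ℕ)} {v : ℕ} (h : outN E v = 1) : ∃ a, outE v E = [(v, a)] := by
  obtain ⟨e, he⟩ := List.length_eq_one_iff.1 ((mex_out_len E v).trans h)
  have h2 := (mex_mem_out.1 (he ▸ List.mem_singleton_self e : e ∈ outE v E)).2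
  exact ⟨e.2, by rw [he, ← h2]⟩

theorem mex_two_in {E : List (ℕ × ℕ)} {v : ℕ} (h : inN E v = 2) :
    ∃ a b, inE v E = [(a, v), (b, v)] := by
  obtain ⟨e, f, he⟩ := List.length_eq_two.1 ((mex_in_len E v).trans h)
  have h1 := (mex_mem_in.1 (he ▸ by simp : e ∈ inE v E)).2
  have h2 := (mex_mem_in.1 (he ▸ by simp : f ∈ inE v E)).2
  refine ⟨e.1, f.1, ?_⟩
  rw [he]
  congr 1
  · rw [← h1]
  · rw [← h2]

theorem mex_two_out {E : List (ℕ × ℕ)} {v : ℕ} (h : outN E v = 2) :
    ∃ c d, outE v E = [(v, c), (v, d)] := by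
  obtain ⟨e, f, he⟩ := List.length_eq_two.1 ((mex_out_len E v).trans h)
  have h1 := (mex_mem_out.1 (he ▸ by simp : e ∈ outE v E)).2
  have h2 := (mex_mem_out.1 (he ▸ by simp : f ∈ outE v E)).2
  refine ⟨e.2, f.2, ?_⟩
  rw [he]
  congr 1
  · rw [← h1]
  · rw [← h2]

/-! ### vertices of degree one -/

theorem mex_deg_one {E : List (ℕ × ℕ)} (hE : GoodG E) {v a c : ℕ} (hin : inE v E = [(a, v)])
    (hout : outE v E = [(v, c)]) : ∃ U Q, IsMove E U Q ∧ GoodG (moveE (U, Q) E) := by
  have mv : (v, c) ∈ E := (mex_mem_out.1 (hout ▸ List.mem_singleton_self _ :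
    (v, c) ∈ outE v E)).1
  have ma : (a, v) ∈ E := (mex_mem_in.1 (hin ▸ List.mem_singleton_self _ :
    (a, v) ∈ inE v E)).1
  by_cases hac : a = c
  · subst hac
    refine ⟨[v], [], IsMove.r1' v a hin hout, mex_sub_good hE fun w hw => ?_⟩
    have hw' : w ≠ v := by simpa using hw
    have e1 := mex_single_out E hw'
    have e2 := mex_single_in E hw'
    rw [hin] at e1
    rw [hout] at e2
    have e3 := hE.bal w
    simp only [List.countP_cons, List.countP_nil] at e1 e2
    omega
  by_cases hg : GoodG (moveE ([v], [(a, c)]) E)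
  · exact ⟨[v], [(a, c)], IsMove.r1 v a c hin hout hac, hg⟩
  obtain ⟨b1, b2, -⟩ := mex_splice (Q := [(a, c)]) hE (v := v)
    (fun w => by rw [hin]; simp only [List.countP_cons, List.countP_nil, beq_iff_eq, zero_add]) (fun w => by rw [hout]; simp [List.countP_cons])
  obtain ⟨K, k1, k2, k3, k4, k5⟩ := mex_bad hE (mex_rem_count [v] E) b1 b2 (by
    intro e he
    rcases List.mem_append.1 he with h | h
    · exact hE.loop e (mex_mem_rem.1 h).1
    · rw [List.mem_singleton] at h; rw [h]; exact hac) hg
  obtain ⟨e, he, heK⟩ := k5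
  rw [List.mem_singleton] at he
  subst he
  have hcK : c ∈ K := (k3 (a, c) (by simp)).1 heK
  refine mex_m0_single hE k1 k2 k3 k4 ?_ (List.mem_map.2 ⟨_, mv, rfl⟩) ?_ ?_
  · intro e he
    rw [List.mem_singleton] at he; subst he; exact ma
  · intro e he
    rw [hin, List.mem_singleton] at he; subst he; exact heK
  · intro e he
    rw [hout, List.mem_singleton] at he; subst he; exact hcK

/-! ### vertices of degree two -/

theorem mex_four {K : Finset ℕ} (hK : K.card ≤ 3) {a b c d : ℕ} (ha : a ∈ K) (hb : b ∈ K)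
    (hc : c ∈ K) (hd : d ∈ K) (h1 : a ≠ b) (h2 : a ≠ c) (h3 : a ≠ d) (h4 : b ≠ c) (h5 : b ≠ d)
    (h6 : c ≠ d) : False := by
  have hs : ({a, b, c, d} : Finset ℕ) ⊆ K := by
    intro x hx
    simp only [Finset.mem_insert, Finset.mem_singleton] at hx
    rcases hx with rfl | rfl | rfl | rfl <;> assumption
  have hc4 : ({a, b, c, d} : Finset ℕ).card = 4 := by
    rw [Finset.card_insert_of_notMem (by simp [h1, h2, h3]),
      Finset.card_insert_of_notMem (by simp [h4, h5]), Finset.card_pair h6]
  have := Finset.card_le_card hs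
  omega

theorem mex_cnt (v a b w : ℕ) : ([(a, v), (b, v)] : List (ℕ × ℕ)).countP (fun e => e.1 == w) =
    (if a = w then 1 else 0) + (if b = w then 1 else 0) := by
  simp only [List.countP_cons, List.countP_nil, beq_iff_eq]
  omega

theorem mex_cnt' (v a b w : ℕ) : ([(v, a), (v, b)] : List (ℕ × ℕ)).countP (fun e => e.2 == w) =
    (if a = w then 1 else 0) + (if b = w then 1 else 0) := by
  simp only [List.countP_cons, List.countP_nil, beq_iff_eq]
  omega

theorem mex_splice2 {E : List (ℕ × ℕ)} (hE : GoodG E) {v a b c d : ℕ}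
    (hin : inE v E = [(a, v), (b, v)]) (hout : (outE v E).Perm [(v, c), (v, d)]) :
    (∀ w, outN (remE [v] E ++ [(a, c), (b, d)]) w = inN (remE [v] E ++ [(a, c), (b, d)]) w) ∧
      (∀ w, outN (remE [v] E ++ [(a, c), (b, d)]) w ≤ 2) ∧
      ∀ w, w ≠ v → outN (remE [v] E ++ [(a, c), (b, d)]) w = outN E w := by
  refine mex_splice hE (fun w => ?_) (fun w => ?_)
  · rw [hin, mex_cnt]
    simp only [List.countP_cons, List.countP_nil, beq_iff_eq]
    omega
  · rw [hout.countP_eq, mex_cnt']
    simp only [List.countP_cons, List.countP_nil, beq_iff_eq]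
    omega

theorem mex_r3_core {E : List (ℕ × ℕ)} (hE : GoodG E) {v a b c d : ℕ}
    (hin : inE v E = [(a, v), (b, v)]) (hout : (outE v E).Perm [(v, c), (v, d)]) (hac : a ≠ c)
    (hbd : b ≠ d) : ∃ U Q, IsMove E U Q ∧ GoodG (moveE (U, Q) E) := by
  have mc : (v, c) ∈ E := (mex_mem_out.1 (hout.mem_iff.2 (by simp) : (v, c) ∈ outE v E)).1
  have ma : (a, v) ∈ E := (mex_mem_in.1 (by rw [hin]; simp : (a, v) ∈ inE v E)).1
  have mb : (b, v) ∈ E := (mex_mem_in.1 (by rw [hin]; simp : (b, v) ∈ inE v E)).1
  by_cases hg : GoodG (moveE ([v], [(a, c), (b, d)]) E)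
  · exact ⟨_, _, IsMove.r3 v a b c d hin hout hac hbd, hg⟩
  obtain ⟨b1, b2, -⟩ := mex_splice2 hE hin hout
  obtain ⟨K, k1, k2, k3, k4, k5⟩ := mex_bad hE (mex_rem_count [v] E) b1 b2 (by
    intro e he
    rcases List.mem_append.1 he with h | h
    · exact hE.loop e (mex_mem_rem.1 h).1
    · simp only [List.mem_cons, List.not_mem_nil, or_false] at h
      rcases h with rfl | rfl
      · exact hac
      · exact hbd) hg
  have ac : a ∈ K ↔ c ∈ K := k3 (a, c) (by simp)
  have bd : b ∈ K ↔ d ∈ K := k3 (b, d) (by simp)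
  have hab : a ∈ K ∨ b ∈ K := by
    obtain ⟨e, he, heK⟩ := k5
    simp only [List.mem_cons, List.not_mem_nil, or_false] at he
    rcases he with rfl | rfl
    · exact Or.inl heK
    · exact Or.inr heK
  -- the other splice
  have hout' : (outE v E).Perm [(v, d), (v, c)] := hout.trans (List.Perm.swap _ _ _)
  have other : a ≠ d → b ≠ c → (∀ K' : Finset ℕ, K'.card ≤ 3 →
      (∀ e ∈ remE [v] E ++ [(a, d), (b, c)], e.1 ∈ K' ↔ e.2 ∈ K') → a ∈ K' ∨ b ∈ K' → False) →
      ∃ U Q, IsMove E U Q ∧ GoodG (moveE (U, Q) E) := by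
    intro had hbc hK
    refine ⟨_, _, IsMove.r3 v a b d c hin hout' had hbc, ?_⟩
    by_contra hg'
    obtain ⟨b1', b2', -⟩ := mex_splice2 hE hin hout'
    obtain ⟨K', -, k2', k3', -, k5'⟩ := mex_bad hE (mex_rem_count [v] E) b1' b2' (by
      intro e he
      rcases List.mem_append.1 he with h | h
      · exact hE.loop e (mex_mem_rem.1 h).1
      · simp only [List.mem_cons, List.not_mem_nil, or_false] at h
        rcases h with rfl | rfl
        · exact had
        · exact hbc) hg'
    refine hK K' k2' k3' ?_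
    obtain ⟨e, he, heK⟩ := k5'
    simp only [List.mem_cons, List.not_mem_nil, or_false] at he
    rcases he with rfl | rfl
    · exact Or.inl heK
    · exact Or.inr heK
  by_cases ha : a ∈ K <;> by_cases hb : b ∈ K
  · -- both sources in `K`
    refine mex_m0_single hE k1 k2 k3 k4 ?_ (List.mem_map.2 ⟨_, mc, rfl⟩) ?_ ?_
    · intro e he
      simp only [List.mem_cons, List.not_mem_nil, or_false] at he
      rcases he with rfl | rfl
      · exact ma
      · exact mb
    · intro e he
      rw [hin] at he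
      simp only [List.mem_cons, List.not_mem_nil, or_false] at he
      rcases he with rfl | rfl
      · exact ha
      · exact hb
    · intro e he
      rw [hout.mem_iff] at he
      simp only [List.mem_cons, List.not_mem_nil, or_false] at he
      rcases he with rfl | rfl
      · exact ac.1 ha
      · exact bd.1 hb
  · have hc := ac.1 ha
    have hd : d ∉ K := fun h => hb (bd.2 h)
    have hca : (c, a) ∈ remE [v] E := by
      rcases List.mem_append.1 (k4 c hc a ha hac.symm) with h | h
      · exact h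
      · simp only [List.mem_cons, Prod.mk.injEq, List.not_mem_nil, or_false] at h
        rcases h with ⟨h, -⟩ | ⟨h, -⟩
        · exact absurd h.symm hac
        · exact absurd (h ▸ hc) hb
    have had : a ≠ d := fun h => hd (h ▸ ha)
    have hbc : b ≠ c := fun h => hb (h ▸ hc)
    refine other had hbc fun K' q2 q3 q5 => ?_
    have r1 : a ∈ K' ↔ d ∈ K' := q3 (a, d) (by simp)
    have r2 : b ∈ K' ↔ c ∈ K' := q3 (b, c) (by simp)
    have r3 : c ∈ K' ↔ a ∈ K' := q3 (c, a) (List.mem_append_left _ hca)
    have hall : a ∈ K' ∧ b ∈ K' ∧ c ∈ K' ∧ d ∈ K' := by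
      rcases q5 with h | h
      · exact ⟨h, r2.2 (r3.2 h), r3.2 h, r1.1 h⟩
      · exact ⟨r3.1 (r2.1 h), h, r2.1 h, r1.1 (r3.1 (r2.1 h))⟩
    exact mex_four q2 hall.1 hall.2.1 hall.2.2.1 hall.2.2.2 (fun h => hb (h ▸ ha)) hac had hbc hbd
      (fun h => hd (h ▸ hc))
  · have hd := bd.1 hb
    have hc : c ∉ K := fun h => ha (ac.2 h)
    have hdb : (d, b) ∈ remE [v] E := by
      rcases List.mem_append.1 (k4 d hd b hb hbd.symm) with h | h
      · exact h
      · simp only [List.mem_cons, Prod.mk.injEq, List.not_mem_nil, or_false] at h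
        rcases h with ⟨h, -⟩ | ⟨h, -⟩
        · exact absurd (h ▸ hd) ha
        · exact absurd h.symm hbd
    have had : a ≠ d := fun h => ha (h ▸ hd)
    have hbc : b ≠ c := fun h => hc (h ▸ hb)
    refine other had hbc fun K' q2 q3 q5 => ?_
    have r1 : a ∈ K' ↔ d ∈ K' := q3 (a, d) (by simp)
    have r2 : b ∈ K' ↔ c ∈ K' := q3 (b, c) (by simp)
    have r3 : d ∈ K' ↔ b ∈ K' := q3 (d, b) (List.mem_append_left _ hdb)
    have hall : a ∈ K' ∧ b ∈ K' ∧ c ∈ K' ∧ d ∈ K' := by
      rcases q5 with h | h
      · exact ⟨h, r3.1 (r1.1 h), r2.1 (r3.1 (r1.1 h)), r1.1 h⟩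
      · exact ⟨r1.2 (r3.2 h), h, r2.1 h, r3.2 h⟩
    exact mex_four q2 hall.1 hall.2.1 hall.2.2.1 hall.2.2.2 (fun h => ha (h ▸ hb)) hac had hbc hbd
      (fun h => hc (h ▸ hd))
  · rcases hab with h | h
    · exact absurd h ha
    · exact absurd h hb

/-- a vertex of degree two which is in no triple pair -/
theorem mex_r3 {E : List (ℕ × ℕ)} (hE : GoodG E) {v a b c d : ℕ}
    (hin : inE v E = [(a, v), (b, v)]) (hout : (outE v E).Perm [(v, c), (v, d)])
    (h : (a ≠ c ∧ b ≠ d) ∨ (a ≠ d ∧ b ≠ c)) : ∃ U Q, IsMove E U Q ∧ GoodG (moveE (U, Q) E) := by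
  rcases h with ⟨h1, h2⟩ | ⟨h1, h2⟩
  · exact mex_r3_core hE hin hout h1 h2
  · exact mex_r3_core hE hin (hout.trans (List.Perm.swap _ _ _)) h1 h2

/-- a vertex of degree two with two different predecessors and two different successors -/
theorem mex_r3_distinct {E : List (ℕ × ℕ)} (hE : GoodG E) {u x y x' y' : ℕ} (hxy : x ≠ y)
    (hxy' : x' ≠ y') (h1 : (x, u) ∈ E) (h2 : (y, u) ∈ E) (h3 : (u, x') ∈ E) (h4 : (u, y') ∈ E) :
    ∃ U Q, IsMove E U Q ∧ GoodG (moveE (U, Q) E) := by
  have ho : outN E u = 2 := by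
    have s1 := mex_sum_out {x', y'} u E
    rw [Finset.sum_pair hxy'] at s1
    have c1 := List.count_pos_iff.2 h3
    have c2 := List.count_pos_iff.2 h4
    have := hE.deg u
    omega
  obtain ⟨a, b, hin⟩ := mex_two_in ((hE.bal u).symm.trans ho)
  obtain ⟨c, d, hout⟩ := mex_two_out ho
  have hab : a ≠ b := by
    rintro rfl
    have m1 : (x, u) ∈ inE u E := mex_mem_in.2 ⟨h1, rfl⟩
    have m2 : (y, u) ∈ inE u E := mex_mem_in.2 ⟨h2, rfl⟩
    rw [hin] at m1 m2
    simp only [List.mem_cons, Prod.mk.injEq, and_true, List.not_mem_nil, or_false, or_self]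
      at m1 m2
    exact hxy (m1.trans m2.symm)
  have hcd : c ≠ d := by
    rintro rfl
    have m1 : (u, x') ∈ outE u E := mex_mem_out.2 ⟨h3, rfl⟩
    have m2 : (u, y') ∈ outE u E := mex_mem_out.2 ⟨h4, rfl⟩
    rw [hout] at m1 m2
    simp only [List.mem_cons, Prod.mk.injEq, true_and, List.not_mem_nil, or_false, or_self]
      at m1 m2
    exact hxy' (m1.trans m2.symm)
  refine mex_r3 hE hin (by rw [hout]) ?_
  by_cases h5 : a = c
  · right
    exact ⟨fun h => hcd (h5.symm.trans h), fun h => hab (h5.trans h.symm)⟩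
  by_cases h6 : b = d
  · right
    exact ⟨fun h => hab (h.trans h6.symm), fun h => hcd (h.symm.trans h6)⟩
  · exact Or.inl ⟨h5, h6⟩

/-! ### triple pairs -/

theorem mex_count_out {E : List (ℕ × ℕ)} (p q : ℕ) : (outE p E).count (p, q) = E.count (p, q) :=
  List.count_filter (by simp)

theorem mex_count_in {E : List (ℕ × ℕ)} (p q : ℕ) : (inE q E).count (p, q) = E.count (p, q) :=
  List.count_filter (by simp)

theorem mex_pair_in {E : List (ℕ × ℕ)} {p q w : ℕ} (hpq : p ≠ q) :
    E.countP (fun e => e.1 == w && decide (e.2 ∈ [p, q])) =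
      (inE p E).countP (fun e => e.1 == w) + (inE q E).countP (fun e => e.1 == w) := by
  rw [inE, inE, List.countP_filter, List.countP_filter]
  induction E with
  | nil => rfl
  | cons e E ih =>
    rw [List.countP_cons, List.countP_cons, List.countP_cons, ih]
    by_cases h0 : e.1 = w <;> by_cases h1 : e.2 = p <;> by_cases h2 : e.2 = q
    · exact absurd (h1.symm.trans h2) hpq
    · simp only [h0, BEq.rfl, h1, List.mem_cons, hpq, List.not_mem_nil, or_self, or_false, decide_true, Bool.and_self, ↓reduceIte, Bool.true_and, beq_iff_eq, add_zero]; omega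
    · simp only [h0, BEq.rfl, h2, List.mem_cons, hpq.symm, List.not_mem_nil, or_false, or_true, decide_true, Bool.and_self, ↓reduceIte, Bool.true_and, beq_iff_eq, add_zero]; omega
    · simp [h0, h1, h2]
    · exact absurd (h1.symm.trans h2) hpq
    · simp [h0]
    · simp [h0]
    · simp [h0]

theorem mex_pair_out {E : List (ℕ × ℕ)} {p q w : ℕ} (hpq : p ≠ q) :
    E.countP (fun e => e.2 == w && decide (e.1 ∈ [p, q])) =
      (outE p E).countP (fun e => e.2 == w) + (outE q E).countP (fun e => e.2 == w) := by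
  rw [outE, outE, List.countP_filter, List.countP_filter]
  induction E with
  | nil => rfl
  | cons e E ih =>
    rw [List.countP_cons, List.countP_cons, List.countP_cons, ih]
    by_cases h0 : e.2 = w <;> by_cases h1 : e.1 = p <;> by_cases h2 : e.1 = q
    · exact absurd (h1.symm.trans h2) hpq
    · simp only [h0, BEq.rfl, h1, List.mem_cons, hpq, List.not_mem_nil, or_self, or_false, decide_true, Bool.and_self, ↓reduceIte, Bool.true_and, beq_iff_eq, add_zero]; omega
    · simp only [h0, BEq.rfl, h2, List.mem_cons, hpq.symm, List.not_mem_nil, or_false, or_true, decide_true, Bool.and_self, ↓reduceIte, Bool.true_and, beq_iff_eq, add_zero]; omega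
    · simp [h0, h1, h2]
    · exact absurd (h1.symm.trans h2) hpq
    · simp only [List.mem_cons, List.not_mem_nil, or_false, Bool.decide_or, Bool.and_eq_true, beq_iff_eq, h0, Bool.or_eq_true, decide_eq_true_eq, false_and, ↓reduceIte, add_zero, Nat.add_left_cancel_iff]
    · simp [h0]
    · simp [h0]

/-- the case `x = y` of a triple pair -/
theorem mex_triple_eq {E : List (ℕ × ℕ)} (hE : GoodG E) {p q x : ℕ} (hpq : p ≠ q) (hxq : x ≠ q)
    (hxp : x ≠ p) (hop : outE p E = [(p, q), (p, q)]) (hiq : inE q E = [(p, q), (p, q)])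
    (hip : (inE p E).Perm [(x, p), (q, p)]) (hoq : (outE q E).Perm [(q, p), (q, x)]) :
    ∃ U Q, IsMove E U Q ∧ GoodG (moveE (U, Q) E) := by
  have mpq : (p, q) ∈ E := (mex_mem_out.1 (by rw [hop]; simp : (p, q) ∈ outE p E)).1
  have mqp : (q, p) ∈ E := (mex_mem_out.1 (hoq.mem_iff.2 (by simp) : (q, p) ∈ outE q E)).1
  have mxp : (x, p) ∈ E := (mex_mem_in.1 (hip.mem_iff.2 (by simp) : (x, p) ∈ inE p E)).1
  have mqx : (q, x) ∈ E := (mex_mem_out.1 (hoq.mem_iff.2 (by simp) : (q, x) ∈ outE q E)).1
  have hx1 : 1 ≤ outN E x := by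
    have := mex_sum_out {p} x E
    rw [Finset.sum_singleton] at this
    have h2 := List.count_pos_iff.2 mxp
    omega
  have hx2 := hE.deg x
  by_cases h1 : outN E x = 1
  · obtain ⟨c, hc⟩ := mex_one_out h1
    obtain ⟨a, ha⟩ := mex_one_in ((hE.bal x).symm.trans h1)
    have hcp : c = p := by
      have : (x, p) ∈ outE x E := mex_mem_out.2 ⟨mxp, rfl⟩
      rw [hc] at this
      simp only [List.mem_singleton, Prod.mk.injEq, true_and] at this
      exact this.symm
    have haq : a = q := by
      have : (q, x) ∈ inE x E := mex_mem_in.2 ⟨mqx, rfl⟩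
      rw [ha] at this
      simp only [List.mem_singleton, Prod.mk.injEq, and_true] at this
      exact this.symm
    subst hcp haq
    refine mex_m0 (U := [x, c, a]) hE (by simp) (by simp) ?_ ?_
    · intro u hu
      simp only [List.mem_cons, List.not_mem_nil, or_false] at hu
      rcases hu with rfl | rfl | rfl
      · exact List.mem_map.2 ⟨_, mxp, rfl⟩
      · exact List.mem_map.2 ⟨_, mpq, rfl⟩
      · exact List.mem_map.2 ⟨_, mqp, rfl⟩
    · rintro ⟨e₁, e₂⟩ he
      simp only [List.mem_cons, List.not_mem_nil, or_false]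
      constructor
      · rintro (rfl | rfl | rfl)
        · have : (e₁, e₂) ∈ outE e₁ E := mex_mem_out.2 ⟨he, rfl⟩
          rw [hc] at this
          simp only [List.mem_singleton, Prod.mk.injEq] at this
          (clear * - this; tauto)
        · have : (e₁, e₂) ∈ outE e₁ E := mex_mem_out.2 ⟨he, rfl⟩
          rw [hop] at this
          simp only [List.mem_cons, Prod.mk.injEq, List.not_mem_nil, or_false] at this
          (clear * - this; tauto)
        · have : (e₁, e₂) ∈ outE e₁ E := mex_mem_out.2 ⟨he, rfl⟩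
          rw [hoq.mem_iff] at this
          simp only [List.mem_cons, Prod.mk.injEq, List.not_mem_nil, or_false] at this
          (clear * - this; tauto)
      · rintro (rfl | rfl | rfl)
        · have : (e₁, e₂) ∈ inE e₂ E := mex_mem_in.2 ⟨he, rfl⟩
          rw [ha] at this
          simp only [List.mem_singleton, Prod.mk.injEq] at this
          (clear * - this; tauto)
        · have : (e₁, e₂) ∈ inE e₂ E := mex_mem_in.2 ⟨he, rfl⟩
          rw [hip.mem_iff] at this
          simp only [List.mem_cons, Prod.mk.injEq, List.not_mem_nil, or_false] at this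
          (clear * - this; tauto)
        · have : (e₁, e₂) ∈ inE e₂ E := mex_mem_in.2 ⟨he, rfl⟩
          rw [hiq] at this
          simp only [List.mem_cons, Prod.mk.injEq, List.not_mem_nil, or_false] at this
          (clear * - this; tauto)
  · have h2 : outN E x = 2 := by omega
    obtain ⟨c, d, hc⟩ := mex_two_out h2
    obtain ⟨a, b, ha⟩ := mex_two_in ((hE.bal x).symm.trans h2)
    have hab : a ≠ b := by
      rintro rfl
      have haq : a = q := by
        have : (q, x) ∈ inE x E := mex_mem_in.2 ⟨mqx, rfl⟩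
        rw [ha] at this
        simp only [List.mem_cons, Prod.mk.injEq, and_true, List.not_mem_nil, or_false,
          or_self] at this
        exact this.symm
      subst haq
      have c1 := mex_count_in (E := E) a x
      have c2 := mex_count_out (E := E) a x
      rw [ha] at c1
      rw [hoq.count_eq] at c2
      have e1 : ([(a, x), (a, x)] : List (ℕ × ℕ)).count (a, x) = 2 := by simp
      have e2 : ([(a, p), (a, x)] : List (ℕ × ℕ)).count (a, x) = 1 := by
        simp [Ne.symm hxp]
      omega
    have hcd : c ≠ d := by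
      rintro rfl
      have hcp : c = p := by
        have : (x, p) ∈ outE x E := mex_mem_out.2 ⟨mxp, rfl⟩
        rw [hc] at this
        simp only [List.mem_cons, Prod.mk.injEq, true_and, List.not_mem_nil, or_false,
          or_self] at this
        exact this.symm
      subst hcp
      have c1 := mex_count_out (E := E) x c
      have c2 := mex_count_in (E := E) x c
      rw [hc] at c1
      rw [hip.count_eq] at c2
      have e1 : ([(x, c), (x, c)] : List (ℕ × ℕ)).count (x, c) = 2 := by simp
      have e2 : ([(x, c), (q, c)] : List (ℕ × ℕ)).count (x, c) = 1 := by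
        simp [Ne.symm hxq]
      omega
    have g1 : (a, x) ∈ E := (mex_mem_in.1 (by rw [ha]; simp : (a, x) ∈ inE x E)).1
    have g2 : (b, x) ∈ E := (mex_mem_in.1 (by rw [ha]; simp : (b, x) ∈ inE x E)).1
    have g3 : (x, c) ∈ E := (mex_mem_out.1 (by rw [hc]; simp : (x, c) ∈ outE x E)).1
    have g4 : (x, d) ∈ E := (mex_mem_out.1 (by rw [hc]; simp : (x, d) ∈ outE x E)).1
    exact mex_r3_distinct hE hab hcd g1 g2 g3 g4

/-- the case `x ≠ y` of a triple pair -/
theorem mex_triple_ne {E : List (ℕ × ℕ)} (hE : GoodG E) {p q x y : ℕ} (hpq : p ≠ q) (hxq : x ≠ q)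
    (hxp : x ≠ p) (hyp : y ≠ p) (hyq : y ≠ q) (hxy : x ≠ y) (hop : outE p E = [(p, q), (p, q)])
    (hiq : inE q E = [(p, q), (p, q)])
    (hip : (inE p E).Perm [(x, p), (q, p)]) (hoq : (outE q E).Perm [(q, p), (q, y)]) :
    ∃ U Q, IsMove E U Q ∧ GoodG (moveE (U, Q) E) := by
  have mpq : (p, q) ∈ E := (mex_mem_out.1 (by rw [hop]; simp : (p, q) ∈ outE p E)).1
  have mqp : (q, p) ∈ E := (mex_mem_out.1 (hoq.mem_iff.2 (by simp) : (q, p) ∈ outE q E)).1
  have mxp : (x, p) ∈ E := (mex_mem_in.1 (hip.mem_iff.2 (by simp) : (x, p) ∈ inE p E)).1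
  have mqy : (q, y) ∈ E := (mex_mem_out.1 (hoq.mem_iff.2 (by simp) : (q, y) ∈ outE q E)).1
  by_cases hg : GoodG (moveE ([p, q], [(x, y)]) E)
  · exact ⟨_, _, IsMove.r2 p q x y hip hop hiq hoq hxq hyp hxy, hg⟩
  have o1 : ∀ w, w ∉ [p, q] → outN (remE [p, q] E ++ [(x, y)]) w = outN E w := by
    intro w hw
    rw [mex_outN_append, mex_out_rem [p, q] E hw, mex_pair_in hpq, hip.countP_eq, hiq, mex_cnt,
      mex_cnt]
    simp only [List.mem_cons, List.not_mem_nil, or_false, not_or] at hw
    rw [if_neg (Ne.symm hw.2), if_neg (Ne.symm hw.1)]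
    simp [outN, List.countP_cons]
  have o2 : ∀ w, w ∉ [p, q] → inN (remE [p, q] E ++ [(x, y)]) w = inN E w := by
    intro w hw
    rw [mex_inN_append, mex_in_rem [p, q] E hw, mex_pair_out hpq, hoq.countP_eq, hop, mex_cnt',
      mex_cnt']
    simp only [List.mem_cons, List.not_mem_nil, or_false, not_or] at hw
    rw [if_neg (Ne.symm hw.2), if_neg (Ne.symm hw.1)]
    simp [inN, List.countP_cons]
  have o3 : ∀ w, w ∈ [p, q] → outN (remE [p, q] E ++ [(x, y)]) w = 0 := by
    intro w hw
    rw [mex_outN_append, mex_out_rem_mem [p, q] E hw]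
    simp only [List.mem_cons, List.not_mem_nil, or_false] at hw
    rcases hw with rfl | rfl
    · simp [outN, hxp]
    · simp [outN, hxq]
  have o4 : ∀ w, w ∈ [p, q] → inN (remE [p, q] E ++ [(x, y)]) w = 0 := by
    intro w hw
    rw [mex_inN_append, mex_in_rem_mem [p, q] E hw]
    simp only [List.mem_cons, List.not_mem_nil, or_false] at hw
    rcases hw with rfl | rfl
    · simp [inN, hyp]
    · simp [inN, hyq]
  obtain ⟨K, k1, k2, k3, k4, k5⟩ := mex_bad hE (mex_rem_count [p, q] E)
    (fun w => by
      by_cases hw : w ∈ [p, q]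
      · rw [o3 w hw, o4 w hw]
      · rw [o1 w hw, o2 w hw, hE.bal w])
    (fun w => by
      by_cases hw : w ∈ [p, q]
      · rw [o3 w hw]; omega
      · rw [o1 w hw]; exact hE.deg w)
    (by
      intro e he
      rcases List.mem_append.1 he with h | h
      · exact hE.loop e (mex_mem_rem.1 h).1
      · rw [List.mem_singleton] at h; rw [h]; exact hxy) hg
  obtain ⟨e, he, hxK⟩ := k5
  rw [List.mem_singleton] at he
  subst he
  have hxK' : x ∈ K := hxK
  have hyK : y ∈ K := (k3 (x, y) (by simp)).1 hxK
  have hsrc : ∀ u w, (u, w) ∈ remE [p, q] E ++ [(x, y)] → ¬ (u = x ∧ w = y) → (u, w) ∈ E := by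
    intro u w h hne
    rcases List.mem_append.1 h with h | h
    · exact (mex_mem_rem.1 h).1
    · simp only [List.mem_singleton, Prod.mk.injEq] at h
      exact absurd h hne
  by_cases hK : K.card ≤ 2
  · refine mex_m0 (U := p :: q :: K.toList) hE (by simp) (by simp; omega) ?_ ?_
    · intro u hu
      simp only [List.mem_cons, Finset.mem_toList] at hu
      rcases hu with rfl | rfl | hu
      · exact List.mem_map.2 ⟨_, mpq, rfl⟩
      · exact List.mem_map.2 ⟨_, mqp, rfl⟩
      · obtain ⟨w, hw, hwu⟩ := Finset.exists_mem_ne (by omega : 1 < K.card) u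
        by_cases h : u = x ∧ w = y
        · rw [h.1]
          exact List.mem_map.2 ⟨_, mxp, rfl⟩
        · exact List.mem_map.2 ⟨_, hsrc u w (k4 u hu w hw hwu.symm) h, rfl⟩
    · rintro ⟨e₁, e₂⟩ he
      simp only [List.mem_cons, Finset.mem_toList]
      by_cases a1 : e₁ = p
      · subst a1
        have : (e₁, e₂) ∈ outE e₁ E := mex_mem_out.2 ⟨he, rfl⟩
        rw [hop] at this
        simp only [List.mem_cons, Prod.mk.injEq, List.not_mem_nil, or_false] at this
        have h2 : e₂ = q := by (clear * - this; tauto)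
        simp [h2]
      by_cases a2 : e₁ = q
      · subst a2
        have : (e₁, e₂) ∈ outE e₁ E := mex_mem_out.2 ⟨he, rfl⟩
        rw [hoq.mem_iff] at this
        simp only [List.mem_cons, Prod.mk.injEq, true_and, List.not_mem_nil, or_false] at this
        rcases this with h2 | h2
        · simp [h2]
        · simp [h2, hyK]
      by_cases a3 : e₂ = p
      · subst a3
        have : (e₁, e₂) ∈ inE e₂ E := mex_mem_in.2 ⟨he, rfl⟩
        rw [hip.mem_iff] at this
        simp only [List.mem_cons, Prod.mk.injEq, and_true, List.not_mem_nil, or_false] at this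
        rcases this with h2 | h2
        · simp [h2, hxK']
        · simp [h2]
      by_cases a4 : e₂ = q
      · subst a4
        have : (e₁, e₂) ∈ inE e₂ E := mex_mem_in.2 ⟨he, rfl⟩
        rw [hiq] at this
        simp only [List.mem_cons, Prod.mk.injEq, and_true, List.not_mem_nil, or_false,
          or_self] at this
        simp [this]
      · have hR : (e₁, e₂) ∈ remE [p, q] E := mex_mem_rem.2 ⟨he, by simp [a1, a2],
          by simp [a3, a4]⟩
        have := k3 _ (List.mem_append_left _ hR)
        simp only at this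
        simp [a1, a2, a3, a4, this]
  · have hlt : ({x, y} : Finset ℕ).card < K.card := by
      rw [Finset.card_pair hxy]; omega
    obtain ⟨u, hu, hu'⟩ := Finset.exists_mem_notMem_of_card_lt_card hlt
    simp only [Finset.mem_insert, Finset.mem_singleton, not_or] at hu'
    have m1 := hsrc x u (k4 x hxK' u hu (Ne.symm hu'.1)) (fun h => hu'.2 h.2)
    have m2 := hsrc y u (k4 y hyK u hu (Ne.symm hu'.2)) (fun h => hxy h.1.symm)
    have m3 := hsrc u x (k4 u hu x hxK' hu'.1) (fun h => hu'.1 h.1)
    have m4 := hsrc u y (k4 u hu y hyK hu'.2) (fun h => hu'.1 h.1)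
    exact mex_r3_distinct hE hxy hxy m1 m2 m3 m4

theorem mex_triple {E : List (ℕ × ℕ)} (hE : GoodG E) {p q : ℕ} (h2 : 2 ≤ E.count (p, q))
    (hqp : (q, p) ∈ E) : ∃ U Q, IsMove E U Q ∧ GoodG (moveE (U, Q) E) := by
  have mpq : (p, q) ∈ E := List.count_pos_iff.1 (by omega)
  have hpq : p ≠ q := hE.loop _ mpq
  have c1 : E.count (q, p) = 1 := by
    have h3 := List.count_pos_iff.2 hqp
    have h4 := hE.noD2 p q
    omega
  have op : outN E p = 2 := by
    have := mex_sum_out {q} p E
    rw [Finset.sum_singleton] at this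
    have := hE.deg p
    omega
  have oq : inN E q = 2 := by
    have := mex_sum_in {p} q E
    rw [Finset.sum_singleton] at this
    have := hE.deg q
    have := hE.bal q
    omega
  have hop : outE p E = [(p, q), (p, q)] := by
    obtain ⟨c, d, h⟩ := mex_two_out op
    have h3 := mex_count_out (E := E) p q
    rw [h] at h3 ⊢
    simp only [List.count_cons, List.count_nil, beq_iff_eq, Prod.mk.injEq, true_and] at h3
    have hc : c = q := by by_contra hc; rw [if_neg hc] at h3; split_ifs at h3 <;> omega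
    have hd : d = q := by by_contra hd; rw [if_neg hd] at h3; split_ifs at h3 <;> omega
    rw [hc, hd]
  have hiq : inE q E = [(p, q), (p, q)] := by
    obtain ⟨c, d, h⟩ := mex_two_in oq
    have h3 := mex_count_in (E := E) p q
    rw [h] at h3 ⊢
    simp only [List.count_cons, List.count_nil, beq_iff_eq, Prod.mk.injEq, and_true] at h3
    have hc : c = p := by by_contra hc; rw [if_neg hc] at h3; split_ifs at h3 <;> omega
    have hd : d = p := by by_contra hd; rw [if_neg hd] at h3; split_ifs at h3 <;> omega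
    rw [hc, hd]
  obtain ⟨x, hxq, hip⟩ : ∃ x, x ≠ q ∧ (inE p E).Perm [(x, p), (q, p)] := by
    obtain ⟨a, b, h⟩ := mex_two_in ((hE.bal p).symm.trans op)
    have h3 := mex_count_in (E := E) q p
    rw [h, c1] at h3
    simp only [List.count_cons, List.count_nil, beq_iff_eq, Prod.mk.injEq, and_true] at h3
    by_cases ha : a = q
    · have hb : b ≠ q := by
        intro hb; rw [if_pos ha, if_pos hb] at h3; omega
      exact ⟨b, hb, by rw [h, ha]; exact List.Perm.swap _ _ _⟩
    · have hb : b = q := by
        by_contra hb; rw [if_neg ha, if_neg hb] at h3; omega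
      exact ⟨a, ha, by rw [h, hb]⟩
  obtain ⟨y, hyp, hoq⟩ : ∃ y, y ≠ p ∧ (outE q E).Perm [(q, p), (q, y)] := by
    obtain ⟨c, d, h⟩ := mex_two_out ((hE.bal q).trans oq)
    have h3 := mex_count_out (E := E) q p
    rw [h, c1] at h3
    simp only [List.count_cons, List.count_nil, beq_iff_eq, Prod.mk.injEq, true_and] at h3
    by_cases hc : c = p
    · have hd : d ≠ p := by
        intro hd; rw [if_pos hc, if_pos hd] at h3; omega
      exact ⟨d, hd, by rw [h, hc]⟩
    · have hd : d = p := by
        by_contra hd; rw [if_neg hc, if_neg hd] at h3; omega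
      exact ⟨c, hc, by rw [h, hd]; exact List.Perm.swap _ _ _⟩
  have mxp : (x, p) ∈ E := (mex_mem_in.1 (hip.mem_iff.2 (by simp) : (x, p) ∈ inE p E)).1
  have mqy : (q, y) ∈ E := (mex_mem_out.1 (hoq.mem_iff.2 (by simp) : (q, y) ∈ outE q E)).1
  have hxp : x ≠ p := hE.loop _ mxp
  have hyq : y ≠ q := (hE.loop _ mqy).symm
  by_cases hxy : x = y
  · subst hxy
    exact mex_triple_eq hE hpq hxq hxp hop hiq hip hoq
  · exact mex_triple_ne hE hpq hxq hxp hyp hyq hxy hop hiq hip hoq

/-- There is a move to a good graph. -/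
theorem moveEx : MoveEx := by
  intro E hE hne
  obtain ⟨e, he⟩ := List.exists_mem_of_ne_nil E hne
  set v := e.2 with hv
  have h1 : 1 ≤ inN E v := by
    have := mex_sum_in {e.1} v E
    rw [Finset.sum_singleton] at this
    have h2 : 0 < E.count (e.1, v) := List.count_pos_iff.2 he
    omega
  have hb := hE.bal v
  have hd := hE.deg v
  by_cases h2 : outN E v = 1
  · obtain ⟨c, hc⟩ := mex_one_out h2
    obtain ⟨a, ha⟩ := mex_one_in (hb.symm.trans h2)
    exact mex_deg_one hE ha hc
  · have h3 : outN E v = 2 := by omega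
    obtain ⟨c, d, hc⟩ := mex_two_out h3
    obtain ⟨a, b, ha⟩ := mex_two_in (hb.symm.trans h3)
    by_cases h : (a ≠ c ∧ b ≠ d) ∨ (a ≠ d ∧ b ≠ c)
    · exact mex_r3 hE ha (by rw [hc]) h
    · have g1 : (a, v) ∈ E := (mex_mem_in.1 (by rw [ha]; simp : (a, v) ∈ inE v E)).1
      have g2 : (b, v) ∈ E := (mex_mem_in.1 (by rw [ha]; simp : (b, v) ∈ inE v E)).1
      have g3 : (v, c) ∈ E := (mex_mem_out.1 (by rw [hc]; simp : (v, c) ∈ outE v E)).1
      have g4 : (v, d) ∈ E := (mex_mem_out.1 (by rw [hc]; simp : (v, d) ∈ outE v E)).1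
      have two_out : ∀ x, c = x → d = x → 2 ≤ E.count (v, x) := by
        rintro x rfl rfl
        rw [← mex_count_out, hc]
        simp
      have two_in : ∀ x, a = x → b = x → 2 ≤ E.count (x, v) := by
        rintro x rfl rfl
        rw [← mex_count_in, ha]
        simp
      have k1 : a = c ∨ b = d := by
        by_contra hh
        rw [not_or] at hh
        exact h (Or.inl hh)
      have k2 : a = d ∨ b = c := by
        by_contra hh
        rw [not_or] at hh
        exact h (Or.inr hh)
      rcases k1 with k1 | k1 <;> rcases k2 with k2 | k2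
      · exact mex_triple hE (two_out a k1.symm k2.symm) g1
      · exact mex_triple hE (two_in c k1 k2) g3
      · exact mex_triple hE (two_in d k2 k1) g4
      · exact mex_triple hE (two_out b k2.symm k1.symm) g2

end Vale.Agent.P333.U
end
end

section

section

/-!
P333, upper bound: good graphs with at most four vertices have a path colouring (finite check).
-/

namespace Vale.Agent.P333.U

/-- arcs whose source is the target of an arc -/
def csPeel (F : List (ℕ × ℕ)) : List (ℕ × ℕ) := F.filter (fun e => F.any (fun f => f.2 == e.1))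

/-- acyclicity of a path system on four vertices -/
def csAcy (F : List (ℕ × ℕ)) : Bool := (csPeel (csPeel (csPeel (csPeel F)))).isEmpty

/-- `e` can be coloured with `c`; `O v` : the out-degree of `v` is one -/
def csOk (O : ℕ → Bool) (e : ℕ × ℕ) (c : ℕ) (K : List (ℕ × ℕ × ℕ)) : Bool :=
  K.all (fun f => !(f.2.2 == c) || (!(f.1 == e.1) && !(f.2.1 == e.2) &&
    !(f.1 == e.2 && O e.2) && !(f.2.1 == e.1 && O e.1)))

/-- all the classes are acyclic -/
def csFin (K : List (ℕ × ℕ × ℕ)) : Bool := csAcy (cls K 0) && csAcy (cls K 1) && csAcy (cls K 2)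

/-- search for a colouring -/
def csSrch (O : ℕ → Bool) : List (ℕ × ℕ) → List (ℕ × ℕ × ℕ) → Bool
  | [], K => csFin K
  | e :: R, K =>
    (csOk O e 0 K && csSrch O R ((e.1, e.2, 0) :: K)) ||
    (csOk O e 1 K && csSrch O R ((e.1, e.2, 1) :: K)) ||
    (csOk O e 2 K && csSrch O R ((e.1, e.2, 2) :: K))

/-- rows with sum at most two -/
def csT : List (ℕ × ℕ × ℕ) :=
  [(0, 0, 0), (0, 0, 1), (0, 0, 2), (0, 1, 0), (0, 1, 1), (0, 2, 0), (1, 0, 0), (1, 0, 1),
    (1, 1, 0), (2, 0, 0)]

/-- the arcs -/
def csArcs (x y z w : ℕ × ℕ × ℕ) : List (ℕ × ℕ) :=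
  List.replicate x.1 (0, 1) ++ List.replicate x.2.1 (0, 2) ++ List.replicate x.2.2 (0, 3) ++
  List.replicate y.1 (1, 0) ++ List.replicate y.2.1 (1, 2) ++ List.replicate y.2.2 (1, 3) ++
  List.replicate z.1 (2, 0) ++ List.replicate z.2.1 (2, 1) ++ List.replicate z.2.2 (2, 3) ++
  List.replicate w.1 (3, 0) ++ List.replicate w.2.1 (3, 1) ++ List.replicate w.2.2 (3, 2)

/-- the graph is good -/
def csGood (x y z w : ℕ × ℕ × ℕ) : Bool :=
  (x.1 + x.2.1 + x.2.2 == y.1 + z.1 + w.1) && (y.1 + y.2.1 + y.2.2 == x.1 + z.2.1 + w.2.1) &&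
  (z.1 + z.2.1 + z.2.2 == x.2.1 + y.2.1 + w.2.2) && (w.1 + w.2.1 + w.2.2 == x.2.2 + y.2.2 + z.2.2) &&
  !(x.1 == 2 && y.1 == 2) && !(x.2.1 == 2 && z.1 == 2) && !(x.2.2 == 2 && w.1 == 2) &&
  !(y.2.1 == 2 && z.2.1 == 2) && !(y.2.2 == 2 && w.2.1 == 2) && !(z.2.2 == 2 && w.2.2 == 2) &&
  (x.1 == 0 || y.1 == 0 || x.2.1 == 0 || z.1 == 0 || y.2.1 == 0 || z.2.1 == 0) &&
  (x.1 == 0 || y.1 == 0 || x.2.2 == 0 || w.1 == 0 || y.2.2 == 0 || w.2.1 == 0) &&
  (x.2.1 == 0 || z.1 == 0 || x.2.2 == 0 || w.1 == 0 || z.2.2 == 0 || w.2.2 == 0) &&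
  (y.2.1 == 0 || z.2.1 == 0 || y.2.2 == 0 || w.2.1 == 0 || z.2.2 == 0 || w.2.2 == 0)

/-- out-degree one -/
def csOne (x y z w : ℕ × ℕ × ℕ) (v : ℕ) : Bool :=
  (v == 0 && x.1 + x.2.1 + x.2.2 == 1) || (v == 1 && y.1 + y.2.1 + y.2.2 == 1) ||
  (v == 2 && z.1 + z.2.1 + z.2.2 == 1) || (v == 3 && w.1 + w.2.1 + w.2.2 == 1)

theorem cs_check : (csT.all fun x => csT.all fun y => csT.all fun z => csT.all fun w =>
    !(csGood x y z w) || csSrch (csOne x y z w) (csArcs x y z w) []) = true := by
  (clear * -; decide +kernel)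

/-! ### Soundness of the search -/

/-- two coloured arcs are compatible -/
def CsR (O : ℕ → Bool) (e f : ℕ × ℕ × ℕ) : Prop :=
  e.2.2 = f.2.2 → e.1 ≠ f.1 ∧ e.2.1 ≠ f.2.1 ∧ ¬ (e.1 = f.2.1 ∧ O e.1 = true) ∧
    ¬ (e.2.1 = f.1 ∧ O e.2.1 = true)

theorem csR_symm (O : ℕ → Bool) : ∀ ⦃e f : ℕ × ℕ × ℕ⦄, CsR O e f → CsR O f e := by
  intro e f h hc
  obtain ⟨h1, h2, h3, h4⟩ := h hc.symm
  refine ⟨fun h => h1 h.symm, fun h => h2 h.symm, ?_, ?_⟩
  · rintro ⟨h5, h6⟩
    exact h4 ⟨h5.symm, by rw [← h5]; exact h6⟩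
  · rintro ⟨h5, h6⟩
    exact h3 ⟨h5.symm, by rw [← h5]; exact h6⟩

theorem csOk_sound {O : ℕ → Bool} {e : ℕ × ℕ} {c : ℕ} {K : List (ℕ × ℕ × ℕ)}
    (h : csOk O e c K = true) : ∀ f ∈ K, CsR O (e.1, e.2, c) f := by
  intro f hf hc
  unfold csOk at h
  rw [List.all_eq_true] at h
  have h1 := h f hf
  simp only [Bool.or_eq_true, Bool.and_eq_true, Bool.not_eq_true', beq_eq_false_iff_ne,
    Bool.and_eq_false_iff] at h1
  have hc' : f.2.2 = c := hc.symm
  rcases h1 with h1 | ⟨⟨⟨h1, h2⟩, h3⟩, h4⟩
  · exact absurd hc' h1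
  · refine ⟨fun h => h1 h.symm, fun h => h2 h.symm, ?_, ?_⟩
    · rintro ⟨h5, h6⟩
      have h5' : f.2.1 = e.1 := h5.symm
      have h6' : O e.1 = true := h6
      rcases h4 with h4 | h4
      · exact h4 h5'
      · rw [h4] at h6'; exact absurd h6' (by decide)
    · rintro ⟨h5, h6⟩
      have h5' : f.1 = e.2 := h5.symm
      have h6' : O e.2 = true := h6
      rcases h3 with h3 | h3
      · exact h3 h5'
      · rw [h3] at h6'; exact absurd h6' (by decide)

theorem csSrch_sound {O : ℕ → Bool} : ∀ (R : List (ℕ × ℕ)) (K : List (ℕ × ℕ × ℕ)),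
    (∀ e ∈ K, e.2.2 < 3) → K.Pairwise (CsR O) → csSrch O R K = true →
    ∃ K' : List (ℕ × ℕ × ℕ), (K'.map (fun e => (e.1, e.2.1))).Perm
      (R ++ K.map (fun e => (e.1, e.2.1))) ∧ (∀ e ∈ K', e.2.2 < 3) ∧ K'.Pairwise (CsR O) ∧
      csFin K' = true
  | [], K, h1, h2, h => ⟨K, List.Perm.refl _, h1, h2, h⟩
  | e :: R, K, h1, h2, h => by
    have key : ∀ c < 3, csOk O e c K = true → csSrch O R ((e.1, e.2, c) :: K) = true →
        ∃ K' : List (ℕ × ℕ × ℕ), (K'.map (fun e => (e.1, e.2.1))).Perm
          ((e :: R) ++ K.map (fun e => (e.1, e.2.1))) ∧ (∀ e ∈ K', e.2.2 < 3) ∧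
          K'.Pairwise (CsR O) ∧ csFin K' = true := by
      intro c hc hok hs
      obtain ⟨K', h3, h4, h5, h6⟩ := csSrch_sound R ((e.1, e.2, c) :: K)
        (by
          intro f hf
          rcases List.mem_cons.1 hf with rfl | hf
          · exact hc
          · exact h1 f hf)
        (List.pairwise_cons.2 ⟨csOk_sound hok, h2⟩) hs
      refine ⟨K', h3.trans ?_, h4, h5, h6⟩
      rw [List.map_cons, List.cons_append]
      exact List.perm_middle
    rw [csSrch, Bool.or_eq_true, Bool.or_eq_true, Bool.and_eq_true, Bool.and_eq_true,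
      Bool.and_eq_true] at h
    rcases h with (h | h) | h
    · exact key 0 (by omega) h.1 h.2
    · exact key 1 (by omega) h.1 h.2
    · exact key 2 (by omega) h.1 h.2

theorem csPeel_step {F : List (ℕ × ℕ)} {x : ℕ}
    (h : Relation.TransGen (fun a b => (a, b) ∈ F) x x) :
    Relation.TransGen (fun a b => (a, b) ∈ csPeel F) x x := by
  have hin : ∀ a b, Relation.TransGen (fun a b => (a, b) ∈ F) a b → ∃ c, (c, b) ∈ F := by
    intro a b hab
    induction hab with
    | single h => exact ⟨_, h⟩
    | tail _ h _ => exact ⟨_, h⟩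
  have hmem : ∀ a b, (∃ c, (c, a) ∈ F) → (a, b) ∈ F → (a, b) ∈ csPeel F := by
    rintro a b ⟨c, hc⟩ hab
    unfold csPeel
    rw [List.mem_filter]
    refine ⟨hab, ?_⟩
    rw [List.any_eq_true]
    exact ⟨(c, a), hc, by simp⟩
  have key : ∀ a b, (∃ c, (c, a) ∈ F) → Relation.TransGen (fun a b => (a, b) ∈ F) a b →
      Relation.TransGen (fun a b => (a, b) ∈ csPeel F) a b := by
    intro a b ha hab
    induction hab with
    | single h => exact Relation.TransGen.single (hmem _ _ ha h)
    | tail h1 h2 ih => exact Relation.TransGen.tail ih (hmem _ _ (hin _ _ h1) h2)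
  exact key x x (hin x x h) h

theorem csAcy_sound {F : List (ℕ × ℕ)} (h : csAcy F = true) (x : ℕ) :
    ¬ Relation.TransGen (fun a b => (a, b) ∈ F) x x := by
  intro hx
  have h1 := csPeel_step (csPeel_step (csPeel_step (csPeel_step hx)))
  unfold csAcy at h
  rw [List.isEmpty_iff] at h
  rw [h] at h1
  cases h1 with
  | single h => simp at h
  | tail _ h => simp at h

theorem cs_col {E : List (ℕ × ℕ)} {O : ℕ → Bool} (hl : ∀ e ∈ E, e.1 ≠ e.2)
    (hO : ∀ e ∈ E, outN E e.1 = 1 → O e.1 = true) {K : List (ℕ × ℕ × ℕ)}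
    (hp : (K.map (fun e => (e.1, e.2.1))).Perm E) (hlt : ∀ e ∈ K, e.2.2 < 3)
    (hR : K.Pairwise (CsR O)) (hF : csFin K = true) : Col E K := by
  have hmem : ∀ e ∈ K, (e.1, e.2.1) ∈ E := by
    intro e he
    exact hp.mem_iff.1 (List.mem_map.2 ⟨e, he, rfl⟩)
  refine ⟨hp, hlt, fun κ => ?_, ?_⟩
  · by_cases hκ : κ < 3
    · have hcl : (K.filter (fun e => e.2.2 == κ)).Pairwise
          (fun e f => e.1 ≠ f.1 ∧ e.2.1 ≠ f.2.1) := by
        have h1 := hR.filter (fun e => e.2.2 == κ)
        refine h1.imp_of_mem ?_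
        intro a b ha hb hab
        have ha' : a.2.2 = κ := by simpa using (List.mem_filter.1 ha).2
        have hb' : b.2.2 = κ := by simpa using (List.mem_filter.1 hb).2
        have h2 := hab (ha'.trans hb'.symm)
        exact ⟨h2.1, h2.2.1⟩
      refine ⟨?_, ?_, ?_⟩
      · unfold cls
        rw [List.map_map, List.Nodup, List.pairwise_map]
        exact hcl.imp fun h => h.1
      · unfold cls
        rw [List.map_map, List.Nodup, List.pairwise_map]
        exact hcl.imp fun h => h.2
      · unfold csFin at hF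
        rw [Bool.and_eq_true, Bool.and_eq_true] at hF
        interval_cases κ
        · exact csAcy_sound hF.1.1
        · exact csAcy_sound hF.1.2
        · exact csAcy_sound hF.2
    · have h0 : cls K κ = [] := by
        unfold cls
        rw [List.map_eq_nil_iff, List.filter_eq_nil_iff]
        intro e he h
        have h1 := hlt e he
        have h2 : e.2.2 = κ := by simpa using h
        omega
      rw [h0]
      refine ⟨by simp, by simp, fun x hx => ?_⟩
      cases hx with
      | single h => simp at h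
      | tail _ h => simp at h
  · intro e he f hf hef ho hc
    by_cases h : e = f
    · subst h
      exact hl _ (hmem e he) hef.symm
    · have : Std.Symm (CsR O) := ⟨fun a b => @csR_symm O a b⟩
      have h1 := hR.forall he hf h hc
      refine h1.2.2.2 ⟨hef, ?_⟩
      rw [hef]
      exact hO _ (hmem f hf) ho

/-! ### Graphs on `0, 1, 2, 3` -/

theorem csT_mem (a b c : ℕ) (h : a + b + c ≤ 2) : (a, b, c) ∈ csT := by
  have ha : a ≤ 2 := by omega
  have hb : b ≤ 2 := by omega
  have hc : c ≤ 2 := by omega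
  interval_cases a <;> interval_cases b <;> interval_cases c <;> first | omega | decide

theorem csD {a b : ℕ} (h : ¬ (2 ≤ a ∧ 2 ≤ b)) : a ≠ 2 ∨ b ≠ 2 := by omega

theorem csK {a b c d e f : ℕ} (h : ¬ (0 < a ∧ 0 < b ∧ 0 < c ∧ 0 < d ∧ 0 < e ∧ 0 < f)) :
    ((((a = 0 ∨ b = 0) ∨ f = 0) ∨ e = 0) ∨ c = 0) ∨ d = 0 := by omega

theorem cs_four {E : List (ℕ × ℕ)} (hE : GoodG E) (h4 : ∀ e ∈ E, e.1 < 4 ∧ e.2 < 4) :
    ∃ K, Col E K := by
  have hperm : E.Perm (csArcs (E.count (0, 1), E.count (0, 2), E.count (0, 3))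
      (E.count (1, 0), E.count (1, 2), E.count (1, 3))
      (E.count (2, 0), E.count (2, 1), E.count (2, 3))
      (E.count (3, 0), E.count (3, 1), E.count (3, 2))) := by
    rw [List.perm_iff_count]
    rintro ⟨p, q⟩
    by_cases hpq : p < 4 ∧ q < 4 ∧ p ≠ q
    · obtain ⟨hp, hq, hne⟩ := hpq
      unfold csArcs
      simp only [List.count_append, List.count_replicate]
      interval_cases p <;> interval_cases q <;> first | exact absurd rfl hne | simp
    · have h1 : E.count (p, q) = 0 := by
        rw [List.count_eq_zero]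
        intro h
        exact hpq ⟨(h4 _ h).1, (h4 _ h).2, hE.loop _ h⟩
      rw [h1, eq_comm, List.count_eq_zero]
      intro h
      apply hpq
      unfold csArcs at h
      simp only [List.mem_append, List.mem_replicate, Prod.mk.injEq] at h
      omega
  generalize hx1 : E.count (0, 1) = x1 at hperm
  generalize hx2 : E.count (0, 2) = x2 at hperm
  generalize hx3 : E.count (0, 3) = x3 at hperm
  generalize hy1 : E.count (1, 0) = y1 at hperm
  generalize hy2 : E.count (1, 2) = y2 at hperm
  generalize hy3 : E.count (1, 3) = y3 at hperm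
  generalize hz1 : E.count (2, 0) = z1 at hperm
  generalize hz2 : E.count (2, 1) = z2 at hperm
  generalize hz3 : E.count (2, 3) = z3 at hperm
  generalize hw1 : E.count (3, 0) = w1 at hperm
  generalize hw2 : E.count (3, 1) = w2 at hperm
  generalize hw3 : E.count (3, 2) = w3 at hperm
  have o0 : outN E 0 = x1 + x2 + x3 := by
    unfold outN
    rw [hperm.countP_eq]
    unfold csArcs
    simp only [List.countP_append, List.countP_replicate]
    simp
  have o1 : outN E 1 = y1 + y2 + y3 := by
    unfold outN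
    rw [hperm.countP_eq]
    unfold csArcs
    simp only [List.countP_append, List.countP_replicate]
    simp
  have o2 : outN E 2 = z1 + z2 + z3 := by
    unfold outN
    rw [hperm.countP_eq]
    unfold csArcs
    simp only [List.countP_append, List.countP_replicate]
    simp
  have o3 : outN E 3 = w1 + w2 + w3 := by
    unfold outN
    rw [hperm.countP_eq]
    unfold csArcs
    simp only [List.countP_append, List.countP_replicate]
    simp
  have i0 : inN E 0 = y1 + z1 + w1 := by
    unfold inN
    rw [hperm.countP_eq]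
    unfold csArcs
    simp only [List.countP_append, List.countP_replicate]
    simp
  have i1 : inN E 1 = x1 + z2 + w2 := by
    unfold inN
    rw [hperm.countP_eq]
    unfold csArcs
    simp only [List.countP_append, List.countP_replicate]
    simp
  have i2 : inN E 2 = x2 + y2 + w3 := by
    unfold inN
    rw [hperm.countP_eq]
    unfold csArcs
    simp only [List.countP_append, List.countP_replicate]
    simp
  have i3 : inN E 3 = x3 + y3 + z3 := by
    unfold inN
    rw [hperm.countP_eq]
    unfold csArcs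
    simp only [List.countP_append, List.countP_replicate]
    simp
  have hgood : csGood (x1, x2, x3) (y1, y2, y3) (z1, z2, z3) (w1, w2, w3) = true := by
    have b0 := hE.bal 0
    have b1 := hE.bal 1
    have b2 := hE.bal 2
    have b3 := hE.bal 3
    have d01 := hE.noD2 0 1
    have d02 := hE.noD2 0 2
    have d03 := hE.noD2 0 3
    have d12 := hE.noD2 1 2
    have d13 := hE.noD2 1 3
    have d23 := hE.noD2 2 3
    have k012 := hE.noK3 0 1 2
    have k013 := hE.noK3 0 1 3
    have k023 := hE.noK3 0 2 3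
    have k123 := hE.noK3 1 2 3
    simp only [← List.count_pos_iff] at k012 k013 k023 k123
    unfold csGood
    simp only [Bool.and_eq_true, beq_iff_eq, Bool.not_eq_true', Bool.and_eq_false_iff,
      beq_eq_false_iff_ne, Bool.or_eq_true]
    rw [o0, i0] at b0
    rw [o1, i1] at b1
    rw [o2, i2] at b2
    rw [o3, i3] at b3
    rw [hx1, hy1] at d01
    rw [hx2, hz1] at d02
    rw [hx3, hw1] at d03
    rw [hy2, hz2] at d12
    rw [hy3, hw2] at d13
    rw [hz3, hw3] at d23
    rw [hx1, hy1, hy2, hz2, hz1, hx2] at k012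
    rw [hx1, hy1, hy3, hw2, hw1, hx3] at k013
    rw [hx2, hz1, hz3, hw3, hw1, hx3] at k023
    rw [hy2, hz2, hz3, hw3, hw2, hy3] at k123
    exact ⟨⟨⟨⟨⟨⟨⟨⟨⟨⟨⟨⟨⟨b0, b1⟩, b2⟩, b3⟩, csD d01⟩, csD d02⟩, csD d03⟩, csD d12⟩, csD d13⟩,
      csD d23⟩, csK k012⟩, csK k013⟩, csK k023⟩, csK k123⟩
  have hdeg0 := hE.deg 0
  have hdeg1 := hE.deg 1
  have hdeg2 := hE.deg 2
  have hdeg3 := hE.deg 3
  rw [o0] at hdeg0
  rw [o1] at hdeg1
  rw [o2] at hdeg2
  rw [o3] at hdeg3
  have hc := cs_check
  rw [List.all_eq_true] at hc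
  have hc := hc _ (csT_mem x1 x2 x3 hdeg0)
  rw [List.all_eq_true] at hc
  have hc := hc _ (csT_mem y1 y2 y3 hdeg1)
  rw [List.all_eq_true] at hc
  have hc := hc _ (csT_mem z1 z2 z3 hdeg2)
  rw [List.all_eq_true] at hc
  have hc := hc _ (csT_mem w1 w2 w3 hdeg3)
  rw [hgood, Bool.not_true, Bool.false_or] at hc
  obtain ⟨K, h1, h2, h3, h5⟩ := csSrch_sound _ [] (by simp) List.Pairwise.nil hc
  refine ⟨K, cs_col (O := csOne (x1, x2, x3) (y1, y2, y3) (z1, z2, z3) (w1, w2, w3)) hE.loop
    ?_ ?_ h2 h3 h5⟩
  · intro e he ho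
    have h6 := (h4 e he).1
    generalize e.1 = v at h6 ho
    unfold csOne
    interval_cases v
    · rw [o0] at ho
      simp [ho]
    · rw [o1] at ho
      simp [ho]
    · rw [o2] at ho
      simp [ho]
    · rw [o3] at ho
      simp [ho]
  · rw [List.map_nil, List.append_nil] at h1
    exact h1.trans hperm.symm

/-! ### Relabelling -/

section relabel

variable {E : List (ℕ × ℕ)} {U : List ℕ} {h g : ℕ → ℕ}

theorem cs_inj (hg : ∀ u ∈ U, g (h u) = u) {a b : ℕ} (ha : a ∈ U) (hb : b ∈ U)
    (hab : h a = h b) : a = b := by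
  rw [← hg a ha, ← hg b hb, hab]

theorem cs_out (hU : ∀ e ∈ E, e.1 ∈ U ∧ e.2 ∈ U) (hg : ∀ u ∈ U, g (h u) = u) {u : ℕ}
    (hu : u ∈ U) : outN (E.map fun e => (h e.1, h e.2)) (h u) = outN E u := by
  unfold outN
  rw [List.countP_map]
  refine List.countP_congr fun e he => ?_
  simp only [Function.comp, beq_iff_eq]
  exact ⟨fun h1 => cs_inj hg (hU e he).1 hu h1, fun h1 => by rw [h1]⟩

theorem cs_in (hU : ∀ e ∈ E, e.1 ∈ U ∧ e.2 ∈ U) (hg : ∀ u ∈ U, g (h u) = u) {u : ℕ}
    (hu : u ∈ U) : inN (E.map fun e => (h e.1, h e.2)) (h u) = inN E u := by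
  unfold inN
  rw [List.countP_map]
  refine List.countP_congr fun e he => ?_
  simp only [Function.comp, beq_iff_eq]
  exact ⟨fun h1 => cs_inj hg (hU e he).2 hu h1, fun h1 => by rw [h1]⟩

theorem cs_count (hU : ∀ e ∈ E, e.1 ∈ U ∧ e.2 ∈ U) (hg : ∀ u ∈ U, g (h u) = u) {a b : ℕ}
    (ha : a ∈ U) (hb : b ∈ U) :
    (E.map fun e => (h e.1, h e.2)).count (h a, h b) = E.count (a, b) := by
  rw [List.count_eq_countP, List.count_eq_countP, List.countP_map]
  refine List.countP_congr fun e he => ?_
  simp only [Function.comp, beq_iff_eq, Prod.mk.injEq]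
  constructor
  · rintro ⟨h1, h2⟩
    exact Prod.ext (cs_inj hg (hU e he).1 ha h1) (cs_inj hg (hU e he).2 hb h2)
  · rintro rfl
    exact ⟨rfl, rfl⟩

theorem cs_mem (hU : ∀ e ∈ E, e.1 ∈ U ∧ e.2 ∈ U) (hg : ∀ u ∈ U, g (h u) = u) {a b : ℕ}
    (ha : a ∈ U) (hb : b ∈ U) :
    (h a, h b) ∈ (E.map fun e => (h e.1, h e.2)) ↔ (a, b) ∈ E := by
  rw [← List.count_pos_iff, cs_count hU hg ha hb, List.count_pos_iff]

theorem cs_zero (hU : ∀ e ∈ E, e.1 ∈ U ∧ e.2 ∈ U) {v : ℕ} (hv : ∀ u ∈ U, h u ≠ v) :
    outN (E.map fun e => (h e.1, h e.2)) v = 0 ∧ inN (E.map fun e => (h e.1, h e.2)) v = 0 := by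
  constructor
  · unfold outN
    rw [List.countP_map, List.countP_eq_zero]
    intro e he h1
    simp only [Function.comp, beq_iff_eq] at h1
    exact hv _ (hU e he).1 h1
  · unfold inN
    rw [List.countP_map, List.countP_eq_zero]
    intro e he h1
    simp only [Function.comp, beq_iff_eq] at h1
    exact hv _ (hU e he).2 h1

theorem cs_goodG (hE : GoodG E) (hU : ∀ e ∈ E, e.1 ∈ U ∧ e.2 ∈ U)
    (hg : ∀ u ∈ U, g (h u) = u) : GoodG (E.map fun e => (h e.1, h e.2)) := by
  have hmem : ∀ p q, (p, q) ∈ (E.map fun e => (h e.1, h e.2)) →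
      ∃ a ∈ U, ∃ b ∈ U, h a = p ∧ h b = q := by
    intro p q hpq
    obtain ⟨e, he, h1⟩ := List.mem_map.1 hpq
    rw [Prod.mk.injEq] at h1
    exact ⟨e.1, (hU e he).1, e.2, (hU e he).2, h1.1, h1.2⟩
  refine ⟨?_, ?_, ?_, ?_, ?_⟩
  · intro v
    by_cases hv : ∃ u ∈ U, h u = v
    · obtain ⟨u, hu, rfl⟩ := hv
      rw [cs_out hU hg hu, cs_in hU hg hu]
      exact hE.bal u
    · have h1 := cs_zero (h := h) hU (v := v) fun u hu h1 => hv ⟨u, hu, h1⟩
      rw [h1.1, h1.2]
  · intro v
    by_cases hv : ∃ u ∈ U, h u = v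
    · obtain ⟨u, hu, rfl⟩ := hv
      rw [cs_out hU hg hu]
      exact hE.deg u
    · have h1 := cs_zero (h := h) hU (v := v) fun u hu h1 => hv ⟨u, hu, h1⟩
      rw [h1.1]
      exact Nat.zero_le _
  · intro e' he'
    obtain ⟨e, he, rfl⟩ := List.mem_map.1 he'
    intro h1
    exact hE.loop e he (cs_inj hg (hU e he).1 (hU e he).2 h1)
  · rintro p q ⟨h1, h2⟩
    obtain ⟨a, ha, b, hb, rfl, rfl⟩ := hmem p q (List.count_pos_iff.1 (by omega))
    rw [cs_count hU hg ha hb] at h1
    rw [cs_count hU hg hb ha] at h2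
    exact hE.noD2 a b ⟨h1, h2⟩
  · rintro p q r ⟨h1, h2, h3, h4, h5, h6⟩
    obtain ⟨a, ha, b, hb, rfl, rfl⟩ := hmem p q h1
    obtain ⟨c, hc, -, -, rfl, -⟩ := hmem r _ h4
    rw [cs_mem hU hg ha hb] at h1
    rw [cs_mem hU hg hb ha] at h2
    rw [cs_mem hU hg hb hc] at h3
    rw [cs_mem hU hg hc hb] at h4
    rw [cs_mem hU hg hc ha] at h5
    rw [cs_mem hU hg ha hc] at h6
    exact hE.noK3 a b c ⟨h1, h2, h3, h4, h5, h6⟩

theorem cs_back (hU : ∀ e ∈ E, e.1 ∈ U ∧ e.2 ∈ U)
    (hg : ∀ u ∈ U, g (h u) = u) {K : List (ℕ × ℕ × ℕ)}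
    (hK : Col (E.map fun e => (h e.1, h e.2)) K) :
    Col E (K.map fun e => (g e.1, g e.2.1, e.2.2)) := by
  have hmem : ∀ e ∈ K, ∃ a ∈ U, ∃ b ∈ U, h a = e.1 ∧ h b = e.2.1 := by
    intro e he
    have h1 : (e.1, e.2.1) ∈ (E.map fun e => (h e.1, h e.2)) :=
      hK.perm.mem_iff.1 (List.mem_map.2 ⟨e, he, rfl⟩)
    obtain ⟨f, hf, h2⟩ := List.mem_map.1 h1
    rw [Prod.mk.injEq] at h2
    exact ⟨f.1, (hU f hf).1, f.2, (hU f hf).2, h2.1, h2.2⟩
  have hcls : ∀ κ, cls (K.map fun e => (g e.1, g e.2.1, e.2.2)) κ =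
      (cls K κ).map fun e => (g e.1, g e.2) := by
    intro κ
    unfold cls
    rw [List.filter_map, List.map_map, List.map_map]
    rfl
  have hclm : ∀ κ, ∀ e ∈ cls K κ, h (g e.1) = e.1 ∧ h (g e.2) = e.2 := by
    intro κ e he
    unfold cls at he
    obtain ⟨f, hf, rfl⟩ := List.mem_map.1 he
    obtain ⟨a, ha, b, hb, h1, h2⟩ := hmem f (List.mem_filter.1 hf).1
    change h (g f.1) = f.1 ∧ h (g f.2.1) = f.2.1
    rw [← h1, ← h2, hg a ha, hg b hb]
    exact ⟨rfl, rfl⟩
  refine ⟨?_, ?_, fun κ => ?_, ?_⟩
  · rw [List.map_map]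
    have h1 := hK.perm.map (fun e : ℕ × ℕ => (g e.1, g e.2))
    rw [List.map_map, List.map_map] at h1
    have h2 : E.map ((fun e : ℕ × ℕ => (g e.1, g e.2)) ∘ fun e => (h e.1, h e.2)) = E := by
      conv_rhs => rw [← List.map_id E]
      refine List.map_congr_left fun e he => ?_
      simp only [Function.comp, id]
      rw [hg _ (hU e he).1, hg _ (hU e he).2]
    rw [h2] at h1
    exact h1
  · intro e he
    obtain ⟨f, hf, rfl⟩ := List.mem_map.1 he
    exact hK.lt f hf
  · rw [hcls]
    obtain ⟨h1, h2, h3⟩ := hK.path κ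
    refine ⟨?_, ?_, ?_⟩
    · rw [List.map_map]
      have h4 : (cls K κ).map (Prod.fst ∘ fun e : ℕ × ℕ => (g e.1, g e.2)) =
          ((cls K κ).map Prod.fst).map g := by rw [List.map_map]; rfl
      rw [h4]
      refine List.Nodup.map_on ?_ h1
      intro x hx y hy hxy
      obtain ⟨e, he, rfl⟩ := List.mem_map.1 hx
      obtain ⟨f, hf, rfl⟩ := List.mem_map.1 hy
      rw [← (hclm κ e he).1, ← (hclm κ f hf).1, hxy]
    · rw [List.map_map]
      have h4 : (cls K κ).map (Prod.snd ∘ fun e : ℕ × ℕ => (g e.1, g e.2)) =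
          ((cls K κ).map Prod.snd).map g := by rw [List.map_map]; rfl
      rw [h4]
      refine List.Nodup.map_on ?_ h2
      intro x hx y hy hxy
      obtain ⟨e, he, rfl⟩ := List.mem_map.1 hx
      obtain ⟨f, hf, rfl⟩ := List.mem_map.1 hy
      rw [← (hclm κ e he).2, ← (hclm κ f hf).2, hxy]
    · intro x hx
      refine h3 (h x) (Relation.TransGen.lift h ?_ x x hx)
      intro a b hab
      obtain ⟨e, he, h5⟩ := List.mem_map.1 hab
      rw [Prod.mk.injEq] at h5
      change (h a, h b) ∈ cls K κ
      rw [← h5.1, ← h5.2, (hclm κ e he).1, (hclm κ e he).2]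
      exact he
  · intro e he f hf hef ho
    obtain ⟨e', he', rfl⟩ := List.mem_map.1 he
    obtain ⟨f', hf', rfl⟩ := List.mem_map.1 hf
    obtain ⟨a, ha, b, hb, h1, h2⟩ := hmem e' he'
    obtain ⟨c, hc, d, hd, h3, h4⟩ := hmem f' hf'
    have h5 : e'.2.1 = f'.1 := by
      have h6 : g e'.2.1 = g f'.1 := hef
      rw [← h2, ← h3, hg b hb, hg c hc] at h6
      rw [← h2, ← h3, h6]
    refine hK.flag e' he' f' hf' h5 ?_
    have h7 : outN E (g f'.1) = 1 := ho
    rw [← h3, hg c hc] at h7
    rw [← h3, cs_out hU hg hc]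
    exact h7

end relabel

theorem smallCol : SmallCol := by
  intro E U hE hlen hU
  have hg : ∀ u ∈ U, (fun i => U.getD i 0) ((fun u => U.idxOf u) u) = u := by
    intro u hu
    have h1 : U.idxOf u < U.length := List.idxOf_lt_length_iff.2 hu
    simp only [List.getD_eq_getElem _ _ h1]
    exact List.getElem_idxOf h1
  obtain ⟨K, hK⟩ := cs_four
    (cs_goodG (h := fun u => U.idxOf u) (g := fun i => U.getD i 0) hE hU hg) (by
    intro e' he'
    obtain ⟨e, he, rfl⟩ := List.mem_map.1 he'
    have h1 : U.idxOf e.1 < U.length := List.idxOf_lt_length_iff.2 (hU e he).1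
    have h2 : U.idxOf e.2 < U.length := List.idxOf_lt_length_iff.2 (hU e he).2
    refine ⟨?_, ?_⟩
    · show U.idxOf e.1 < 4
      omega
    · show U.idxOf e.2 < 4
      omega)
  exact ⟨_, cs_back (h := fun u => U.idxOf u) (g := fun i => U.getD i 0) hU hg hK⟩

end Vale.Agent.P333.U
end
end

section

section

/-!
P333, upper bound: path colouring with three colours.
-/

namespace Vale.Agent.P333.U

/-- The combinatorial part of the path colouring algorithm. -/
theorem colMath : ColMath := colMath_of moveEx smallCol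

/-- Path colouring in polynomial time. -/
theorem colAlg : ColAlg := colAlg_of_math colMath

end Vale.Agent.P333.U
end
end

section

section

section

/-!
General lower bound for common superstrings of a block system (problem P333).

A block is a closed word; its strings are the segments between consecutive cut words (two-letter
words), both cut words included.  `str w` is the string starting with the cut word `w`, it ends
with the cut word `nx w`, and has length `d w + 2`.
-/

namespace Vale.Agent.P333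

open Finset

theorem superstring_lower_bound {Λ W Bl : Type*} [Fintype W] [DecidableEq W] [Fintype Bl]
    [DecidableEq Bl] (blk : W → Bl) (nx : Equiv.Perm W) (d : W → ℕ) (src tgt : W → Λ)
    (str : W → List Λ)
    (hblk : ∀ w, blk (nx w) = blk w)
    (hsurj : ∀ b, ∃ w, blk w = b)
    (hlen : ∀ w, (str w).length = d w + 2)
    (hfst : ∀ w, (str w)[0]? = some (src w))
    (hlst : ∀ w, (str w)[d w + 1]? = some (tgt (nx w)))
    (h0 : ∀ w, d w = 0 → nx w = w)
    (hov : ∀ w w', w ≠ w' → ∀ δ, δ ≤ d w →
      (∀ i, i < (str w').length → δ + i < (str w).length →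
        (str w)[δ + i]? = (str w')[i]?) → δ = d w ∧ w' = nx w)
    (T : List Λ) (hT : ∀ w, str w <:+: T) :
    ∃ c : Bl → W, (∀ b, blk (c b) = b) ∧ ∀ φ : Λ → ℤ, (∀ l, -1 ≤ φ l ∧ φ l ≤ 1) →
      2 * (∑ w, (d w : ℤ)) + ∑ b, (2 + φ (src (c b)) - φ (tgt (c b))) ≤ 2 * T.length := by
  classical
  -- positions
  have hpos : ∀ w, ∃ q : ℕ, q + (d w + 2) ≤ T.length ∧
      ∀ i, i < d w + 2 → T[q + i]? = (str w)[i]? := by
    intro w
    obtain ⟨s, t, hst⟩ := hT w
    refine ⟨s.length, ?_, ?_⟩
    · rw [← hst, ← hlen w]; simp only [List.append_assoc, List.length_append, add_le_add_iff_left, le_add_iff_nonneg_right, zero_le]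
    · intro i hi
      rw [← hst, List.append_assoc, List.getElem?_append_right (by omega)]
      rw [List.getElem?_append_left (by rw [hlen w]; omega)]
      congr 1; omega
  choose p hpT hpi using hpos
  -- separation
  have hsep : ∀ w w', w ≠ w' → p w ≤ p w' → p w + d w ≤ p w' ∧ (p w' = p w + d w → w' = nx w) := by
    intro w w' hne hle
    by_cases hd : p w' - p w ≤ d w
    · have := hov w w' hne (p w' - p w) hd (by
        intro i hi1 hi2
        rw [hlen] at hi1 hi2
        rw [← hpi w _ hi2, ← hpi w' _ hi1]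
        congr 1; omega)
      constructor
      · omega
      · intro _; exact this.2
    · constructor
      · omega
      · intro h; omega
  have hne0 : ∀ w w', w ≠ w' → p w ≠ p w' := by
    intro w w' hne heq
    have h1 := hsep w w' hne (by omega)
    have h2 := hsep w' w (Ne.symm hne) (by omega)
    have hd : d w = 0 := by omega
    have := h1.2 (by omega)
    rw [h0 w hd] at this
    exact hne this.symm
  let e : W → Prop := fun w => d w = 0 ∨ p (nx w) ≠ p w + d w
  let A : Finset W := univ.filter e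
  let R : Finset W := A.filter (fun w => ∀ w', p w' ≠ p w + d w + 1)
  -- key facts
  have key1 : ∀ w w', w ≠ w' → e w → p w ≤ p w' → p w + d w < p w' := by
    intro w w' hne he hle
    have h1 := hsep w w' hne hle
    rcases Nat.lt_or_ge (p w + d w) (p w') with h | h
    · exact h
    · exfalso
      have heq : p w' = p w + d w := by omega
      have hw' := h1.2 heq
      rcases he with hd | hp
      · rw [h0 w hd] at hw'; exact hne hw'.symm
      · apply hp; rw [← hw']; exact heq
  -- counting positions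
  have hcount : (∑ w, d w) + A.card + R.card ≤ T.length := by
    have hcard : Fintype.card ((Σ w, Fin (d w)) ⊕ (↥A ⊕ ↥R)) ≤ Fintype.card (Fin T.length) := by
      let f : (Σ w, Fin (d w)) ⊕ (↥A ⊕ ↥R) → ℕ := fun x =>
        match x with
        | Sum.inl ⟨w, i⟩ => p w + i
        | Sum.inr (Sum.inl w) => p w.1 + d w.1
        | Sum.inr (Sum.inr w) => p w.1 + d w.1 + 1
      have hf : ∀ x, f x < T.length := by
        rintro (⟨w, i⟩ | w | w)
        · have := hpT w; have := i.2; simp only [f]; omega
        · have := hpT w.1; simp only [f]; omega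
        · have := hpT w.1; simp only [f]; omega
      have heA : ∀ w : ↥A, e w.1 := fun w => (mem_filter.1 w.2).2
      have heR : ∀ w : ↥R, e w.1 := fun w => (mem_filter.1 (mem_filter.1 w.2).1).2
      have hR : ∀ w : ↥R, ∀ w', p w' ≠ p w.1 + d w.1 + 1 := fun w => (mem_filter.1 w.2).2
      have hinj : Function.Injective f := by
        -- first/first
        have c11 : ∀ w (i : Fin (d w)) w' (i' : Fin (d w')), w ≠ w' →
            p w + (i : ℕ) ≠ p w' + (i' : ℕ) := by
          intro w i w' i' hne heq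
          have := i.2; have := i'.2
          rcases le_total (p w) (p w') with h | h
          · have := (hsep w w' hne h).1; omega
          · have := (hsep w' w (Ne.symm hne) h).1; omega
        have c12 : ∀ w (i : Fin (d w)) w', e w' → p w + (i : ℕ) ≠ p w' + d w' := by
          intro w i w' he heq
          have := i.2
          by_cases hne : w = w'
          · subst hne; omega
          · rcases le_total (p w) (p w') with h | h
            · have := (hsep w w' hne h).1; omega
            · have := key1 w' w (Ne.symm hne) he h; omega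
        have c13 : ∀ w (i : Fin (d w)) w', e w' → (∀ v, p v ≠ p w' + d w' + 1) →
            p w + (i : ℕ) ≠ p w' + d w' + 1 := by
          intro w i w' he hv heq
          have := i.2
          have := hv w
          by_cases hne : w = w'
          · subst hne; omega
          · rcases le_total (p w) (p w') with h | h
            · have := (hsep w w' hne h).1; omega
            · have := key1 w' w (Ne.symm hne) he h; omega
        have c22 : ∀ w w', w ≠ w' → e w → e w' → p w + d w ≠ p w' + d w' := by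
          intro w w' hne he he' heq
          rcases le_total (p w) (p w') with h | h
          · have := key1 w w' hne he h; omega
          · have := key1 w' w (Ne.symm hne) he' h; omega
        have c23 : ∀ w w', e w → e w' → (∀ v, p v ≠ p w' + d w' + 1) →
            p w + d w ≠ p w' + d w' + 1 := by
          intro w w' he he' hv heq
          have := hv w
          by_cases hne : w = w'
          · subst hne; omega
          · rcases le_total (p w) (p w') with h | h
            · have := key1 w w' hne he h; omega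
            · have := key1 w' w (Ne.symm hne) he' h; omega
        rintro (⟨w, i⟩ | w | w) (⟨w', i'⟩ | w' | w') hxy <;> simp only [f] at hxy
        · by_cases hne : w = w'
          · subst hne
            have : i = i' := by apply Fin.ext; omega
            subst this; rfl
          · exact absurd hxy (c11 w i w' i' hne)
        · exact absurd hxy (c12 w i w'.1 (heA w'))
        · exact absurd hxy (c13 w i w'.1 (heR w') (hR w'))
        · exact absurd hxy.symm (c12 w' i' w.1 (heA w))
        · by_cases hne : w.1 = w'.1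
          · have : w = w' := Subtype.ext hne
            subst this; rfl
          · exact absurd hxy (c22 w.1 w'.1 hne (heA w) (heA w'))
        · exact absurd hxy (c23 w.1 w'.1 (heA w) (heR w') (hR w'))
        · exact absurd hxy.symm (c13 w' i' w.1 (heR w) (hR w))
        · exact absurd hxy.symm (c23 w'.1 w.1 (heA w') (heR w) (hR w))
        · by_cases hne : w.1 = w'.1
          · have : w = w' := Subtype.ext hne
            subst this; rfl
          · exact absurd (Nat.add_right_cancel hxy) (c22 w.1 w'.1 hne (heR w) (heR w'))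
      exact Fintype.card_le_of_injective (fun x => (⟨f x, hf x⟩ : Fin T.length)) (by
        intro x y hxy
        exact hinj (Fin.mk.inj_iff.1 hxy))
    simp only [Fintype.card_sum, Fintype.card_sigma, Fintype.card_fin, Fintype.card_coe] at hcard
    omega
  -- every block contains a run end
  have hex : ∀ b, ∃ w, blk w = b ∧ e w := by
    intro b
    by_contra hcon
    push Not at hcon
    obtain ⟨w0, hw0⟩ := hsurj b
    have hall : ∀ w, blk w = b → d w ≠ 0 ∧ p (nx w) = p w + d w := by
      intro w hw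
      have := hcon w hw
      simp only [e, not_or, not_not] at this
      exact this
    have hsum : ∑ w ∈ univ.filter (fun w => blk w = b), p (nx w)
        = ∑ w ∈ univ.filter (fun w => blk w = b), p w := by
      apply Finset.sum_bij (fun w _ => nx w)
      · intro w hw; simp only [mem_filter, mem_univ, true_and] at hw ⊢; rw [hblk]; exact hw
      · intro a _ b _ h; exact nx.injective h
      · intro w hw
        simp only [mem_filter, mem_univ, true_and] at hw
        refine ⟨nx.symm w, ?_, by simp⟩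
        simp only [mem_filter, mem_univ, true_and]
        rw [← hblk]; simpa using hw
      · intro w _; rfl
    have hlt : ∑ w ∈ univ.filter (fun w => blk w = b), p w
        < ∑ w ∈ univ.filter (fun w => blk w = b), p (nx w) := by
      apply Finset.sum_lt_sum
      · intro w hw
        simp only [mem_filter, mem_univ, true_and] at hw
        have := hall w hw; omega
      · refine ⟨w0, by simp only [mem_filter, mem_univ, hw0, and_self], ?_⟩
        have := hall w0 hw0; omega
    omega
  choose c hcb hce using hex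
  refine ⟨fun b => nx (c b), fun b => by rw [hblk, hcb], ?_⟩
  intro φ hφ
  -- matching
  have hmatch : ∀ w : W, ∃ w' : W, (w ∈ A ∧ w ∉ R → w' ∈ A ∧ p (nx w') = p w + d w + 1 ∧
      src (nx w') = tgt (nx w)) := by
    intro w
    by_cases hw : w ∈ A ∧ w ∉ R
    · have hew : e w := (mem_filter.1 hw.1).2
      have : ∃ v, p v = p w + d w + 1 := by
        by_contra hno
        push Not at hno
        exact hw.2 (mem_filter.2 ⟨hw.1, hno⟩)
      obtain ⟨v, hv⟩ := this
      refine ⟨nx.symm v, fun _ => ⟨?_, ?_, ?_⟩⟩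
      · simp only [A, mem_filter, mem_univ, true_and]
        by_contra hne
        simp only [e, not_or, not_not] at hne
        rw [Equiv.apply_symm_apply] at hne
        have h1 := hne.2
        have h2 := hne.1
        by_cases hww : nx.symm v = w
        · rw [hww] at h1; omega
        · rcases le_total (p w) (p (nx.symm v)) with h | h
          · have := key1 w (nx.symm v) (Ne.symm hww) hew h; omega
          · have := (hsep (nx.symm v) w hww h).1; omega
      · rw [Equiv.apply_symm_apply]; exact hv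
      · rw [Equiv.apply_symm_apply]
        have h1 := hpi v 0 (by omega)
        have h2 := hpi w (d w + 1) (by omega)
        rw [hfst] at h1
        rw [hlst] at h2
        rw [Nat.add_zero, hv] at h1
        rw [← Nat.add_assoc] at h2
        rw [h1] at h2
        exact Option.some.inj h2
    · exact ⟨w, fun h => absurd h hw⟩
  choose g hg using hmatch
  have hginj : ∀ w w', w ∈ A \ R → w' ∈ A \ R → g w = g w' → w = w' := by
    intro w w' hw hw' hgg
    rw [mem_sdiff] at hw hw'
    have h1 := (hg w hw).2.1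
    have h2 := (hg w' hw').2.1
    rw [hgg, h2] at h1
    by_contra hne
    have he : e w := (mem_filter.1 hw.1).2
    have he' : e w' := (mem_filter.1 hw'.1).2
    rcases le_total (p w) (p w') with h | h
    · have := key1 w w' hne he h; omega
    · have := key1 w' w (Ne.symm hne) he' h; omega
  have hRA : R ⊆ A := filter_subset _ _
  have hsrc : ∑ w ∈ A, φ (src (nx w)) ≤ ∑ w ∈ A \ R, φ (tgt (nx w)) + R.card := by
    have himg : (A \ R).image g ⊆ A := by
      intro w hw
      obtain ⟨v, hv, rfl⟩ := mem_image.1 hw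
      rw [mem_sdiff] at hv
      exact (hg v hv).1
    have h1 : ∑ w ∈ (A \ R).image g, φ (src (nx w)) = ∑ w ∈ A \ R, φ (tgt (nx w)) := by
      rw [Finset.sum_image (fun w hw w' hw' h => hginj w w' hw hw' h)]
      apply Finset.sum_congr rfl
      intro w hw
      rw [mem_sdiff] at hw
      rw [(hg w hw).2.2]
    have h2 := Finset.sum_sdiff (f := fun w => φ (src (nx w))) himg
    have h3 : ∑ w ∈ A \ (A \ R).image g, φ (src (nx w)) ≤ ((A \ (A \ R).image g).card : ℤ) := by
      calc ∑ w ∈ A \ (A \ R).image g, φ (src (nx w))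
          ≤ ∑ w ∈ A \ (A \ R).image g, (1 : ℤ) :=
            Finset.sum_le_sum (fun w _ => (hφ _).2)
        _ = _ := by simp
    have h4 : (A \ (A \ R).image g).card = R.card := by
      rw [card_sdiff_of_subset himg]
      rw [card_image_of_injOn (fun w hw w' hw' h => hginj w w' hw hw' h)]
      rw [card_sdiff_of_subset hRA]
      have := card_le_card hRA
      omega
    rw [h4] at h3
    linarith only [h1, h2, h3]
  have htgt : -(R.card : ℤ) + ∑ w ∈ A \ R, φ (tgt (nx w)) ≤ ∑ w ∈ A, φ (tgt (nx w)) := by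
    have h2 := Finset.sum_sdiff (f := fun w => φ (tgt (nx w))) hRA
    have h3 : -(R.card : ℤ) ≤ ∑ w ∈ R, φ (tgt (nx w)) := by
      calc -(R.card : ℤ) = ∑ w ∈ R, (-1 : ℤ) := by simp
        _ ≤ _ := Finset.sum_le_sum (fun w _ => (hφ _).1)
    linarith only [h2, h3]
  have hA : ∑ b, (2 + φ (src (nx (c b))) - φ (tgt (nx (c b))))
      ≤ ∑ w ∈ A, (2 + φ (src (nx w)) - φ (tgt (nx w))) := by
    have hcinj : Function.Injective c := by
      intro a b hab
      rw [← hcb a, ← hcb b, hab]
    have h1 : ∑ b, (2 + φ (src (nx (c b))) - φ (tgt (nx (c b))))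
        = ∑ w ∈ univ.image c, (2 + φ (src (nx w)) - φ (tgt (nx w))) := by
      rw [Finset.sum_image (fun a _ b _ h => hcinj h)]
    rw [h1]
    apply Finset.sum_le_sum_of_subset_of_nonneg
    · intro w hw
      obtain ⟨b, _, rfl⟩ := mem_image.1 hw
      exact mem_filter.2 ⟨mem_univ _, hce b⟩
    · intro w _ _
      have h1 := hφ (src (nx w)); have h2 := hφ (tgt (nx w)); omega
  have hsplit : ∑ w ∈ A, (2 + φ (src (nx w)) - φ (tgt (nx w)))
      = 2 * A.card + ∑ w ∈ A, φ (src (nx w)) - ∑ w ∈ A, φ (tgt (nx w)) := by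
    rw [Finset.sum_sub_distrib, Finset.sum_add_distrib]
    simp only [sum_const, Int.nsmul_eq_mul, mul_comm]
  have hcz : (∑ w, (d w : ℤ)) + A.card + R.card ≤ T.length := by exact_mod_cast hcount
  linarith only [hcount, hsrc, htgt, hA, hsplit]

end Vale.Agent.P333
end
end
end

section

section

section

/-!
A lower bound for binomial coefficients and the entropy form of the first moment condition.
-/

namespace Vale.Agent.P333

open Finset

/-- `n^n ≤ (n+1) C(n,u) u^u (n-u)^(n-u)`. -/
theorem pow_self_le_choose (n u : ℕ) (hu : u ≤ n) :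
    n ^ n ≤ (n + 1) * (n.choose u * u ^ u * (n - u) ^ (n - u)) := by
  set f : ℕ → ℕ := fun j => n.choose j * u ^ j * (n - u) ^ (n - j) with hf
  have hup : ∀ j, j + 1 ≤ u → f j ≤ f (j + 1) := by
    intro j hj
    have h1 : n.choose (j + 1) * (j + 1) = n.choose j * (n - j) := Nat.choose_succ_right_eq n j
    have h2 : n.choose j * (n - u) ≤ n.choose (j + 1) * u := by
      calc n.choose j * (n - u) ≤ n.choose j * (n - j) := by gcongr; omega
        _ = n.choose (j + 1) * (j + 1) := h1.symm
        _ ≤ n.choose (j + 1) * u := by gcongr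
    have h3 : n - j = (n - (j + 1)) + 1 := by omega
    simp only [hf]
    rw [h3, pow_succ, pow_succ]
    calc n.choose j * u ^ j * ((n - u) ^ (n - (j + 1)) * (n - u))
        = (n.choose j * (n - u)) * (u ^ j * (n - u) ^ (n - (j + 1))) := by ring
      _ ≤ (n.choose (j + 1) * u) * (u ^ j * (n - u) ^ (n - (j + 1))) := by gcongr
      _ = n.choose (j + 1) * (u ^ j * u) * (n - u) ^ (n - (j + 1)) := by ring
  have hdown : ∀ j, u ≤ j → j < n → f (j + 1) ≤ f j := by
    intro j hj hjn
    have h1 : n.choose (j + 1) * (j + 1) = n.choose j * (n - j) := Nat.choose_succ_right_eq n j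
    have h2 : n.choose (j + 1) * u ≤ n.choose j * (n - u) := by
      calc n.choose (j + 1) * u ≤ n.choose (j + 1) * (j + 1) := by gcongr; omega
        _ = n.choose j * (n - j) := h1
        _ ≤ n.choose j * (n - u) := by (clear * - hj; gcongr)
    have h3 : n - j = (n - (j + 1)) + 1 := by omega
    simp only [hf]
    rw [h3, pow_succ, pow_succ]
    calc n.choose (j + 1) * (u ^ j * u) * (n - u) ^ (n - (j + 1))
        = (n.choose (j + 1) * u) * (u ^ j * (n - u) ^ (n - (j + 1))) := by ring
      _ ≤ (n.choose j * (n - u)) * (u ^ j * (n - u) ^ (n - (j + 1))) := by (clear * - h2; gcongr)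
      _ = n.choose j * u ^ j * ((n - u) ^ (n - (j + 1)) * (n - u)) := by ring
  have hle : ∀ d j, j + d = u → f j ≤ f u := by
    intro d
    induction d with
    | zero => intro j hj; rw [show j = u by omega]
    | succ d ih => intro j hj; exact (hup j (by omega)).trans (ih (j + 1) (by omega))
  have hle' : ∀ j, u ≤ j → j ≤ n → f j ≤ f u := by
    intro j hj
    induction j, hj using Nat.le_induction with
    | base => intro _; exact le_rfl
    | succ k hk ih => intro hkn; exact (hdown k hk (by omega)).trans (ih (by omega))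
  have hsum : n ^ n = ∑ j ∈ range (n + 1), f j := by
    have := add_pow u (n - u) n
    rw [show u + (n - u) = n by omega] at this
    rw [this]
    apply sum_congr rfl
    intro j _
    simp only [hf, Nat.cast_id]
    ring
  rw [hsum]
  calc ∑ j ∈ range (n + 1), f j ≤ ∑ _j ∈ range (n + 1), f u := by
        apply sum_le_sum
        intro j hj
        rw [mem_range] at hj
        rcases le_total j u with h | h
        · exact hle (u - j) j (by omega)
        · exact hle' j h (by omega)
    _ = (n + 1) * f u := by simp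

/-- Real version, ready for the first moment bound. -/
theorem one_div_choose_le (n u : ℕ) (hu : u ≤ n) {A B : ℝ} (hB : 0 < B)
    (h : A * ((u : ℝ) ^ u * ((n - u : ℕ) : ℝ) ^ (n - u)) ≤ B * (n : ℝ) ^ n) :
    A / B * (1 / (n.choose u : ℝ)) ≤ n + 1 := by
  have h1 : (n : ℝ) ^ n ≤ (n + 1) * (n.choose u * (u : ℝ) ^ u * ((n - u : ℕ) : ℝ) ^ (n - u)) := by
    exact_mod_cast pow_self_le_choose n u hu
  have hc : (0 : ℝ) < n.choose u := by exact_mod_cast Nat.choose_pos hu
  have hE : 0 < (u : ℝ) ^ u * ((n - u : ℕ) : ℝ) ^ (n - u) := by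
    apply mul_pos
    · rcases Nat.eq_zero_or_pos u with rfl | hu0
      · simp
      · positivity
    · rcases Nat.eq_zero_or_pos (n - u) with h0 | h0
      · rw [h0]; simp
      · positivity
  rw [div_mul_div_comm, mul_one, div_le_iff₀ (mul_pos hB hc)]
  have h2 : A * ((u : ℝ) ^ u * ((n - u : ℕ) : ℝ) ^ (n - u))
      ≤ B * ((n + 1) * (n.choose u * (u : ℝ) ^ u * ((n - u : ℕ) : ℝ) ^ (n - u))) :=
    h.trans (mul_le_mul_of_nonneg_left h1 hB.le)
  have h3 : A * ((u : ℝ) ^ u * ((n - u : ℕ) : ℝ) ^ (n - u))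
      ≤ ((n + 1) * (B * n.choose u)) * ((u : ℝ) ^ u * ((n - u : ℕ) : ℝ) ^ (n - u)) := by
    linarith only [h2]
  exact le_of_mul_le_mul_right h3 hE

/-- Entropy identity at rational points. -/
theorem mul_binEntropy_div (n u : ℕ) (hu0 : 0 < u) (hun : u < n) :
    (n : ℝ) * Real.binEntropy ((u : ℝ) / n)
      = n * Real.log n - u * Real.log u - ((n - u : ℕ) : ℝ) * Real.log ((n - u : ℕ) : ℝ) := by
  have hn : (0 : ℝ) < n := by exact_mod_cast hu0.trans hun
  have hu : (0 : ℝ) < u := by exact_mod_cast hu0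
  have hnu : (0 : ℝ) < ((n - u : ℕ) : ℝ) := by
    have : 0 < n - u := by omega
    exact_mod_cast this
  have h1 : 1 - (u : ℝ) / n = ((n - u : ℕ) : ℝ) / n := by
    rw [Nat.cast_sub hun.le]
    field_simp
  rw [Real.binEntropy, h1, inv_div, inv_div, Real.log_div hn.ne' hu.ne',
    Real.log_div hn.ne' hnu.ne', Nat.cast_sub hun.le]
  field_simp
  ring

/-- From the entropy inequality to the product inequality. -/
theorem prod_le_of_entropy {p N u : ℕ} (hu0 : 0 < u) (hun : u < p * N) {R z : ℝ} (hR : 0 < R)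
    (hz : 0 < z)
    (h : Real.log R ≤ p * ((u : ℝ) / (p * N : ℕ) * Real.log z
      + Real.binEntropy ((u : ℝ) / (p * N : ℕ)))) :
    R ^ N * ((u : ℝ) ^ u * ((p * N - u : ℕ) : ℝ) ^ (p * N - u)) ≤ z ^ u * ((p * N : ℕ) : ℝ) ^ (p * N) := by
  set n := p * N with hn
  have hn0 : (0 : ℝ) < n := by exact_mod_cast hu0.trans hun
  have hu : (0 : ℝ) < u := by exact_mod_cast hu0
  have hnu : (0 : ℝ) < ((n - u : ℕ) : ℝ) := by
    have : 0 < n - u := by omega
    exact_mod_cast this
  have hN : (0 : ℝ) ≤ N := by positivity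
  have hpN : (n : ℝ) = p * N := by rw [hn]; push_cast; ring
  have e := mul_binEntropy_div n u hu0 hun
  have h2 : (N : ℝ) * Real.log R ≤ u * Real.log z + (n : ℝ) * Real.binEntropy ((u : ℝ) / n) := by
    calc (N : ℝ) * Real.log R
        ≤ N * (p * ((u : ℝ) / n * Real.log z + Real.binEntropy ((u : ℝ) / n))) :=
          mul_le_mul_of_nonneg_left h hN
      _ = n * ((u : ℝ) / n * Real.log z + Real.binEntropy ((u : ℝ) / n)) := by rw [hpN]; ring
      _ = u * Real.log z + (n : ℝ) * Real.binEntropy ((u : ℝ) / n) := by (clear * - hn0; field_simp)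
  rw [e] at h2
  rw [← Real.log_le_log_iff (by (clear * - hR hu0 hnu; positivity)) (by positivity), Real.log_mul (by positivity)
    (by positivity), Real.log_mul (by positivity) (by positivity), Real.log_mul (by positivity)
    (by (clear * - hn0; positivity)), Real.log_pow, Real.log_pow, Real.log_pow, Real.log_pow, Real.log_pow]
  linarith only [h2]

/-- From a rational check to the entropy inequality. -/
theorem entropy_of_prod {p a b : ℕ} (ha : 0 < a) (hab : a < b) {R z : ℝ} (hR : 0 < R)
    (hz : 0 < z)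
    (h : R ^ b * (((a : ℝ) ^ a * ((b - a : ℕ) : ℝ) ^ (b - a)) ^ p) ≤ (z ^ a * (b : ℝ) ^ b) ^ p) :
    Real.log R ≤ p * ((a : ℝ) / b * Real.log z + Real.binEntropy ((a : ℝ) / b)) := by
  have hb0 : (0 : ℝ) < b := by exact_mod_cast ha.trans hab
  have ha0 : (0 : ℝ) < a := by exact_mod_cast ha
  have hba : (0 : ℝ) < ((b - a : ℕ) : ℝ) := by
    have : 0 < b - a := by omega
    exact_mod_cast this
  have e := mul_binEntropy_div b a ha hab
  rw [← Real.log_le_log_iff (by positivity) (by positivity), Real.log_mul (by positivity)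
    (by positivity), Real.log_pow, Real.log_pow, Real.log_pow, Real.log_mul (by positivity)
    (by positivity), Real.log_mul (by positivity) (by positivity), Real.log_pow, Real.log_pow,
    Real.log_pow, Real.log_pow] at h
  have h2 : (b : ℝ) * Real.log R
      ≤ b * (p * ((a : ℝ) / b * Real.log z + Real.binEntropy ((a : ℝ) / b))) := by
    have : (b : ℝ) * (p * ((a : ℝ) / b * Real.log z + Real.binEntropy ((a : ℝ) / b)))
        = p * (a * Real.log z + (b : ℝ) * Real.binEntropy ((a : ℝ) / b)) := by
      field_simp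
    rw [this, e]
    linarith only [h]
  exact le_of_mul_le_mul_left h2 hb0

/-- The entropy inequality is stable under passing to intermediate points. -/
theorem entropy_between {c L Z t0 t1 t : ℝ} (h0 : 0 ≤ t0) (h1 : t1 ≤ 1) (ht0 : t0 ≤ t)
    (ht1 : t ≤ t1) (hc : 0 ≤ c)
    (e0 : L ≤ c * (t0 * Z + Real.binEntropy t0)) (e1 : L ≤ c * (t1 * Z + Real.binEntropy t1)) :
    L ≤ c * (t * Z + Real.binEntropy t) := by
  have hcv : ConcaveOn ℝ (Set.Icc (0 : ℝ) 1) Real.binEntropy := Real.strictConcave_binEntropy.concaveOn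
  rcases eq_or_lt_of_le (ht0.trans ht1) with h | h
  · have : t = t0 := le_antisymm (by linarith) ht0
    rw [this]; exact e0
  · set s := (t - t0) / (t1 - t0) with hs
    have hd : 0 < t1 - t0 := by linarith only [h]
    have hs0 : 0 ≤ s := div_nonneg (by linarith only [ht0]) hd.le
    have hs1 : s ≤ 1 := by rw [hs, div_le_one hd]; linarith only [ht1]
    have hst : (1 - s) * t0 + s * t1 = t := by
      rw [hs]; field_simp; ring
    have hb := hcv.2 (show t0 ∈ Set.Icc (0 : ℝ) 1 from ⟨h0, by linarith only [h1, ht0, ht1]⟩)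
      (show t1 ∈ Set.Icc (0 : ℝ) 1 from ⟨by linarith only [h0, ht0, ht1], h1⟩)
      (show (0 : ℝ) ≤ 1 - s by linarith only [hs1]) hs0 (by ring : (1 - s) + s = 1)
    simp only [smul_eq_mul] at hb
    rw [hst] at hb
    have h3 : c * ((1 - s) * Real.binEntropy t0 + s * Real.binEntropy t1)
        ≤ c * Real.binEntropy t := mul_le_mul_of_nonneg_left hb hc
    have h4 := mul_le_mul_of_nonneg_left e0 (by linarith only [hs1] : (0 : ℝ) ≤ 1 - s)
    have h5 := mul_le_mul_of_nonneg_left e1 hs0
    have h6 : t * Z = (1 - s) * (t0 * Z) + s * (t1 * Z) := by rw [← hst]; ring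
    have h7 : L = (1 - s) * L + s * L := by ring
    rw [h7, h6]
    linarith only [h3, h4, h5]

end Vale.Agent.P333
end
end
end

section

section

section

/-!
Entropy form of the certificate condition in two variables.
-/

namespace Vale.Agent.P333

open Finset

theorem selfpow_pos (n : ℕ) : 0 < (n : ℝ) ^ n := by
  rcases Nat.eq_zero_or_pos n with rfl | h
  · simp only [CharP.cast_eq_zero, pow_zero, zero_lt_one]
  · positivity

theorem inv_choose_le (n u : ℕ) (hu : u ≤ n) :
    1 / (n.choose u : ℝ) ≤ (n + 1) * (((u : ℝ) ^ u * ((n - u : ℕ) : ℝ) ^ (n - u)) / (n : ℝ) ^ n) := by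
  have h0 := mul_pos (selfpow_pos u) (selfpow_pos (n - u))
  have h1 := one_div_choose_le n u hu (A := (n : ℝ) ^ n)
    (B := (u : ℝ) ^ u * ((n - u : ℕ) : ℝ) ^ (n - u)) h0 (le_of_eq (by ring))
  have h2 := selfpow_pos n
  rw [div_mul_eq_mul_div, div_le_iff₀ h0] at h1
  rw [mul_div_assoc', le_div_iff₀ h2]
  linarith only [h1]

theorem mul_binEntropy_div' (n u : ℕ) (hn : 0 < n) (hun : u ≤ n) :
    (n : ℝ) * Real.binEntropy ((u : ℝ) / n)
      = n * Real.log n - u * Real.log u - ((n - u : ℕ) : ℝ) * Real.log ((n - u : ℕ) : ℝ) := by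
  rcases Nat.eq_zero_or_pos u with rfl | hu0
  · simp only [CharP.cast_eq_zero, zero_div, Real.binEntropy_zero, mul_zero, Real.log_zero, sub_zero, tsub_zero, sub_self]
  · rcases hun.lt_or_eq with h | rfl
    · exact mul_binEntropy_div n u hu0 h
    · have : ((u : ℝ) / u) = 1 := div_self (by exact_mod_cast hn.ne')
      rw [this]
      simp

/-- Rational check of the entropy inequality at `a / b`. -/
theorem chk {C Z : ℝ} (hC : 0 < C) (hZ : 0 < Z) {a b : ℕ} (hb : 0 < b) (hab : a ≤ b)
    (h : C ^ b * ((a : ℝ) ^ a * ((b - a : ℕ) : ℝ) ^ (b - a)) ≤ Z ^ a * (b : ℝ) ^ b) :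
    Real.log C ≤ Real.binEntropy ((a : ℝ) / b) + (a : ℝ) / b * Real.log Z := by
  have hb0 : (0 : ℝ) < b := by exact_mod_cast hb
  have e := mul_binEntropy_div' b a hb hab
  have p1 := selfpow_pos a
  have p2 := selfpow_pos (b - a)
  rw [← Real.log_le_log_iff (by (clear * - hC p1 p2; positivity)) (by positivity), Real.log_mul (by positivity)
    (by positivity), Real.log_mul p1.ne' p2.ne', Real.log_mul (by positivity) (by positivity),
    Real.log_pow, Real.log_pow, Real.log_pow, Real.log_pow, Real.log_pow] at h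
  have h2 : (b : ℝ) * Real.log C
      ≤ b * (Real.binEntropy ((a : ℝ) / b) + (a : ℝ) / b * Real.log Z) := by
    have : (b : ℝ) * (Real.binEntropy ((a : ℝ) / b) + (a : ℝ) / b * Real.log Z)
        = (b : ℝ) * Real.binEntropy ((a : ℝ) / b) + a * Real.log Z := by
      field_simp
    rw [this, e]
    linarith only [h]
  exact le_of_mul_le_mul_left h2 hb0

/-- Intermediate points. -/
theorem chk_between {L Z t0 t1 t : ℝ} (h0 : 0 ≤ t0) (h1 : t1 ≤ 1) (ht0 : t0 ≤ t)
    (ht1 : t ≤ t1) (e0 : L ≤ Real.binEntropy t0 + t0 * Z) (e1 : L ≤ Real.binEntropy t1 + t1 * Z) :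
    L ≤ Real.binEntropy t + t * Z := by
  have := entropy_between (c := 1) (L := L) (Z := Z) h0 h1 ht0 ht1 zero_le_one
    (by linarith only [e0]) (by linarith)
  linarith

/-- The two-variable condition. -/
theorem works2 {K w u : ℕ} (hK : 0 < K) (hw : w ≤ K) (hu : u ≤ K * 4) {R₀ R₁ Bc z y : ℝ}
    (hR₀ : 0 < R₀) (hR₁ : 0 < R₁) (hB : 0 < Bc) (hz : 0 < z) (hy : 0 < y)
    (h : Real.log R₀ + 4 * Real.log R₁ + Real.log Bc
      ≤ (Real.binEntropy ((w : ℝ) / K) + (w : ℝ) / K * Real.log (z * Bc))
        + 4 * (Real.binEntropy ((u : ℝ) / (K * 4 : ℕ)) + (u : ℝ) / (K * 4 : ℕ) * Real.log y)) :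
    R₀ ^ K * R₁ ^ (K * 4) * Bc ^ (K - w) * (((w : ℝ) ^ w * ((K - w : ℕ) : ℝ) ^ (K - w))
      * ((u : ℝ) ^ u * ((K * 4 - u : ℕ) : ℝ) ^ (K * 4 - u)))
      ≤ z ^ w * y ^ u * ((K : ℝ) ^ K * ((K * 4 : ℕ) : ℝ) ^ (K * 4)) := by
  have hK0 : (0 : ℝ) < K := by exact_mod_cast hK
  have e1 := mul_binEntropy_div' K w hK hw
  have e2 := mul_binEntropy_div' (K * 4) u (by omega) hu
  have p1 := selfpow_pos w
  have p2 := selfpow_pos (K - w)
  have p3 := selfpow_pos u
  have p4 := selfpow_pos (K * 4 - u)
  have p5 := selfpow_pos K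
  have p6 := selfpow_pos (K * 4)
  have hN : ((K * 4 : ℕ) : ℝ) = K * 4 := by push_cast; ring
  have hKw : ((K - w : ℕ) : ℝ) = K - w := by rw [Nat.cast_sub hw]
  rw [← Real.log_le_log_iff (by (clear * - hR₀ hR₁ hB p1 p2 p3 p4; positivity)) (by positivity),
    Real.log_mul (by positivity) (by (clear * - p1 p2 p3 p4; positivity)), Real.log_mul (by positivity) (by positivity),
    Real.log_mul (by positivity) (by positivity), Real.log_mul (by (clear * - p1 p2; positivity)) (by (clear * - p3 p4; positivity)),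
    Real.log_mul p1.ne' p2.ne', Real.log_mul p3.ne' p4.ne', Real.log_mul (by positivity)
    (by positivity), Real.log_mul (by positivity) (by positivity), Real.log_mul p5.ne' p6.ne',
    Real.log_pow, Real.log_pow, Real.log_pow, Real.log_pow, Real.log_pow, Real.log_pow,
    Real.log_pow, Real.log_pow, Real.log_pow, Real.log_pow, Real.log_pow]
  have h2 : (K : ℝ) * (Real.log R₀ + 4 * Real.log R₁ + Real.log Bc)
      ≤ K * ((Real.binEntropy ((w : ℝ) / K) + (w : ℝ) / K * Real.log (z * Bc))
        + 4 * (Real.binEntropy ((u : ℝ) / (K * 4 : ℕ)) + (u : ℝ) / (K * 4 : ℕ) * Real.log y)) :=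
    mul_le_mul_of_nonneg_left h hK0.le
  have h3 : (K : ℝ) * ((Real.binEntropy ((w : ℝ) / K) + (w : ℝ) / K * Real.log (z * Bc))
        + 4 * (Real.binEntropy ((u : ℝ) / (K * 4 : ℕ)) + (u : ℝ) / (K * 4 : ℕ) * Real.log y))
      = (K : ℝ) * Real.binEntropy ((w : ℝ) / K) + w * (Real.log z + Real.log Bc)
        + (((K * 4 : ℕ) : ℝ) * Real.binEntropy ((u : ℝ) / (K * 4 : ℕ)) + u * Real.log y) := by
    rw [Real.log_mul hz.ne' hB.ne', hN]
    (clear * - hK; field_simp)
  rw [h3, e1, e2] at h2
  rw [hKw] at *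
  rw [hN] at *
  linarith only [h2]

end Vale.Agent.P333
end
end
end

section

section

section

/-!
Certificates valid on rectangles of densities.
-/

namespace Vale.Agent.P333

open Finset

namespace Cert1

variable (C : Cert1)

theorem weight_le (s K w u : ℕ) (hw : w ≤ K) (hu : u ≤ K * 4)
    (h : C.R₀ ^ K * C.R₁ ^ (K * 4) * (C.b * C.c ^ 2) ^ (K - w)
      * (((w : ℝ) ^ w * ((K - w : ℕ) : ℝ) ^ (K - w))
      * ((u : ℝ) ^ u * ((K * 4 - u : ℕ) : ℝ) ^ (K * 4 - u)))
      ≤ C.z ^ w * (C.y₀ * C.y₁) ^ u * ((K : ℝ) ^ K * ((K * 4 : ℕ) : ℝ) ^ (K * 4)))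
    (T : Finset ((Fin K → Cell) × (Fin (K * 4) → Bool)))
    (hT : ∀ p ∈ T, wOnes K p.1 = w ∧ bOnes K p.1 = u ∧ bones p.2 = u ∧ bad1 s K p.1 p.2) :
    (T.card : ℝ) * (1 / (K.choose w : ℝ)) * (1 / ((K * 4).choose u : ℝ))
      ≤ C.lam ^ s * (C.v₀ false * C.v₁ false) * ((K + 1) * ((K * 4 : ℕ) + 1)) := by
  have hlam := C.lam_pos
  have hb : 0 < C.b := lt_of_lt_of_le one_pos C.b_ge
  have hc : 0 < C.c := lt_of_lt_of_le one_pos C.c_ge
  have hz := C.z_pos
  have hy₀ := C.y₀_pos
  have hy₁ := C.y₁_pos
  have hR₀ := C.R₀_pos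
  have hR₁ := C.R₁_pos
  have hv₀ := lt_of_lt_of_le one_pos (C.v₀_ge false)
  have hv₁ := lt_of_lt_of_le one_pos (C.v₁_ge false)
  have h1 := C.card_le s K w u T hT
  have c1 := inv_choose_le K w hw
  have c2 := inv_choose_le (K * 4) u hu
  have p1 := mul_pos (selfpow_pos w) (selfpow_pos (K - w))
  have p2 := mul_pos (selfpow_pos u) (selfpow_pos (K * 4 - u))
  have p3 := selfpow_pos K
  have p4 := selfpow_pos (K * 4)
  set E1 : ℝ := (w : ℝ) ^ w * ((K - w : ℕ) : ℝ) ^ (K - w) with hE1
  set E2 : ℝ := (u : ℝ) ^ u * ((K * 4 - u : ℕ) : ℝ) ^ (K * 4 - u) with hE2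
  set X : ℝ := C.R₀ ^ K * C.R₁ ^ (K * 4) * (C.b * C.c ^ 2) ^ (K - w) with hX
  set Y : ℝ := C.z ^ w * (C.y₀ * C.y₁) ^ u with hY
  have hX0 : 0 < X := by positivity
  have hY0 : 0 < Y := by positivity
  have h2 : X / Y * (E1 / (K : ℝ) ^ K) * (E2 / ((K * 4 : ℕ) : ℝ) ^ (K * 4)) ≤ 1 := by
    rw [div_mul_div_comm, div_mul_div_comm, div_le_one (by (clear * - hz hy₀ hy₁ p3 p4; positivity))]
    calc X * E1 * E2 = X * (E1 * E2) := by ring
      _ ≤ Y * ((K : ℝ) ^ K * ((K * 4 : ℕ) : ℝ) ^ (K * 4)) := h
      _ = _ := by ring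
  calc (T.card : ℝ) * (1 / (K.choose w : ℝ)) * (1 / ((K * 4).choose u : ℝ))
      ≤ (C.lam ^ s * (C.v₀ false * C.v₁ false) * (X / Y))
        * ((K + 1) * (E1 / (K : ℝ) ^ K))
        * (((K * 4 : ℕ) + 1) * (E2 / ((K * 4 : ℕ) : ℝ) ^ (K * 4))) := by
        (clear * - h1 c1 hlam hv₀ hv₁ hR₀ hR₁ hb hc hz hy₀ hy₁ c2 p1 p3; gcongr)
    _ = C.lam ^ s * (C.v₀ false * C.v₁ false) * ((K + 1) * ((K * 4 : ℕ) + 1))
        * (X / Y * (E1 / (K : ℝ) ^ K) * (E2 / ((K * 4 : ℕ) : ℝ) ^ (K * 4))) := by ring
    _ ≤ C.lam ^ s * (C.v₀ false * C.v₁ false) * ((K + 1) * ((K * 4 : ℕ) + 1)) * 1 := by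
        (clear * - h2 hlam hv₀ hv₁; gcongr)
    _ = _ := by ring

/-- The certificate bounds the weight for all densities in a rectangle. -/
def Good (t0 t1 m0 m1 : ℝ) : Prop :=
  ∀ (s K w u : ℕ), 0 < K → w ≤ K → u ≤ K * 4 →
    m0 ≤ (w : ℝ) / K → (w : ℝ) / K ≤ m1 →
    t0 ≤ (u : ℝ) / (K * 4 : ℕ) → (u : ℝ) / (K * 4 : ℕ) ≤ t1 →
    ∀ (T : Finset ((Fin K → Cell) × (Fin (K * 4) → Bool))),
    (∀ p ∈ T, wOnes K p.1 = w ∧ bOnes K p.1 = u ∧ bones p.2 = u ∧ bad1 s K p.1 p.2) →
    (T.card : ℝ) * (1 / (K.choose w : ℝ)) * (1 / ((K * 4).choose u : ℝ))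
      ≤ C.lam ^ s * (C.v₀ false * C.v₁ false) * ((K + 1) * ((K * 4 : ℕ) + 1))

theorem good_of (t0 t1 m0 m1 : ℝ) (ht0 : 0 ≤ t0) (ht1 : t1 ≤ 1) (hm0 : 0 ≤ m0) (hm1 : m1 ≤ 1)
    (C1 C2 : ℝ) (hC1 : 0 < C1) (hC2 : 0 < C2)
    (e1 : Real.log C1 ≤ Real.binEntropy m0 + m0 * Real.log (C.z * (C.b * C.c ^ 2)))
    (e2 : Real.log C1 ≤ Real.binEntropy m1 + m1 * Real.log (C.z * (C.b * C.c ^ 2)))
    (e3 : Real.log C2 ≤ Real.binEntropy t0 + t0 * Real.log (C.y₀ * C.y₁))
    (e4 : Real.log C2 ≤ Real.binEntropy t1 + t1 * Real.log (C.y₀ * C.y₁))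
    (e5 : C.R₀ * C.R₁ ^ 4 * (C.b * C.c ^ 2) ≤ C1 * C2 ^ 4) :
    C.Good t0 t1 m0 m1 := by
  intro s K w u hK hw hu h1 h2 h3 h4 T hT
  have hb : 0 < C.b := lt_of_lt_of_le one_pos C.b_ge
  have hc : 0 < C.c := lt_of_lt_of_le one_pos C.c_ge
  have hz := C.z_pos
  have hy₀ := C.y₀_pos
  have hy₁ := C.y₁_pos
  have hR₀ := C.R₀_pos
  have hR₁ := C.R₁_pos
  apply C.weight_le s K w u hw hu _ T hT
  apply works2 hK hw hu hR₀ hR₁ (by positivity) hz (by positivity)
  have g1 := chk_between hm0 hm1 h1 h2 e1 e2
  have g2 := chk_between ht0 ht1 h3 h4 e3 e4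
  have g3 : Real.log C.R₀ + 4 * Real.log C.R₁ + Real.log (C.b * C.c ^ 2)
      ≤ Real.log C1 + 4 * Real.log C2 := by
    have hBc : 0 < C.b * C.c ^ 2 := by positivity
    have h5 := Real.log_le_log (by (clear * - hR₀ hR₁ hb hc; positivity)) e5
    generalize C.b * C.c ^ 2 = Bc at hBc h5 ⊢
    rw [Real.log_mul (by positivity) hBc.ne', Real.log_mul hR₀.ne' (by positivity),
      Real.log_mul hC1.ne' (by positivity), Real.log_pow, Real.log_pow] at h5
    push_cast at h5
    linarith only [h5]
  linarith only [g1, g2, g3]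

end Cert1

end Vale.Agent.P333
end
end
end

section

section

section

/-!
Numerical certificates on rectangles of densities.
-/

namespace Vale.Agent.P333

/-- Certificate 0. -/
noncomputable def rc00 : Cert1 where
  lam := 1/240
  a := 240
  b := 1
  c := 1
  z := 1/4
  y₀ := 27/100
  y₁ := 22/25
  R₀ := 15907/10000
  R₁ := 10253/10000
  v₀ := fun q => if q then 73 else 1
  v₁ := fun q => if q then 69/10 else 1
  lam_pos := by norm_num
  lam_le := by norm_num
  a_ge := by norm_num
  b_ge := by norm_num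
  c_ge := by norm_num
  habc := by norm_num
  z_pos := by norm_num
  y₀_pos := by norm_num
  y₁_pos := by norm_num
  R₀_pos := by norm_num
  R₁_pos := by norm_num
  v₀_ge := by intro q; cases q <;> norm_num
  v₁_ge := by intro q; cases q <;> norm_num
  step₀ := by intro q; cases q <;> norm_num [cellG, cellT, alp]
  step₁ := by intro q; cases q <;> norm_num [cellT]

theorem rc00_good : rc00.Good (1/10) (3/10) (0) (1/2) := by
  have e1 := chk (C := 99999/100000) (Z := 1/4) (by norm_num) (by norm_num)
    (a := 0) (b := 1) (by norm_num) (by norm_num) (by norm_num)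
  have e2 := chk (C := 99999/100000) (Z := 1/4) (by norm_num) (by norm_num)
    (a := 1) (b := 2) (by norm_num) (by norm_num) (by norm_num)
  have e3 := chk (C := 748/625) (Z := 297/1250) (by norm_num) (by norm_num)
    (a := 1) (b := 10) (by norm_num) (by norm_num) (by norm_num)
  have e4 := chk (C := 748/625) (Z := 297/1250) (by norm_num) (by norm_num)
    (a := 3) (b := 10) (by norm_num) (by norm_num) (by norm_num)
  have hz : rc00.z * (rc00.b * rc00.c ^ 2) = 1/4 := by norm_num [rc00]
  have hy : rc00.y₀ * rc00.y₁ = 297/1250 := by norm_num [rc00]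
  have hR : rc00.R₀ * rc00.R₁ ^ 4 * (rc00.b * rc00.c ^ 2)
      ≤ 99999/100000 * (748/625) ^ 4 := by norm_num [rc00]
  refine rc00.good_of _ _ _ _ (by norm_num) (by norm_num) (by norm_num) (by norm_num)
    (99999/100000) (748/625) (by norm_num) (by norm_num) ?_ ?_ ?_ ?_ hR
  · rw [hz]; norm_num at e1 ⊢; exact e1
  · rw [hz]; norm_num at e2 ⊢; exact e2
  · rw [hy]; norm_num at e3 ⊢; exact e3
  · rw [hy]; norm_num at e4 ⊢; exact e4

/-- Certificate 1. -/
noncomputable def rc01 : Cert1 where
  lam := 1/76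
  a := 38
  b := 2
  c := 1
  z := 97/1000
  y₀ := 69/100
  y₁ := 97/100
  R₀ := 18013/10000
  R₁ := 27489/25000
  v₀ := fun q => if q then 16 else 1
  v₁ := fun q => if q then 39/5 else 1
  lam_pos := by norm_num
  lam_le := by norm_num
  a_ge := by norm_num
  b_ge := by norm_num
  c_ge := by norm_num
  habc := by norm_num
  z_pos := by norm_num
  y₀_pos := by norm_num
  y₁_pos := by norm_num
  R₀_pos := by norm_num
  R₁_pos := by norm_num
  v₀_ge := by intro q; cases q <;> norm_num
  v₁_ge := by intro q; cases q <;> norm_num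
  step₀ := by intro q; cases q <;> norm_num [cellG, cellT, alp]
  step₁ := by intro q; cases q <;> norm_num [cellT]

theorem rc01_good : rc01.Good (3/10) (1/2) (0) (1/2) := by
  have e1 := chk (C := 8809/10000) (Z := 97/500) (by norm_num) (by norm_num)
    (a := 0) (b := 1) (by norm_num) (by norm_num) (by norm_num)
  have e2 := chk (C := 8809/10000) (Z := 97/500) (by norm_num) (by norm_num)
    (a := 1) (b := 2) (by norm_num) (by norm_num) (by norm_num)
  have e3 := chk (C := 16329/10000) (Z := 6693/10000) (by norm_num) (by norm_num)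
    (a := 3) (b := 10) (by norm_num) (by norm_num) (by norm_num)
  have e4 := chk (C := 16329/10000) (Z := 6693/10000) (by norm_num) (by norm_num)
    (a := 1) (b := 2) (by norm_num) (by norm_num) (by norm_num)
  have hz : rc01.z * (rc01.b * rc01.c ^ 2) = 97/500 := by norm_num [rc01]
  have hy : rc01.y₀ * rc01.y₁ = 6693/10000 := by norm_num [rc01]
  have hR : rc01.R₀ * rc01.R₁ ^ 4 * (rc01.b * rc01.c ^ 2)
      ≤ 8809/10000 * (16329/10000) ^ 4 := by norm_num [rc01]
  refine rc01.good_of _ _ _ _ (by norm_num) (by norm_num) (by norm_num) (by norm_num)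
    (8809/10000) (16329/10000) (by norm_num) (by norm_num) ?_ ?_ ?_ ?_ hR
  · rw [hz]; norm_num at e1 ⊢; exact e1
  · rw [hz]; norm_num at e2 ⊢; exact e2
  · rw [hy]; norm_num at e3 ⊢; exact e3
  · rw [hy]; norm_num at e4 ⊢; exact e4

/-- Certificate 2. -/
noncomputable def rc02 : Cert1 where
  lam := 1/273
  a := 210
  b := 13/10
  c := 1
  z := 13/10
  y₀ := 1/5
  y₁ := 22/25
  R₀ := 1993/625
  R₁ := 51143/50000
  v₀ := fun q => if q then 140 else 1
  v₁ := fun q => if q then 7 else 1
  lam_pos := by norm_num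
  lam_le := by norm_num
  a_ge := by norm_num
  b_ge := by norm_num
  c_ge := by norm_num
  habc := by norm_num
  z_pos := by norm_num
  y₀_pos := by norm_num
  y₁_pos := by norm_num
  R₀_pos := by norm_num
  R₁_pos := by norm_num
  v₀_ge := by intro q; cases q <;> norm_num
  v₁_ge := by intro q; cases q <;> norm_num
  step₀ := by intro q; cases q <;> norm_num [cellG, cellT, alp]
  step₁ := by intro q; cases q <;> norm_num [cellT]

theorem rc02_good : rc02.Good (1/10) (1/5) (1/2) (3/4) := by
  have e1 := chk (C := 25999/10000) (Z := 169/100) (by norm_num) (by norm_num)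
    (a := 1) (b := 2) (by norm_num) (by norm_num) (by norm_num)
  have e2 := chk (C := 25999/10000) (Z := 169/100) (by norm_num) (by norm_num)
    (a := 3) (b := 4) (by norm_num) (by norm_num) (by norm_num)
  have e3 := chk (C := 5817/5000) (Z := 22/125) (by norm_num) (by norm_num)
    (a := 1) (b := 10) (by norm_num) (by norm_num) (by norm_num)
  have e4 := chk (C := 5817/5000) (Z := 22/125) (by norm_num) (by norm_num)
    (a := 1) (b := 5) (by norm_num) (by norm_num) (by norm_num)
  have hz : rc02.z * (rc02.b * rc02.c ^ 2) = 169/100 := by norm_num [rc02]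
  have hy : rc02.y₀ * rc02.y₁ = 22/125 := by norm_num [rc02]
  have hR : rc02.R₀ * rc02.R₁ ^ 4 * (rc02.b * rc02.c ^ 2)
      ≤ 25999/10000 * (5817/5000) ^ 4 := by norm_num [rc02]
  refine rc02.good_of _ _ _ _ (by norm_num) (by norm_num) (by norm_num) (by norm_num)
    (25999/10000) (5817/5000) (by norm_num) (by norm_num) ?_ ?_ ?_ ?_ hR
  · rw [hz]; norm_num at e1 ⊢; exact e1
  · rw [hz]; norm_num at e2 ⊢; exact e2
  · rw [hy]; norm_num at e3 ⊢; exact e3
  · rw [hy]; norm_num at e4 ⊢; exact e4

/-- Certificate 3. -/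
noncomputable def rc03 : Cert1 where
  lam := 1/135
  a := 54
  b := 5/2
  c := 1
  z := 67/100
  y₀ := 37/100
  y₁ := 89/100
  R₀ := 23503/10000
  R₁ := 20877/20000
  v₀ := fun q => if q then 40 else 1
  v₁ := fun q => if q then 13/2 else 1
  lam_pos := by norm_num
  lam_le := by norm_num
  a_ge := by norm_num
  b_ge := by norm_num
  c_ge := by norm_num
  habc := by norm_num
  z_pos := by norm_num
  y₀_pos := by norm_num
  y₁_pos := by norm_num
  R₀_pos := by norm_num
  R₁_pos := by norm_num
  v₀_ge := by intro q; cases q <;> norm_num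
  v₁_ge := by intro q; cases q <;> norm_num
  step₀ := by intro q; cases q <;> norm_num [cellG, cellT, alp]
  step₁ := by intro q; cases q <;> norm_num [cellT]

theorem rc03_good : rc03.Good (1/5) (3/10) (1/2) (3/4) := by
  have e1 := chk (C := 6459/2500) (Z := 67/40) (by norm_num) (by norm_num)
    (a := 1) (b := 2) (by norm_num) (by norm_num) (by norm_num)
  have e2 := chk (C := 6459/2500) (Z := 67/40) (by norm_num) (by norm_num)
    (a := 3) (b := 4) (by norm_num) (by norm_num) (by norm_num)
  have e3 := chk (C := 13199/10000) (Z := 3293/10000) (by norm_num) (by norm_num)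
    (a := 1) (b := 5) (by norm_num) (by norm_num) (by norm_num)
  have e4 := chk (C := 13199/10000) (Z := 3293/10000) (by norm_num) (by norm_num)
    (a := 3) (b := 10) (by norm_num) (by norm_num) (by norm_num)
  have hz : rc03.z * (rc03.b * rc03.c ^ 2) = 67/40 := by norm_num [rc03]
  have hy : rc03.y₀ * rc03.y₁ = 3293/10000 := by norm_num [rc03]
  have hR : rc03.R₀ * rc03.R₁ ^ 4 * (rc03.b * rc03.c ^ 2)
      ≤ 6459/2500 * (13199/10000) ^ 4 := by norm_num [rc03]
  refine rc03.good_of _ _ _ _ (by norm_num) (by norm_num) (by norm_num) (by norm_num)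
    (6459/2500) (13199/10000) (by norm_num) (by norm_num) ?_ ?_ ?_ ?_ hR
  · rw [hz]; norm_num at e1 ⊢; exact e1
  · rw [hz]; norm_num at e2 ⊢; exact e2
  · rw [hy]; norm_num at e3 ⊢; exact e3
  · rw [hy]; norm_num at e4 ⊢; exact e4

/-- Certificate 4. -/
noncomputable def rc04 : Cert1 where
  lam := 5/1419
  a := 66
  b := 43/10
  c := 1
  z := 11/5
  y₀ := 27/100
  y₁ := 22/25
  R₀ := 19431/5000
  R₁ := 51143/50000
  v₀ := fun q => if q then 70 else 1
  v₁ := fun q => if q then 7 else 1
  lam_pos := by norm_num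
  lam_le := by norm_num
  a_ge := by norm_num
  b_ge := by norm_num
  c_ge := by norm_num
  habc := by norm_num
  z_pos := by norm_num
  y₀_pos := by norm_num
  y₁_pos := by norm_num
  R₀_pos := by norm_num
  R₁_pos := by norm_num
  v₀_ge := by intro q; cases q <;> norm_num
  v₁_ge := by intro q; cases q <;> norm_num
  step₀ := by intro q; cases q <;> norm_num [cellG, cellT, alp]
  step₁ := by intro q; cases q <;> norm_num [cellT]

theorem rc04_good : rc04.Good (1/10) (3/10) (3/4) (1) := by
  have e1 := chk (C := 94599/10000) (Z := 473/50) (by norm_num) (by norm_num)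
    (a := 3) (b := 4) (by norm_num) (by norm_num) (by norm_num)
  have e2 := chk (C := 94599/10000) (Z := 473/50) (by norm_num) (by norm_num)
    (a := 1) (b := 1) (by norm_num) (by norm_num) (by norm_num)
  have e3 := chk (C := 748/625) (Z := 297/1250) (by norm_num) (by norm_num)
    (a := 1) (b := 10) (by norm_num) (by norm_num) (by norm_num)
  have e4 := chk (C := 748/625) (Z := 297/1250) (by norm_num) (by norm_num)
    (a := 3) (b := 10) (by norm_num) (by norm_num) (by norm_num)
  have hz : rc04.z * (rc04.b * rc04.c ^ 2) = 473/50 := by norm_num [rc04]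
  have hy : rc04.y₀ * rc04.y₁ = 297/1250 := by norm_num [rc04]
  have hR : rc04.R₀ * rc04.R₁ ^ 4 * (rc04.b * rc04.c ^ 2)
      ≤ 94599/10000 * (748/625) ^ 4 := by norm_num [rc04]
  refine rc04.good_of _ _ _ _ (by norm_num) (by norm_num) (by norm_num) (by norm_num)
    (94599/10000) (748/625) (by norm_num) (by norm_num) ?_ ?_ ?_ ?_ hR
  · rw [hz]; norm_num at e1 ⊢; exact e1
  · rw [hz]; norm_num at e2 ⊢; exact e2
  · rw [hy]; norm_num at e3 ⊢; exact e3
  · rw [hy]; norm_num at e4 ⊢; exact e4

/-- Certificate 5. -/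
noncomputable def rc05 : Cert1 where
  lam := 100/8649
  a := 93/10
  b := 93/10
  c := 1
  z := 43/100
  y₀ := 71/100
  y₁ := 47/50
  R₀ := 20937/10000
  R₁ := 107889/100000
  v₀ := fun q => if q then 13 else 1
  v₁ := fun q => if q then 36/5 else 1
  lam_pos := by norm_num
  lam_le := by norm_num
  a_ge := by norm_num
  b_ge := by norm_num
  c_ge := by norm_num
  habc := by norm_num
  z_pos := by norm_num
  y₀_pos := by norm_num
  y₁_pos := by norm_num
  R₀_pos := by norm_num
  R₁_pos := by norm_num
  v₀_ge := by intro q; cases q <;> norm_num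
  v₁_ge := by intro q; cases q <;> norm_num
  step₀ := by intro q; cases q <;> norm_num [cellG, cellT, alp]
  step₁ := by intro q; cases q <;> norm_num [cellT]

theorem rc05_good : rc05.Good (3/10) (1/2) (1/2) (1) := by
  have e1 := chk (C := 39989/10000) (Z := 3999/1000) (by norm_num) (by norm_num)
    (a := 1) (b := 2) (by norm_num) (by norm_num) (by norm_num)
  have e2 := chk (C := 39989/10000) (Z := 3999/1000) (by norm_num) (by norm_num)
    (a := 1) (b := 1) (by norm_num) (by norm_num) (by norm_num)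
  have e3 := chk (C := 3263/2000) (Z := 3337/5000) (by norm_num) (by norm_num)
    (a := 3) (b := 10) (by norm_num) (by norm_num) (by norm_num)
  have e4 := chk (C := 3263/2000) (Z := 3337/5000) (by norm_num) (by norm_num)
    (a := 1) (b := 2) (by norm_num) (by norm_num) (by norm_num)
  have hz : rc05.z * (rc05.b * rc05.c ^ 2) = 3999/1000 := by norm_num [rc05]
  have hy : rc05.y₀ * rc05.y₁ = 3337/5000 := by norm_num [rc05]
  have hR : rc05.R₀ * rc05.R₁ ^ 4 * (rc05.b * rc05.c ^ 2)
      ≤ 39989/10000 * (3263/2000) ^ 4 := by norm_num [rc05]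
  refine rc05.good_of _ _ _ _ (by norm_num) (by norm_num) (by norm_num) (by norm_num)
    (39989/10000) (3263/2000) (by norm_num) (by norm_num) ?_ ?_ ?_ ?_ hR
  · rw [hz]; norm_num at e1 ⊢; exact e1
  · rw [hz]; norm_num at e2 ⊢; exact e2
  · rw [hy]; norm_num at e3 ⊢; exact e3
  · rw [hy]; norm_num at e4 ⊢; exact e4

end Vale.Agent.P333
end
end
end

section

section

section

/-!
Numerical certificates on rectangles of densities.
-/

namespace Vale.Agent.P333

/-- Certificate 6. -/
noncomputable def rc06 : Cert1 where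
  lam := 100/8649
  a := 93/10
  b := 93/10
  c := 1
  z := 27/1000
  y₀ := 7/5
  y₁ := 11/10
  R₀ := 10151/5000
  R₁ := 58903/50000
  v₀ := fun q => if q then 33/5 else 1
  v₁ := fun q => if q then 14 else 1
  lam_pos := by norm_num
  lam_le := by norm_num
  a_ge := by norm_num
  b_ge := by norm_num
  c_ge := by norm_num
  habc := by norm_num
  z_pos := by norm_num
  y₀_pos := by norm_num
  y₁_pos := by norm_num
  R₀_pos := by norm_num
  R₁_pos := by norm_num
  v₀_ge := by intro q; cases q <;> norm_num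
  v₁_ge := by intro q; cases q <;> norm_num
  step₀ := by intro q; cases q <;> norm_num [cellG, cellT, alp]
  step₁ := by intro q; cases q <;> norm_num [cellT]

theorem rc06_good : rc06.Good (1/2) (7/10) (0) (1/2) := by
  have e1 := chk (C := 99999/100000) (Z := 2511/10000) (by norm_num) (by norm_num)
    (a := 0) (b := 1) (by norm_num) (by norm_num) (by norm_num)
  have e2 := chk (C := 99999/100000) (Z := 2511/10000) (by norm_num) (by norm_num)
    (a := 1) (b := 2) (by norm_num) (by norm_num) (by norm_num)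
  have e3 := chk (C := 24819/10000) (Z := 77/50) (by norm_num) (by norm_num)
    (a := 1) (b := 2) (by norm_num) (by norm_num) (by norm_num)
  have e4 := chk (C := 24819/10000) (Z := 77/50) (by norm_num) (by norm_num)
    (a := 7) (b := 10) (by norm_num) (by norm_num) (by norm_num)
  have hz : rc06.z * (rc06.b * rc06.c ^ 2) = 2511/10000 := by norm_num [rc06]
  have hy : rc06.y₀ * rc06.y₁ = 77/50 := by norm_num [rc06]
  have hR : rc06.R₀ * rc06.R₁ ^ 4 * (rc06.b * rc06.c ^ 2)
      ≤ 99999/100000 * (24819/10000) ^ 4 := by norm_num [rc06]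
  refine rc06.good_of _ _ _ _ (by norm_num) (by norm_num) (by norm_num) (by norm_num)
    (99999/100000) (24819/10000) (by norm_num) (by norm_num) ?_ ?_ ?_ ?_ hR
  · rw [hz]; norm_num at e1 ⊢; exact e1
  · rw [hz]; norm_num at e2 ⊢; exact e2
  · rw [hy]; norm_num at e3 ⊢; exact e3
  · rw [hy]; norm_num at e4 ⊢; exact e4

/-- Certificate 7. -/
noncomputable def rc07 : Cert1 where
  lam := 2/559
  a := 43/10
  b := 65
  c := 1
  z := 1/625
  y₀ := 37/10
  y₁ := 11/10
  R₀ := 12743/2500
  R₁ := 113031/100000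
  v₀ := fun q => if q then 41/10 else 1
  v₁ := fun q => if q then 33 else 1
  lam_pos := by norm_num
  lam_le := by norm_num
  a_ge := by norm_num
  b_ge := by norm_num
  c_ge := by norm_num
  habc := by norm_num
  z_pos := by norm_num
  y₀_pos := by norm_num
  y₁_pos := by norm_num
  R₀_pos := by norm_num
  R₁_pos := by norm_num
  v₀_ge := by intro q; cases q <;> norm_num
  v₁_ge := by intro q; cases q <;> norm_num
  step₀ := by intro q; cases q <;> norm_num [cellG, cellT, alp]
  step₁ := by intro q; cases q <;> norm_num [cellT]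

theorem rc07_good : rc07.Good (7/10) (9/10) (0) (1/4) := by
  have e1 := chk (C := 1993/2000) (Z := 13/125) (by norm_num) (by norm_num)
    (a := 0) (b := 1) (by norm_num) (by norm_num) (by norm_num)
  have e2 := chk (C := 1993/2000) (Z := 13/125) (by norm_num) (by norm_num)
    (a := 1) (b := 4) (by norm_num) (by norm_num) (by norm_num)
  have e3 := chk (C := 48957/10000) (Z := 407/100) (by norm_num) (by norm_num)
    (a := 7) (b := 10) (by norm_num) (by norm_num) (by norm_num)
  have e4 := chk (C := 48957/10000) (Z := 407/100) (by norm_num) (by norm_num)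
    (a := 9) (b := 10) (by norm_num) (by norm_num) (by norm_num)
  have hz : rc07.z * (rc07.b * rc07.c ^ 2) = 13/125 := by norm_num [rc07]
  have hy : rc07.y₀ * rc07.y₁ = 407/100 := by norm_num [rc07]
  have hR : rc07.R₀ * rc07.R₁ ^ 4 * (rc07.b * rc07.c ^ 2)
      ≤ 1993/2000 * (48957/10000) ^ 4 := by norm_num [rc07]
  refine rc07.good_of _ _ _ _ (by norm_num) (by norm_num) (by norm_num) (by norm_num)
    (1993/2000) (48957/10000) (by norm_num) (by norm_num) ?_ ?_ ?_ ?_ hR
  · rw [hz]; norm_num at e1 ⊢; exact e1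
  · rw [hz]; norm_num at e2 ⊢; exact e2
  · rw [hy]; norm_num at e3 ⊢; exact e3
  · rw [hy]; norm_num at e4 ⊢; exact e4

/-- Certificate 8. -/
noncomputable def rc08 : Cert1 where
  lam := 1/135
  a := 5/2
  b := 54
  c := 1
  z := 11/1000
  y₀ := 27/10
  y₁ := 11/10
  R₀ := 3443/1000
  R₁ := 57741/50000
  v₀ := fun q => if q then 33/10 else 1
  v₁ := fun q => if q then 19 else 1
  lam_pos := by norm_num
  lam_le := by norm_num
  a_ge := by norm_num
  b_ge := by norm_num
  c_ge := by norm_num
  habc := by norm_num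
  z_pos := by norm_num
  y₀_pos := by norm_num
  y₁_pos := by norm_num
  R₀_pos := by norm_num
  R₁_pos := by norm_num
  v₀_ge := by intro q; cases q <;> norm_num
  v₁_ge := by intro q; cases q <;> norm_num
  step₀ := by intro q; cases q <;> norm_num [cellG, cellT, alp]
  step₁ := by intro q; cases q <;> norm_num [cellT]

theorem rc08_good : rc08.Good (7/10) (4/5) (1/4) (1/2) := by
  have e1 := chk (C := 3081/2000) (Z := 297/500) (by norm_num) (by norm_num)
    (a := 1) (b := 4) (by norm_num) (by norm_num) (by norm_num)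
  have e2 := chk (C := 3081/2000) (Z := 297/500) (by norm_num) (by norm_num)
    (a := 1) (b := 2) (by norm_num) (by norm_num) (by norm_num)
  have e3 := chk (C := 19701/5000) (Z := 297/100) (by norm_num) (by norm_num)
    (a := 7) (b := 10) (by norm_num) (by norm_num) (by norm_num)
  have e4 := chk (C := 19701/5000) (Z := 297/100) (by norm_num) (by norm_num)
    (a := 4) (b := 5) (by norm_num) (by norm_num) (by norm_num)
  have hz : rc08.z * (rc08.b * rc08.c ^ 2) = 297/500 := by norm_num [rc08]
  have hy : rc08.y₀ * rc08.y₁ = 297/100 := by norm_num [rc08]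
  have hR : rc08.R₀ * rc08.R₁ ^ 4 * (rc08.b * rc08.c ^ 2)
      ≤ 3081/2000 * (19701/5000) ^ 4 := by norm_num [rc08]
  refine rc08.good_of _ _ _ _ (by norm_num) (by norm_num) (by norm_num) (by norm_num)
    (3081/2000) (19701/5000) (by norm_num) (by norm_num) ?_ ?_ ?_ ?_ hR
  · rw [hz]; norm_num at e1 ⊢; exact e1
  · rw [hz]; norm_num at e2 ⊢; exact e2
  · rw [hy]; norm_num at e3 ⊢; exact e3
  · rw [hy]; norm_num at e4 ⊢; exact e4

/-- Certificate 9. -/
noncomputable def rc09 : Cert1 where
  lam := 1/273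
  a := 13/10
  b := 210
  c := 1
  z := 7/2500
  y₀ := 51/10
  y₁ := 11/10
  R₀ := 76183/10000
  R₁ := 181/160
  v₀ := fun q => if q then 19/10 else 1
  v₁ := fun q => if q then 32 else 1
  lam_pos := by norm_num
  lam_le := by norm_num
  a_ge := by norm_num
  b_ge := by norm_num
  c_ge := by norm_num
  habc := by norm_num
  z_pos := by norm_num
  y₀_pos := by norm_num
  y₁_pos := by norm_num
  R₀_pos := by norm_num
  R₁_pos := by norm_num
  v₀_ge := by intro q; cases q <;> norm_num
  v₁_ge := by intro q; cases q <;> norm_num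
  step₀ := by intro q; cases q <;> norm_num [cellG, cellT, alp]
  step₁ := by intro q; cases q <;> norm_num [cellT]

theorem rc09_good : rc09.Good (4/5) (9/10) (1/4) (1/2) := by
  have e1 := chk (C := 1917/1250) (Z := 147/250) (by norm_num) (by norm_num)
    (a := 1) (b := 4) (by norm_num) (by norm_num) (by norm_num)
  have e2 := chk (C := 1917/1250) (Z := 147/250) (by norm_num) (by norm_num)
    (a := 1) (b := 2) (by norm_num) (by norm_num) (by norm_num)
  have e3 := chk (C := 1307/200) (Z := 561/100) (by norm_num) (by norm_num)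
    (a := 4) (b := 5) (by norm_num) (by norm_num) (by norm_num)
  have e4 := chk (C := 1307/200) (Z := 561/100) (by norm_num) (by norm_num)
    (a := 9) (b := 10) (by norm_num) (by norm_num) (by norm_num)
  have hz : rc09.z * (rc09.b * rc09.c ^ 2) = 147/250 := by norm_num [rc09]
  have hy : rc09.y₀ * rc09.y₁ = 561/100 := by norm_num [rc09]
  have hR : rc09.R₀ * rc09.R₁ ^ 4 * (rc09.b * rc09.c ^ 2)
      ≤ 1917/1250 * (1307/200) ^ 4 := by norm_num [rc09]
  refine rc09.good_of _ _ _ _ (by norm_num) (by norm_num) (by norm_num) (by norm_num)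
    (1917/1250) (1307/200) (by norm_num) (by norm_num) ?_ ?_ ?_ ?_ hR
  · rw [hz]; norm_num at e1 ⊢; exact e1
  · rw [hz]; norm_num at e2 ⊢; exact e2
  · rw [hy]; norm_num at e3 ⊢; exact e3
  · rw [hy]; norm_num at e4 ⊢; exact e4

/-- Certificate 10. -/
noncomputable def rc10 : Cert1 where
  lam := 1/76
  a := 2
  b := 38
  c := 1
  z := 13/100
  y₀ := 3/2
  y₁ := 1
  R₀ := 22881/10000
  R₁ := 22299/20000
  v₀ := fun q => if q then 5 else 1
  v₁ := fun q => if q then 87/10 else 1
  lam_pos := by norm_num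
  lam_le := by norm_num
  a_ge := by norm_num
  b_ge := by norm_num
  c_ge := by norm_num
  habc := by norm_num
  z_pos := by norm_num
  y₀_pos := by norm_num
  y₁_pos := by norm_num
  R₀_pos := by norm_num
  R₁_pos := by norm_num
  v₀_ge := by intro q; cases q <;> norm_num
  v₁_ge := by intro q; cases q <;> norm_num
  step₀ := by intro q; cases q <;> norm_num [cellG, cellT, alp]
  step₁ := by intro q; cases q <;> norm_num [cellT]

theorem rc10_good : rc10.Good (1/2) (7/10) (1/2) (1) := by
  have e1 := chk (C := 11113/2500) (Z := 247/50) (by norm_num) (by norm_num)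
    (a := 1) (b := 2) (by norm_num) (by norm_num) (by norm_num)
  have e2 := chk (C := 11113/2500) (Z := 247/50) (by norm_num) (by norm_num)
    (a := 1) (b := 1) (by norm_num) (by norm_num) (by norm_num)
  have e3 := chk (C := 4893/2000) (Z := 3/2) (by norm_num) (by norm_num)
    (a := 1) (b := 2) (by norm_num) (by norm_num) (by norm_num)
  have e4 := chk (C := 4893/2000) (Z := 3/2) (by norm_num) (by norm_num)
    (a := 7) (b := 10) (by norm_num) (by norm_num) (by norm_num)
  have hz : rc10.z * (rc10.b * rc10.c ^ 2) = 247/50 := by norm_num [rc10]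
  have hy : rc10.y₀ * rc10.y₁ = 3/2 := by norm_num [rc10]
  have hR : rc10.R₀ * rc10.R₁ ^ 4 * (rc10.b * rc10.c ^ 2)
      ≤ 11113/2500 * (4893/2000) ^ 4 := by norm_num [rc10]
  refine rc10.good_of _ _ _ _ (by norm_num) (by norm_num) (by norm_num) (by norm_num)
    (11113/2500) (4893/2000) (by norm_num) (by norm_num) ?_ ?_ ?_ ?_ hR
  · rw [hz]; norm_num at e1 ⊢; exact e1
  · rw [hz]; norm_num at e2 ⊢; exact e2
  · rw [hy]; norm_num at e3 ⊢; exact e3
  · rw [hy]; norm_num at e4 ⊢; exact e4

/-- Certificate 11. -/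
noncomputable def rc11 : Cert1 where
  lam := 1/204
  a := 1
  b := 170
  c := 6/5
  z := 17/1000
  y₀ := 37/10
  y₁ := 11/10
  R₀ := 6069/1250
  R₁ := 5701/5000
  v₀ := fun q => if q then 13/5 else 1
  v₁ := fun q => if q then 26 else 1
  lam_pos := by norm_num
  lam_le := by norm_num
  a_ge := by norm_num
  b_ge := by norm_num
  c_ge := by norm_num
  habc := by norm_num
  z_pos := by norm_num
  y₀_pos := by norm_num
  y₁_pos := by norm_num
  R₀_pos := by norm_num
  R₁_pos := by norm_num
  v₀_ge := by intro q; cases q <;> norm_num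
  v₁_ge := by intro q; cases q <;> norm_num
  step₀ := by intro q; cases q <;> norm_num [cellG, cellT, alp]
  step₁ := by intro q; cases q <;> norm_num [cellT]

theorem rc11_good : rc11.Good (7/10) (9/10) (1/2) (1) := by
  have e1 := chk (C := 40799/10000) (Z := 2601/625) (by norm_num) (by norm_num)
    (a := 1) (b := 2) (by norm_num) (by norm_num) (by norm_num)
  have e2 := chk (C := 40799/10000) (Z := 2601/625) (by norm_num) (by norm_num)
    (a := 1) (b := 1) (by norm_num) (by norm_num) (by norm_num)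
  have e3 := chk (C := 48957/10000) (Z := 407/100) (by norm_num) (by norm_num)
    (a := 7) (b := 10) (by norm_num) (by norm_num) (by norm_num)
  have e4 := chk (C := 48957/10000) (Z := 407/100) (by norm_num) (by norm_num)
    (a := 9) (b := 10) (by norm_num) (by norm_num) (by norm_num)
  have hz : rc11.z * (rc11.b * rc11.c ^ 2) = 2601/625 := by norm_num [rc11]
  have hy : rc11.y₀ * rc11.y₁ = 407/100 := by norm_num [rc11]
  have hR : rc11.R₀ * rc11.R₁ ^ 4 * (rc11.b * rc11.c ^ 2)
      ≤ 40799/10000 * (48957/10000) ^ 4 := by norm_num [rc11]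
  refine rc11.good_of _ _ _ _ (by norm_num) (by norm_num) (by norm_num) (by norm_num)
    (40799/10000) (48957/10000) (by norm_num) (by norm_num) ?_ ?_ ?_ ?_ hR
  · rw [hz]; norm_num at e1 ⊢; exact e1
  · rw [hz]; norm_num at e2 ⊢; exact e2
  · rw [hy]; norm_num at e3 ⊢; exact e3
  · rw [hy]; norm_num at e4 ⊢; exact e4

end Vale.Agent.P333
end
end
end

section

section

section

/-!
The plain property for small densities.
-/

namespace Vale.Agent.P333

open Finset

/-- Rises between the four blocks of a cell. -/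
def cellIn (g : Fin 4 → Bool) : ℕ := rise (g 0) (g 1) + rise (g 1) (g 2) + rise (g 2) (g 3)

/-- Rises between blocks inside cells. -/
def sumIn (K : ℕ) (l : Fin K → Cell) : ℕ := ∑ p, cellIn (l p).2

/-- Cells whose last block is on. -/
def sumLast (K : ℕ) (l : Fin K → Cell) : ℕ := ∑ p, (lastB (l p)).toNat

/-- Violation of the plain property (all contacts count). -/
def bad2 (s K : ℕ) (l : Fin K → Cell) (f : Fin (K * 4) → Bool) : Prop :=
  (∀ p, (l p).1 = true) ∧ s + (sumIn K l + linRise (K * 4) f) ≤ sumLast K l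

/-- Certificate for the plain property. -/
structure Cert2 where
  lam : ℝ
  sig : ℝ
  y₀ : ℝ
  y₁ : ℝ
  R₀ : ℝ
  R₁ : ℝ
  v₁ : Bool → ℝ
  lam_pos : 0 < lam
  lam_le : lam ≤ 1
  sig_ge : 1 ≤ sig
  hs : 1 ≤ sig * lam
  y₀_pos : 0 < y₀
  y₁_pos : 0 < y₁
  R₀_pos : 0 < R₀
  R₁_pos : 0 < R₁
  v₁_ge : ∀ q, 1 ≤ v₁ q
  step₀ : cellT lam y₀ (cellT lam y₀ (cellT lam y₀ (fun q => if q then sig else 1))) false
    + y₀ * cellT lam y₀ (cellT lam y₀ (cellT lam y₀ (fun q => if q then sig else 1))) true ≤ R₀
  step₁ : ∀ q, cellT lam y₁ v₁ q ≤ R₁ * v₁ q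

namespace Cert2

variable (C : Cert2)

theorem cell_sum (lam sig y : ℝ) :
    stepA (fun (_ : Bool) (x : Cell) => lastB x) (fun _ x => 0 ^ (!x.1).toNat * lam ^ cellIn x.2
      * sig ^ (lastB x).toNat * y ^ bones x.2) (fun _ => 1) false
    = cellT lam y (cellT lam y (cellT lam y (fun q => if q then sig else 1))) false
    + y * cellT lam y (cellT lam y (cellT lam y (fun q => if q then sig else 1))) true := by
  unfold stepA
  rw [Fintype.sum_prod_type]
  simp only [sum_fun4, Fintype.sum_bool]
  simp only [Bool.not_true, Bool.toNat_false, pow_zero, cellIn, rise, Fin.isValue, Matrix.cons_val_zero, Bool.true_eq_false, Matrix.cons_val_one, and_true, ↓reduceIte, Matrix.cons_val, add_zero, mul_one, lastB, Bool.toNat_true, pow_one, one_mul, bones, Fin.sum_univ_succ, Matrix.cons_val_succ, univ_unique, Fin.default_eq_zero, Matrix.cons_val_fin_one, sum_const, card_singleton, smul_eq_mul, Nat.reduceAdd, Bool.false_eq_true, and_self, sum_const_zero, zero_add, and_false, Bool.not_false, zero_mul, cellT]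
  ring

theorem sum₀ (K : ℕ) :
    ∑ l : Fin K → Cell, (0 : ℝ) ^ (∑ p, (!(l p).1).toNat) * C.lam ^ sumIn K l
      * C.sig ^ sumLast K l * C.y₀ ^ bOnes K l ≤ C.R₀ ^ K := by
  have hlam := C.lam_pos
  have hsig : 0 < C.sig := lt_of_lt_of_le one_pos C.sig_ge
  have hy := C.y₀_pos
  have h := sum_wtA_le (fun (_ : Bool) (x : Cell) => lastB x)
    (h := fun _ x => 0 ^ (!x.1).toNat * C.lam ^ cellIn x.2
      * C.sig ^ (lastB x).toNat * C.y₀ ^ bones x.2)
    (by intro q b; positivity) (v := fun _ => 1) (fun _ => le_rfl) C.R₀_pos.le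
    (by
      intro q
      rw [mul_one]
      refine le_trans (le_of_eq ?_) C.step₀
      rw [← cell_sum]
      rfl) K false
  rw [mul_one] at h
  refine le_trans (le_of_eq ?_) h
  apply sum_congr rfl
  intro l _
  rw [wtA_mul (fun (_ : Bool) (x : Cell) => lastB x) (fun _ x => 0 ^ (!x.1).toNat
      * C.lam ^ cellIn x.2 * C.sig ^ (lastB x).toNat) (fun _ x => C.y₀ ^ bones x.2),
    wtA_mul (fun (_ : Bool) (x : Cell) => lastB x) (fun _ x => 0 ^ (!x.1).toNat
      * C.lam ^ cellIn x.2) (fun _ x => C.sig ^ (lastB x).toNat),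
    wtA_mul (fun (_ : Bool) (x : Cell) => lastB x) (fun _ x => (0 : ℝ) ^ (!x.1).toNat)
      (fun _ x => C.lam ^ cellIn x.2),
    wtA_pow _ 0 (fun (_ : Bool) (x : Cell) => (!x.1).toNat),
    wtA_pow _ C.lam (fun (_ : Bool) (x : Cell) => cellIn x.2),
    wtA_pow _ C.sig (fun (_ : Bool) (x : Cell) => (lastB x).toNat),
    wtA_pow _ C.y₀ (fun (_ : Bool) (x : Cell) => bones x.2),
    csA_const _ (fun x : Cell => (!x.1).toNat), csA_const _ (fun x : Cell => cellIn x.2),
    csA_const _ (fun x : Cell => (lastB x).toNat), csA_const _ (fun x : Cell => bones x.2)]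
  rfl

theorem sum₁ (n : ℕ) :
    ∑ f : Fin n → Bool, C.lam ^ linRise n f * C.y₁ ^ bones f ≤ C.R₁ ^ n * C.v₁ false := by
  have hlam := C.lam_pos
  have hy := C.y₁_pos
  have h := sum_wtA_le (fun _ (x : Bool) => x)
    (h := fun q x => C.lam ^ rise q x * C.y₁ ^ x.toNat)
    (by intro q b; positivity) C.v₁_ge C.R₁_pos.le
    (by
      intro q
      refine le_trans (le_of_eq ?_) (C.step₁ q)
      unfold stepA cellT
      rw [Fintype.sum_bool]
      cases q <;> simp [rise] <;> ring) n false
  refine le_trans (le_of_eq ?_) h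
  apply sum_congr rfl
  intro l _
  rw [wtA_mul (fun _ (x : Bool) => x) (fun q x => C.lam ^ rise q x) (fun _ x => C.y₁ ^ x.toNat),
    wtA_pow _ C.lam (fun q x => rise q x), wtA_pow _ C.y₁ (fun (_ : Bool) (x : Bool) => x.toNat),
    csA_const _ (fun x : Bool => x.toNat)]
  rfl

theorem card_le (s K u : ℕ) (T : Finset ((Fin K → Cell) × (Fin (K * 4) → Bool)))
    (hT : ∀ p ∈ T, bOnes K p.1 = u ∧ bones p.2 = u ∧ bad2 s K p.1 p.2) :
    (T.card : ℝ) ≤ C.lam ^ s * C.v₁ false
      * (C.R₀ ^ K * C.R₁ ^ (K * 4) / (C.y₀ * C.y₁) ^ u) := by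
  have hlam := C.lam_pos
  have hsig : 0 < C.sig := lt_of_lt_of_le one_pos C.sig_ge
  have hy₀ := C.y₀_pos
  have hy₁ := C.y₁_pos
  set f₀ : (Fin K → Cell) → ℝ := fun l => (0 : ℝ) ^ (∑ p, (!(l p).1).toNat) * C.lam ^ sumIn K l
      * C.sig ^ sumLast K l * C.y₀ ^ bOnes K l with hf₀
  set f₁ : (Fin (K * 4) → Bool) → ℝ := fun f => C.lam ^ linRise (K * 4) f * C.y₁ ^ bones f with hf₁
  set Q : ℝ := C.lam ^ s / (C.y₀ * C.y₁) ^ u with hQ
  have hQ0 : 0 ≤ Q := by positivity
  have h1 : ∀ p ∈ T, (1 : ℝ) ≤ Q * (f₀ p.1 * f₁ p.2) := by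
    intro p hp
    obtain ⟨hu, hf, ⟨hw, hb⟩⟩ := hT p hp
    have hw0 : ∑ i, (!(p.1 i).1).toNat = 0 := by
      apply sum_eq_zero
      intro i _
      rw [hw i]
      rfl
    have e1 : C.sig ^ (s + (sumIn K p.1 + linRise (K * 4) p.2)) ≤ C.sig ^ sumLast K p.1 :=
      pow_le_pow_right₀ C.sig_ge hb
    have e2 : (1 : ℝ) ≤ (C.sig * C.lam) ^ (s + (sumIn K p.1 + linRise (K * 4) p.2)) :=
      one_le_pow₀ C.hs
    rw [mul_pow] at e2
    have e3 : (1 : ℝ) ≤ C.sig ^ sumLast K p.1
        * C.lam ^ (s + (sumIn K p.1 + linRise (K * 4) p.2)) :=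
      e2.trans (mul_le_mul_of_nonneg_right e1 (by positivity))
    refine e3.trans (le_of_eq ?_)
    simp only [hf₀, hf₁, hQ, hu, hf, hw0]
    rw [mul_pow C.y₀, pow_add, pow_add]
    (clear * - hy₀ hy₁ hlam hsig; field_simp)
  have h2 : (T.card : ℝ) ≤ ∑ p ∈ T, Q * (f₀ p.1 * f₁ p.2) := by
    calc (T.card : ℝ) = ∑ p ∈ T, (1 : ℝ) := by simp
      _ ≤ _ := sum_le_sum h1
  have h3 : ∑ p ∈ T, Q * (f₀ p.1 * f₁ p.2)
      ≤ ∑ p : (Fin K → Cell) × (Fin (K * 4) → Bool), Q * (f₀ p.1 * f₁ p.2) := by
    apply sum_le_univ_sum_of_nonneg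
    intro p
    (clear * - hlam hy₀ hy₁ hsig; positivity)
  have h4 : ∑ p : (Fin K → Cell) × (Fin (K * 4) → Bool), Q * (f₀ p.1 * f₁ p.2)
      = Q * ((∑ l, f₀ l) * (∑ f, f₁ f)) := by
    rw [← mul_sum, Fintype.sum_prod_type, sum_mul_sum]
  have h5 : (∑ l, f₀ l) * (∑ f, f₁ f) ≤ C.R₀ ^ K * (C.R₁ ^ (K * 4) * C.v₁ false) := by
    apply mul_le_mul (C.sum₀ K) (C.sum₁ (K * 4))
    · apply sum_nonneg
      intro f _
      positivity
    · have := C.R₀_pos
      positivity
  calc (T.card : ℝ) ≤ Q * ((∑ l, f₀ l) * (∑ f, f₁ f)) := by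
        rw [← h4]; exact h2.trans h3
    _ ≤ Q * (C.R₀ ^ K * (C.R₁ ^ (K * 4) * C.v₁ false)) := by
        (clear * - h5 hlam hy₀ hy₁; gcongr)
    _ = _ := by
        rw [hQ]
        ring

theorem weight_le (s K u : ℕ) (hK : 0 < K) (hu : u ≤ K * 4)
    (h : Real.log C.R₀ + 4 * Real.log C.R₁
      ≤ 4 * (Real.binEntropy ((u : ℝ) / (K * 4 : ℕ))
        + (u : ℝ) / (K * 4 : ℕ) * Real.log (C.y₀ * C.y₁)))
    (T : Finset ((Fin K → Cell) × (Fin (K * 4) → Bool)))
    (hT : ∀ p ∈ T, bOnes K p.1 = u ∧ bones p.2 = u ∧ bad2 s K p.1 p.2) :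
    (T.card : ℝ) * (1 / ((K * 4).choose u : ℝ))
      ≤ C.lam ^ s * C.v₁ false * ((K * 4 : ℕ) + 1) := by
  have hlam := C.lam_pos
  have hy₀ := C.y₀_pos
  have hy₁ := C.y₁_pos
  have hR₀ := C.R₀_pos
  have hR₁ := C.R₁_pos
  have hv₁ := lt_of_lt_of_le one_pos (C.v₁_ge false)
  have h1 := C.card_le s K u T hT
  have c2 := inv_choose_le (K * 4) u hu
  have p2 := mul_pos (selfpow_pos u) (selfpow_pos (K * 4 - u))
  have p3 := selfpow_pos K
  have p4 := selfpow_pos (K * 4)
  have hw := works2 (K := K) (w := K) (u := u) (Bc := 1) (z := 1) (y := C.y₀ * C.y₁) hK le_rfl hu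
    hR₀ hR₁ one_pos one_pos (by positivity) (by
      rw [mul_one, Real.log_one, div_self (by positivity), Real.binEntropy_one]
      linarith only [h])
  simp only [Nat.sub_self, pow_zero, Nat.cast_zero, mul_one, one_pow, one_mul] at hw
  set E2 : ℝ := (u : ℝ) ^ u * ((K * 4 - u : ℕ) : ℝ) ^ (K * 4 - u) with hE2
  set X : ℝ := C.R₀ ^ K * C.R₁ ^ (K * 4) with hX
  set Y : ℝ := (C.y₀ * C.y₁) ^ u with hY
  have hX0 : 0 < X := by positivity
  have hY0 : 0 < Y := by positivity
  have h2 : X / Y * (E2 / ((K * 4 : ℕ) : ℝ) ^ (K * 4)) ≤ 1 := by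
    rw [div_mul_div_comm, div_le_one (by positivity)]
    have h3 : (X * E2) * (K : ℝ) ^ K ≤ (Y * ((K * 4 : ℕ) : ℝ) ^ (K * 4)) * (K : ℝ) ^ K := by
      linarith only [hw]
    exact le_of_mul_le_mul_right h3 p3
  calc (T.card : ℝ) * (1 / ((K * 4).choose u : ℝ))
      ≤ (C.lam ^ s * C.v₁ false * (X / Y))
        * (((K * 4 : ℕ) + 1) * (E2 / ((K * 4 : ℕ) : ℝ) ^ (K * 4))) := by
        (clear * - h1 c2 hlam hv₁ hR₀ hR₁ hy₀ hy₁; gcongr)
    _ = C.lam ^ s * C.v₁ false * ((K * 4 : ℕ) + 1)
        * (X / Y * (E2 / ((K * 4 : ℕ) : ℝ) ^ (K * 4))) := by ring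
    _ ≤ C.lam ^ s * C.v₁ false * ((K * 4 : ℕ) + 1) * 1 := by
        (clear * - h2 hlam hv₁ hK; gcongr)
    _ = _ := by ring

end Cert2

end Vale.Agent.P333
end
end
end

section

section

section

/-!
Deterministic part: a violation of the expansion property gives a bad configuration.
-/

namespace Vale.Agent.P333

open Finset

theorem alp_le (p n w : Bool) : alp p n w ≤ 2 := by
  cases p <;> cases n <;> cases w <;> decide

theorem cyc_le_sumA {K : ℕ} (hK : 0 < K) (l : Fin K → Cell) :
    ∑ p, alp (lastB (l p)) ((l (finRotate K p)).2 0) (l (finRotate K p)).1 ≤ sumA K l + 2 := by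
  obtain ⟨n, rfl⟩ : ∃ n, K = n + 1 := ⟨K - 1, by omega⟩
  rw [sum_rotate n (fun p p' => alp (lastB (l p)) ((l p').2 0) (l p').1)]
  unfold sumA
  rw [csA_eq_sum]
  have := alp_le (lastB (l (Fin.last n))) ((l 0).2 0) (l 0).1
  omega

theorem cyc_le_sumB {K : ℕ} (hK : 0 < K) (l : Fin K → Cell) :
    ∑ p, (alp (lastB (l p)) ((l (finRotate K p)).2 0) (l (finRotate K p)).1 - 1)
      ≤ sumB K l + 2 := by
  obtain ⟨n, rfl⟩ : ∃ n, K = n + 1 := ⟨K - 1, by omega⟩
  rw [sum_rotate n (fun p p' => alp (lastB (l p)) ((l p').2 0) (l p').1 - 1)]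
  unfold sumB
  rw [csA_eq_sum]
  have := alp_le (lastB (l (Fin.last n))) ((l 0).2 0) (l 0).1
  omega

theorem rise_le (a b : Bool) : rise a b ≤ 1 := by
  cases a <;> cases b <;> decide

theorem linRise_le {n : ℕ} (f : Fin n → Bool) :
    linRise n f ≤ ∑ i, rise (f i) (f (finRotate n i)) + 1 := by
  rcases Nat.eq_zero_or_pos n with rfl | hn
  · simp only [linRise, csA, univ_eq_empty, finRotate_zero, Equiv.refl_apply, sum_empty, zero_add, zero_le]
  obtain ⟨m, rfl⟩ : ∃ m, n = m + 1 := ⟨n - 1, by omega⟩
  unfold linRise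
  rw [csA_eq_sum (fun x : Bool => x), sum_rotate m (fun i j => rise (f i) (f j))]
  have := rise_le false (f 0)
  omega

theorem contact_ineq (P x n w : Bool) :
    n.toNat + (x && w).toNat ≤ rise P x + rise x n + (if x then alp P n w else 0) := by
  cases P <;> cases x <;> cases n <;> cases w <;> decide

theorem contact_plain (P x n : Bool) : x.toNat ≤ rise P x + rise x n + P.toNat := by
  cases P <;> cases x <;> cases n <;> decide

theorem sumOff_eq {K : ℕ} (l : Fin K → Cell) :
    sumOff K l = ∑ p, ((l p).2 0).toNat + sumIn K l := by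
  unfold sumOff sumIn
  rw [← sum_add_distrib]
  apply sum_congr rfl
  intro p _
  unfold cellOff cellIn
  have : rise false ((l p).2 0) = ((l p).2 0).toNat := by
    cases (l p).2 0 <;> decide
  rw [this]
  ring

/-- Rises along the 0-chain at the level of cells. -/
def cellRises {K : ℕ} (l : Fin K → Cell) (X : Fin K → Bool) : ℕ :=
  ∑ p, (rise (X p) ((l p).2 0) + cellIn (l p).2 + rise (lastB (l p)) (X (finRotate K p)))

theorem cellRises_eq {K : ℕ} (l : Fin K → Cell) (X : Fin K → Bool) :
    cellRises l X = ∑ p, rise (X p) ((l p).2 0) + sumIn K l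
      + ∑ p, rise (lastB (l p)) (X (finRotate K p)) := by
  unfold cellRises sumIn
  rw [sum_add_distrib, sum_add_distrib]

theorem det1 {K : ℕ} (hK : 0 < K) (l : Fin K → Cell) (X : Fin K → Bool)
    (f : Fin (K * 4) → Bool) (s : ℕ) (hcon : bones X + wOnes K l ≤ K)
    (hviol : cellRises l X + ∑ i, rise (f i) (f (finRotate _ i)) + s + 3
      ≤ ∑ p, (X p && (l p).1).toNat) : bad1 s K l f := by
  set AX := ∑ p, (if X (finRotate K p) then
    alp (lastB (l p)) ((l (finRotate K p)).2 0) (l (finRotate K p)).1 else 0) with hAX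
  have e1 : ∑ p, ((l (finRotate K p)).2 0).toNat = ∑ p, ((l p).2 0).toNat :=
    Equiv.sum_comp (finRotate K) (fun p => ((l p).2 0).toNat)
  have e2 : ∑ p, (X (finRotate K p) && (l (finRotate K p)).1).toNat
      = ∑ p, (X p && (l p).1).toNat :=
    Equiv.sum_comp (finRotate K) (fun p => (X p && (l p).1).toNat)
  have e3 : ∑ p, rise (X (finRotate K p)) ((l (finRotate K p)).2 0)
      = ∑ p, rise (X p) ((l p).2 0) :=
    Equiv.sum_comp (finRotate K) (fun p => rise (X p) ((l p).2 0))
  have e4 : ∑ p, (X (finRotate K p)).toNat = bones X :=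
    Equiv.sum_comp (finRotate K) (fun p => (X p).toNat)
  have h1 : ∑ p, (((l (finRotate K p)).2 0).toNat + (X (finRotate K p) && (l (finRotate K p)).1).toNat)
      ≤ ∑ p, (rise (lastB (l p)) (X (finRotate K p)) + rise (X (finRotate K p)) ((l (finRotate K p)).2 0)
        + (if X (finRotate K p) then
          alp (lastB (l p)) ((l (finRotate K p)).2 0) (l (finRotate K p)).1 else 0)) := by
    apply sum_le_sum
    intro p _
    exact contact_ineq _ _ _ _
  rw [sum_add_distrib, sum_add_distrib, sum_add_distrib, e1, e2, e3, ← hAX] at h1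
  have h2 := cellRises_eq l X
  have h3 := sumOff_eq l
  have h4 := linRise_le f
  have hA1 : AX ≤ ∑ p, alp (lastB (l p)) ((l (finRotate K p)).2 0) (l (finRotate K p)).1 := by
    apply sum_le_sum
    intro p _
    split_ifs <;> omega
  have hA2 : AX ≤ ∑ p, (alp (lastB (l p)) ((l (finRotate K p)).2 0) (l (finRotate K p)).1 - 1)
      + bones X := by
    rw [← e4, ← sum_add_distrib]
    apply sum_le_sum
    intro p _
    split_ifs with h
    · rw [h]
      have : (true : Bool).toNat = 1 := rfl
      omega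
    · omega
  have hA3 : AX ≤ 2 * bones X := by
    rw [← e4, mul_sum]
    apply sum_le_sum
    intro p _
    split_ifs with h
    · rw [h]
      have := alp_le (lastB (l p)) ((l (finRotate K p)).2 0) (l (finRotate K p)).1
      have h6 : (true : Bool).toNat = 1 := rfl
      omega
    · omega
  have h5 := cyc_le_sumA hK l
  have h6 := cyc_le_sumB hK l
  refine ⟨?_, ?_, ?_⟩ <;> omega

theorem det2 {K : ℕ} (l : Fin K → Cell) (X : Fin K → Bool)
    (f : Fin (K * 4) → Bool) (s : ℕ)
    (hviol : cellRises l X + ∑ i, rise (f i) (f (finRotate _ i)) + s + 1 ≤ bones X) :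
    s + (sumIn K l + linRise (K * 4) f) ≤ sumLast K l := by
  have e3 : ∑ p, rise (X (finRotate K p)) ((l (finRotate K p)).2 0)
      = ∑ p, rise (X p) ((l p).2 0) :=
    Equiv.sum_comp (finRotate K) (fun p => rise (X p) ((l p).2 0))
  have e4 : ∑ p, (X (finRotate K p)).toNat = bones X :=
    Equiv.sum_comp (finRotate K) (fun p => (X p).toNat)
  have h1 : ∑ p, (X (finRotate K p)).toNat
      ≤ ∑ p, (rise (lastB (l p)) (X (finRotate K p)) + rise (X (finRotate K p)) ((l (finRotate K p)).2 0)
        + (lastB (l p)).toNat) := by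
    apply sum_le_sum
    intro p _
    exact contact_plain _ _ _
  rw [sum_add_distrib, sum_add_distrib, e3, e4] at h1
  have h2 := cellRises_eq l X
  have h4 := linRise_le f
  unfold sumLast
  omega

end Vale.Agent.P333
end
end
end

section

section

section

/-!
From permutations to the cyclic orders of the amplifier.
-/

namespace Vale.Agent.P333

open Finset

variable {k t : ℕ}

/-- Order of the contacts. -/
def mkE0 (σ : Equiv.Perm (Fin (k * t))) : Fin (k * t) ≃ Fin k × Fin t :=
  σ.trans finProdFinEquiv.symm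

/-- Blocks in the order of the 0-chain. -/
def mkE (σ : Equiv.Perm (Fin (k * t))) : Fin (k * t * 4) ≃ (Fin k × Fin t) × Fin 4 :=
  finProdFinEquiv.symm.trans (Equiv.prodCongr (mkE0 σ) (Equiv.refl _))

/-- Order of the blocks in the 1-chain. -/
def mkE1 (σ : Equiv.Perm (Fin (k * t))) (τ : Equiv.Perm (Fin (k * t * 4))) :
    Fin (k * t * 4) ≃ (Fin k × Fin t) × Fin 4 := τ.trans (mkE σ)

/-- Cells of a state. -/
def lab (σ : Equiv.Perm (Fin (k * t))) (m : (Fin k × Fin t) × Fin 4 → Bool) (W : Fin k × Fin t → Bool) :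
    Fin (k * t) → Cell := fun p => (W (mkE0 σ p), fun j => m (mkE0 σ p, j))

theorem rotE_apply {n : ℕ} {C : Type*} (e : Fin n ≃ C) (i : Fin n) :
    rot e (e i) = e (finRotate n i) := by
  simp only [rot, Equiv.trans_apply, Equiv.symm_apply_apply, finRotate_apply]

theorem rises0_eq (σ : Equiv.Perm (Fin (k * t))) (m : (Fin k × Fin t) × Fin (3 + 1) → Bool)
    (x : Fin k × Fin t → Bool) (W : Fin k × Fin t → Bool) :
    rises0 (rot (mkE0 σ)) m x = cellRises (lab σ m W) (fun p => x (mkE0 σ p)) := by
  unfold rises0 cellRises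
  rw [← Equiv.sum_comp (mkE0 σ)]
  apply sum_congr rfl
  intro p _
  rw [rotE_apply]
  have h3 : (Fin.last 3 : Fin (3 + 1)) = 3 := rfl
  simp only [lab, lastB, cellIn, Fin.sum_univ_succ, h3]
  simp only [Nat.reduceAdd, Fin.isValue, Fin.castSucc_zero, Fin.succ_zero_eq_one, Fin.castSucc_one, Fin.succ_one_eq_two, Fin.reduceCastSucc, Fin.reduceSucc, univ_eq_empty, Fin.castSucc_succ, sum_empty, add_zero, finRotate_apply, Nat.add_right_cancel_iff, Nat.add_left_cancel_iff]
  exact (Nat.add_assoc _ _ _).symm

theorem rises1_eq (σ : Equiv.Perm (Fin (k * t))) (τ : Equiv.Perm (Fin (k * t * 4)))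
    (m : (Fin k × Fin t) × Fin (3 + 1) → Bool) :
    rises1 (rot (mkE1 σ τ)) m
      = ∑ i, rise (m (mkE1 σ τ i)) (m (mkE1 σ τ (finRotate _ i))) := by
  unfold rises1
  rw [← Equiv.sum_comp (mkE1 σ τ)]
  apply sum_congr rfl
  intro i _
  rw [rotE_apply]

theorem flat_lab (σ : Equiv.Perm (Fin (k * t))) (τ : Equiv.Perm (Fin (k * t * 4)))
    (m : (Fin k × Fin t) × Fin 4 → Bool) (W : Fin k × Fin t → Bool) (i : Fin (k * t * 4)) :
    flat (lab σ m W) (τ i) = m (mkE1 σ τ i) := rfl

/-- The successor of a block in the 0-chain. -/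
theorem s0_mkE (σ : Equiv.Perm (Fin (k * t))) (y : Fin (k * t * 4)) :
    s0 (β := 3) (rot (mkE0 σ)) (mkE σ y) = mkE σ (finRotate _ y) := by
  obtain ⟨⟨p, j⟩, rfl⟩ := finProdFinEquiv.surjective y
  have hE : ∀ (q : Fin (k * t)) (i : Fin 4), mkE σ (finProdFinEquiv (q, i)) = (mkE0 σ q, i) := by
    intro q i
    simp [mkE]
  rw [hE]
  have hK : 0 < k * t := lt_of_le_of_lt (Nat.zero_le _) p.2
  obtain ⟨n, hn⟩ : ∃ n, k * t * 4 = n + 1 := ⟨k * t * 4 - 1, by omega⟩
  have hrot : ∀ (N : ℕ) (y : Fin N), ((finRotate N y : Fin N) : ℕ) = if (y : ℕ) + 1 = N then 0 else (y : ℕ) + 1 := by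
    intro N y
    rcases Nat.eq_zero_or_pos N with rfl | hN
    · exact y.elim0
    obtain ⟨m, rfl⟩ : ∃ m, N = m + 1 := ⟨N - 1, by omega⟩
    rw [coe_finRotate]
    by_cases h : y = Fin.last m
    · rw [if_pos h, if_pos (by rw [h]; simp)]
    · rw [if_neg h, if_neg]
      intro h2
      apply h
      apply Fin.ext
      simp
      omega
  unfold s0
  by_cases hj : (j : ℕ) + 1 < 3 + 1
  · rw [dif_pos hj]
    have : finRotate (k * t * 4) (finProdFinEquiv (p, j))
        = finProdFinEquiv (p, ⟨(j : ℕ) + 1, hj⟩) := by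
      apply Fin.ext
      rw [hrot]
      have h1 : (finProdFinEquiv (p, j) : ℕ) = j + 4 * p := rfl
      have h2 : (finProdFinEquiv (p, (⟨(j : ℕ) + 1, hj⟩ : Fin 4)) : ℕ) = (j + 1) + 4 * p := rfl
      rw [h1, h2]
      have hp := p.2
      rw [if_neg (by omega)]
      omega
    rw [this, hE]
  · rw [dif_neg hj]
    have hj3 : (j : ℕ) = 3 := by
      have := j.2
      omega
    rw [rotE_apply]
    have : finRotate (k * t * 4) (finProdFinEquiv (p, j))
        = finProdFinEquiv (finRotate (k * t) p, (0 : Fin 4)) := by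
      apply Fin.ext
      rw [hrot]
      have h1 : (finProdFinEquiv (p, j) : ℕ) = j + 4 * p := rfl
      have h2 : (finProdFinEquiv (finRotate (k * t) p, (0 : Fin 4)) : ℕ)
          = 0 + 4 * (finRotate (k * t) p : ℕ) := rfl
      rw [h1, h2, hrot, hj3]
      have hp := p.2
      by_cases h : (p : ℕ) + 1 = k * t
      · rw [if_pos h, if_pos (by omega)]
      · rw [if_neg h, if_neg (by omega)]
        omega
    rw [this, hE]

theorem coinc_eq (σ : Equiv.Perm (Fin (k * t))) (τ : Equiv.Perm (Fin (k * t * 4))) :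
    (univ.filter (fun b => rot (mkE1 σ τ) b = s0 (β := 3) (rot (mkE0 σ)) b
      ∨ rot (mkE1 σ τ) (s0 (β := 3) (rot (mkE0 σ)) b) = b)).card ≤ coinc τ := by
  classical
  unfold coinc
  rw [filter_or]
  refine (card_union_le _ _).trans (Nat.add_le_add ?_ ?_)
  · rw [← card_map (mkE1 σ τ).toEmbedding]
    apply card_le_card
    intro b hb
    rw [mem_filter] at hb
    obtain ⟨i, rfl⟩ := (mkE1 σ τ).surjective b
    rw [mem_map]
    refine ⟨i, ?_, rfl⟩
    rw [mem_filter]
    refine ⟨mem_univ _, ?_⟩
    have h := hb.2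
    rw [rotE_apply] at h
    have h2 : mkE1 σ τ i = mkE σ (τ i) := rfl
    have h3 : mkE1 σ τ (finRotate _ i) = mkE σ (τ (finRotate _ i)) := rfl
    rw [h2, s0_mkE, h3] at h
    exact (mkE σ).injective h
  · -- parametrise by the block before
    rw [← card_map (mkE1 σ τ).toEmbedding]
    -- b = mkE1 (finRotate i) where s0 b = mkE1 i
    apply card_le_card_of_injOn (fun b => s0 (β := 3) (rot (mkE0 σ)) b)
    · intro b hb
      have hb' := (mem_filter.mp hb).2
      obtain ⟨y, rfl⟩ := (mkE σ).surjective b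
      rw [s0_mkE] at hb'
      simp only [s0_mkE]
      rw [mem_coe, mem_map]
      refine ⟨τ.symm (finRotate _ y), ?_, ?_⟩
      · rw [mem_filter]
        refine ⟨mem_univ _, ?_⟩
        have h2 : mkE σ (finRotate _ y) = mkE1 σ τ (τ.symm (finRotate _ y)) := by
          simp only [finRotate_apply, mkE1, Equiv.trans_apply, Equiv.apply_symm_apply]
        rw [h2, rotE_apply] at hb'
        have h3 : mkE1 σ τ (finRotate _ (τ.symm (finRotate _ y)))
            = mkE σ (τ (finRotate _ (τ.symm (finRotate _ y)))) := rfl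
        rw [h3] at hb'
        have h4 := (mkE σ).injective hb'
        rw [h4]
        simp only [finRotate_apply, Equiv.apply_symm_apply]
      · simp only [Nat.reduceAdd, mkE1, Equiv.trans_toEmbedding, Function.Embedding.mk_trans_mk, finRotate_apply, Function.Embedding.coeFn_mk, Function.comp_apply, Equiv.apply_symm_apply]
    · intro b _ b' _ h
      obtain ⟨y, rfl⟩ := (mkE σ).surjective b
      obtain ⟨y', rfl⟩ := (mkE σ).surjective b'
      simp only [s0_mkE] at h
      have h1 := (mkE σ).injective h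
      have h2 := (finRotate _).injective h1
      rw [h2]

end Vale.Agent.P333
end
end
end
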