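import Mathlib
import Vale.Agent.P333.Bdl.B1

set_option linter.all false

section

section

/-!
P333, upper bound: the algorithm for the maximum travelling salesman path (ratio `2/3`);
definitions, and statements of the parts of its analysis.
-/

namespace Vale.Agent.P333.U

/-- Total weight of a list of arcs. -/
def wt (W : ℕ → ℕ → ℕ) (F : List (ℕ × ℕ)) : ℕ := (F.map (fun e => W e.1 e.2)).sum

/-- `A` is a maximum assignment of the matrix `N`. -/
def OptAsg (N : List (List ℕ)) (A : List ℕ) : Prop :=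
  A.Perm (List.range N.length) ∧ ∀ P, P.Perm (List.range N.length) → asgVal N P ≤ asgVal N A

/-- Permutations of `0, …, k - 1` without fixed point. -/
def Der (k : ℕ) (P : List ℕ) : Prop := P.Perm (List.range k) ∧ ∀ i < k, P.getD i 0 ≠ i

/-- Weight of a permutation. -/
def permW (W : ℕ → ℕ → ℕ) (k : ℕ) (P : List ℕ) : ℕ :=
  ((List.range k).map (fun i => W i (P.getD i 0))).sum

/-! ### The first assignment -/

/-- The matrix of the first assignment problem. -/
def matA (M : List (List ℕ)) (g : ℕ) : List (List ℕ) :=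
  (List.range M.length).map (fun i => (List.range M.length).map
    (fun j => if i = j then 0 else g + ent M i j))

/-- Part A: the first assignment is a maximum permutation without fixed point. -/
def PartA : Prop := ∀ (M : List (List ℕ)) (B : ℕ), SqMat M B → 2 ≤ M.length →
  ∀ A, OptAsg (matA M (M.length * B + 1)) A →
    Der M.length A ∧
    (∀ Q, Der M.length Q → permW (ent M) M.length Q ≤ permW (ent M) M.length A) ∧
    ∀ P, P.Perm (List.range M.length) → pathV (ent M) P ≤ permW (ent M) M.length A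

/-! ### The second assignment -/

/-- The cycles of length two of `A`. -/
def prs (k : ℕ) (A : List ℕ) : List (ℕ × ℕ) :=
  ((List.range k).filter (fun i => decide (i < A.getD i 0) &&
    decide (A.getD (A.getD i 0) 0 = i))).map (fun i => (i, A.getD i 0))

/-- Disjoint ordered pairs of numbers smaller than `k`. -/
def PairList (k : ℕ) (X : List (ℕ × ℕ)) : Prop :=
  (∀ e ∈ X, e.1 < e.2 ∧ e.2 < k) ∧ (X.flatMap (fun e => [e.1, e.2])).Nodup

/-- The entries of the matrix of the second assignment problem. The rows `r < k` are the tails, the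
columns `c < k` are the heads; the row and the column `k + x` belong to the pair `X[x]`. -/
def entB (M : List (List ℕ)) (X : List (ℕ × ℕ)) (g r c : ℕ) : ℕ :=
  if r < M.length then
    if c < M.length then
      if r = c ∨ (r, c) ∈ X ∨ (c, r) ∈ X then 0 else g + 2 * ent M r c
    else
      if r = (X.getD (c - M.length) (0, 0)).1 then
        g + ent M (X.getD (c - M.length) (0, 0)).1 (X.getD (c - M.length) (0, 0)).2
      else if r = (X.getD (c - M.length) (0, 0)).2 then
        g + ent M (X.getD (c - M.length) (0, 0)).2 (X.getD (c - M.length) (0, 0)).1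
      else 0
  else
    if c < M.length then
      if c = (X.getD (r - M.length) (0, 0)).2 then
        g + ent M (X.getD (r - M.length) (0, 0)).1 (X.getD (r - M.length) (0, 0)).2
      else if c = (X.getD (r - M.length) (0, 0)).1 then
        g + ent M (X.getD (r - M.length) (0, 0)).2 (X.getD (r - M.length) (0, 0)).1
      else 0
    else if r = c then g else 0

/-- The matrix of the second assignment problem. -/
def matB (M : List (List ℕ)) (X : List (ℕ × ℕ)) (g : ℕ) : List (List ℕ) :=
  (List.range (M.length + X.length)).map (fun r => (List.range (M.length + X.length)).map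
    (fun c => entB M X g r c))

/-- Part B: the second assignment uses only allowed entries and is at least twice the value of
every path. -/
def PartB : Prop := ∀ (M : List (List ℕ)) (B : ℕ) (X : List (ℕ × ℕ)), SqMat M B → 3 ≤ M.length →
  PairList M.length X → ∀ b, OptAsg (matB M X (4 * M.length * B + 1)) b →
    (∀ r < M.length + X.length,
      4 * M.length * B + 1 ≤ entB M X (4 * M.length * B + 1) r (b.getD r 0)) ∧
    ∀ P, P.Perm (List.range M.length) →
      (M.length + X.length) * (4 * M.length * B + 1) + 2 * pathV (ent M) P ≤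
        asgVal (matB M X (4 * M.length * B + 1)) b

/-! ### Decoding -/

/-- The row assigned to the column of the pair `X[x]` (if this is not the row of the pair). -/
def gin (k : ℕ) (X : List (ℕ × ℕ)) (b : List ℕ) (x : ℕ) : ℕ :=
  if b.getD (X.getD x (0, 0)).1 0 = k + x then (X.getD x (0, 0)).1 else (X.getD x (0, 0)).2

/-- The column assigned to the row of the pair `X[x]`. -/
def hout (k : ℕ) (b : List ℕ) (x : ℕ) : ℕ := b.getD (k + x) 0

/-- Is `i` on a 3-cycle of `A` on which `b` is the opposite 3-cycle? -/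
def fix3 (A b : List ℕ) (i : ℕ) : Bool :=
  decide (A.getD (A.getD (A.getD i 0) 0) 0 = i) && decide (b.getD i 0 = A.getD (A.getD i 0) 0) &&
    decide (b.getD (A.getD i 0) 0 = i) && decide (b.getD (A.getD (A.getD i 0) 0) 0 = A.getD i 0)

/-- The arcs of `b` outside of the pairs; the opposite 3-cycles are replaced. -/
def arcsB1 (k : ℕ) (A b : List ℕ) : List (ℕ × ℕ) :=
  ((List.range k).filter (fun i => decide (b.getD i 0 < k))).map
    (fun i => if fix3 A b i then (i, A.getD i 0) else (i, b.getD i 0))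

/-- The arcs of `b` inside of the pairs. -/
def arcsB2 (k : ℕ) (X : List (ℕ × ℕ)) (b : List ℕ) : List (ℕ × ℕ) :=
  ((List.range X.length).filter (fun x => decide (hout k b x < k) &&
    !decide (gin k X b x = hout k b x))).map (fun x => (gin k X b x, hout k b x))

/-- The half pairs `(u, v)`: `u` is isolated. -/
def halves (k : ℕ) (X : List (ℕ × ℕ)) (b : List ℕ) : List (ℕ × ℕ) :=
  ((List.range X.length).filter (fun x => decide (hout k b x < k) &&
    decide (gin k X b x = hout k b x))).map (fun x => (hout k b x,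
      if hout k b x = (X.getD x (0, 0)).1 then (X.getD x (0, 0)).2 else (X.getD x (0, 0)).1))

/-- The arcs of `A` outside of the half pairs. -/
def arcsA (k : ℕ) (A : List ℕ) (H : List (ℕ × ℕ)) : List (ℕ × ℕ) :=
  ((List.range k).filter (fun i => H.all (fun e => !decide (e.1 = i) && !decide (e.2 = i)))).map
    (fun i => (i, A.getD i 0))

/-- The multigraph to be coloured. -/
def graphE (k : ℕ) (X : List (ℕ × ℕ)) (A b : List ℕ) : List (ℕ × ℕ) :=
  arcsA k A (halves k X b) ++ arcsB1 k A b ++ arcsB2 k X b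

/-- Contribution of the half pairs. -/
def halfW (W : ℕ → ℕ → ℕ) (H : List (ℕ × ℕ)) : ℕ :=
  (H.map (fun e => W e.1 e.2 + W e.2 e.1 + max (W e.1 e.2) (W e.2 e.1))).sum

/-- The half pairs are disjoint, `u` is isolated and `v` has degree one. -/
def HalfOK (E H : List (ℕ × ℕ)) : Prop :=
  (H.flatMap (fun e => [e.1, e.2])).Nodup ∧
    ∀ e ∈ H, outN E e.1 = 0 ∧ inN E e.1 = 0 ∧ outN E e.2 = 1

/-- All ends of the arcs are smaller than `k`. -/
def VtxLt (k : ℕ) (F : List (ℕ × ℕ)) : Prop := ∀ e ∈ F, e.1 < k ∧ e.2 < k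

/-- Part C: decoding. -/
def PartC : Prop := ∀ (M : List (List ℕ)) (g : ℕ) (A b : List ℕ), 3 ≤ M.length → 0 < g →
  Der M.length A →
  (∀ Q, Der M.length Q → permW (ent M) M.length Q ≤ permW (ent M) M.length A) →
  b.Perm (List.range (M.length + (prs M.length A).length)) →
  (∀ r < M.length + (prs M.length A).length,
    g ≤ entB M (prs M.length A) g r (b.getD r 0)) →
  PairList M.length (prs M.length A) ∧
  GoodG (graphE M.length (prs M.length A) A b) ∧
  HalfOK (graphE M.length (prs M.length A) A b) (halves M.length (prs M.length A) b) ∧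
  VtxLt M.length (graphE M.length (prs M.length A) A b) ∧
  VtxLt M.length (halves M.length (prs M.length A) b) ∧
  2 * permW (ent M) M.length A + asgVal (matB M (prs M.length A) g) b ≤
    (M.length + (prs M.length A).length) * g +
      2 * (wt (ent M) (graphE M.length (prs M.length A) A b) +
        halfW (ent M) (halves M.length (prs M.length A) b))

/-! ### The half pairs -/

/-- Colour of the first arc out of `v`. -/
def colOut (K : List (ℕ × ℕ × ℕ)) (v : ℕ) : ℕ :=
  ((K.filter (fun e => e.1 == v)).map (fun e => e.2.2)).headD 0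

/-- Colour of the first arc into `v`. -/
def colIn (K : List (ℕ × ℕ × ℕ)) (v : ℕ) : ℕ :=
  ((K.filter (fun e => e.2.1 == v)).map (fun e => e.2.2)).headD 0

/-- Add to the coloured graph the arcs of the half pairs, the heavier one twice. -/
def addHalf (W : ℕ → ℕ → ℕ) (K : List (ℕ × ℕ × ℕ)) (H : List (ℕ × ℕ)) : List (ℕ × ℕ × ℕ) :=
  K ++ H.flatMap (fun e =>
    if W e.2 e.1 ≤ W e.1 e.2 then
      [(e.1, e.2, colOut K e.2), (e.1, e.2, 3 - colIn K e.2 - colOut K e.2),
        (e.2, e.1, colIn K e.2)]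
    else
      [(e.2, e.1, colIn K e.2), (e.2, e.1, 3 - colIn K e.2 - colOut K e.2),
        (e.1, e.2, colOut K e.2)])

/-- Part D: the colour classes. -/
def PartD : Prop := ∀ (W : ℕ → ℕ → ℕ) (k : ℕ) (E : List (ℕ × ℕ)) (K : List (ℕ × ℕ × ℕ))
  (H : List (ℕ × ℕ)), GoodG E → Col E K → HalfOK E H → VtxLt k E → VtxLt k H →
  (∀ κ, PathSys (cls (addHalf W K H) κ) ∧ VtxLt k (cls (addHalf W K H) κ)) ∧
  wt W (cls (addHalf W K H) 0) + wt W (cls (addHalf W K H) 1) + wt W (cls (addHalf W K H) 2) =
    wt W E + halfW W H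

/-- Part E: the algorithm. -/
def PartE : Prop := AssignAlg → ColAlg → JoinAlg → PartA → PartB → PartC → PartD → AtspAlg 2 3

end Vale.Agent.P333.U
end
end

section

section

/-!
P333, upper bound: the two assignment problems of the algorithm for the maximum travelling salesman
path (parts A and B).
-/

set_option linter.all false

namespace Vale.Agent.P333.U

open Finset Function

/-- The closed tour of an ordering. -/
theorem tour_of_perm {k : ℕ} {P : List ℕ} (hP : P.Perm (List.range k)) (hk : 2 ≤ k) :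
    ∃ s : ℕ → ℕ, At611_Bij k s ∧ (∀ x < k, s x ≠ x) ∧ (3 ≤ k → ∀ x < k, s (s x) ≠ x) ∧
      ∀ W : ℕ → ℕ → ℕ, pathV W P ≤ ∑ x ∈ range k, W x (s x) := by
  classical
  have hl : P.length = k := by simpa using hP.length_eq
  have hn : P.Nodup := hP.nodup_iff.2 List.nodup_range
  have hb := At611_bij_of_perm hP
  have hinj := hb.inj
  have hs : ∀ i < k, P.getD ((P.idxOf (P.getD i 0) + 1) % k) 0 = P.getD ((i + 1) % k) 0 := by
    intro i hi
    rw [List.getD_eq_getElem _ _ (show i < P.length by omega), hn.idxOf_getElem]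
  have hsurj : ∀ x < k, ∃ i < k, P.getD i 0 = x := by
    intro x hx
    have hx' : x ∈ P := hP.mem_iff.2 (List.mem_range.2 hx)
    obtain ⟨i, hi, hix⟩ := List.getElem_of_mem hx'
    exact ⟨i, by omega, by rw [List.getD_eq_getElem _ _ hi, hix]⟩
  have hmod : ∀ i, i % k < k := fun i => Nat.mod_lt _ (by omega)
  have hmi : ∀ i < k, ∀ j < k, (i + 1) % k = (j + 1) % k → i = j := by
    intro i hi j hj h
    rcases Nat.lt_or_ge (i + 1) k with h1 | h1 <;> rcases Nat.lt_or_ge (j + 1) k with h2 | h2
    · rw [Nat.mod_eq_of_lt h1, Nat.mod_eq_of_lt h2] at h; omega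
    · have : j + 1 = k := by omega
      rw [Nat.mod_eq_of_lt h1, this, Nat.mod_self] at h; omega
    · have : i + 1 = k := by omega
      rw [Nat.mod_eq_of_lt h2, this, Nat.mod_self] at h; omega
    · omega
  refine ⟨fun x => P.getD ((P.idxOf x + 1) % k) 0, ⟨?_, ?_⟩, ?_, ?_, ?_⟩
  · intro x hx
    exact At611_perm_getD hP (hmod _)
  · intro x hx y hy hxy
    obtain ⟨i, hi, rfl⟩ := hsurj x hx
    obtain ⟨j, hj, rfl⟩ := hsurj y hy
    beta_reduce at hxy
    rw [hs i hi, hs j hj] at hxy
    rw [hmi i hi j hj (hinj _ (hmod _) _ (hmod _) hxy)]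
  · intro x hx h
    obtain ⟨i, hi, rfl⟩ := hsurj x hx
    beta_reduce at h
    rw [hs i hi] at h
    have h1 := hinj _ (hmod _) _ hi h
    rcases Nat.lt_or_ge (i + 1) k with h2 | h2
    · rw [Nat.mod_eq_of_lt h2] at h1; omega
    · have : i + 1 = k := by omega
      rw [this, Nat.mod_self] at h1; omega
  · intro hk3 x hx h
    obtain ⟨i, hi, rfl⟩ := hsurj x hx
    beta_reduce at h
    rw [hs i hi, hs _ (hmod _)] at h
    have h1 := hinj _ (hmod _) _ hi h
    rw [Nat.mod_add_mod] at h1
    rcases Nat.lt_or_ge (i + 1 + 1) k with h2 | h2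
    · rw [Nat.mod_eq_of_lt h2] at h1; omega
    · rw [Nat.mod_eq_sub_mod h2, Nat.mod_eq_of_lt (by omega)] at h1; omega
  · intro W
    have e1 : ∑ x ∈ range k, W x (P.getD ((P.idxOf x + 1) % k) 0) =
        ∑ i ∈ range k, W (P.getD i 0) (P.getD ((i + 1) % k) 0) := by
      symm
      refine sum_bij (fun i _ => P.getD i 0) ?_ ?_ ?_ ?_
      · intro i hi
        rw [Finset.mem_range] at hi ⊢
        exact hb.maps i hi
      · intro i hi j hj h
        rw [Finset.mem_range] at hi hj
        exact hinj i hi j hj h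
      · intro x hx
        rw [Finset.mem_range] at hx
        obtain ⟨i, hi, h⟩ := hsurj x hx
        exact ⟨i, Finset.mem_range.2 hi, h⟩
      · intro i hi
        rw [Finset.mem_range] at hi
        rw [hs i hi]
    rw [e1, At611_pathV_eq, hl]
    obtain ⟨m, rfl⟩ : ∃ m, k = m + 1 := ⟨k - 1, by omega⟩
    rw [Nat.add_sub_cancel, sum_range_succ]
    refine le_trans (le_of_eq (sum_congr rfl fun i hi => ?_)) (Nat.le_add_right _ _)
    rw [Finset.mem_range] at hi
    rw [Nat.mod_eq_of_lt (by omega : i + 1 < m + 1)]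

theorem matA_eq (M : List (List ℕ)) (g : ℕ) :
    matA M g = At611_tab M.length (fun i j => if i = j then 0 else g + ent M i j) := rfl

theorem permW_eq (W : ℕ → ℕ → ℕ) (k : ℕ) (P : List ℕ) :
    permW W k P = ∑ i ∈ range k, W i (P.getD i 0) := rfl

/-- Part A. -/
theorem partA : PartA := by
  intro M B hM hk A hA
  set k := M.length with hkdef
  set g := k * B + 1 with hg
  obtain ⟨hA1, hA2⟩ := hA
  rw [matA_eq, ← hkdef, At611_tab_length] at hA1 hA2
  set F : ℕ → ℕ → ℕ := fun i j => if i = j then 0 else g + ent M i j with hF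
  have ho := At611_opt_of_asg hA1 hA2
  have hB : ∀ i < k, ∀ j < k, ent M i j ≤ B := fun i hi j hj => At611_ent_le hM hi hj
  have hbA := At611_bij_of_perm hA1
  -- value of a derangement
  have hval : ∀ s : ℕ → ℕ, (∀ x < k, s x ≠ x) →
      ∑ x ∈ range k, F x (s x) = k * g + ∑ x ∈ range k, ent M x (s x) := by
    intro s hs
    have : ∀ x ∈ range k, F x (s x) = g + ent M x (s x) := fun x hx => by
      rw [Finset.mem_range] at hx
      simp only [hF]
      rw [if_neg (Ne.symm (hs x hx))]
    rw [sum_congr rfl this, sum_add_distrib, sum_const, card_range, smul_eq_mul]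
  have hle : ∀ s : ℕ → ℕ, At611_Bij k s → (∀ x < k, s x ≠ x) →
      k * g + ∑ x ∈ range k, ent M x (s x) ≤ ∑ x ∈ range k, F x (A.getD x 0) := by
    intro s hs hs'
    rw [← hval s hs']
    exact ho (range k) s subset_rfl (fun x hx => hs.maps x (Finset.mem_range.1 hx))
      (fun x hx y hy h => hs.inj x (by simpa using hx) y (by simpa using hy) h)
  have hne : ∀ x < k, A.getD x 0 ≠ x := by
    intro x hx h
    obtain ⟨s, hs, hs', -, -⟩ := tour_of_perm (List.Perm.refl (List.range k)) hk
    have h1 := hle s hs hs'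
    have h2 : ∑ y ∈ range k, F y (A.getD y 0) ≤ (k - 1) * (g + B) := by
      rw [← add_sum_erase _ _ (Finset.mem_range.2 hx)]
      have h3 : F x (A.getD x 0) = 0 := by
        simp only [hF]
        rw [if_pos h.symm]
      rw [h3, zero_add]
      calc ∑ y ∈ (range k).erase x, F y (A.getD y 0) ≤ ∑ y ∈ (range k).erase x, (g + B) := by
            refine sum_le_sum fun y hy => ?_
            have hy' : y < k := by simpa using (mem_erase.1 hy).2
            have := hB y hy' _ (hbA.maps y hy')
            simp only [hF]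
            split_ifs <;> omega
        _ = (k - 1) * (g + B) := by
            rw [sum_const, card_erase_of_mem (Finset.mem_range.2 hx), card_range, smul_eq_mul]
    have h4 : (k - 1) * (g + B) < k * g := by
      obtain ⟨m, hm⟩ : ∃ m, k = m + 1 := ⟨k - 1, by omega⟩
      have hg' : g = (m + 1) * B + 1 := by rw [hg, hm]
      rw [hm, Nat.add_sub_cancel]
      nlinarith only [hg']
    omega
  have hvA := hval (fun x => A.getD x 0) hne
  beta_reduce at hvA
  refine ⟨⟨hA1, hne⟩, ?_, ?_⟩
  · intro Q hQ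
    have h1 := hle (fun x => Q.getD x 0) (At611_bij_of_perm hQ.1) hQ.2
    beta_reduce at h1
    rw [hvA] at h1
    rw [permW_eq, permW_eq]
    omega
  · intro P hP
    obtain ⟨s, hs, hs', -, hp⟩ := tour_of_perm hP hk
    have h1 := hle s hs hs'
    rw [hvA] at h1
    have h2 := hp (ent M)
    rw [permW_eq]
    omega

/-! ### Part B -/

/-- The arc of `s` at `r` belongs to the pair `X[x]`. -/
def PrB (X : List (ℕ × ℕ)) (s : ℕ → ℕ) (x r : ℕ) : Prop :=
  (r = (X.getD x (0, 0)).1 ∧ s r = (X.getD x (0, 0)).2) ∨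
    (r = (X.getD x (0, 0)).2 ∧ s r = (X.getD x (0, 0)).1)

theorem PairList.disj {k : ℕ} {X : List (ℕ × ℕ)} (hX : PairList k X) {x y : ℕ}
    (hx : x < X.length) (hy : y < X.length) (hxy : x ≠ y) :
    (X.getD x (0, 0)).1 ≠ (X.getD y (0, 0)).1 ∧ (X.getD x (0, 0)).1 ≠ (X.getD y (0, 0)).2 ∧
    (X.getD x (0, 0)).2 ≠ (X.getD y (0, 0)).1 ∧ (X.getD x (0, 0)).2 ≠ (X.getD y (0, 0)).2 := by
  have h1 := (List.nodup_flatMap.1 hX.2).2
  rw [List.getD_eq_getElem _ _ hx, List.getD_eq_getElem _ _ hy]
  have key : ∀ i j (hi : i < X.length) (hj : j < X.length), i < j →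
      List.Disjoint [X[i].1, X[i].2] [X[j].1, X[j].2] := fun i j hi hj hij =>
    List.pairwise_iff_getElem.1 h1 i j hi hj hij
  rcases lt_or_gt_of_ne hxy with h | h
  · have := key x y hx hy h
    simp only [List.disjoint_cons_left, List.mem_cons, List.not_mem_nil, or_false, not_or] at this
    exact ⟨this.1.1, this.1.2, this.2.1.1, this.2.1.2⟩
  · have := key y x hy hx h
    simp only [List.disjoint_cons_left, List.mem_cons, List.not_mem_nil, or_false, not_or] at this
    exact ⟨Ne.symm this.1.1, Ne.symm this.2.1.1, Ne.symm this.1.2, Ne.symm this.2.1.2⟩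

theorem PairList.lt {k : ℕ} {X : List (ℕ × ℕ)} (hX : PairList k X) {x : ℕ} (hx : x < X.length) :
    (X.getD x (0, 0)).1 < (X.getD x (0, 0)).2 ∧ (X.getD x (0, 0)).2 < k := by
  rw [List.getD_eq_getElem _ _ hx]
  exact hX.1 _ (List.getElem_mem hx)

theorem PairList.length_le {k : ℕ} {X : List (ℕ × ℕ)} (hX : PairList k X) : 2 * X.length ≤ k := by
  have h1 : (X.flatMap (fun e => [e.1, e.2])).length ≤ (List.range k).length := by
    refine (List.subperm_of_subset hX.2 ?_).length_le
    intro y hy
    rw [List.mem_flatMap] at hy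
    obtain ⟨e, he, hy⟩ := hy
    have := hX.1 e he
    rw [List.mem_range]
    simp only [List.mem_cons, List.not_mem_nil, or_false] at hy
    omega
  rw [List.length_range, List.length_flatMap] at h1
  simpa only [mul_comm, ge_iff_le, List.length_cons, List.length_nil, zero_add, Nat.reduceAdd, List.map_const',     List.sum_replicate, smul_eq_mul] using h1

theorem PrB.unique_r {k : ℕ} {X : List (ℕ × ℕ)} {s : ℕ → ℕ} (hs2 : ∀ x < k, s (s x) ≠ x)
    {x r r' : ℕ} (hr : r < k) (hr' : r' < k) (h : PrB X s x r) (h' : PrB X s x r') : r = r' := by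
  unfold PrB at h h'
  by_contra hne
  have h1 : s r = r' ∧ s r' = r := by
    rcases h with ⟨h1, h2⟩ | ⟨h1, h2⟩ <;> rcases h' with ⟨h3, h4⟩ | ⟨h3, h4⟩ <;> omega
  exact hs2 r hr (by rw [h1.1, h1.2])

theorem PrB.unique_x {k : ℕ} {X : List (ℕ × ℕ)} (hX : PairList k X) {s : ℕ → ℕ}
    {x x' r : ℕ} (hx : x < X.length) (hx' : x' < X.length) (h : PrB X s x r)
    (h' : PrB X s x' r) : x = x' := by
  unfold PrB at h h'
  by_contra hne
  have := hX.disj hx hx' hne
  omega

/-- The allowed permutation of a tour. -/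
theorem exists_fB {k : ℕ} {X : List (ℕ × ℕ)} (hX : PairList k X) {s : ℕ → ℕ} (hs : At611_Bij k s)
    (hs2 : ∀ x < k, s (s x) ≠ x) : ∃ f : ℕ → ℕ, At611_Bij (k + X.length) f ∧
      (∀ r < k, (∃ x < X.length, PrB X s x r ∧ f r = k + x) ∨
        ((∀ x < X.length, ¬ PrB X s x r) ∧ f r = s r)) ∧
      (∀ x < X.length, (∃ r < k, PrB X s x r ∧ f (k + x) = s r) ∨
        ((∀ r < k, ¬ PrB X s x r) ∧ f (k + x) = k + x)) := by
  classical
  let f : ℕ → ℕ := fun i =>
    if i < k then (if h : ∃ x < X.length, PrB X s x i then k + h.choose else s i)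
    else (if h : ∃ r < k, PrB X s (i - k) r then s h.choose else i)
  have f1 : ∀ r < k, (∃ x < X.length, PrB X s x r ∧ f r = k + x) ∨
        ((∀ x < X.length, ¬ PrB X s x r) ∧ f r = s r) := by
    intro r hr
    simp only [f, if_pos hr]
    by_cases h : ∃ x < X.length, PrB X s x r
    · left
      rw [dif_pos h]
      exact ⟨h.choose, h.choose_spec.1, h.choose_spec.2, rfl⟩
    · right
      rw [dif_neg h]
      exact ⟨fun x hx hp => h ⟨x, hx, hp⟩, rfl⟩
  have f2 : ∀ x < X.length, (∃ r < k, PrB X s x r ∧ f (k + x) = s r) ∨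
        ((∀ r < k, ¬ PrB X s x r) ∧ f (k + x) = k + x) := by
    intro x hx
    have h0 : ¬ (k + x < k) := by omega
    have h1 : k + x - k = x := by omega
    simp only [f, if_neg h0, h1]
    by_cases h : ∃ r < k, PrB X s x r
    · left
      rw [dif_pos h]
      exact ⟨h.choose, h.choose_spec.1, h.choose_spec.2, rfl⟩
    · right
      rw [dif_neg h]
      exact ⟨fun r hr hp => h ⟨r, hr, hp⟩, rfl⟩
  refine ⟨f, ⟨?_, ?_⟩, f1, f2⟩
  · intro i hi
    rcases Nat.lt_or_ge i k with h | h
    · rcases f1 i h with ⟨x, hx, -, h2⟩ | ⟨-, h2⟩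
      · omega
      · have := hs.maps i h
        omega
    · obtain ⟨x, rfl⟩ := Nat.exists_eq_add_of_le h
      rcases f2 x (by omega) with ⟨r, hr, -, h2⟩ | ⟨-, h2⟩
      · have := hs.maps r hr
        omega
      · omega
  · have key : ∀ i < k, ∀ x < X.length, f i ≠ f (k + x) := by
      intro i hi x hx he
      rcases f1 i hi with ⟨y, hy, h1, h2⟩ | ⟨h1, h2⟩ <;>
        rcases f2 x hx with ⟨r, hr, h3, h4⟩ | ⟨h3, h4⟩
      · have := hs.maps r hr
        omega
      · have : x = y := by omega
        subst this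
        exact h3 i hi h1
      · have : i = r := hs.inj i hi r hr (by omega)
        subst this
        exact h1 x hx h3
      · have := hs.maps i hi
        omega
    intro i hi j hj he
    rcases Nat.lt_or_ge i k with h | h <;> rcases Nat.lt_or_ge j k with h' | h'
    · rcases f1 i h with ⟨x, hx, h1, h2⟩ | ⟨h1, h2⟩ <;>
        rcases f1 j h' with ⟨y, hy, h3, h4⟩ | ⟨h3, h4⟩
      · have : x = y := by omega
        subst this
        exact h1.unique_r hs2 h h' h3
      · have := hs.maps j h'
        omega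
      · have := hs.maps i h
        omega
      · exact hs.inj i h j h' (by omega)
    · obtain ⟨x, rfl⟩ := Nat.exists_eq_add_of_le h'
      exact absurd he (key i h x (by omega))
    · obtain ⟨x, rfl⟩ := Nat.exists_eq_add_of_le h
      exact absurd he.symm (key j h' x (by omega))
    · obtain ⟨x, rfl⟩ := Nat.exists_eq_add_of_le h
      obtain ⟨y, rfl⟩ := Nat.exists_eq_add_of_le h'
      have hx : x < X.length := by omega
      have hy : y < X.length := by omega
      rcases f2 x hx with ⟨r, hr, h1, h2⟩ | ⟨h1, h2⟩ <;>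
        rcases f2 y hy with ⟨r', hr', h3, h4⟩ | ⟨h3, h4⟩
      · have : r = r' := hs.inj r hr r' hr' (by omega)
        subst this
        rw [h1.unique_x hX hx hy h3]
      · have := hs.maps r hr
        omega
      · have := hs.maps r' hr'
        omega
      · omega

theorem matB_eq (M : List (List ℕ)) (X : List (ℕ × ℕ)) (g : ℕ) :
    matB M X g = At611_tab (M.length + X.length) (entB M X g) := rfl

/-- Value of the allowed permutation of a tour. -/
theorem sum_fB {M : List (List ℕ)} {X : List (ℕ × ℕ)} (g : ℕ) (hX : PairList M.length X)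
    {s f : ℕ → ℕ} (hs : At611_Bij M.length s) (hs1 : ∀ x < M.length, s x ≠ x)
    (hs2 : ∀ x < M.length, s (s x) ≠ x)
    (f1 : ∀ r < M.length, (∃ x < X.length, PrB X s x r ∧ f r = M.length + x) ∨
        ((∀ x < X.length, ¬ PrB X s x r) ∧ f r = s r))
    (f2 : ∀ x < X.length, (∃ r < M.length, PrB X s x r ∧ f (M.length + x) = s r) ∨
        ((∀ r < M.length, ¬ PrB X s x r) ∧ f (M.length + x) = M.length + x)) :
    ∑ i ∈ range (M.length + X.length), entB M X g i (f i) =
      (M.length + X.length) * g + 2 * ∑ x ∈ range M.length, ent M x (s x) := by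
  classical
  set k := M.length with hk
  rw [sum_range_add]
  have e1 : ∀ r ∈ range k, entB M X g r (f r) +
      ∑ x ∈ range X.length, (if PrB X s x r then ent M r (s r) else 0) =
        g + 2 * ent M r (s r) := by
    intro r hr
    rw [Finset.mem_range] at hr
    rcases f1 r hr with ⟨x, hx, h1, h2⟩ | ⟨h1, h2⟩
    · have h3 : ∑ y ∈ range X.length, (if PrB X s y r then ent M r (s r) else 0) =
          ent M r (s r) := by
        rw [sum_eq_single_of_mem x (Finset.mem_range.2 hx), if_pos h1]
        intro y hy hyx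
        rw [Finset.mem_range] at hy
        rw [if_neg]
        intro h
        exact hyx (h.unique_x hX hy hx h1)
      rw [h3, h2]
      have h4 : entB M X g r (k + x) = g + ent M r (s r) := by
        unfold entB
        rw [← hk, if_pos hr, if_neg (by omega), Nat.add_sub_cancel_left]
        have hlt := hX.lt hx
        unfold PrB at h1
        rcases h1 with ⟨h5, h6⟩ | ⟨h5, h6⟩
        · rw [if_pos h5, ← h6, ← h5]
        · rw [if_neg (by omega), if_pos h5, ← h6, ← h5]
      rw [h4]
      ring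
    · have h3 : ∑ y ∈ range X.length, (if PrB X s y r then ent M r (s r) else 0) = 0 := by
        refine sum_eq_zero fun y hy => ?_
        rw [Finset.mem_range] at hy
        rw [if_neg (h1 y hy)]
      rw [h3, h2, add_zero]
      unfold entB
      rw [← hk, if_pos hr, if_pos (hs.maps r hr), if_neg]
      rintro (h4 | h4 | h4)
      · exact hs1 r hr h4.symm
      · obtain ⟨x, hx, h5⟩ := List.getElem_of_mem h4
        refine h1 x hx (Or.inl ?_)
        rw [List.getD_eq_getElem _ _ hx, h5]
        exact ⟨rfl, rfl⟩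
      · obtain ⟨x, hx, h5⟩ := List.getElem_of_mem h4
        refine h1 x hx (Or.inr ?_)
        rw [List.getD_eq_getElem _ _ hx, h5]
        exact ⟨rfl, rfl⟩
  have e2 : ∀ x ∈ range X.length, entB M X g (k + x) (f (k + x)) =
      g + ∑ r ∈ range k, (if PrB X s x r then ent M r (s r) else 0) := by
    intro x hx
    rw [Finset.mem_range] at hx
    have hlt := hX.lt hx
    rcases f2 x hx with ⟨r, hr, h1, h2⟩ | ⟨h1, h2⟩
    · have h3 : ∑ y ∈ range k, (if PrB X s x y then ent M y (s y) else 0) = ent M r (s r) := by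
        rw [sum_eq_single_of_mem r (Finset.mem_range.2 hr), if_pos h1]
        intro y hy hyx
        rw [Finset.mem_range] at hy
        rw [if_neg]
        intro h
        exact hyx (h.unique_r hs2 hy hr h1)
      rw [h3, h2]
      unfold entB
      rw [← hk, if_neg (by omega), if_pos (hs.maps r hr), Nat.add_sub_cancel_left]
      unfold PrB at h1
      rcases h1 with ⟨h5, h6⟩ | ⟨h5, h6⟩
      · rw [if_pos h6, ← h6, ← h5]
      · rw [if_neg (by omega), if_pos h6, ← h6, ← h5]
    · have h3 : ∑ y ∈ range k, (if PrB X s x y then ent M y (s y) else 0) = 0 := by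
        refine sum_eq_zero fun y hy => ?_
        rw [Finset.mem_range] at hy
        rw [if_neg (h1 y hy)]
      rw [h3, h2, add_zero]
      unfold entB
      rw [← hk, if_neg (by omega), if_neg (by omega), if_pos rfl]
  rw [sum_congr rfl e2, sum_add_distrib]
  have e3 := sum_congr rfl e1
  rw [sum_add_distrib, sum_add_distrib, ← mul_sum] at e3
  rw [sum_comm (s := range X.length)]
  simp only [sum_const, card_range, smul_eq_mul] at e3 ⊢
  rw [add_mul]
  omega

theorem entB_le {M : List (List ℕ)} {B : ℕ} {X : List (ℕ × ℕ)} (hM : SqMat M B)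
    (hX : PairList M.length X) (g : ℕ) {r c : ℕ} (hr : r < M.length + X.length)
    (hc : c < M.length + X.length) : entB M X g r c ≤ g + 2 * B := by
  have hB : ∀ i < M.length, ∀ j < M.length, ent M i j ≤ B := fun i hi j hj =>
    At611_ent_le hM hi hj
  unfold entB
  split_ifs with h1 h2 h3 h4 h5 h6 h7 h8 h9
  · omega
  · have := hB r h1 c h2
    omega
  · have h0 := hX.lt (x := c - M.length) (by omega)
    have := hB _ (h0.1.trans h0.2) _ h0.2
    omega
  · have h0 := hX.lt (x := c - M.length) (by omega)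
    have := hB _ h0.2 _ (h0.1.trans h0.2)
    omega
  · omega
  · have h0 := hX.lt (x := r - M.length) (by omega)
    have := hB _ (h0.1.trans h0.2) _ h0.2
    omega
  · have h0 := hX.lt (x := r - M.length) (by omega)
    have := hB _ h0.2 _ (h0.1.trans h0.2)
    omega
  · omega
  · omega
  · omega

theorem entB_cases (M : List (List ℕ)) (X : List (ℕ × ℕ)) (g r c : ℕ) :
    entB M X g r c = 0 ∨ g ≤ entB M X g r c := by
  unfold entB
  split_ifs <;> simp

/-- Part B. -/
theorem partB : PartB := by
  intro M B X hM hk hX b hb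
  set k := M.length with hkdef
  set g := 4 * k * B + 1 with hg
  obtain ⟨hb1, hb2⟩ := hb
  rw [matB_eq, ← hkdef, At611_tab_length] at hb1 hb2
  have ho := At611_opt_of_asg hb1 hb2
  have hbB := At611_bij_of_perm hb1
  have hval : asgVal (At611_tab (k + X.length) (entB M X g)) b =
      ∑ r ∈ range (k + X.length), entB M X g r (b.getD r 0) := by
    rw [At611_asgVal (At611_tab_length _ _)]
    refine sum_congr rfl fun r hr => ?_
    rw [Finset.mem_range] at hr
    rw [At611_ent_tab hr (At611_perm_getD hb1 hr)]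
  have hge : ∀ P : List ℕ, P.Perm (List.range k) → (k + X.length) * g + 2 * pathV (ent M) P ≤
      ∑ r ∈ range (k + X.length), entB M X g r (b.getD r 0) := by
    intro P hP
    obtain ⟨s, hs, hs1, hs2, hp⟩ := tour_of_perm hP (by omega)
    have hs2' := hs2 hk
    obtain ⟨f, hf, f1, f2⟩ := exists_fB hX hs hs2'
    have h1 := sum_fB g hX hs hs1 hs2' f1 f2
    have h2 := ho (range (k + X.length)) f subset_rfl (fun x hx => hf.maps x (Finset.mem_range.1 hx))
      (fun x hx y hy h => hf.inj x (by simpa using hx) y (by simpa using hy) h)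
    rw [← hkdef] at h1
    rw [h1] at h2
    beta_reduce at h2
    have h3 := hp (ent M)
    omega
  refine ⟨?_, ?_⟩
  · intro r hr
    rcases entB_cases M X g r (b.getD r 0) with h0 | h0
    · exfalso
      have h1 := hge _ (List.Perm.refl _)
      have h2 : ∑ y ∈ range (k + X.length), entB M X g y (b.getD y 0) ≤
          (k + X.length - 1) * (g + 2 * B) := by
        rw [← add_sum_erase _ _ (Finset.mem_range.2 hr), h0, zero_add]
        calc ∑ y ∈ (range (k + X.length)).erase r, entB M X g y (b.getD y 0)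
            ≤ ∑ y ∈ (range (k + X.length)).erase r, (g + 2 * B) := by
              refine sum_le_sum fun y hy => ?_
              have hy' : y < k + X.length := by simpa using (mem_erase.1 hy).2
              exact entB_le hM hX g hy' (hbB.maps y hy')
          _ = (k + X.length - 1) * (g + 2 * B) := by
              rw [sum_const, card_erase_of_mem (Finset.mem_range.2 hr), card_range, smul_eq_mul]
      have hXl := hX.length_le
      have h4 : (k + X.length - 1) * (g + 2 * B) < (k + X.length) * g := by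
        obtain ⟨m, hm⟩ : ∃ m, k + X.length = m + 1 := ⟨k + X.length - 1, by omega⟩
        have h5 : m + 1 ≤ 2 * k := by omega
        have h6 : 2 * ((m + 1) * B) ≤ 4 * k * B := by nlinarith only [hXl, hm]
        rw [hm, Nat.add_sub_cancel]
        nlinarith only [hg, h6]
      omega
    · exact h0
  · intro P hP
    rw [matB_eq, ← hkdef, hval]
    exact hge P hP

end Vale.Agent.P333.U
end
end

section

section

/-!
P333, upper bound: decoding of the two assignments (part C).
-/

namespace Vale.Agent.P333.U.PC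

/-! ### Counting -/

theorem c_one {n : ℕ} {P : ℕ → Bool} {i : ℕ} (hi : i < n) (hP : P i = true)
    (hu : ∀ j < n, P j = true → j = i) : (List.range n).countP P = 1 := by
  have h : (List.range n).countP P = (List.range n).countP (fun j => j == i) := by
    apply List.countP_congr
    intro j hj
    rw [List.mem_range] at hj
    constructor
    · intro h
      simpa using hu j hj h
    · intro h
      rw [beq_iff_eq] at h
      rw [h]
      exact hP
  rw [h]
  exact List.count_eq_one_of_mem List.nodup_range (List.mem_range.2 hi)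

theorem c_zero {n : ℕ} {P : ℕ → Bool} (h : ∀ j < n, P j ≠ true) :
    (List.range n).countP P = 0 := by
  rw [List.countP_eq_zero]
  intro j hj
  exact h j (List.mem_range.1 hj)

theorem c_le_one {n : ℕ} {P : ℕ → Bool}
    (hu : ∀ i < n, ∀ j < n, P i = true → P j = true → i = j) :
    (List.range n).countP P ≤ 1 := by
  by_cases h : ∃ i < n, P i = true
  · obtain ⟨i, hi, hP⟩ := h
    exact (c_one hi hP (fun j hj h => hu j hj i hi h hP)).le
  · push Not at h
    rw [c_zero (fun j hj => by simpa using h j hj)]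
    omega

theorem outN_mf (n : ℕ) (p : ℕ → Bool) (f : ℕ → ℕ × ℕ) (v : ℕ) :
    outN (((List.range n).filter p).map f) v =
      (List.range n).countP (fun i => ((f i).1 == v) && p i) := by
  rw [outN, List.countP_map, List.countP_filter]
  rfl

theorem inN_mf (n : ℕ) (p : ℕ → Bool) (f : ℕ → ℕ × ℕ) (v : ℕ) :
    inN (((List.range n).filter p).map f) v =
      (List.range n).countP (fun i => ((f i).2 == v) && p i) := by
  rw [inN, List.countP_map, List.countP_filter]
  rfl

theorem outN_append (E F : List (ℕ × ℕ)) (v : ℕ) : outN (E ++ F) v = outN E v + outN F v := by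
  simp [outN, List.countP_append]

theorem inN_append (E F : List (ℕ × ℕ)) (v : ℕ) : inN (E ++ F) v = inN E v + inN F v := by
  simp [inN, List.countP_append]

theorem sum_mf (n : ℕ) (p : ℕ → Bool) (F : ℕ → ℕ) :
    (((List.range n).filter p).map F).sum = ∑ i ∈ Finset.range n, if p i = true then F i else 0 := by
  induction n with
  | zero => simp
  | succ n ih =>
    rw [List.range_succ, List.filter_append, List.map_append, List.sum_append, ih,
      Finset.sum_range_succ]
    congr 1
    by_cases h : p n = true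
    · simp [h]
    · simp [h]

theorem wt_mf (W : ℕ → ℕ → ℕ) (n : ℕ) (p : ℕ → Bool) (f : ℕ → ℕ × ℕ) :
    wt W (((List.range n).filter p).map f) =
      ∑ i ∈ Finset.range n, if p i = true then W (f i).1 (f i).2 else 0 := by
  rw [wt, List.map_map, sum_mf]
  rfl

theorem wt_append (W : ℕ → ℕ → ℕ) (E F : List (ℕ × ℕ)) : wt W (E ++ F) = wt W E + wt W F := by
  simp [wt]

/-! ### Permutations given as lists -/

theorem pl_length {P : List ℕ} {n : ℕ} (h : P.Perm (List.range n)) : P.length = n := by
  rw [h.length_eq, List.length_range]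

theorem pl_lt {P : List ℕ} {n : ℕ} (h : P.Perm (List.range n)) {i : ℕ} (hi : i < n) :
    P.getD i 0 < n := by
  have hi' : i < P.length := by rw [pl_length h]; exact hi
  rw [List.getD_eq_getElem _ _ hi']
  exact List.mem_range.1 (h.mem_iff.1 (List.getElem_mem hi'))

theorem pl_inj {P : List ℕ} {n : ℕ} (h : P.Perm (List.range n)) {i j : ℕ} (hi : i < n) (hj : j < n)
    (hij : P.getD i 0 = P.getD j 0) : i = j := by
  have hi' : i < P.length := by rw [pl_length h]; exact hi
  have hj' : j < P.length := by rw [pl_length h]; exact hj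
  rw [List.getD_eq_getElem _ _ hi', List.getD_eq_getElem _ _ hj'] at hij
  exact (h.nodup_iff.2 List.nodup_range).getElem_inj_iff.1 hij

theorem pl_sur {P : List ℕ} {n : ℕ} (h : P.Perm (List.range n)) {j : ℕ} (hj : j < n) :
    ∃ i < n, P.getD i 0 = j := by
  obtain ⟨i, hi, hij⟩ := List.getElem_of_mem (h.mem_iff.2 (List.mem_range.2 hj))
  refine ⟨i, by rw [← pl_length h]; exact hi, ?_⟩
  rw [List.getD_eq_getElem _ _ hi, hij]

/-- A list of values of an injective function is a permutation. -/
theorem perm_of_inj {n : ℕ} {f : ℕ → ℕ} (hlt : ∀ i < n, f i < n)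
    (hinj : ∀ i < n, ∀ j < n, f i = f j → i = j) : ((List.range n).map f).Perm (List.range n) := by
  have hnd : ((List.range n).map f).Nodup := by
    refine List.Nodup.map_on ?_ List.nodup_range
    intro x hx y hy hxy
    exact hinj x (List.mem_range.1 hx) y (List.mem_range.1 hy) hxy
  refine (List.subperm_of_subset hnd ?_).perm_of_length_le (by simp)
  intro y hy
  obtain ⟨x, hx, rfl⟩ := List.mem_map.1 hy
  exact List.mem_range.2 (hlt x (List.mem_range.1 hx))

theorem getD_map_range {n i : ℕ} (f : ℕ → ℕ) (hi : i < n) :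
    ((List.range n).map f).getD i 0 = f i := by
  rw [List.getD_eq_getElem _ _ (by simpa using hi)]
  simp

theorem getD_map_range' {α : Type*} {n i : ℕ} (f : ℕ → α) (d : α) (hi : i < n) :
    ((List.range n).map f).getD i d = f i := by
  rw [List.getD_eq_getElem _ _ (by simpa using hi)]
  simp

/-! ### The pairs -/

theorem mem_prs {k : ℕ} {A : List ℕ} {p q : ℕ} :
    (p, q) ∈ prs k A ↔ p < k ∧ p < q ∧ q = A.getD p 0 ∧ A.getD q 0 = p := by
  unfold prs
  simp only [List.mem_map, List.mem_filter, List.mem_range, Bool.and_eq_true, decide_eq_true_eq,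
    Prod.mk.injEq]
  constructor
  · rintro ⟨i, ⟨h1, h2, h3⟩, rfl, rfl⟩
    exact ⟨h1, h2, rfl, h3⟩
  · rintro ⟨h1, h2, rfl, h4⟩
    exact ⟨p, ⟨h1, h2, h4⟩, rfl, rfl⟩

theorem nodup_prs (k : ℕ) (A : List ℕ) : (prs k A).Nodup := by
  unfold prs
  refine List.Nodup.map_on ?_ (List.nodup_range.filter _)
  intro x _ y _ hxy
  exact congrArg Prod.fst hxy

theorem pairList_prs {k : ℕ} {A : List ℕ} (hA : Der k A) : PairList k (prs k A) := by
  constructor
  · rintro ⟨p, q⟩ h
    obtain ⟨h1, h2, h3, h4⟩ := mem_prs.1 h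
    refine ⟨h2, ?_⟩
    change q < k
    rw [h3]
    exact pl_lt hA.1 h1
  · rw [List.nodup_flatMap]
    refine ⟨?_, ?_⟩
    · rintro ⟨p, q⟩ h
      obtain ⟨h1, h2, h3, h4⟩ := mem_prs.1 h
      simp only [List.nodup_cons, List.mem_singleton, List.not_mem_nil, not_false_eq_true,
        List.nodup_nil, and_true]
      omega
    · refine (nodup_prs k A).imp_of_mem ?_
      rintro ⟨p, q⟩ ⟨p', q'⟩ h h' hne
      obtain ⟨h1, h2, h3, h4⟩ := mem_prs.1 h
      obtain ⟨h1', h2', h3', h4'⟩ := mem_prs.1 h'
      simp only [Function.onFun, List.disjoint_cons_left, List.mem_cons, List.not_mem_nil, or_false,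
        not_or, List.disjoint_nil_left, and_true]
      have hpp : p ≠ p' := by
        rintro rfl
        exact hne (by rw [h3, h3'])
      have hqq : q ≠ q' := by
        rintro rfl
        exact hpp (by rw [← h4, ← h4'])
      refine ⟨⟨hpp, ?_⟩, ?_, hqq⟩
      · rintro rfl
        rw [h4'] at h3
        omega
      · rintro rfl
        rw [h4] at h3'
        omega

/-! ### The context -/

/-- Properties of the two assignments. -/
structure Ctx (k : ℕ) (A b : List ℕ) (X : List (ℕ × ℕ)) : Prop where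
  der : Der k A
  memX : ∀ {p q}, (p, q) ∈ X ↔ p < k ∧ p < q ∧ q = A.getD p 0 ∧ A.getD q 0 = p
  ndX : X.Nodup
  bp : b.Perm (List.range (k + X.length))
  f1 : ∀ r < k, k ≤ b.getD r 0 → r = (X.getD (b.getD r 0 - k) (0, 0)).1 ∨
    r = (X.getD (b.getD r 0 - k) (0, 0)).2
  f2 : ∀ x < X.length, b.getD (k + x) 0 < k → b.getD (k + x) 0 = (X.getD x (0, 0)).1 ∨
    b.getD (k + x) 0 = (X.getD x (0, 0)).2
  f2' : ∀ x < X.length, k ≤ b.getD (k + x) 0 → b.getD (k + x) 0 = k + x
  f3 : ∀ r < k, b.getD r 0 < k → r ≠ b.getD r 0 ∧ (r, b.getD r 0) ∉ X ∧ (b.getD r 0, r) ∉ X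

theorem ctx_of {M : List (List ℕ)} {g : ℕ} {A b : List ℕ} (hg : 0 < g) (hA : Der M.length A)
    (hb : b.Perm (List.range (M.length + (prs M.length A).length)))
    (he : ∀ r < M.length + (prs M.length A).length,
      g ≤ entB M (prs M.length A) g r (b.getD r 0)) :
    Ctx M.length A b (prs M.length A) where
  der := hA
  memX := mem_prs
  ndX := nodup_prs _ _
  bp := hb
  f1 := by
    intro r hr hbr
    have h := he r (by omega)
    unfold entB at h
    rw [if_pos hr, if_neg (by omega)] at h
    by_contra hcon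
    rw [not_or] at hcon
    rw [if_neg hcon.1, if_neg hcon.2] at h
    omega
  f2 := by
    intro x hx hbx
    have h := he (M.length + x) (by omega)
    unfold entB at h
    rw [if_neg (by omega), if_pos hbx, Nat.add_sub_cancel_left] at h
    by_contra hcon
    rw [not_or] at hcon
    rw [if_neg hcon.2, if_neg hcon.1] at h
    omega
  f2' := by
    intro x hx hbx
    have h := he (M.length + x) (by omega)
    unfold entB at h
    rw [if_neg (by omega), if_neg (by omega)] at h
    by_contra hcon
    rw [if_neg (fun h' => hcon h'.symm)] at h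
    omega
  f3 := by
    intro r hr hbr
    have h := he r (by omega)
    unfold entB at h
    rw [if_pos hr, if_pos hbr] at h
    by_contra hcon
    rw [if_pos (by (clear * - hcon; tauto))] at h
    omega

variable {k : ℕ} {A b : List ℕ} {X : List (ℕ × ℕ)}

theorem Ctx.pair (h : Ctx k A b X) {x : ℕ} (hx : x < X.length) :
    (X.getD x (0, 0)).1 < k ∧ (X.getD x (0, 0)).2 < k ∧
    (X.getD x (0, 0)).1 < (X.getD x (0, 0)).2 ∧
    A.getD (X.getD x (0, 0)).1 0 = (X.getD x (0, 0)).2 ∧
    A.getD (X.getD x (0, 0)).2 0 = (X.getD x (0, 0)).1 := by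
  have hm : ((X.getD x (0, 0)).1, (X.getD x (0, 0)).2) ∈ X := by
    rw [List.getD_eq_getElem _ _ hx]
    exact List.getElem_mem hx
  obtain ⟨h1, h2, h3, h4⟩ := h.memX.1 hm
  refine ⟨h1, ?_, h2, h3.symm, h4⟩
  rw [h3]
  exact pl_lt h.der.1 h1

/-- The pair of a vertex is unique. -/
theorem Ctx.uniq (h : Ctx k A b X) {x y v : ℕ} (hx : x < X.length) (hy : y < X.length)
    (h1 : v = (X.getD x (0, 0)).1 ∨ v = (X.getD x (0, 0)).2)
    (h2 : v = (X.getD y (0, 0)).1 ∨ v = (X.getD y (0, 0)).2) : x = y := by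
  obtain ⟨a1, a2, a3, a4, a5⟩ := h.pair hx
  obtain ⟨b1, b2, b3, b4, b5⟩ := h.pair hy
  have key : X.getD x (0, 0) = X.getD y (0, 0) := by
    rcases h1 with h1 | h1 <;> rcases h2 with h2 | h2
    · have e1 : (X.getD x (0, 0)).1 = (X.getD y (0, 0)).1 := by rw [← h1, h2]
      have e2 : (X.getD x (0, 0)).2 = (X.getD y (0, 0)).2 := by rw [← a4, e1, b4]
      exact Prod.ext e1 e2
    · exfalso
      have e1 : (X.getD x (0, 0)).1 = (X.getD y (0, 0)).2 := by rw [← h1, h2]
      rw [e1, b5] at a4
      omega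
    · exfalso
      have e1 : (X.getD x (0, 0)).2 = (X.getD y (0, 0)).1 := by rw [← h1, h2]
      rw [e1, b4] at a5
      omega
    · have e1 : (X.getD x (0, 0)).2 = (X.getD y (0, 0)).2 := by rw [← h1, h2]
      have e2 : (X.getD x (0, 0)).1 = (X.getD y (0, 0)).1 := by rw [← a5, e1, b5]
      exact Prod.ext e2 e1
  rw [List.getD_eq_getElem _ _ hx, List.getD_eq_getElem _ _ hy] at key
  exact h.ndX.getElem_inj_iff.1 key

/-- If the row of the pair is used, then so is its column, by the vertex `gin`. -/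
theorem Ctx.gin_spec (h : Ctx k A b X) {x : ℕ} (hx : x < X.length) (hu : hout k b x < k) :
    b.getD (gin k X b x) 0 = k + x ∧
    (gin k X b x = (X.getD x (0, 0)).1 ∨ gin k X b x = (X.getD x (0, 0)).2) := by
  obtain ⟨r, hr, hbr⟩ := pl_sur h.bp (j := k + x) (by omega)
  unfold hout at hu
  have hrx : r ≠ k + x := by
    rintro rfl
    omega
  have hrk : r < k := by
    by_contra hcon
    obtain ⟨y, rfl⟩ : ∃ y, r = k + y := ⟨r - k, by omega⟩
    have := h.f2' y (by omega) (by omega)
    omega
  have h1 := h.f1 r hrk (by omega)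
  rw [hbr, Nat.add_sub_cancel_left] at h1
  unfold gin
  by_cases hc : b.getD (X.getD x (0, 0)).1 0 = k + x
  · rw [if_pos hc]
    exact ⟨hc, Or.inl rfl⟩
  · rw [if_neg hc]
    rcases h1 with h1 | h1
    · exact absurd (by rw [← h1, hbr]) hc
    · exact ⟨by rw [← h1, hbr], Or.inr rfl⟩

/-- The pair of a vertex assigned to the column of a pair. -/
theorem Ctx.hub (h : Ctx k A b X) {v : ℕ} (hv : v < k) (hb : k ≤ b.getD v 0) :
    b.getD v 0 - k < X.length ∧ hout k b (b.getD v 0 - k) < k ∧
    gin k X b (b.getD v 0 - k) = v ∧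
    (v = (X.getD (b.getD v 0 - k) (0, 0)).1 ∨ v = (X.getD (b.getD v 0 - k) (0, 0)).2) := by
  have hlt := pl_lt h.bp (i := v) (by omega)
  have hx : b.getD v 0 - k < X.length := by omega
  have hu : hout k b (b.getD v 0 - k) < k := by
    by_contra hcon
    have := h.f2' _ hx (by unfold hout at hcon; omega)
    have e : b.getD v 0 = b.getD (k + (b.getD v 0 - k)) 0 := by omega
    have := pl_inj h.bp (i := v) (j := k + (b.getD v 0 - k)) (by omega) (by omega) e
    omega
  obtain ⟨h1, h2⟩ := h.gin_spec hx hu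
  have hgk : gin k X b (b.getD v 0 - k) < k := by
    obtain ⟨a1, a2, -⟩ := h.pair hx
    rcases h2 with h2 | h2 <;> rw [h2] <;> assumption
  have he : gin k X b (b.getD v 0 - k) = v :=
    pl_inj h.bp (by omega) (by omega) (by rw [h1]; omega)
  refine ⟨hx, hu, he, ?_⟩
  rw [he] at h2
  exact h2

/-- The vertex `v` is isolated in a half pair. -/
def HalfU (k : ℕ) (b : List ℕ) (X : List (ℕ × ℕ)) (v : ℕ) : Prop :=
  ∃ x < X.length, hout k b x < k ∧ gin k X b x = hout k b x ∧ v = hout k b x

theorem fix3_iff {i : ℕ} : fix3 A b i = true ↔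
    A.getD (A.getD (A.getD i 0) 0) 0 = i ∧ b.getD i 0 = A.getD (A.getD i 0) 0 ∧
    b.getD (A.getD i 0) 0 = i ∧ b.getD (A.getD (A.getD i 0) 0) 0 = A.getD i 0 := by
  unfold fix3
  simp only [Bool.and_eq_true, decide_eq_true_eq, and_assoc]

theorem fix3_next {i : ℕ} (h : fix3 A b i = true) : fix3 A b (A.getD i 0) = true := by
  rw [fix3_iff] at h ⊢
  obtain ⟨h1, h2, h3, h4⟩ := h
  refine ⟨by rw [h1], ?_, ?_, ?_⟩
  · rw [h3, h1]
  · rw [h4]
  · rw [h1, h2]

/-- The second permutation, the opposite 3-cycles replaced. -/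
def gam (A b : List ℕ) (i : ℕ) : ℕ := if fix3 A b i then A.getD i 0 else b.getD i 0

theorem arcsB1_eq : arcsB1 k A b = ((List.range k).filter (fun i => decide (b.getD i 0 < k))).map
    (fun i => (i, gam A b i)) := by
  unfold arcsB1 gam
  congr 1
  funext i
  by_cases h : fix3 A b i = true <;> simp [h]

theorem Ctx.gam_lt (h : Ctx k A b X) {i : ℕ} (hi : i < k) (hb : b.getD i 0 < k) :
    gam A b i < k := by
  unfold gam
  split_ifs
  · exact pl_lt h.der.1 hi
  · exact hb

theorem Ctx.gam_inj (h : Ctx k A b X) {i j : ℕ} (hi : i < k) (hj : j < k)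
    (hij : gam A b i = gam A b j) : i = j := by
  have key : ∀ i < k, ∀ j < k, fix3 A b i = true → fix3 A b j ≠ true →
      A.getD i 0 = b.getD j 0 → False := by
    intro i hi j hj h1 h2 h3
    have h1' := fix3_iff.1 h1
    have e : b.getD j 0 = b.getD (A.getD (A.getD i 0) 0) 0 := by rw [← h3, h1'.2.2.2]
    have hlt : A.getD (A.getD i 0) 0 < k := pl_lt h.der.1 (pl_lt h.der.1 hi)
    have := pl_inj h.bp (by omega) (by omega) e
    exact h2 (by rw [this]; exact fix3_next (fix3_next h1))
  unfold gam at hij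
  by_cases h1 : fix3 A b i = true <;> by_cases h2 : fix3 A b j = true
  · rw [if_pos h1, if_pos h2] at hij
    exact pl_inj h.der.1 hi hj hij
  · rw [if_pos h1, if_neg h2] at hij
    exact (key i hi j hj h1 h2 hij).elim
  · rw [if_neg h1, if_pos h2] at hij
    exact (key j hj i hi h2 h1 hij.symm).elim
  · rw [if_neg h1, if_neg h2] at hij
    exact pl_inj h.bp (by omega) (by omega) hij

/-- Values of `gam` have a preimage smaller than `k` under `b`, and conversely. -/
theorem Ctx.gam_pre (h : Ctx k A b X) {v : ℕ} :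
    (∃ i < k, b.getD i 0 < k ∧ gam A b i = v) ↔ (v < k ∧ ∃ i < k, b.getD i 0 = v) := by
  constructor
  · rintro ⟨i, hi, hb, rfl⟩
    refine ⟨h.gam_lt hi hb, ?_⟩
    unfold gam
    by_cases h1 : fix3 A b i = true
    · rw [if_pos h1]
      exact ⟨_, pl_lt h.der.1 (pl_lt h.der.1 hi), (fix3_iff.1 h1).2.2.2⟩
    · rw [if_neg h1]
      exact ⟨i, hi, rfl⟩
  · rintro ⟨hv, i, hi, rfl⟩
    by_cases h1 : fix3 A b i = true
    · refine ⟨A.getD i 0, pl_lt h.der.1 hi, ?_, ?_⟩
      · rw [(fix3_iff.1 h1).2.2.1]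
        exact hi
      · unfold gam
        rw [if_pos (fix3_next h1), (fix3_iff.1 h1).2.1]
    · refine ⟨i, hi, hv, ?_⟩
      unfold gam
      rw [if_neg h1]

/-- Arcs of the second permutation out of `v`. -/
theorem Ctx.outB (h : Ctx k A b X) {v : ℕ} (hv : v < k) (hn : ¬ HalfU k b X v) :
    outN (arcsB1 k A b ++ arcsB2 k X b) v = 1 := by
  rw [outN_append, arcsB1_eq, arcsB2, outN_mf, outN_mf]
  by_cases hb : b.getD v 0 < k
  · rw [c_one (i := v) hv (by
      simp only [beq_self_eq_true, Bool.true_and, decide_eq_true_eq]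
      exact hb) (by
      intro j _ hj
      simp only [Bool.and_eq_true, beq_iff_eq, decide_eq_true_eq] at hj
      exact hj.1)]
    rw [c_zero]
    intro x hx hc
    simp only [Bool.and_eq_true, beq_iff_eq, decide_eq_true_eq] at hc
    have := (h.gin_spec hx hc.2.1).1
    rw [hc.1] at this
    omega
  · obtain ⟨h1, h2, h3, h4⟩ := h.hub hv (by omega)
    rw [c_zero (by
      intro j _ hj
      simp only [Bool.and_eq_true, beq_iff_eq, decide_eq_true_eq] at hj
      rw [hj.1] at hj
      exact hb hj.2)]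
    rw [c_one (i := b.getD v 0 - k) h1]
    · simp only [Bool.and_eq_true, beq_iff_eq, decide_eq_true_eq, Bool.not_eq_true',
        decide_eq_false_iff_not]
      refine ⟨h3, h2, ?_⟩
      intro hc
      exact hn ⟨_, h1, h2, hc, by rw [← hc, h3]⟩
    · intro y hy hc
      simp only [Bool.and_eq_true, beq_iff_eq, decide_eq_true_eq] at hc
      have := (h.gin_spec hy hc.2.1).1
      rw [hc.1] at this
      omega

theorem Ctx.inB (h : Ctx k A b X) {v : ℕ} (hv : v < k) (hn : ¬ HalfU k b X v) :
    inN (arcsB1 k A b ++ arcsB2 k X b) v = 1 := by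
  rw [inN_append, arcsB1_eq, arcsB2, inN_mf, inN_mf]
  obtain ⟨r, hr, hbr⟩ := pl_sur h.bp (j := v) (by omega)
  by_cases hrk : r < k
  · obtain ⟨i, hi, hbi, hgi⟩ := h.gam_pre.2 ⟨hv, r, hrk, hbr⟩
    rw [c_one (i := i) hi (by
      simp only [Bool.and_eq_true, beq_iff_eq, decide_eq_true_eq]
      exact ⟨hgi, hbi⟩) (by
      intro j hj hj'
      simp only [Bool.and_eq_true, beq_iff_eq, decide_eq_true_eq] at hj'
      exact h.gam_inj hj hi (by rw [hj'.1, hgi]))]
    rw [c_zero]
    intro x hx hc
    simp only [Bool.and_eq_true, beq_iff_eq, decide_eq_true_eq] at hc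
    have h1 := hc.1
    unfold hout at h1
    have := pl_inj h.bp (i := k + x) (j := r) (by omega) hr (by rw [h1, hbr])
    omega
  · obtain ⟨x, rfl⟩ : ∃ x, r = k + x := ⟨r - k, by omega⟩
    have hx : x < X.length := by omega
    rw [c_zero (by
      intro j hj hj'
      simp only [Bool.and_eq_true, beq_iff_eq, decide_eq_true_eq] at hj'
      obtain ⟨-, i, hi, hbi⟩ := h.gam_pre.1 ⟨j, hj, hj'.2, hj'.1⟩
      have := pl_inj h.bp (i := i) (j := k + x) (by omega) hr (by rw [hbi, hbr])
      omega)]
    have hu : hout k b x = v := hbr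
    rw [c_one (i := x) hx]
    · simp only [Bool.and_eq_true, beq_iff_eq, decide_eq_true_eq, Bool.not_eq_true',
        decide_eq_false_iff_not]
      refine ⟨hu, by rw [hu]; exact hv, ?_⟩
      intro hc
      exact hn ⟨x, hx, by rw [hu]; exact hv, hc, hu.symm⟩
    · intro y hy hc
      simp only [Bool.and_eq_true, beq_iff_eq, decide_eq_true_eq] at hc
      have h1 := hc.1
      unfold hout at h1
      have := pl_inj h.bp (i := k + y) (j := k + x) (by omega) hr (by rw [h1, hbr])
      omega

theorem Ctx.outB_zero (h : Ctx k A b X) {v : ℕ} (hn : HalfU k b X v) :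
    outN (arcsB1 k A b ++ arcsB2 k X b) v = 0 := by
  obtain ⟨x, hx, h1, h2, h3⟩ := hn
  obtain ⟨h4, h5⟩ := h.gin_spec hx h1
  rw [h2, ← h3] at h4
  rw [outN_append, arcsB1_eq, arcsB2, outN_mf, outN_mf]
  rw [c_zero (by
    intro j _ hj
    simp only [Bool.and_eq_true, beq_iff_eq, decide_eq_true_eq] at hj
    rw [hj.1] at hj
    omega)]
  rw [c_zero]
  intro y hy hc
  simp only [Bool.and_eq_true, beq_iff_eq, decide_eq_true_eq, Bool.not_eq_true',
    decide_eq_false_iff_not] at hc
  have h6 := (h.gin_spec hy hc.2.1).1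
  rw [hc.1, h4] at h6
  have : x = y := by omega
  subst this
  exact hc.2.2 h2

theorem Ctx.inB_zero (h : Ctx k A b X) {v : ℕ} (hn : HalfU k b X v) :
    inN (arcsB1 k A b ++ arcsB2 k X b) v = 0 := by
  obtain ⟨x, hx, h1, h2, h3⟩ := hn
  have h3' : b.getD (k + x) 0 = v := h3.symm
  rw [inN_append, arcsB1_eq, arcsB2, inN_mf, inN_mf]
  rw [c_zero (by
    intro j hj hj'
    simp only [Bool.and_eq_true, beq_iff_eq, decide_eq_true_eq] at hj'
    obtain ⟨-, i, hi, hbi⟩ := h.gam_pre.1 ⟨j, hj, hj'.2, hj'.1⟩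
    have := pl_inj h.bp (i := i) (j := k + x) (by omega) (by omega) (by rw [hbi, h3'])
    omega)]
  rw [c_zero]
  intro y hy hc
  simp only [Bool.and_eq_true, beq_iff_eq, decide_eq_true_eq, Bool.not_eq_true',
    decide_eq_false_iff_not] at hc
  have h4 : b.getD (k + y) 0 = v := hc.1
  have := pl_inj h.bp (i := k + y) (j := k + x) (by omega) (by omega) (by rw [h4, h3'])
  have : y = x := by omega
  subst this
  exact hc.2.2 h2

/-! ### The half pairs -/

theorem Ctx.half (h : Ctx k A b X) {e : ℕ × ℕ} (he : e ∈ halves k X b) :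
    ∃ x < X.length, hout k b x < k ∧ gin k X b x = hout k b x ∧ e.1 = hout k b x ∧
      ((e.1 = (X.getD x (0, 0)).1 ∧ e.2 = (X.getD x (0, 0)).2) ∨
        (e.1 = (X.getD x (0, 0)).2 ∧ e.2 = (X.getD x (0, 0)).1)) := by
  unfold halves at he
  rw [List.mem_map] at he
  obtain ⟨x, hx, rfl⟩ := he
  simp only [List.mem_filter, List.mem_range, Bool.and_eq_true, decide_eq_true_eq] at hx
  obtain ⟨hx, h1, h2⟩ := hx
  refine ⟨x, hx, h1, h2, rfl, ?_⟩
  have h3 := (h.gin_spec hx h1).2
  rw [h2] at h3
  by_cases hc : hout k b x = (X.getD x (0, 0)).1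
  · left
    exact ⟨hc, if_pos hc⟩
  · right
    exact ⟨h3.resolve_left hc, if_neg hc⟩

theorem Ctx.half' (h : Ctx k A b X) {e : ℕ × ℕ} (he : e ∈ halves k X b) :
    e.1 < k ∧ e.2 < k ∧ e.1 ≠ e.2 ∧ A.getD e.1 0 = e.2 ∧ A.getD e.2 0 = e.1 ∧
      HalfU k b X e.1 ∧ ¬ HalfU k b X e.2 := by
  obtain ⟨x, hx, h1, h2, h3, h4⟩ := h.half he
  obtain ⟨a1, a2, a3, a4, a5⟩ := h.pair hx
  have hU : HalfU k b X e.1 := ⟨x, hx, h1, h2, h3⟩
  have key : e.1 < k ∧ e.2 < k ∧ e.1 ≠ e.2 ∧ A.getD e.1 0 = e.2 ∧ A.getD e.2 0 = e.1 := by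
    rcases h4 with ⟨h4, h5⟩ | ⟨h4, h5⟩
    · rw [h4, h5]
      exact ⟨a1, a2, by omega, a4, a5⟩
    · rw [h4, h5]
      exact ⟨a2, a1, by omega, a5, a4⟩
  refine ⟨key.1, key.2.1, key.2.2.1, key.2.2.2.1, key.2.2.2.2, hU, ?_⟩
  rintro ⟨y, hy, g1, g2, g3⟩
  have h6 := (h.gin_spec hy g1).2
  rw [g2, ← g3] at h6
  have hxy : x = y := h.uniq (v := e.2) hx hy (by (clear * - h4 key h6; tauto)) h6
  subst hxy
  exact key.2.2.1 (by rw [h3, g3])

theorem Ctx.halfU_mem {v : ℕ} (hv : HalfU k b X v) : ∃ e ∈ halves k X b, e.1 = v := by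
  obtain ⟨x, hx, h1, h2, h3⟩ := hv
  refine ⟨_, List.mem_map.2 ⟨x, ?_, rfl⟩, h3.symm⟩
  simp only [List.mem_filter, List.mem_range, Bool.and_eq_true, decide_eq_true_eq]
  exact ⟨hx, h1, h2⟩

theorem Ctx.halves_nodup (h : Ctx k A b X) :
    ((halves k X b).flatMap (fun e => [e.1, e.2])).Nodup := by
  rw [List.nodup_flatMap]
  refine ⟨?_, ?_⟩
  · intro e he
    obtain ⟨h1, h2, h3, -⟩ := h.half' he
    simp only [List.nodup_cons, List.mem_singleton, List.not_mem_nil, not_false_eq_true,
      List.nodup_nil, and_true]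
    exact h3
  · have hnd : (halves k X b).Nodup := by
      unfold halves
      refine List.Nodup.map_on ?_ (List.nodup_range.filter _)
      intro x hx y hy hxy
      simp only [List.mem_filter, List.mem_range, Bool.and_eq_true, decide_eq_true_eq] at hx hy
      have h1 : hout k b x = hout k b y := congrArg Prod.fst hxy
      unfold hout at h1
      have := pl_inj h.bp (i := k + x) (j := k + y) (by omega) (by omega) h1
      omega
    refine hnd.imp_of_mem ?_
    intro e f he hf hne
    obtain ⟨h1, h2, h3, h4, h5, h6, h7⟩ := h.half' he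
    obtain ⟨g1, g2, g3, g4, g5, g6, g7⟩ := h.half' hf
    simp only [Function.onFun, List.disjoint_cons_left, List.mem_cons, List.not_mem_nil, or_false,
      not_or, List.disjoint_nil_left, and_true]
    have e11 : e.1 ≠ f.1 := by
      intro hc
      exact hne (Prod.ext hc (by rw [← h4, ← g4, hc]))
    refine ⟨⟨e11, ?_⟩, ?_, ?_⟩
    · intro hc
      rw [hc] at h6
      exact g7 h6
    · intro hc
      rw [← hc] at g6
      exact h7 g6
    · intro hc
      exact e11 (by rw [← h5, ← g5, hc])

/-- `v` belongs to a half pair. -/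
def InH (k : ℕ) (b : List ℕ) (X : List (ℕ × ℕ)) (v : ℕ) : Prop :=
  ∃ e ∈ halves k X b, e.1 = v ∨ e.2 = v

theorem allH {i : ℕ} : ((halves k X b).all (fun e => !decide (e.1 = i) && !decide (e.2 = i))) =
    true ↔ ¬ InH k b X i := by
  unfold InH
  simp only [List.all_eq_true, Bool.and_eq_true, Bool.not_eq_true', decide_eq_false_iff_not,
    not_exists, not_and, not_or]

theorem Ctx.inH_A (h : Ctx k A b X) {i : ℕ} (hi : i < k) :
    InH k b X (A.getD i 0) ↔ InH k b X i := by
  constructor
  · rintro ⟨e, he, h1 | h1⟩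
    · obtain ⟨a1, a2, a3, a4, a5, -⟩ := h.half' he
      refine ⟨e, he, Or.inr ?_⟩
      exact pl_inj h.der.1 a2 hi (by rw [a5, h1])
    · obtain ⟨a1, a2, a3, a4, a5, -⟩ := h.half' he
      refine ⟨e, he, Or.inl ?_⟩
      exact pl_inj h.der.1 a1 hi (by rw [a4, h1])
  · rintro ⟨e, he, h1 | h1⟩
    · obtain ⟨a1, a2, a3, a4, a5, -⟩ := h.half' he
      exact ⟨e, he, Or.inr (by rw [← h1, a4])⟩
    · obtain ⟨a1, a2, a3, a4, a5, -⟩ := h.half' he
      exact ⟨e, he, Or.inl (by rw [← h1, a5])⟩

theorem Ctx.outA (_h : Ctx k A b X) {v : ℕ} (hv : v < k) (hn : ¬ InH k b X v) :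
    outN (arcsA k A (halves k X b)) v = 1 := by
  rw [arcsA, outN_mf]
  refine c_one (i := v) hv ?_ ?_
  · simp only [beq_self_eq_true, Bool.true_and]
    exact allH.2 hn
  · intro j _ hj
    rw [Bool.and_eq_true, beq_iff_eq] at hj
    exact hj.1

theorem Ctx.outA_zero (_h : Ctx k A b X) {v : ℕ} (hn : InH k b X v) :
    outN (arcsA k A (halves k X b)) v = 0 := by
  rw [arcsA, outN_mf]
  refine c_zero ?_
  intro j _ hj
  rw [Bool.and_eq_true, beq_iff_eq, allH] at hj
  have h1 : j = v := hj.1
  exact hj.2 (by rw [h1]; exact hn)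

theorem Ctx.inA (h : Ctx k A b X) {v : ℕ} (hv : v < k) (hn : ¬ InH k b X v) :
    inN (arcsA k A (halves k X b)) v = 1 := by
  rw [arcsA, inN_mf]
  obtain ⟨i, hi, hiv⟩ := pl_sur h.der.1 hv
  refine c_one (i := i) hi ?_ ?_
  · rw [Bool.and_eq_true, beq_iff_eq, allH]
    refine ⟨hiv, ?_⟩
    rw [← h.inH_A hi, hiv]
    exact hn
  · intro j hj hj'
    rw [Bool.and_eq_true, beq_iff_eq] at hj'
    have h1 : A.getD j 0 = v := hj'.1
    exact pl_inj h.der.1 hj hi (by rw [h1, hiv])

theorem Ctx.inA_zero (h : Ctx k A b X) {v : ℕ} (hn : InH k b X v) :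
    inN (arcsA k A (halves k X b)) v = 0 := by
  rw [arcsA, inN_mf]
  refine c_zero ?_
  intro j hj hj'
  rw [Bool.and_eq_true, beq_iff_eq, allH] at hj'
  have h1 : A.getD j 0 = v := hj'.1
  refine hj'.2 ?_
  rw [← h.inH_A hj, h1]
  exact hn

/-! ### The arcs -/

theorem Ctx.mem_A (h : Ctx k A b X) {e : ℕ × ℕ} (he : e ∈ arcsA k A (halves k X b)) :
    e.1 < k ∧ e.2 < k ∧ e.2 = A.getD e.1 0 ∧ e.1 ≠ e.2 := by
  unfold arcsA at he
  simp only [List.mem_map, List.mem_filter, List.mem_range] at he
  obtain ⟨i, ⟨hi, -⟩, rfl⟩ := he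
  exact ⟨hi, pl_lt h.der.1 hi, rfl, (h.der.2 i hi).symm⟩

theorem Ctx.mem_B1 (h : Ctx k A b X) {e : ℕ × ℕ} (he : e ∈ arcsB1 k A b) :
    e.1 < k ∧ e.2 < k ∧ b.getD e.1 0 < k ∧ e.2 = gam A b e.1 ∧ e.1 ≠ e.2 := by
  rw [arcsB1_eq] at he
  simp only [List.mem_map, List.mem_filter, List.mem_range, decide_eq_true_eq] at he
  obtain ⟨i, ⟨hi, hb⟩, rfl⟩ := he
  refine ⟨hi, h.gam_lt hi hb, hb, rfl, ?_⟩
  change i ≠ gam A b i
  unfold gam
  split_ifs
  · exact (h.der.2 i hi).symm
  · exact (h.f3 i hi hb).1

theorem Ctx.mem_B2 (h : Ctx k A b X) {e : ℕ × ℕ} (he : e ∈ arcsB2 k X b) :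
    ∃ x < X.length, hout k b x < k ∧ e.1 = gin k X b x ∧ e.2 = hout k b x ∧ e.1 ≠ e.2 ∧
      ((e.1 = (X.getD x (0, 0)).1 ∧ e.2 = (X.getD x (0, 0)).2) ∨
        (e.1 = (X.getD x (0, 0)).2 ∧ e.2 = (X.getD x (0, 0)).1)) := by
  unfold arcsB2 at he
  rw [List.mem_map] at he
  obtain ⟨x, hx, rfl⟩ := he
  simp only [List.mem_filter, List.mem_range, Bool.and_eq_true, decide_eq_true_eq,
    Bool.not_eq_true', decide_eq_false_iff_not] at hx
  obtain ⟨hx, h1, h2⟩ := hx
  have h3 := (h.gin_spec hx h1).2
  have h4 : hout k b x = (X.getD x (0, 0)).1 ∨ hout k b x = (X.getD x (0, 0)).2 := h.f2 x hx h1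
  refine ⟨x, hx, h1, rfl, rfl, h2, ?_⟩
  change (gin k X b x = _ ∧ hout k b x = _) ∨ (gin k X b x = _ ∧ hout k b x = _)
  rcases h3 with h3 | h3 <;> rcases h4 with h4 | h4
  · exact absurd (by rw [h3, h4]) h2
  · exact Or.inl ⟨h3, h4⟩
  · exact Or.inr ⟨h3, h4⟩
  · exact absurd (by rw [h3, h4]) h2

theorem Ctx.mem_B2' (h : Ctx k A b X) {e : ℕ × ℕ} (he : e ∈ arcsB2 k X b) :
    e.1 < k ∧ e.2 < k ∧ A.getD e.1 0 = e.2 ∧ A.getD e.2 0 = e.1 := by
  obtain ⟨x, hx, h1, h2, h3, h4, h5⟩ := h.mem_B2 he
  obtain ⟨a1, a2, a3, a4, a5⟩ := h.pair hx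
  rcases h5 with ⟨h5, h6⟩ | ⟨h5, h6⟩
  · rw [h5, h6]
    exact ⟨a1, a2, a4, a5⟩
  · rw [h5, h6]
    exact ⟨a2, a1, a5, a4⟩

theorem mem_graphE {e : ℕ × ℕ} : e ∈ graphE k X A b ↔
    e ∈ arcsA k A (halves k X b) ∨ e ∈ arcsB1 k A b ++ arcsB2 k X b := by
  unfold graphE
  rw [List.append_assoc, List.mem_append]

theorem Ctx.memE (h : Ctx k A b X) {e : ℕ × ℕ} (he : e ∈ graphE k X A b) :
    e.1 < k ∧ e.2 < k ∧ e.1 ≠ e.2 := by
  rw [mem_graphE, List.mem_append] at he
  rcases he with he | he | he
  · obtain ⟨h1, h2, h3, h4⟩ := h.mem_A he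
    exact ⟨h1, h2, h4⟩
  · obtain ⟨h1, h2, h3, h4, h5⟩ := h.mem_B1 he
    exact ⟨h1, h2, h5⟩
  · obtain ⟨h1, h2, h3, h4⟩ := h.mem_B2' he
    obtain ⟨x, -, -, -, -, h6, -⟩ := h.mem_B2 he
    exact ⟨h1, h2, h6⟩

theorem outN_E (v : ℕ) : outN (graphE k X A b) v =
    outN (arcsA k A (halves k X b)) v + outN (arcsB1 k A b ++ arcsB2 k X b) v := by
  unfold graphE
  rw [List.append_assoc, outN_append]

theorem inN_E (v : ℕ) : inN (graphE k X A b) v =
    inN (arcsA k A (halves k X b)) v + inN (arcsB1 k A b ++ arcsB2 k X b) v := by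
  unfold graphE
  rw [List.append_assoc, inN_append]

/-- Degrees. -/
theorem Ctx.degs (h : Ctx k A b X) (v : ℕ) :
    (v < k ∧ ¬ InH k b X v ∧ outN (graphE k X A b) v = 2 ∧ inN (graphE k X A b) v = 2) ∨
    (HalfU k b X v ∧ outN (graphE k X A b) v = 0 ∧ inN (graphE k X A b) v = 0) ∨
    (v < k ∧ InH k b X v ∧ ¬ HalfU k b X v ∧ outN (graphE k X A b) v = 1 ∧
      inN (graphE k X A b) v = 1) ∨
    (k ≤ v ∧ outN (graphE k X A b) v = 0 ∧ inN (graphE k X A b) v = 0) := by
  by_cases hv : v < k
  · by_cases h1 : HalfU k b X v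
    · right; left
      obtain ⟨e, he, hev⟩ := Ctx.halfU_mem h1
      have h2 : InH k b X v := ⟨e, he, Or.inl hev⟩
      refine ⟨h1, ?_, ?_⟩
      · rw [outN_E, h.outA_zero h2, h.outB_zero h1]
      · rw [inN_E, h.inA_zero h2, h.inB_zero h1]
    · by_cases h2 : InH k b X v
      · right; right; left
        refine ⟨hv, h2, h1, ?_, ?_⟩
        · rw [outN_E, h.outA_zero h2, h.outB hv h1]
        · rw [inN_E, h.inA_zero h2, h.inB hv h1]
      · left
        refine ⟨hv, h2, ?_, ?_⟩
        · rw [outN_E, h.outA hv h2, h.outB hv h1]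
        · rw [inN_E, h.inA hv h2, h.inB hv h1]
  · right; right; right
    refine ⟨by omega, ?_, ?_⟩
    · unfold outN
      rw [List.countP_eq_zero]
      intro e he hc
      rw [beq_iff_eq] at hc
      have := (h.memE he).1
      omega
    · unfold inN
      rw [List.countP_eq_zero]
      intro e he hc
      rw [beq_iff_eq] at hc
      have := (h.memE he).2.1
      omega

theorem count_le_outN (E : List (ℕ × ℕ)) (p q : ℕ) : E.count (p, q) ≤ outN E p := by
  unfold outN List.count
  refine List.countP_mono_left ?_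
  intro e _ he
  rw [beq_iff_eq] at he
  rw [he]
  exact beq_self_eq_true _

theorem Ctx.outA_le (h : Ctx k A b X) (v : ℕ) : outN (arcsA k A (halves k X b)) v ≤ 1 := by
  by_cases h2 : InH k b X v
  · rw [h.outA_zero h2]
    omega
  · by_cases hv : v < k
    · rw [h.outA hv h2]
    · have : outN (arcsA k A (halves k X b)) v = 0 := by
        unfold outN
        rw [List.countP_eq_zero]
        intro e he hc
        rw [beq_iff_eq] at hc
        have := (h.mem_A he).1
        omega
      omega

theorem Ctx.outB_le (h : Ctx k A b X) (v : ℕ) : outN (arcsB1 k A b ++ arcsB2 k X b) v ≤ 1 := by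
  by_cases h2 : HalfU k b X v
  · rw [h.outB_zero h2]
    omega
  · by_cases hv : v < k
    · rw [h.outB hv h2]
    · have : outN (arcsB1 k A b ++ arcsB2 k X b) v = 0 := by
        unfold outN
        rw [List.countP_eq_zero]
        intro e he hc
        rw [beq_iff_eq] at hc
        rw [List.mem_append] at he
        rcases he with he | he
        · have := (h.mem_B1 he).1
          omega
        · have := (h.mem_B2' he).1
          omega
      omega

/-- A double arc. -/
theorem Ctx.double (h : Ctx k A b X) {p q : ℕ} (hd : 2 ≤ (graphE k X A b).count (p, q)) :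
    (p, q) ∈ arcsA k A (halves k X b) ∧ (p, q) ∈ arcsB1 k A b ++ arcsB2 k X b := by
  unfold graphE at hd
  rw [List.append_assoc, List.count_append] at hd
  have h1 := (count_le_outN (arcsA k A (halves k X b)) p q).trans (h.outA_le p)
  have h2 := (count_le_outN (arcsB1 k A b ++ arcsB2 k X b) p q).trans (h.outB_le p)
  constructor
  · rw [← List.count_pos_iff]
    omega
  · rw [← List.count_pos_iff]
    omega

theorem Ctx.noD2 (h : Ctx k A b X) (p q : ℕ) :
    ¬ (2 ≤ (graphE k X A b).count (p, q) ∧ 2 ≤ (graphE k X A b).count (q, p)) := by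
  rintro ⟨h1, h2⟩
  obtain ⟨a1, b1⟩ := h.double h1
  obtain ⟨a2, b2⟩ := h.double h2
  obtain ⟨c1, c2, c3, c4⟩ := h.mem_A a1
  obtain ⟨d1, d2, d3, d4⟩ := h.mem_A a2
  simp only at c1 c2 c3 c4 d1 d2 d3 d4
  have hX : (p, q) ∈ X ∨ (q, p) ∈ X := by
    rcases Nat.lt_or_gt_of_ne c4 with hlt | hlt
    · exact Or.inl (h.memX.2 ⟨c1, hlt, c3, d3.symm⟩)
    · exact Or.inr (h.memX.2 ⟨d1, hlt, d3, c3.symm⟩)
  have key : ∀ p q, (p, q) ∈ arcsB1 k A b → A.getD q 0 = p → q = A.getD p 0 →
      ((p, q) ∈ X ∨ (q, p) ∈ X) → False := by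
    intro p q hpq hq hp hX
    obtain ⟨e1, e2, e3, e4, e5⟩ := h.mem_B1 hpq
    simp only at e1 e2 e3 e4 e5
    have hf : ¬ fix3 A b p = true := by
      intro hf
      have := (fix3_iff.1 hf).1
      rw [← hp, hq] at this
      omega
    unfold gam at e4
    rw [if_neg hf] at e4
    obtain ⟨f1, f2, f3⟩ := h.f3 p e1 e3
    rw [← e4] at f2 f3
    (clear h1 h2 a1 b1 a2 b2 c2 d2 d4 hpq hq hp e1 e2 e3 e4 e5 hf f1; tauto)
  rw [List.mem_append] at b1 b2
  rcases b1 with b1 | b1
  · exact key p q b1 d3.symm c3 hX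
  rcases b2 with b2 | b2
  · exact key q p b2 c3.symm d3 hX.symm
  obtain ⟨x, hx, g1, g2, g3, g4, g5⟩ := h.mem_B2 b1
  obtain ⟨y, hy, l1, l2, l3, l4, l5⟩ := h.mem_B2 b2
  simp only at g1 g2 g3 g4 g5 l1 l2 l3 l4 l5
  have hxy : x = y := h.uniq (v := p) hx hy (by (clear * - hX g5 l5; tauto)) (by (clear * - hX g5 l5; tauto))
  subst hxy
  exact c4 (by rw [g2, ← l2])

theorem two_arcs {E : List (ℕ × ℕ)} {p q r : ℕ} (hqr : q ≠ r) (h1 : (p, q) ∈ E)
    (h2 : (p, r) ∈ E) : 2 ≤ outN E p := by
  have h3 := List.count_pos_iff.2 h1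
  have h4 := List.count_pos_iff.2 h2
  have h5 : E.count (p, q) + E.count (p, r) ≤ outN E p := by
    unfold outN List.count
    clear h1 h2 h3 h4
    induction E with
    | nil => simp
    | cons e E ih =>
      rw [List.countP_cons, List.countP_cons, List.countP_cons]
      rcases e with ⟨a, c⟩
      by_cases hap : a = p
      · subst hap
        by_cases hcq : c = q
        · subst hcq
          have : ¬ ((a, c) == (a, r)) = true := by
            simp only [beq_iff_eq, Prod.mk.injEq, true_and]
            exact hqr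
          simp only [beq_self_eq_true, if_true, this]
          simp only [Bool.false_eq_true, if_false]
          omega
        · have : ¬ ((a, c) == (a, q)) = true := by
            simp only [beq_iff_eq, Prod.mk.injEq, true_and]
            exact hcq
          simp only [beq_self_eq_true, if_true, this]
          simp only [Bool.false_eq_true, if_false]
          split_ifs <;> omega
      · have h6 : ¬ ((a, c) == (p, q)) = true := by
          simp only [beq_iff_eq, Prod.mk.injEq, not_and]
          exact fun h => absurd h hap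
        have h7 : ¬ ((a, c) == (p, r)) = true := by
          simp only [beq_iff_eq, Prod.mk.injEq, not_and]
          exact fun h => absurd h hap
        have h8 : ¬ (a == p) = true := by
          simp only [beq_iff_eq]
          exact hap
        simp only [h6, h7, h8]
        simpa only [Bool.false_eq_true, ↓reduceIte, add_zero, ge_iff_le] using ih
  omega

/-- The arcs out of a vertex of a 3-clique. -/
theorem Ctx.k3v (h : Ctx k A b X) {p q r : ℕ} (hqr : q ≠ r) (h1 : (p, q) ∈ graphE k X A b)
    (h2 : (p, r) ∈ graphE k X A b) :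
    ((p, q) ∈ arcsA k A (halves k X b) ∧ (p, r) ∈ arcsB1 k A b ++ arcsB2 k X b) ∨
    ((p, r) ∈ arcsA k A (halves k X b) ∧ (p, q) ∈ arcsB1 k A b ++ arcsB2 k X b) := by
  rw [mem_graphE] at h1 h2
  rcases h1 with h1 | h1 <;> rcases h2 with h2 | h2
  · have := two_arcs hqr h1 h2
    have := h.outA_le p
    omega
  · exact Or.inl ⟨h1, h2⟩
  · exact Or.inr ⟨h2, h1⟩
  · have := two_arcs hqr h1 h2
    have := h.outB_le p
    omega

/-- The opposite arc out of a vertex of a 3-cycle of `A`. -/
theorem Ctx.k3b (h : Ctx k A b X) {p q r : ℕ} (hp : A.getD p 0 = q) (hqr : q ≠ r)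
    (hb : (p, r) ∈ arcsB1 k A b ++ arcsB2 k X b) :
    fix3 A b p ≠ true ∧ b.getD p 0 = r := by
  rw [List.mem_append] at hb
  rcases hb with hb | hb
  · obtain ⟨e1, e2, e3, e4, e5⟩ := h.mem_B1 hb
    simp only at e1 e2 e3 e4 e5
    have hf : ¬ fix3 A b p = true := by
      intro hf
      unfold gam at e4
      rw [if_pos hf, hp] at e4
      exact hqr e4.symm
    refine ⟨hf, ?_⟩
    unfold gam at e4
    rw [if_neg hf] at e4
    exact e4.symm
  · exfalso
    obtain ⟨e1, e2, e3, e4⟩ := h.mem_B2' hb
    simp only at e1 e2 e3 e4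
    rw [hp] at e3
    exact hqr e3

theorem Ctx.noK3' (h : Ctx k A b X) {p q r : ℕ} (hpq : p ≠ q) (hqr : q ≠ r) (hrp : r ≠ p)
    (hp : (p, q) ∈ arcsA k A (halves k X b)) (hp' : (p, r) ∈ arcsB1 k A b ++ arcsB2 k X b)
    (hq : ((q, r) ∈ arcsA k A (halves k X b) ∧ (q, p) ∈ arcsB1 k A b ++ arcsB2 k X b) ∨
      ((q, p) ∈ arcsA k A (halves k X b) ∧ (q, r) ∈ arcsB1 k A b ++ arcsB2 k X b))
    (hr : ((r, p) ∈ arcsA k A (halves k X b) ∧ (r, q) ∈ arcsB1 k A b ++ arcsB2 k X b) ∨
      ((r, q) ∈ arcsA k A (halves k X b) ∧ (r, p) ∈ arcsB1 k A b ++ arcsB2 k X b)) : False := by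
  obtain ⟨p1, p2, p3, -⟩ := h.mem_A hp
  simp only at p1 p2 p3
  rcases hr with ⟨hr, hr'⟩ | ⟨hr, hr'⟩
  · obtain ⟨r1, r2, r3, -⟩ := h.mem_A hr
    simp only at r1 r2 r3
    rcases hq with ⟨hq, hq'⟩ | ⟨hq, hq'⟩
    · obtain ⟨q1, q2, q3, -⟩ := h.mem_A hq
      simp only at q1 q2 q3
      obtain ⟨f1, b1⟩ := h.k3b p3.symm hqr hp'
      obtain ⟨f2, b2⟩ := h.k3b q3.symm hrp hq'
      obtain ⟨f3, b3⟩ := h.k3b r3.symm hpq hr'
      apply f1
      rw [fix3_iff, ← p3, ← q3, ← r3, b1, b2, b3]
      exact ⟨rfl, rfl, rfl, rfl⟩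
    · obtain ⟨q1, q2, q3, -⟩ := h.mem_A hq
      simp only at q1 q2 q3
      exact hqr (pl_inj h.der.1 q1 r1 (by rw [← q3, ← r3]))
  · obtain ⟨r1, r2, r3, -⟩ := h.mem_A hr
    simp only at r1 r2 r3
    exact hrp (pl_inj h.der.1 r1 p1 (by rw [← r3, ← p3]))

theorem Ctx.noK3 (h : Ctx k A b X) (p q r : ℕ) :
    ¬ ((p, q) ∈ graphE k X A b ∧ (q, p) ∈ graphE k X A b ∧ (q, r) ∈ graphE k X A b ∧
      (r, q) ∈ graphE k X A b ∧ (r, p) ∈ graphE k X A b ∧ (p, r) ∈ graphE k X A b) := by
  rintro ⟨h1, h2, h3, h4, h5, h6⟩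
  have hpq : p ≠ q := (h.memE h1).2.2
  have hqr : q ≠ r := (h.memE h3).2.2
  have hrp : r ≠ p := (h.memE h5).2.2
  have kp := h.k3v hqr h1 h6
  have kq := h.k3v hrp h3 h2
  have kr := h.k3v hpq h5 h4
  rcases kp with ⟨kp, kp'⟩ | ⟨kp, kp'⟩
  · exact h.noK3' hpq hqr hrp kp kp' kq kr
  · exact h.noK3' hrp.symm hqr.symm hpq.symm kp kp' kr.symm kq.symm

theorem Ctx.good (h : Ctx k A b X) : GoodG (graphE k X A b) where
  bal := by
    intro v
    rcases h.degs v with ⟨-, -, h1, h2⟩ | ⟨-, h1, h2⟩ | ⟨-, -, -, h1, h2⟩ | ⟨-, h1, h2⟩ <;>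
      rw [h1, h2]
  deg := by
    intro v
    rcases h.degs v with ⟨-, -, h1, h2⟩ | ⟨-, h1, h2⟩ | ⟨-, -, -, h1, h2⟩ | ⟨-, h1, h2⟩ <;>
      rw [h1] <;> omega
  loop := fun e he => (h.memE he).2.2
  noD2 := h.noD2
  noK3 := h.noK3

theorem Ctx.halfOK (h : Ctx k A b X) : HalfOK (graphE k X A b) (halves k X b) := by
  refine ⟨h.halves_nodup, ?_⟩
  intro e he
  obtain ⟨h1, h2, h3, h4, h5, h6, h7⟩ := h.half' he
  have i1 : InH k b X e.1 := ⟨e, he, Or.inl rfl⟩
  have i2 : InH k b X e.2 := ⟨e, he, Or.inr rfl⟩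
  refine ⟨?_, ?_, ?_⟩
  · rw [outN_E, h.outA_zero i1, h.outB_zero h6]
  · rw [inN_E, h.inA_zero i1, h.inB_zero h6]
  · rw [outN_E, h.outA_zero i2, h.outB h2 h7]

/-! ### The weights -/

theorem sum_range_list (n : ℕ) (F : ℕ → ℕ) :
    ((List.range n).map F).sum = ∑ i ∈ Finset.range n, F i := rfl

theorem asgVal_matB (M : List (List ℕ)) (X : List (ℕ × ℕ)) (g : ℕ) (b : List ℕ)
    (hb : b.Perm (List.range (M.length + X.length))) :
    asgVal (matB M X g) b =
      ∑ r ∈ Finset.range (M.length + X.length), entB M X g r (b.getD r 0) := by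
  unfold asgVal
  have hlen : (matB M X g).length = M.length + X.length := by simp [matB]
  rw [hlen, sum_range_list]
  refine Finset.sum_congr rfl ?_
  intro r hr
  rw [Finset.mem_range] at hr
  unfold ent matB
  rw [getD_map_range' _ _ hr, getD_map_range _ (pl_lt hb hr)]

variable {M : List (List ℕ)}

/-- The value of the second assignment. -/
theorem Ctx.valB (h : Ctx M.length A b X) (g : ℕ) :
    asgVal (matB M X g) b = (M.length + X.length) * g +
      ((∑ r ∈ Finset.range M.length, if b.getD r 0 < M.length then 2 * ent M r (b.getD r 0) else 0) +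
      (∑ r ∈ Finset.range M.length, if b.getD r 0 < M.length then 0 else ent M r (A.getD r 0)) +
      ∑ x ∈ Finset.range X.length, if hout M.length b x < M.length then
        ent M (A.getD (hout M.length b x) 0) (hout M.length b x) else 0) := by
  rw [asgVal_matB M X g b h.bp, Finset.sum_range_add]
  have h1 : ∑ r ∈ Finset.range M.length, entB M X g r (b.getD r 0) =
      ∑ r ∈ Finset.range M.length, (g + ((if b.getD r 0 < M.length then
        2 * ent M r (b.getD r 0) else 0) +
        if b.getD r 0 < M.length then 0 else ent M r (A.getD r 0))) := by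
    refine Finset.sum_congr rfl ?_
    intro r hr
    rw [Finset.mem_range] at hr
    unfold entB
    rw [if_pos hr]
    by_cases hb : b.getD r 0 < M.length
    · rw [if_pos hb, if_pos hb, if_pos hb]
      obtain ⟨f1, f2, f3⟩ := h.f3 r hr hb
      rw [if_neg (by (clear * - f1 f2 f3; tauto))]
      omega
    · rw [if_neg hb, if_neg hb, if_neg hb]
      obtain ⟨g1, g2, g3, g4⟩ := h.hub hr (by omega)
      obtain ⟨a1, a2, a3, a4, a5⟩ := h.pair g1
      rcases g4 with g4 | g4
      · rw [if_pos g4, ← a4, ← g4]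
        omega
      · rw [if_neg (by omega), if_pos g4, ← a5, ← g4]
        omega
  have h2 : ∑ x ∈ Finset.range X.length, entB M X g (M.length + x) (b.getD (M.length + x) 0) =
      ∑ x ∈ Finset.range X.length, (g + (if hout M.length b x < M.length then
        ent M (A.getD (hout M.length b x) 0) (hout M.length b x) else 0)) := by
    refine Finset.sum_congr rfl ?_
    intro x hx
    rw [Finset.mem_range] at hx
    have e : b.getD (M.length + x) 0 = hout M.length b x := rfl
    rw [e]
    unfold entB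
    rw [if_neg (by omega), Nat.add_sub_cancel_left]
    by_cases hb : hout M.length b x < M.length
    · rw [if_pos hb, if_pos hb]
      obtain ⟨a1, a2, a3, a4, a5⟩ := h.pair hx
      have h4 : hout M.length b x = (X.getD x (0, 0)).1 ∨ hout M.length b x = (X.getD x (0, 0)).2 :=
        h.f2 x hx hb
      rcases h4 with h4 | h4
      · rw [if_neg (by omega), if_pos h4, h4, a4]
      · rw [if_pos h4, h4, a5]
    · rw [if_neg hb, if_neg hb]
      have h4 : hout M.length b x = M.length + x := h.f2' x hx (by unfold hout at hb; omega)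
      rw [if_pos h4.symm]
      omega
  rw [h1, h2, Finset.sum_add_distrib, Finset.sum_add_distrib, Finset.sum_add_distrib,
    Finset.sum_const, Finset.sum_const, Finset.card_range, Finset.card_range]
  simp only [smul_eq_mul]
  ring

/-- Reindexing. -/
theorem Ctx.reidx (h : Ctx k A b X) (W : ℕ → ℕ → ℕ) :
    (∑ r ∈ Finset.range k, if b.getD r 0 < k then 0 else W r (A.getD r 0)) =
      ∑ x ∈ Finset.range X.length, if hout k b x < k then
        W (gin k X b x) (A.getD (gin k X b x) 0) else 0 := by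
  have e1 : (∑ r ∈ Finset.range k, if b.getD r 0 < k then 0 else W r (A.getD r 0)) =
      ∑ r ∈ (Finset.range k).filter (fun r => ¬ b.getD r 0 < k), W r (A.getD r 0) := by
    rw [Finset.sum_filter]
    refine Finset.sum_congr rfl ?_
    intro r _
    by_cases hb : b.getD r 0 < k
    · rw [if_pos hb, if_neg (by omega)]
    · rw [if_neg hb, if_pos hb]
  rw [e1, ← Finset.sum_filter]
  refine Finset.sum_nbij' (fun r => b.getD r 0 - k) (fun x => gin k X b x) ?_ ?_ ?_ ?_ ?_
  · intro r hr
    rw [Finset.mem_filter, Finset.mem_range] at hr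
    obtain ⟨g1, g2, g3, g4⟩ := h.hub hr.1 (by omega)
    rw [Finset.mem_filter, Finset.mem_range]
    exact ⟨g1, g2⟩
  · intro x hx
    rw [Finset.mem_filter, Finset.mem_range] at hx
    obtain ⟨g1, g2⟩ := h.gin_spec hx.1 hx.2
    obtain ⟨a1, a2, -⟩ := h.pair hx.1
    rw [Finset.mem_filter, Finset.mem_range]
    refine ⟨?_, by rw [g1]; omega⟩
    rcases g2 with g2 | g2 <;> rw [g2] <;> assumption
  · intro r hr
    rw [Finset.mem_filter, Finset.mem_range] at hr
    obtain ⟨g1, g2, g3, g4⟩ := h.hub hr.1 (by omega)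
    exact g3
  · intro x hx
    rw [Finset.mem_filter, Finset.mem_range] at hx
    obtain ⟨g1, g2⟩ := h.gin_spec hx.1 hx.2
    rw [g1]
    omega
  · intro r hr
    rw [Finset.mem_filter, Finset.mem_range] at hr
    obtain ⟨g1, g2, g3, g4⟩ := h.hub hr.1 (by omega)
    rw [g3]

theorem sum_flat (H : List (ℕ × ℕ)) (F : ℕ → ℕ) :
    ((H.flatMap (fun e => [e.1, e.2])).map F).sum = (H.map (fun e => F e.1 + F e.2)).sum := by
  induction H with
  | nil => rfl
  | cons e H ih =>
    rw [List.flatMap_cons, List.map_append, List.sum_append, ih, List.map_cons, List.sum_cons]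
    simp

/-- The weight of the first permutation. -/
theorem Ctx.permW_split (h : Ctx k A b X) (W : ℕ → ℕ → ℕ) :
    permW W k A = wt W (arcsA k A (halves k X b)) +
      ((halves k X b).map (fun e => W e.1 e.2 + W e.2 e.1)).sum := by
  classical
  have hL := h.halves_nodup
  set L := (halves k X b).flatMap (fun e => [e.1, e.2]) with hLdef
  have hmem : ∀ i, i ∈ L ↔ InH k b X i := by
    intro i
    rw [hLdef, List.mem_flatMap]
    unfold InH
    simp only [List.mem_cons, List.not_mem_nil, or_false]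
    constructor
    · rintro ⟨e, he, h1 | h1⟩
      · exact ⟨e, he, Or.inl h1.symm⟩
      · exact ⟨e, he, Or.inr h1.symm⟩
    · rintro ⟨e, he, h1 | h1⟩
      · exact ⟨e, he, Or.inl h1.symm⟩
      · exact ⟨e, he, Or.inr h1.symm⟩
  have hlt : ∀ i ∈ L, i < k := by
    intro i hi
    rw [hmem] at hi
    obtain ⟨e, he, h1⟩ := hi
    obtain ⟨a1, a2, -⟩ := h.half' he
    rcases h1 with h1 | h1 <;> rw [← h1] <;> assumption
  have e1 : ((halves k X b).map (fun e => W e.1 e.2 + W e.2 e.1)).sum =
      (L.map (fun i => W i (A.getD i 0))).sum := by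
    rw [hLdef, sum_flat]
    congr 1
    refine List.map_congr_left ?_
    intro e he
    obtain ⟨a1, a2, a3, a4, a5, -⟩ := h.half' he
    rw [a4, a5]
  have e2 : (L.map (fun i => W i (A.getD i 0))).sum =
      ∑ i ∈ Finset.range k, if i ∈ L then W i (A.getD i 0) else 0 := by
    rw [← List.sum_toFinset _ hL, ← Finset.sum_filter]
    refine Finset.sum_congr ?_ (fun _ _ => rfl)
    ext i
    rw [List.mem_toFinset, Finset.mem_filter, Finset.mem_range]
    exact ⟨fun hi => ⟨hlt i hi, hi⟩, fun hi => hi.2⟩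
  rw [e1, e2, arcsA, wt_mf, ← Finset.sum_add_distrib, permW, sum_range_list]
  refine Finset.sum_congr rfl ?_
  intro i _
  by_cases hi : i ∈ L
  · rw [if_pos hi, if_neg (by rw [allH, ← hmem]; exact not_not.2 hi), Nat.zero_add]
  · rw [if_neg hi, if_pos (by rw [allH, ← hmem]; exact hi), Nat.add_zero]

/-- The opposite 3-cycles are not heavier. -/
theorem Ctx.opp (h : Ctx k A b X) (W : ℕ → ℕ → ℕ)
    (hopt : ∀ Q, Der k Q → permW W k Q ≤ permW W k A) :
    (∑ r ∈ Finset.range k, if b.getD r 0 < k then W r (b.getD r 0) else 0) ≤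
      wt W (arcsB1 k A b) := by
  rw [arcsB1_eq, wt_mf]
  have hA3 : ∀ i < k, fix3 A b i = true → b.getD i 0 = A.getD (A.getD i 0) 0 ∧ b.getD i 0 ≠ i ∧
      b.getD i 0 < k := by
    intro i hi hf
    have h1 := fix3_iff.1 hf
    have hlt : A.getD (A.getD i 0) 0 < k := pl_lt h.der.1 (pl_lt h.der.1 hi)
    refine ⟨h1.2.1, ?_, by rw [h1.2.1]; exact hlt⟩
    rw [h1.2.1]
    intro hc
    have := h1.1
    rw [hc] at this
    exact h.der.2 i hi this
  have hQ : Der k ((List.range k).map (fun i => if fix3 A b i = true then b.getD i 0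
      else A.getD i 0)) := by
    refine ⟨perm_of_inj ?_ ?_, ?_⟩
    · intro i hi
      split_ifs with hf
      · exact (hA3 i hi hf).2.2
      · exact pl_lt h.der.1 hi
    · have key : ∀ i < k, ∀ j < k, fix3 A b i = true → fix3 A b j ≠ true →
          b.getD i 0 = A.getD j 0 → False := by
        intro i hi j hj h1 h2 h3
        rw [(hA3 i hi h1).1] at h3
        have := pl_inj h.der.1 (pl_lt h.der.1 hi) hj h3
        exact h2 (by rw [← this]; exact fix3_next h1)
      intro i hi j hj hij
      by_cases h1 : fix3 A b i = true <;> by_cases h2 : fix3 A b j = true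
      · rw [if_pos h1, if_pos h2] at hij
        exact pl_inj h.bp (by omega) (by omega) hij
      · rw [if_pos h1, if_neg h2] at hij
        exact (key i hi j hj h1 h2 hij).elim
      · rw [if_neg h1, if_pos h2] at hij
        exact (key j hj i hi h2 h1 hij.symm).elim
      · rw [if_neg h1, if_neg h2] at hij
        exact pl_inj h.der.1 hi hj hij
    · intro i hi
      rw [getD_map_range _ hi]
      split_ifs with hf
      · exact (hA3 i hi hf).2.1
      · exact h.der.2 i hi
  have h1 := hopt _ hQ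
  unfold permW at h1
  rw [sum_range_list, sum_range_list] at h1
  have e1 : ∑ i ∈ Finset.range k, W i (((List.range k).map (fun i => if fix3 A b i = true then
      b.getD i 0 else A.getD i 0)).getD i 0) =
      (∑ i ∈ Finset.range k, if fix3 A b i = true then W i (b.getD i 0) else 0) +
      ∑ i ∈ Finset.range k, if fix3 A b i = true then 0 else W i (A.getD i 0) := by
    rw [← Finset.sum_add_distrib]
    refine Finset.sum_congr rfl ?_
    intro i hi
    rw [getD_map_range _ (Finset.mem_range.1 hi)]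
    split_ifs <;> omega
  have e2 : ∑ i ∈ Finset.range k, W i (A.getD i 0) =
      (∑ i ∈ Finset.range k, if fix3 A b i = true then W i (A.getD i 0) else 0) +
      ∑ i ∈ Finset.range k, if fix3 A b i = true then 0 else W i (A.getD i 0) := by
    rw [← Finset.sum_add_distrib]
    refine Finset.sum_congr rfl ?_
    intro i _
    split_ifs <;> omega
  rw [e1, e2] at h1
  have h2 := Nat.le_of_add_le_add_right h1
  have e3 : (∑ r ∈ Finset.range k, if b.getD r 0 < k then W r (b.getD r 0) else 0) =
      (∑ i ∈ Finset.range k, if fix3 A b i = true then W i (b.getD i 0) else 0) +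
      ∑ i ∈ Finset.range k, if fix3 A b i = true then 0 else
        if b.getD i 0 < k then W i (b.getD i 0) else 0 := by
    rw [← Finset.sum_add_distrib]
    refine Finset.sum_congr rfl ?_
    intro i hi
    by_cases hf : fix3 A b i = true
    · rw [if_pos hf, if_pos hf, if_pos (hA3 i (Finset.mem_range.1 hi) hf).2.2]
      omega
    · rw [if_neg hf, if_neg hf]
      omega
  have e4 : (∑ i ∈ Finset.range k, if decide (b.getD i 0 < k) = true then
      W (i, gam A b i).1 (i, gam A b i).2 else 0) =
      (∑ i ∈ Finset.range k, if fix3 A b i = true then W i (A.getD i 0) else 0) +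
      ∑ i ∈ Finset.range k, if fix3 A b i = true then 0 else
        if b.getD i 0 < k then W i (b.getD i 0) else 0 := by
    rw [← Finset.sum_add_distrib]
    refine Finset.sum_congr rfl ?_
    intro i hi
    simp only [decide_eq_true_eq]
    unfold gam
    by_cases hf : fix3 A b i = true
    · rw [if_pos hf, if_pos hf, if_pos hf, if_pos (hA3 i (Finset.mem_range.1 hi) hf).2.2]
      omega
    · rw [if_neg hf, if_neg hf, if_neg hf]
      omega
  rw [e3, e4]
  exact Nat.add_le_add_right h2 _

/-- The arcs inside of the pairs. -/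
theorem Ctx.inside (h : Ctx k A b X) (W : ℕ → ℕ → ℕ) :
    (∑ x ∈ Finset.range X.length, if hout k b x < k then
        W (gin k X b x) (A.getD (gin k X b x) 0) else 0) +
      (∑ x ∈ Finset.range X.length, if hout k b x < k then
        W (A.getD (hout k b x) 0) (hout k b x) else 0) ≤
      2 * wt W (arcsB2 k X b) +
        2 * ((halves k X b).map (fun e => max (W e.1 e.2) (W e.2 e.1))).sum := by
  unfold arcsB2 halves
  rw [wt_mf, List.map_map, sum_mf, ← Finset.sum_add_distrib, Finset.mul_sum, Finset.mul_sum,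
    ← Finset.sum_add_distrib]
  refine Finset.sum_le_sum ?_
  intro x hx
  rw [Finset.mem_range] at hx
  by_cases hb : hout k b x < k
  · obtain ⟨a1, a2, a3, a4, a5⟩ := h.pair hx
    obtain ⟨g1, g2⟩ := h.gin_spec hx hb
    have h4 : hout k b x = (X.getD x (0, 0)).1 ∨ hout k b x = (X.getD x (0, 0)).2 := h.f2 x hx hb
    rw [if_pos hb, if_pos hb]
    by_cases hg : gin k X b x = hout k b x
    · rw [if_neg (by simp [hg]), if_pos (by simp [hg, hb])]
      rw [hg]
      simp only [Function.comp_apply]
      rcases h4 with h4 | h4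
      · rw [if_pos h4, h4, a4]
        omega
      · rw [if_neg (by omega), h4, a5]
        omega
    · rw [if_pos (by simp [hg, hb]), if_neg (by simp [hg])]
      rcases g2 with g2 | g2 <;> rcases h4 with h4 | h4
      · exact absurd (by rw [g2, h4]) hg
      · simp only
        rw [g2, h4, a4, a5]
        omega
      · simp only
        rw [g2, h4, a4, a5]
        omega
      · exact absurd (by rw [g2, h4]) hg
  · rw [if_neg hb, if_neg hb]
    omega

theorem Ctx.weight (h : Ctx M.length A b X) (g : ℕ)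
    (hopt : ∀ Q, Der M.length Q → permW (ent M) M.length Q ≤ permW (ent M) M.length A) :
    2 * permW (ent M) M.length A + asgVal (matB M X g) b ≤
      (M.length + X.length) * g + 2 * (wt (ent M) (graphE M.length X A b) +
        halfW (ent M) (halves M.length X b)) := by
  have h1 := h.permW_split (ent M)
  have h2 := h.valB g
  have h3 := h.reidx (ent M)
  have h4 := h.opp (ent M) hopt
  have h5 := h.inside (ent M)
  have h6 : (∑ r ∈ Finset.range M.length, if b.getD r 0 < M.length then
      2 * ent M r (b.getD r 0) else 0) =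
      2 * ∑ r ∈ Finset.range M.length, if b.getD r 0 < M.length then ent M r (b.getD r 0) else 0 := by
    rw [Finset.mul_sum]
    refine Finset.sum_congr rfl ?_
    intro r _
    split_ifs <;> rfl
  have h7 : wt (ent M) (graphE M.length X A b) = wt (ent M) (arcsA M.length A (halves M.length X b)) +
      wt (ent M) (arcsB1 M.length A b) + wt (ent M) (arcsB2 M.length X b) := by
    unfold graphE
    rw [wt_append, wt_append]
  have h8 : halfW (ent M) (halves M.length X b) =
      ((halves M.length X b).map (fun e => ent M e.1 e.2 + ent M e.2 e.1)).sum +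
      ((halves M.length X b).map (fun e => max (ent M e.1 e.2) (ent M e.2 e.1))).sum := by
    unfold halfW
    rw [← List.sum_map_add]
  rw [h3, h6] at h2
  rw [h1, h2, h7, h8]
  omega

end Vale.Agent.P333.U.PC

namespace Vale.Agent.P333.U

/-- Part C. -/
theorem partC : PartC := by
  intro M g A b _ hg hA hopt hb he
  have h := PC.ctx_of hg hA hb he
  refine ⟨PC.pairList_prs hA, h.good, h.halfOK, ?_, ?_, h.weight g hopt⟩
  · intro e he'
    exact ⟨(h.memE he').1, (h.memE he').2.1⟩
  · intro e he'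
    exact ⟨(h.half' he').1, (h.half' he').2.1⟩

end Vale.Agent.P333.U
end
end

section

section

/-!
P333, upper bound: the algorithm for the maximum travelling salesman path with ratio `2/3`
(part E: the algorithm, its running time, and its analysis from the parts A, B, C, D).
-/

set_option linter.all false

namespace Vale.Agent.P333.U

open Finset Function
open Vale.Agent.Lib.PolyTime

/-! ### The algorithm -/

/-- The first assignment. -/
def aA (asg : List Unit × List (List ℕ) → List ℕ) (u : List Unit) (M : List (List ℕ)) : List ℕ :=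
  asg (List.replicate (M.length * u.length + 1 + u.length) (), matA M (M.length * u.length + 1))

/-- The large constant of the second assignment. -/
def gB (u : List Unit) (M : List (List ℕ)) : ℕ := 4 * M.length * u.length + 1

/-- The second assignment. -/
def aB (asg : List Unit × List (List ℕ) → List ℕ) (u : List Unit) (M : List (List ℕ)) : List ℕ :=
  asg (List.replicate (gB u M + 2 * u.length) (), matB M (prs M.length (aA asg u M)) (gB u M))

/-- The multigraph. -/
def aE (asg : List Unit × List (List ℕ) → List ℕ) (u : List Unit) (M : List (List ℕ)) :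
    List (ℕ × ℕ) :=
  graphE M.length (prs M.length (aA asg u M)) (aA asg u M) (aB asg u M)

/-- The half pairs. -/
def aH (asg : List Unit × List (List ℕ) → List ℕ) (u : List Unit) (M : List (List ℕ)) :
    List (ℕ × ℕ) :=
  halves M.length (prs M.length (aA asg u M)) (aB asg u M)

/-- The coloured arcs. -/
def aK (asg : List Unit × List (List ℕ) → List ℕ) (col : List (ℕ × ℕ) → List (ℕ × ℕ × ℕ))
    (u : List Unit) (M : List (List ℕ)) : List (ℕ × ℕ × ℕ) :=
  addHalf (ent M) (col (aE asg u M)) (aH asg u M)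

/-- The algorithm. -/
def alg23 (asg : List Unit × List (List ℕ) → List ℕ) (col : List (ℕ × ℕ) → List (ℕ × ℕ × ℕ))
    (join : List Unit × List (ℕ × ℕ) → List ℕ) (u : List Unit) (M : List (List ℕ)) : List ℕ :=
  if M.length < 3 then
    At611_pick (fun a b => decide (pathV (ent M) a < pathV (ent M) b)) [(List.range M.length).reverse]
      (List.range M.length)
  else
    At611_pick (fun a b => decide (pathV (ent M) a < pathV (ent M) b))
      ([0, 1, 2].map (fun κ => join (List.replicate M.length (), cls (aK asg col u M) κ)))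
      (List.range M.length)

/-! ### Analysis -/

theorem pairList_prs {k : ℕ} {A : List ℕ} (hA : Der k A) : PairList k (prs k A) := by
  have hb := At611_bij_of_perm hA.1
  refine ⟨?_, ?_⟩
  · intro e he
    simp only [prs, List.mem_map, List.mem_filter, List.mem_range, Bool.and_eq_true,
      decide_eq_true_eq] at he
    obtain ⟨i, ⟨hi, h1, h2⟩, rfl⟩ := he
    exact ⟨h1, hb.maps i hi⟩
  · rw [prs, List.flatMap_map, List.nodup_flatMap]
    refine ⟨?_, ?_⟩
    · intro i hi
      simp only [List.mem_filter, List.mem_range, Bool.and_eq_true, decide_eq_true_eq] at hi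
      simp only [List.nodup_cons, List.mem_cons, List.not_mem_nil, or_false, not_false_eq_true,
        List.nodup_nil, and_true]
      omega
    · have h0 : ((List.range k).filter (fun i => decide (i < A.getD i 0) &&
          decide (A.getD (A.getD i 0) 0 = i))).Pairwise (· ≠ ·) := List.nodup_range.filter _
      refine List.Pairwise.imp_of_mem ?_ h0
      intro i j hi hj hij
      simp only [List.mem_filter, List.mem_range, Bool.and_eq_true, decide_eq_true_eq] at hi hj
      obtain ⟨hi0, hi1, hi2⟩ := hi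
      obtain ⟨hj0, hj1, hj2⟩ := hj
      simp only [Function.onFun, List.disjoint_cons_left, List.mem_cons, List.not_mem_nil, or_false,
        not_or, List.disjoint_nil_left, and_true]
      refine ⟨⟨hij, ?_⟩, ?_, ?_⟩
      · intro h
        have : A.getD i 0 = j := by rw [h, hj2]
        omega
      · intro h
        have : A.getD j 0 = i := by rw [← h, hi2]
        omega
      · intro h
        exact hij (hb.inj i hi0 j hj0 h)

theorem sqMat_matA {M : List (List ℕ)} {B : ℕ} (hM : SqMat M B) (g : ℕ) :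
    SqMat (matA M g) (g + B) := by
  refine At611_sq_tab (F := fun i j => if i = j then 0 else g + ent M i j) fun i hi j hj => ?_
  have := At611_ent_le hM hi hj
  split_ifs <;> omega

theorem entB_le' {M : List (List ℕ)} {B : ℕ} {X : List (ℕ × ℕ)} (hM : SqMat M B)
    (hX : PairList M.length X) (g : ℕ) {r c : ℕ} (hr : r < M.length + X.length)
    (hc : c < M.length + X.length) : entB M X g r c ≤ g + 2 * B := by
  have hB : ∀ i < M.length, ∀ j < M.length, ent M i j ≤ B := fun i hi j hj =>
    At611_ent_le hM hi hj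
  have hlt : ∀ x < X.length, (X.getD x (0, 0)).1 < (X.getD x (0, 0)).2 ∧
      (X.getD x (0, 0)).2 < M.length := fun x hx => by
    rw [List.getD_eq_getElem _ _ hx]
    exact hX.1 _ (List.getElem_mem hx)
  unfold entB
  split_ifs with h1 h2 h3 h4 h5 h6 h7 h8 h9
  · omega
  · have := hB r h1 c h2
    omega
  · have h0 := hlt (c - M.length) (by omega)
    have := hB _ (h0.1.trans h0.2) _ h0.2
    omega
  · have h0 := hlt (c - M.length) (by omega)
    have := hB _ h0.2 _ (h0.1.trans h0.2)
    omega
  · omega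
  · have h0 := hlt (r - M.length) (by omega)
    have := hB _ (h0.1.trans h0.2) _ h0.2
    omega
  · have h0 := hlt (r - M.length) (by omega)
    have := hB _ h0.2 _ (h0.1.trans h0.2)
    omega
  · omega
  · omega
  · omega

theorem sqMat_matB {M : List (List ℕ)} {B : ℕ} {X : List (ℕ × ℕ)} (hM : SqMat M B)
    (hX : PairList M.length X) (g : ℕ) : SqMat (matB M X g) (g + 2 * B) :=
  At611_sq_tab (F := entB M X g) fun _ hi _ hj => entB_le' hM hX g hi hj

theorem matB_length (M : List (List ℕ)) (X : List (ℕ × ℕ)) (g : ℕ) :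
    (matB M X g).length = M.length + X.length := At611_tab_length _ _

theorem matA_length (M : List (List ℕ)) (g : ℕ) : (matA M g).length = M.length :=
  At611_tab_length _ _

theorem pathV_short (W : ℕ → ℕ → ℕ) {P : List ℕ} (h : P.length ≤ 1) : pathV W P = 0 := by
  rcases P with _ | ⟨a, _ | ⟨b, P⟩⟩
  · rfl
  · rfl
  · simp only [List.length_cons, add_le_iff_nonpos_left, nonpos_iff_eq_zero, Nat.add_eq_zero_iff, List.length_eq_zero_iff, one_ne_zero, and_false] at h

theorem alg23_small {asg : List Unit × List (List ℕ) → List ℕ}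
    {col : List (ℕ × ℕ) → List (ℕ × ℕ × ℕ)} {join : List Unit × List (ℕ × ℕ) → List ℕ}
    (u : List Unit) {M : List (List ℕ)} (hk : M.length < 3) :
    (alg23 asg col join u M).Perm (List.range M.length) ∧
      ∀ P, P.Perm (List.range M.length) →
        pathV (ent M) P ≤ pathV (ent M) (alg23 asg col join u M) := by
  unfold alg23
  rw [if_pos hk]
  have h1 := At611_pick_max (pathV (ent M)) [(List.range M.length).reverse] (List.range M.length)
  have h2 := At611_pick_mem (fun a b => decide (pathV (ent M) a < pathV (ent M) b))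
    [(List.range M.length).reverse] (List.range M.length)
  refine ⟨?_, ?_⟩
  · simp only [List.mem_cons, List.not_mem_nil, or_false] at h2
    rcases h2 with h2 | h2
    · rw [h2]
    · rw [h2]; exact List.reverse_perm _
  · intro P hP
    have hl : P.length = M.length := by simpa using hP.length_eq
    rcases Nat.lt_or_ge M.length 2 with h | h
    · rw [pathV_short (ent M) (by omega : P.length ≤ 1)]
      exact Nat.zero_le _
    · refine h1 P ?_
      have h3 : M.length = 2 := by omega
      rw [h3] at hP ⊢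
      have h6 : List.range 2 = [0, 1] := by decide
      have h4 : P = [0, 1] ∨ P = [1, 0] := by
        have hn : P.Nodup := hP.nodup_iff.2 List.nodup_range
        have hm : ∀ x ∈ P, x < 2 := fun x hx => List.mem_range.1 (hP.mem_iff.1 hx)
        rcases P with _ | ⟨a, _ | ⟨b, _ | ⟨c, P⟩⟩⟩
        · simp at hl; omega
        · simp at hl; omega
        · have ha := hm a (by simp)
          have hb := hm b (by simp)
          have hab : a ≠ b := by
            rintro rfl
            simp at hn
          rcases Nat.lt_or_ge a 1 with h7 | h7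
          · left
            rw [show a = 0 by omega, show b = 1 by omega]
          · right
            rw [show a = 1 by omega, show b = 0 by omega]
        · simp at hl; omega
      rcases h4 with rfl | rfl
      · simp [h6]
      · simp [h6]

theorem alg23_spec {asg : List Unit × List (List ℕ) → List ℕ}
    {col : List (ℕ × ℕ) → List (ℕ × ℕ × ℕ)} {join : List Unit × List (ℕ × ℕ) → List ℕ}
    (hasg : ∀ u M, SqMat M u.length → (asg (u, M)).Perm (List.range M.length) ∧
      ∀ P : List ℕ, P.Perm (List.range M.length) → asgVal M P ≤ asgVal M (asg (u, M)))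
    (hcol : ∀ E, GoodG E → Col E (col E))
    (hjoin : ∀ u F, PathSys F → (∀ e ∈ F, e.1 < u.length ∧ e.2 < u.length) →
      (join (u, F)).Perm (List.range u.length) ∧
      ∀ W : ℕ → ℕ → ℕ, (F.map (fun e => W e.1 e.2)).sum ≤ pathV W (join (u, F)))
    (hA : PartA) (hB : PartB) (hC : PartC) (hD : PartD)
    (u : List Unit) (M : List (List ℕ)) (hM : SqMat M u.length) :
    (alg23 asg col join u M).Perm (List.range M.length) ∧
      ∀ P : List ℕ, P.Perm (List.range M.length) →
        2 * pathV (ent M) P ≤ 3 * pathV (ent M) (alg23 asg col join u M) := by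
  rcases Nat.lt_or_ge M.length 3 with hk | hk
  · obtain ⟨h1, h2⟩ := alg23_small (asg := asg) (col := col) (join := join) u hk
    refine ⟨h1, fun P hP => ?_⟩
    have := h2 P hP
    omega
  -- the assignments
  have hu1 : (List.replicate (M.length * u.length + 1 + u.length) ()).length =
      M.length * u.length + 1 + u.length := List.length_replicate
  have oA : OptAsg (matA M (M.length * u.length + 1)) (aA asg u M) := by
    have := hasg (List.replicate (M.length * u.length + 1 + u.length) ())
      (matA M (M.length * u.length + 1)) (by rw [hu1]; exact sqMat_matA hM _)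
    exact this
  obtain ⟨dA, mA, pA⟩ := hA M u.length hM (by omega) _ oA
  have hX := pairList_prs dA
  have hu2 : (List.replicate (gB u M + 2 * u.length) ()).length = gB u M + 2 * u.length :=
    List.length_replicate
  have oB : OptAsg (matB M (prs M.length (aA asg u M)) (gB u M)) (aB asg u M) := by
    have := hasg (List.replicate (gB u M + 2 * u.length) ())
      (matB M (prs M.length (aA asg u M)) (gB u M)) (by rw [hu2]; exact sqMat_matB hM hX _)
    exact this
  obtain ⟨rB, pB⟩ := hB M u.length _ hM hk hX _ oB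
  have oB1 : (aB asg u M).Perm (List.range (M.length + (prs M.length (aA asg u M)).length)) := by
    have := oB.1
    rwa [matB_length] at this
  obtain ⟨-, gG, hH, vE, vH, hval⟩ := hC M (gB u M) (aA asg u M) (aB asg u M) hk
    (Nat.succ_pos _) dA mA oB1 rB
  have cE := hcol _ gG
  obtain ⟨hcls, hsum⟩ := hD (ent M) M.length _ _ _ gG cE hH vE vH
  -- the candidates
  have hjn : ∀ κ, (join (List.replicate M.length (), cls (aK asg col u M) κ)).Perm
      (List.range M.length) ∧ wt (ent M) (cls (aK asg col u M) κ) ≤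
        pathV (ent M) (join (List.replicate M.length (), cls (aK asg col u M) κ)) := by
    intro κ
    have h1 := hcls κ
    have h2 := hjoin (List.replicate M.length ()) (cls (aK asg col u M) κ) h1.1 (by
      rw [List.length_replicate]; exact h1.2)
    rw [List.length_replicate] at h2
    exact ⟨h2.1, h2.2 (ent M)⟩
  unfold alg23
  rw [if_neg (by omega)]
  set L := [0, 1, 2].map (fun κ => join (List.replicate M.length (), cls (aK asg col u M) κ))
    with hL
  have h1 := At611_pick_max (pathV (ent M)) L (List.range M.length)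
  have h2 := At611_pick_mem (fun a b => decide (pathV (ent M) a < pathV (ent M) b)) L
    (List.range M.length)
  set R := At611_pick (fun a b => decide (pathV (ent M) a < pathV (ent M) b)) L
    (List.range M.length) with hR
  refine ⟨?_, ?_⟩
  · rcases List.mem_cons.1 h2 with h2 | h2
    · rw [h2]
    · rw [hL] at h2
      obtain ⟨κ, -, h3⟩ := List.mem_map.1 h2
      rw [← h3]
      exact (hjn κ).1
  · intro P hP
    have hk1 : ∀ κ ∈ [0, 1, 2], wt (ent M) (cls (aK asg col u M) κ) ≤ pathV (ent M) R := by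
      intro κ hκ
      refine (hjn κ).2.trans (h1 _ (List.mem_cons_of_mem _ ?_))
      exact List.mem_map.2 ⟨κ, hκ, rfl⟩
    have e0 := hk1 0 (by simp)
    have e1 := hk1 1 (by simp only [List.mem_cons, one_ne_zero, OfNat.one_ne_ofNat, List.not_mem_nil, or_self, or_false, or_true])
    have e2 := hk1 2 (by simp)
    have e3 := pA P hP
    have e4 := pB P hP
    have e5 : wt (ent M) (cls (aK asg col u M) 0) + wt (ent M) (cls (aK asg col u M) 1) +
      wt (ent M) (cls (aK asg col u M) 2) = wt (ent M) (graphE M.length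
        (prs M.length (aA asg u M)) (aA asg u M) (aB asg u M)) +
        halfW (ent M) (halves M.length (prs M.length (aA asg u M)) (aB asg u M)) := hsum
    unfold gB at *
    omega

/-! ### Polynomial time -/

section PT

variable {A : Set Word} {α β γ : Type*} [Enc α] [Enc β] [Enc γ]

theorem PT_beq {f g : α → ℕ} (hf : PT A f) (hg : PT A g) : PT A (fun a => f a == g a) :=
  (PT.eqNat hf hg).congr fun a => by
    rw [Bool.eq_iff_iff]; simp

theorem PT_cls {K : α → List (ℕ × ℕ × ℕ)} {κ : α → ℕ} (hK : PT A K) (hκ : PT A κ) :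
    PT A (fun a => cls (K a) (κ a)) := by
  unfold cls
  refine PT.map (f := fun (_ : α) (e : ℕ × ℕ × ℕ) => (e.1, e.2.1)) (PT.filter
    (f := fun a (e : ℕ × ℕ × ℕ) => e.2.2 == κ a) hK (PT_beq PT.snd'.snd.snd (hκ.comp PT.fst'))) ?_
  exact PT.snd'.fst.pair PT.snd'.snd.fst

theorem PT_prs {k : α → ℕ} {P : α → List ℕ} (hk : PT A k) (hkb : PBd k) (hP : PT A P) :
    PT A (fun a => prs (k a) (P a)) := by
  unfold prs
  have hP1 : PT A (fun q : α × ℕ => P q.1) := hP.comp PT.fst'
  have h1 : PT A (fun q : α × ℕ => (P q.1).getD q.2 0) := PT.getD hP1 PT.snd' (PT.const 0)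
  refine PT.map (f := fun a i => (i, (P a).getD i 0)) (PT.filter
    (f := fun a i => decide (i < (P a).getD i 0) && decide ((P a).getD ((P a).getD i 0) 0 = i))
    (PT.range hk hkb) ?_) (PT.snd'.pair h1)
  exact PT.and (PT.lt PT.snd' h1) (PT.eqNat (PT.getD hP1 h1 (PT.const 0)) PT.snd')

theorem PT_entB {M : α → List (List ℕ)} {X : α → List (ℕ × ℕ)} {g r c : α → ℕ} (hM : PT A M)
    (hX : PT A X) (hg : PT A g) (hr : PT A r) (hc : PT A c) :
    PT A (fun a => entB (M a) (X a) (g a) (r a) (c a)) := by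
  unfold entB
  have hl := PT.length hM
  have hXc : PT A (fun a => (X a).getD (c a - (M a).length) (0, 0)) :=
    PT.getD hX (PT.sub hc hl) (PT.const (0, 0))
  have hXr : PT A (fun a => (X a).getD (r a - (M a).length) (0, 0)) :=
    PT.getD hX (PT.sub hr hl) (PT.const (0, 0))
  have heq : EqPT A (ℕ × ℕ) := eqPT_prod eqPT_nat eqPT_nat
  refine PT.ite (PT.lt hr hl) (PT.ite (PT.lt hc hl) (PT.ite ?_ (PT.const 0)
    (PT.add hg (PT.mul (PT.const 2) (At611_PT_ent hM hr hc))))
    (PT.ite (PT.eqNat hr hXc.fst) (PT.add hg (At611_PT_ent hM hXc.fst hXc.snd))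
      (PT.ite (PT.eqNat hr hXc.snd) (PT.add hg (At611_PT_ent hM hXc.snd hXc.fst)) (PT.const 0))))
    (PT.ite (PT.lt hc hl) (PT.ite (PT.eqNat hc hXr.snd)
      (PT.add hg (At611_PT_ent hM hXr.fst hXr.snd)) (PT.ite (PT.eqNat hc hXr.fst)
        (PT.add hg (At611_PT_ent hM hXr.snd hXr.fst)) (PT.const 0)))
      (PT.ite (PT.eqNat hr hc) hg (PT.const 0)))
  have h1 : PT A (fun a => decide ((r a, c a) ∈ X a)) :=
    (PT.mem' heq hX (hr.pair hc)).congr fun a => by rw [Bool.eq_iff_iff]; simp
  have h2 : PT A (fun a => decide ((c a, r a) ∈ X a)) :=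
    (PT.mem' heq hX (hc.pair hr)).congr fun a => by rw [Bool.eq_iff_iff]; simp
  exact (PT.or (PT.eqNat hr hc) (PT.or h1 h2)).congr fun a => by
    rw [Bool.eq_iff_iff]; simp

theorem PT_matB {M : α → List (List ℕ)} {X : α → List (ℕ × ℕ)} {g : α → ℕ} (hM : PT A M)
    (hX : PT A X) (hg : PT A g) : PT A (fun a => matB (M a) (X a) (g a)) := by
  refine At611_PT_tab (k := fun a => (M a).length + (X a).length)
    (F := fun a => entB (M a) (X a) (g a)) (PT.add (PT.length hM) (PT.length hX))
    ((PBd.length hM).add (PBd.length hX)) ?_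
  exact PT_entB (hM.comp PT.fst') (hX.comp PT.fst') (hg.comp PT.fst') PT.snd'.fst PT.snd'.snd

theorem PT_matA {M : α → List (List ℕ)} {g : α → ℕ} (hM : PT A M) (hg : PT A g) :
    PT A (fun a => matA (M a) (g a)) := by
  refine At611_PT_tab (k := fun a => (M a).length)
    (F := fun a i j => if i = j then 0 else g a + ent (M a) i j) (PT.length hM) (PBd.length hM) ?_
  exact PT.ite (p := fun q : α × ℕ × ℕ => q.2.1 = q.2.2) (PT.eqNat PT.snd'.fst PT.snd'.snd)
    (PT.const 0) (PT.add (hg.comp PT.fst') (At611_PT_ent (hM.comp PT.fst') PT.snd'.fst PT.snd'.snd))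

theorem PT_gin {k x : α → ℕ} {X : α → List (ℕ × ℕ)} {b : α → List ℕ} (hk : PT A k) (hX : PT A X)
    (hb : PT A b) (hx : PT A x) : PT A (fun a => gin (k a) (X a) (b a) (x a)) := by
  unfold gin
  have h1 : PT A (fun a => (X a).getD (x a) (0, 0)) := PT.getD hX hx (PT.const (0, 0))
  exact PT.ite (PT.eqNat (PT.getD hb h1.fst (PT.const 0)) (PT.add hk hx)) h1.fst h1.snd

theorem PT_hout {k x : α → ℕ} {b : α → List ℕ} (hk : PT A k)
    (hb : PT A b) (hx : PT A x) : PT A (fun a => hout (k a) (b a) (x a)) := by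
  unfold hout
  exact PT.getD hb (PT.add hk hx) (PT.const 0)

theorem PT_fix3 {i : α → ℕ} {P b : α → List ℕ} (hP : PT A P) (hb : PT A b) (hi : PT A i) :
    PT A (fun a => fix3 (P a) (b a) (i a)) := by
  unfold fix3
  have h1 : PT A (fun a => (P a).getD (i a) 0) := PT.getD hP hi (PT.const 0)
  have h2 : PT A (fun a => (P a).getD ((P a).getD (i a) 0) 0) := PT.getD hP h1 (PT.const 0)
  have h3 : PT A (fun a => (P a).getD ((P a).getD ((P a).getD (i a) 0) 0) 0) :=
    PT.getD hP h2 (PT.const 0)
  exact PT.and (PT.and (PT.and (PT.eqNat h3 hi) (PT.eqNat (PT.getD hb hi (PT.const 0)) h2))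
    (PT.eqNat (PT.getD hb h1 (PT.const 0)) hi)) (PT.eqNat (PT.getD hb h2 (PT.const 0)) h1)

theorem PT_arcsB1 {k : α → ℕ} {P b : α → List ℕ} (hk : PT A k) (hkb : PBd k) (hP : PT A P)
    (hb : PT A b) : PT A (fun a => arcsB1 (k a) (P a) (b a)) := by
  unfold arcsB1
  have hP1 : PT A (fun q : α × ℕ => P q.1) := hP.comp PT.fst'
  have hb1 : PT A (fun q : α × ℕ => b q.1) := hb.comp PT.fst'
  refine PT.map (f := fun a i => if fix3 (P a) (b a) i then (i, (P a).getD i 0) else
    (i, (b a).getD i 0)) (PT.filter (f := fun a i => decide ((b a).getD i 0 < k a))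
      (PT.range hk hkb) (PT.lt (PT.getD hb1 PT.snd' (PT.const 0)) (hk.comp PT.fst'))) ?_
  refine PT.ite ((PT_fix3 hP1 hb1 PT.snd').congr fun q => by simp)
    (PT.snd'.pair (PT.getD hP1 PT.snd' (PT.const 0)))
    (PT.snd'.pair (PT.getD hb1 PT.snd' (PT.const 0)))

theorem PT_arcsB2 {k : α → ℕ} {X : α → List (ℕ × ℕ)} {b : α → List ℕ} (hk : PT A k)
    (hX : PT A X) (hb : PT A b) : PT A (fun a => arcsB2 (k a) (X a) (b a)) := by
  unfold arcsB2
  have hk1 : PT A (fun q : α × ℕ => k q.1) := hk.comp PT.fst'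
  have hX1 : PT A (fun q : α × ℕ => X q.1) := hX.comp PT.fst'
  have hb1 : PT A (fun q : α × ℕ => b q.1) := hb.comp PT.fst'
  have hg := PT_gin hk1 hX1 hb1 (PT.snd' (α := α) (β := ℕ))
  have hh := PT_hout hk1 hb1 (PT.snd' (α := α) (β := ℕ))
  refine PT.map (f := fun a x => (gin (k a) (X a) (b a) x, hout (k a) (b a) x)) (PT.filter
    (f := fun a x => decide (hout (k a) (b a) x < k a) &&
      !decide (gin (k a) (X a) (b a) x = hout (k a) (b a) x))
    (PT.range (PT.length hX) (PBd.length hX)) ?_) (hg.pair hh)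
  exact PT.and (PT.lt hh hk1) (PT.not (PT.eqNat hg hh))

theorem PT_halves {k : α → ℕ} {X : α → List (ℕ × ℕ)} {b : α → List ℕ} (hk : PT A k)
    (hX : PT A X) (hb : PT A b) : PT A (fun a => halves (k a) (X a) (b a)) := by
  unfold halves
  have hk1 : PT A (fun q : α × ℕ => k q.1) := hk.comp PT.fst'
  have hX1 : PT A (fun q : α × ℕ => X q.1) := hX.comp PT.fst'
  have hb1 : PT A (fun q : α × ℕ => b q.1) := hb.comp PT.fst'
  have hg := PT_gin hk1 hX1 hb1 (PT.snd' (α := α) (β := ℕ))
  have hh := PT_hout hk1 hb1 (PT.snd' (α := α) (β := ℕ))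
  have hx : PT A (fun q : α × ℕ => (X q.1).getD q.2 (0, 0)) := PT.getD hX1 PT.snd' (PT.const (0, 0))
  refine PT.map (f := fun a x => (hout (k a) (b a) x,
      if hout (k a) (b a) x = ((X a).getD x (0, 0)).1 then ((X a).getD x (0, 0)).2 else
        ((X a).getD x (0, 0)).1)) (PT.filter
    (f := fun a x => decide (hout (k a) (b a) x < k a) &&
      decide (gin (k a) (X a) (b a) x = hout (k a) (b a) x))
    (PT.range (PT.length hX) (PBd.length hX)) ?_) (hh.pair (PT.ite (PT.eqNat hh hx.fst) hx.snd hx.fst))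
  exact PT.and (PT.lt hh hk1) (PT.eqNat hg hh)

theorem PT_arcsA {k : α → ℕ} {P : α → List ℕ} {H : α → List (ℕ × ℕ)} (hk : PT A k) (hkb : PBd k)
    (hP : PT A P) (hH : PT A H) : PT A (fun a => arcsA (k a) (P a) (H a)) := by
  unfold arcsA
  refine PT.map (f := fun a i => (i, (P a).getD i 0)) (PT.filter
    (f := fun a i => (H a).all (fun e => !decide (e.1 = i) && !decide (e.2 = i)))
    (PT.range hk hkb) ?_) (PT.snd'.pair (PT.getD (hP.comp PT.fst') PT.snd' (PT.const 0)))
  refine PT.all (f := fun (q : α × ℕ) (e : ℕ × ℕ) => !decide (e.1 = q.2) && !decide (e.2 = q.2))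
    (hH.comp PT.fst') ?_
  exact PT.and (PT.not (PT.eqNat PT.snd'.fst PT.fst'.snd))
    (PT.not (PT.eqNat PT.snd'.snd PT.fst'.snd))

theorem PT_graphE {k : α → ℕ} {X : α → List (ℕ × ℕ)} {P b : α → List ℕ} (hk : PT A k)
    (hkb : PBd k) (hX : PT A X) (hP : PT A P) (hb : PT A b) :
    PT A (fun a => graphE (k a) (X a) (P a) (b a)) := by
  unfold graphE
  exact PT.append (PT.append (PT_arcsA hk hkb hP (PT_halves hk hX hb)) (PT_arcsB1 hk hkb hP hb))
    (PT_arcsB2 hk hX hb)

theorem PT_colOut {K : α → List (ℕ × ℕ × ℕ)} {v : α → ℕ} (hK : PT A K) (hv : PT A v) :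
    PT A (fun a => colOut (K a) (v a)) := by
  unfold colOut
  exact PT.headD (PT.map (f := fun (_ : α) (e : ℕ × ℕ × ℕ) => e.2.2) (PT.filter
    (f := fun a (e : ℕ × ℕ × ℕ) => e.1 == v a) hK (PT_beq PT.snd'.fst (hv.comp PT.fst')))
    PT.snd'.snd.snd) (PT.const 0)

theorem PT_colIn {K : α → List (ℕ × ℕ × ℕ)} {v : α → ℕ} (hK : PT A K) (hv : PT A v) :
    PT A (fun a => colIn (K a) (v a)) := by
  unfold colIn
  exact PT.headD (PT.map (f := fun (_ : α) (e : ℕ × ℕ × ℕ) => e.2.2) (PT.filter
    (f := fun a (e : ℕ × ℕ × ℕ) => e.2.1 == v a) hK (PT_beq PT.snd'.snd.fst (hv.comp PT.fst')))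
    PT.snd'.snd.snd) (PT.const 0)

theorem PT_addHalf {M : α → List (List ℕ)} {K : α → List (ℕ × ℕ × ℕ)} {H : α → List (ℕ × ℕ)}
    (hM : PT A M) (hK : PT A K) (hH : PT A H) :
    PT A (fun a => addHalf (ent (M a)) (K a) (H a)) := by
  unfold addHalf
  have h1 : PT A (fun q : α × (ℕ × ℕ) => q.2.1) := PT.snd'.fst
  have h2 : PT A (fun q : α × (ℕ × ℕ) => q.2.2) := PT.snd'.snd
  have hK1 : PT A (fun q : α × (ℕ × ℕ) => K q.1) := hK.comp PT.fst'
  have hM1 : PT A (fun q : α × (ℕ × ℕ) => M q.1) := hM.comp PT.fst'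
  have ho := PT_colOut hK1 h2
  have hi := PT_colIn hK1 h2
  have h3 : PT A (fun q : α × (ℕ × ℕ) => 3 - colIn (K q.1) q.2.2 - colOut (K q.1) q.2.2) :=
    PT.sub (PT.sub (PT.const 3) hi) ho
  refine PT.append hK (PT.flatMap (f := fun a (e : ℕ × ℕ) =>
    if ent (M a) e.2 e.1 ≤ ent (M a) e.1 e.2 then
      [(e.1, e.2, colOut (K a) e.2), (e.1, e.2, 3 - colIn (K a) e.2 - colOut (K a) e.2),
        (e.2, e.1, colIn (K a) e.2)]
    else
      [(e.2, e.1, colIn (K a) e.2), (e.2, e.1, 3 - colIn (K a) e.2 - colOut (K a) e.2),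
        (e.1, e.2, colOut (K a) e.2)]) hH ?_)
  refine PT.ite (PT.le (At611_PT_ent hM1 h2 h1) (At611_PT_ent hM1 h1 h2)) ?_ ?_
  · exact PT.cons (h1.pair (h2.pair ho)) (PT.cons (h1.pair (h2.pair h3))
      (PT.cons (h2.pair (h1.pair hi)) PT.nil))
  · exact PT.cons (h2.pair (h1.pair hi)) (PT.cons (h2.pair (h1.pair h3))
      (PT.cons (h1.pair (h2.pair ho)) PT.nil))

theorem PT_aA {asg : List Unit × List (List ℕ) → List ℕ} (ha : PT A asg)
    {u : α → List Unit} {M : α → List (List ℕ)} (hu : PT A u) (hM : PT A M) :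
    PT A (fun a => aA asg (u a) (M a)) := by
  unfold aA
  have h1 : PT A (fun a => (M a).length * (u a).length + 1) :=
    PT.add (PT.mul (PT.length hM) (PT.length hu)) (PT.const 1)
  have h1b : PBd (fun a => (M a).length * (u a).length + 1) :=
    ((PBd.length hM).mul (PBd.length hu)).add (PBd.const 1)
  exact ha.comp ((PT.replicate (PT.add h1 (PT.length hu)) (h1b.add (PBd.length hu))
    (PT.const ())).pair (PT_matA hM h1))

theorem PT_gB {u : α → List Unit} {M : α → List (List ℕ)} (hu : PT A u) (hM : PT A M) :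
    PT A (fun a => gB (u a) (M a)) := by
  unfold gB
  exact PT.add (PT.mul (PT.mul (PT.const 4) (PT.length hM)) (PT.length hu)) (PT.const 1)

theorem PBd_gB {u : α → List Unit} {M : α → List (List ℕ)} (hu : PT A u) (hM : PT A M) :
    PBd (fun a => gB (u a) (M a)) := by
  unfold gB
  exact (((PBd.const 4).mul (PBd.length hM)).mul (PBd.length hu)).add (PBd.const 1)

theorem PT_aB {asg : List Unit × List (List ℕ) → List ℕ} (ha : PT A asg)
    {u : α → List Unit} {M : α → List (List ℕ)} (hu : PT A u) (hM : PT A M) :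
    PT A (fun a => aB asg (u a) (M a)) := by
  unfold aB
  have hg := PT_gB hu hM
  have hgb := PBd_gB hu hM
  exact ha.comp ((PT.replicate (PT.add hg (PT.mul (PT.const 2) (PT.length hu)))
    (hgb.add ((PBd.const 2).mul (PBd.length hu))) (PT.const ())).pair
    (PT_matB hM (PT_prs (PT.length hM) (PBd.length hM) (PT_aA ha hu hM)) hg))

theorem PT_alg23 {asg : List Unit × List (List ℕ) → List ℕ}
    {col : List (ℕ × ℕ) → List (ℕ × ℕ × ℕ)} {join : List Unit × List (ℕ × ℕ) → List ℕ}
    (ha : PT A asg) (hc : PT A col) (hj : PT A join) :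
    PT A (fun p : List Unit × List (List ℕ) => alg23 asg col join p.1 p.2) := by
  have hu : PT A (fun p : List Unit × List (List ℕ) => p.1) := PT.fst'
  have hM : PT A (fun p : List Unit × List (List ℕ) => p.2) := PT.snd'
  have hl := PT.length hM
  have hlb := PBd.length hM
  have hA := PT_aA ha hu hM
  have hB := PT_aB ha hu hM
  have hX := PT_prs hl hlb hA
  have hK : PT A (fun p : List Unit × List (List ℕ) => aK asg col p.1 p.2) := by
    unfold aK aE aH
    exact PT_addHalf hM (hc.comp (PT_graphE hl hlb hX hA hB)) (PT_halves hl hX hB)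
  have hr := PT.range hl hlb
  have hpc : PT A (fun q : (List Unit × List (List ℕ)) × List ℕ × List ℕ =>
      decide (pathV (ent q.1.2) q.2.1 < pathV (ent q.1.2) q.2.2)) :=
    PT.lt (At611_PT_pathV (hM.comp PT.fst') PT.snd'.fst) (At611_PT_pathV (hM.comp PT.fst') PT.snd'.snd)
  unfold alg23
  refine PT.ite (PT.lt hl (PT.const 3)) ?_ ?_
  · exact At611_PT_pick (c := fun (p : List Unit × List (List ℕ)) a b =>
      decide (pathV (ent p.2) a < pathV (ent p.2) b)) (PT.cons hr.reverse PT.nil) hr hpc
  · refine At611_PT_pick (c := fun (p : List Unit × List (List ℕ)) a b =>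
      decide (pathV (ent p.2) a < pathV (ent p.2) b)) ?_ hr hpc
    refine PT.map (f := fun (p : List Unit × List (List ℕ)) κ =>
      join (List.replicate p.2.length (), cls (aK asg col p.1 p.2) κ)) (PT.const [0, 1, 2]) ?_
    exact hj.comp (((PT.replicate hl hlb (PT.const ())).comp PT.fst').pair
      (PT_cls (hK.comp PT.fst') PT.snd'))

end PT

/-- Part E. -/
theorem partE : PartE := by
  rintro ⟨asg, ha, hasg⟩ ⟨col, hc, hcol⟩ ⟨join, hj, hjoin⟩ hA hB hC hD
  exact ⟨fun p => alg23 asg col join p.1 p.2, PT_alg23 ha hc hj, fun u M hM =>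
    alg23_spec hasg hcol hjoin hA hB hC hD u M hM⟩

end Vale.Agent.P333.U
end
end

section

section

/-!
P333, upper bound: the colour classes after the insertion of the half pairs (part D).
-/

set_option linter.all false

namespace Vale.Agent.P333.U

/-! ### Path systems -/

theorem pathSys_perm {F F' : List (ℕ × ℕ)} (h : PathSys F) (hp : F.Perm F') : PathSys F' where
  out := (hp.map _).nodup_iff.1 h.out
  inn := (hp.map _).nodup_iff.1 h.inn
  acyc := by
    intro x hx
    exact h.acyc x (hx.lift id fun a b hab => hp.mem_iff.2 hab)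

theorem pathSys_leafOut {F : List (ℕ × ℕ)} (h : PathSys F) {u v : ℕ}
    (hu : ∀ e ∈ F, e.1 ≠ u ∧ e.2 ≠ u) (huv : u ≠ v) (hv : ∀ e ∈ F, e.2 ≠ v) :
    PathSys ((u, v) :: F) where
  out := by
    rw [List.map_cons, List.nodup_cons]
    refine ⟨fun hm => ?_, h.out⟩
    obtain ⟨e, he, h1⟩ := List.mem_map.1 hm
    exact (hu e he).1 h1
  inn := by
    rw [List.map_cons, List.nodup_cons]
    refine ⟨fun hm => ?_, h.inn⟩
    obtain ⟨e, he, h1⟩ := List.mem_map.1 hm
    exact hv e he h1
  acyc := by
    have hhead : ∀ a b, (a, b) ∈ (u, v) :: F → b ≠ u := by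
      intro a b hab hb
      rcases List.mem_cons.1 hab with h1 | h1
      · rw [Prod.mk.injEq] at h1
        exact huv (by rw [← h1.2, hb])
      · exact (hu _ h1).2 hb
    have key : ∀ a b, Relation.TransGen (fun a b => (a, b) ∈ (u, v) :: F) a b → a ≠ u →
        Relation.TransGen (fun a b => (a, b) ∈ F) a b ∧ b ≠ u := by
      intro a b hab ha
      induction hab with
      | single h1 =>
        refine ⟨Relation.TransGen.single ?_, hhead _ _ h1⟩
        rcases List.mem_cons.1 h1 with h2 | h2
        · rw [Prod.mk.injEq] at h2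
          exact absurd h2.1 ha
        · exact h2
      | tail _ h1 ih =>
        refine ⟨ih.1.tail ?_, hhead _ _ h1⟩
        rcases List.mem_cons.1 h1 with h2 | h2
        · rw [Prod.mk.injEq] at h2
          exact absurd h2.1 ih.2
        · exact h2
    intro x hx
    have hxu : x ≠ u := by
      rcases Relation.TransGen.tail'_iff.1 hx with ⟨b, -, hb⟩
      exact hhead _ _ hb
    exact h.acyc x (key x x hx hxu).1

theorem pathSys_leafIn {F : List (ℕ × ℕ)} (h : PathSys F) {u v : ℕ}
    (hu : ∀ e ∈ F, e.1 ≠ u ∧ e.2 ≠ u) (huv : u ≠ v) (hv : ∀ e ∈ F, e.1 ≠ v) :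
    PathSys ((v, u) :: F) where
  out := by
    rw [List.map_cons, List.nodup_cons]
    refine ⟨fun hm => ?_, h.out⟩
    obtain ⟨e, he, h1⟩ := List.mem_map.1 hm
    exact hv e he h1
  inn := by
    rw [List.map_cons, List.nodup_cons]
    refine ⟨fun hm => ?_, h.inn⟩
    obtain ⟨e, he, h1⟩ := List.mem_map.1 hm
    exact (hu e he).2 h1
  acyc := by
    have htail : ∀ a b, (a, b) ∈ (v, u) :: F → a ≠ u := by
      intro a b hab ha
      rcases List.mem_cons.1 hab with h1 | h1
      · rw [Prod.mk.injEq] at h1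
        exact huv (by rw [← h1.1, ha])
      · exact (hu _ h1).1 ha
    have key : ∀ a b, Relation.TransGen (fun a b => (a, b) ∈ (v, u) :: F) a b → b ≠ u →
        Relation.TransGen (fun a b => (a, b) ∈ F) a b := by
      intro a b hab
      induction hab with
      | single h1 =>
        intro hb
        refine Relation.TransGen.single ?_
        rcases List.mem_cons.1 h1 with h2 | h2
        · rw [Prod.mk.injEq] at h2
          exact absurd h2.2 hb
        · exact h2
      | tail _ h1 ih =>
        intro hb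
        refine (ih (htail _ _ h1)).tail ?_
        rcases List.mem_cons.1 h1 with h2 | h2
        · rw [Prod.mk.injEq] at h2
          exact absurd h2.2 hb
        · exact h2
    intro x hx
    have hxu : x ≠ u := by
      rcases Relation.TransGen.head'_iff.1 hx with ⟨b, hb, -⟩
      exact htail _ _ hb
    exact h.acyc x (key x x hx hxu)

/-! ### Colours at a vertex of degree one -/

theorem headD_of_countP {K : List (ℕ × ℕ × ℕ)} {p : ℕ × ℕ × ℕ → Bool} (h : K.countP p = 1)
    {e : ℕ × ℕ × ℕ} (he : e ∈ K) (hp : p e = true) :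
    ((K.filter p).map (fun e => e.2.2)).headD 0 = e.2.2 := by
  rw [List.countP_eq_length_filter] at h
  obtain ⟨f, hf⟩ := List.length_eq_one_iff.1 h
  have h1 : e ∈ K.filter p := List.mem_filter.2 ⟨he, hp⟩
  rw [hf, List.mem_singleton] at h1
  rw [hf, h1]
  rfl

theorem exists_of_countP {K : List (ℕ × ℕ × ℕ)} {p : ℕ × ℕ × ℕ → Bool} (h : K.countP p = 1) :
    ∃ e ∈ K, p e = true := by
  have : 0 < K.countP p := by omega
  exact List.countP_pos_iff.1 this

theorem countP_out {E : List (ℕ × ℕ)} {K : List (ℕ × ℕ × ℕ)}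
    (h : (K.map (fun e => (e.1, e.2.1))).Perm E) (v : ℕ) :
    K.countP (fun e => e.1 == v) = outN E v := by
  rw [outN, ← h.countP_eq, List.countP_map]
  rfl

theorem countP_in {E : List (ℕ × ℕ)} {K : List (ℕ × ℕ × ℕ)}
    (h : (K.map (fun e => (e.1, e.2.1))).Perm E) (v : ℕ) :
    K.countP (fun e => e.2.1 == v) = inN E v := by
  rw [inN, ← h.countP_eq, List.countP_map]
  rfl

/-- Colours of the arcs at a vertex of degree one. -/
theorem col_deg_one {E : List (ℕ × ℕ)} {K : List (ℕ × ℕ × ℕ)} (hE : GoodG E) (hK : Col E K)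
    {v : ℕ} (hv : outN E v = 1) :
    (∀ e ∈ K, e.1 = v → e.2.2 = colOut K v) ∧ (∀ e ∈ K, e.2.1 = v → e.2.2 = colIn K v) ∧
    colOut K v < 3 ∧ colIn K v < 3 ∧ colIn K v ≠ colOut K v := by
  have h1 : K.countP (fun e => e.1 == v) = 1 := by rw [countP_out hK.perm, hv]
  have h2 : K.countP (fun e => e.2.1 == v) = 1 := by rw [countP_in hK.perm, ← hE.bal, hv]
  have h3 : ∀ e ∈ K, e.1 = v → e.2.2 = colOut K v := fun e he h =>
    (headD_of_countP h1 he (by simpa using h)).symm
  have h4 : ∀ e ∈ K, e.2.1 = v → e.2.2 = colIn K v := fun e he h =>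
    (headD_of_countP h2 he (by simpa using h)).symm
  obtain ⟨e, he, he'⟩ := exists_of_countP h1
  obtain ⟨f, hf, hf'⟩ := exists_of_countP h2
  have he1 : e.1 = v := by simpa using he'
  have hf1 : f.2.1 = v := by simpa using hf'
  refine ⟨h3, h4, ?_, ?_, ?_⟩
  · rw [← h3 e he he1]; exact hK.lt e he
  · rw [← h4 f hf hf1]; exact hK.lt f hf
  · rw [← h3 e he he1, ← h4 f hf hf1]
    exact hK.flag f hf e he (by rw [hf1, he1]) (by rw [he1, hv])

/-! ### The classes -/

/-- The three arcs of a half pair. -/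
def halfL (W : ℕ → ℕ → ℕ) (K : List (ℕ × ℕ × ℕ)) (e : ℕ × ℕ) : List (ℕ × ℕ × ℕ) :=
  if W e.2 e.1 ≤ W e.1 e.2 then
    [(e.1, e.2, colOut K e.2), (e.1, e.2, 3 - colIn K e.2 - colOut K e.2),
      (e.2, e.1, colIn K e.2)]
  else
    [(e.2, e.1, colIn K e.2), (e.2, e.1, 3 - colIn K e.2 - colOut K e.2),
      (e.1, e.2, colOut K e.2)]

theorem addHalf_eq (W : ℕ → ℕ → ℕ) (K : List (ℕ × ℕ × ℕ)) (H : List (ℕ × ℕ)) :
    addHalf W K H = K ++ H.flatMap (halfL W K) := rfl

/-- The arc of a half pair in the class `κ`. -/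
def halfArc (W : ℕ → ℕ → ℕ) (K : List (ℕ × ℕ × ℕ)) (κ : ℕ) (e : ℕ × ℕ) : ℕ × ℕ :=
  if κ = colOut K e.2 then (e.1, e.2)
  else if κ = colIn K e.2 then (e.2, e.1)
  else if W e.2 e.1 ≤ W e.1 e.2 then (e.1, e.2) else (e.2, e.1)

theorem cls_append (K K' : List (ℕ × ℕ × ℕ)) (κ : ℕ) : cls (K ++ K') κ = cls K κ ++ cls K' κ := by
  simp [cls]

theorem cls_flatMap (H : List (ℕ × ℕ)) (f : ℕ × ℕ → List (ℕ × ℕ × ℕ)) (κ : ℕ) :
    cls (H.flatMap f) κ = H.flatMap (fun e => cls (f e) κ) := by
  induction H with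
  | nil => rfl
  | cons e H ih => rw [List.flatMap_cons, cls_append, ih, List.flatMap_cons]

theorem cls_halfL (W : ℕ → ℕ → ℕ) (K : List (ℕ × ℕ × ℕ)) {κ : ℕ} (hκ : κ < 3) {e : ℕ × ℕ}
    (h1 : colOut K e.2 < 3) (h2 : colIn K e.2 < 3) (h3 : colIn K e.2 ≠ colOut K e.2) :
    cls (halfL W K e) κ = [halfArc W K κ e] := by
  unfold halfL halfArc cls
  generalize colOut K e.2 = a at *
  generalize colIn K e.2 = b at *
  by_cases hW : W e.2 e.1 ≤ W e.1 e.2
  · simp only [if_pos hW, List.filter_cons, List.filter_nil, beq_iff_eq]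
    by_cases ha : κ = a
    · have e1 : ¬ (3 - b - a = κ) := by omega
      have e2 : ¬ (b = κ) := by omega
      rw [if_pos ha.symm, if_neg e1, if_neg e2, if_pos ha]
      rfl
    · by_cases hb : κ = b
      · have e1 : ¬ (3 - b - a = κ) := by omega
        rw [if_neg (Ne.symm ha), if_neg e1, if_pos hb.symm, if_neg ha, if_pos hb]
        rfl
      · have e1 : 3 - b - a = κ := by (clear * - hκ h1 h2 h3 ha hb; omega)
        rw [if_neg (Ne.symm ha), if_pos e1, if_neg (Ne.symm hb), if_neg ha, if_neg hb]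
        rfl
  · simp only [if_neg hW, List.filter_cons, List.filter_nil, beq_iff_eq]
    by_cases ha : κ = a
    · have e1 : ¬ (3 - b - a = κ) := by omega
      have e2 : ¬ (b = κ) := by omega
      rw [if_pos ha.symm, if_neg e1, if_neg e2, if_pos ha]
      rfl
    · by_cases hb : κ = b
      · have e1 : ¬ (3 - b - a = κ) := by omega
        rw [if_neg (Ne.symm ha), if_neg e1, if_pos hb.symm, if_neg ha, if_pos hb]
        rfl
      · have e1 : 3 - b - a = κ := by omega
        rw [if_neg (Ne.symm ha), if_pos e1, if_neg (Ne.symm hb), if_neg ha, if_neg hb]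
        rfl

theorem mem_cls {K : List (ℕ × ℕ × ℕ)} {κ : ℕ} {e : ℕ × ℕ} (h : e ∈ cls K κ) :
    (e.1, e.2, κ) ∈ K := by
  unfold cls at h
  obtain ⟨f, hf, rfl⟩ := List.mem_map.1 h
  obtain ⟨hf1, hf2⟩ := List.mem_filter.1 hf
  rw [beq_iff_eq] at hf2
  rcases f with ⟨a, b, c⟩
  simp only at hf2
  subst hf2
  exact hf1

theorem outN_zeroD {E : List (ℕ × ℕ)} {u : ℕ} (h : outN E u = 0) {e : ℕ × ℕ} (he : e ∈ E) :
    e.1 ≠ u := by
  intro h1
  have := List.countP_eq_zero.1 h e he
  simp [h1] at this

theorem inN_zeroD {E : List (ℕ × ℕ)} {u : ℕ} (h : inN E u = 0) {e : ℕ × ℕ} (he : e ∈ E) :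
    e.2 ≠ u := by
  intro h1
  have := List.countP_eq_zero.1 h e he
  simp [h1] at this

theorem halfArc_cases (W : ℕ → ℕ → ℕ) (K : List (ℕ × ℕ × ℕ)) (κ : ℕ) (e : ℕ × ℕ)
    (h : colIn K e.2 ≠ colOut K e.2) :
    (halfArc W K κ e = (e.1, e.2) ∧ κ ≠ colIn K e.2) ∨
    (halfArc W K κ e = (e.2, e.1) ∧ κ ≠ colOut K e.2) := by
  unfold halfArc
  split_ifs with h1 h2 h3
  · left; exact ⟨rfl, by rw [h1]; exact Ne.symm h⟩
  · right; exact ⟨rfl, h1⟩
  · left; exact ⟨rfl, h2⟩
  · right; exact ⟨rfl, h1⟩

theorem pathSys_class {E : List (ℕ × ℕ)} {K : List (ℕ × ℕ × ℕ)} (W : ℕ → ℕ → ℕ) (hE : GoodG E)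
    (hK : Col E K) (κ : ℕ) (H : List (ℕ × ℕ)) (hn : (H.flatMap (fun e => [e.1, e.2])).Nodup)
    (hH : ∀ e ∈ H, outN E e.1 = 0 ∧ inN E e.1 = 0 ∧ outN E e.2 = 1) :
    PathSys (H.map (halfArc W K κ) ++ cls K κ) := by
  have hclsE : ∀ e ∈ cls K κ, e ∈ E := fun e he =>
    hK.perm.mem_iff.1 (List.mem_map.2 ⟨_, mem_cls he, rfl⟩)
  induction H with
  | nil => exact hK.path κ
  | cons e H ih =>
    rw [List.flatMap_cons, List.nodup_append] at hn
    obtain ⟨hn1, hn2, hn3⟩ := hn
    have h0 := ih hn2 fun f hf => hH f (List.mem_cons_of_mem _ hf)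
    obtain ⟨ho, hi, hv⟩ := hH e List.mem_cons_self
    obtain ⟨c1, c2, c3, c4, c5⟩ := col_deg_one hE hK hv
    have huv : e.1 ≠ e.2 := by simpa using hn1
    -- the arcs of the other half pairs avoid both ends
    have hother : ∀ f ∈ H.map (halfArc W K κ), (f.1 ≠ e.1 ∧ f.1 ≠ e.2) ∧
        (f.2 ≠ e.1 ∧ f.2 ≠ e.2) := by
      intro f hf
      obtain ⟨f', hf', rfl⟩ := List.mem_map.1 hf
      have m1 : f'.1 ∈ H.flatMap (fun e => [e.1, e.2]) :=
        List.mem_flatMap.2 ⟨f', hf', by simp⟩
      have m2 : f'.2 ∈ H.flatMap (fun e => [e.1, e.2]) :=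
        List.mem_flatMap.2 ⟨f', hf', by simp⟩
      have k1 := hn3 e.1 (by simp) _ m1
      have k2 := hn3 e.1 (by simp) _ m2
      have k3 := hn3 e.2 (by simp) _ m1
      have k4 := hn3 e.2 (by simp) _ m2
      have : halfArc W K κ f' = (f'.1, f'.2) ∨ halfArc W K κ f' = (f'.2, f'.1) := by
        unfold halfArc
        split_ifs <;> simp
      rcases this with h | h
      · rw [h]; exact ⟨⟨Ne.symm k1, Ne.symm k3⟩, Ne.symm k2, Ne.symm k4⟩
      · rw [h]; exact ⟨⟨Ne.symm k2, Ne.symm k4⟩, Ne.symm k1, Ne.symm k3⟩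
    have hu : ∀ f ∈ H.map (halfArc W K κ) ++ cls K κ, f.1 ≠ e.1 ∧ f.2 ≠ e.1 := by
      intro f hf
      rcases List.mem_append.1 hf with hf | hf
      · exact ⟨(hother f hf).1.1, (hother f hf).2.1⟩
      · exact ⟨outN_zeroD ho (hclsE f hf), inN_zeroD hi (hclsE f hf)⟩
    rw [List.map_cons, List.cons_append]
    rcases halfArc_cases W K κ e c5 with ⟨h1, h2⟩ | ⟨h1, h2⟩
    · rw [h1]
      refine pathSys_leafOut h0 hu huv fun f hf => ?_
      rcases List.mem_append.1 hf with hf | hf
      · exact (hother f hf).2.2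
      · intro h3
        exact h2 (c2 _ (mem_cls hf) h3)
    · rw [h1]
      refine pathSys_leafIn h0 hu huv fun f hf => ?_
      rcases List.mem_append.1 hf with hf | hf
      · exact (hother f hf).1.2
      · intro h3
        exact h2 (c1 _ (mem_cls hf) h3)

theorem wt_cls {W : ℕ → ℕ → ℕ} {K : List (ℕ × ℕ × ℕ)} (h : ∀ e ∈ K, e.2.2 < 3) :
    wt W (cls K 0) + wt W (cls K 1) + wt W (cls K 2) =
      (K.map (fun e => W e.1 e.2.1)).sum := by
  induction K with
  | nil => rfl
  | cons e K ih =>
    have h1 := ih fun f hf => h f (List.mem_cons_of_mem _ hf)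
    have h2 := h e List.mem_cons_self
    have h3 : ∀ κ, wt W (cls (e :: K) κ) = (if e.2.2 = κ then W e.1 e.2.1 else 0) +
        wt W (cls K κ) := by
      intro κ
      unfold cls wt
      rw [List.filter_cons]
      by_cases hc : e.2.2 = κ
      · simp [hc]
      · simp [hc]
    rw [h3, h3, h3, List.map_cons, List.sum_cons, ← h1]
    have : e.2.2 = 0 ∨ e.2.2 = 1 ∨ e.2.2 = 2 := by omega
    rcases this with h4 | h4 | h4 <;> simp [h4] <;> omega

/-- Part D. -/
theorem partD : PartD := by
  intro W k E K H hE hK hH vE vH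
  have hcol : ∀ e ∈ H, colOut K e.2 < 3 ∧ colIn K e.2 < 3 ∧ colIn K e.2 ≠ colOut K e.2 := by
    intro e he
    obtain ⟨-, -, c3, c4, c5⟩ := col_deg_one hE hK (hH.2 e he).2.2
    exact ⟨c3, c4, c5⟩
  have hlt : ∀ e ∈ addHalf W K H, e.2.2 < 3 := by
    intro e he
    rw [addHalf_eq] at he
    rcases List.mem_append.1 he with he | he
    · exact hK.lt e he
    · obtain ⟨f, hf, he⟩ := List.mem_flatMap.1 he
      obtain ⟨c1, c2, c3⟩ := hcol f hf
      unfold halfL at he
      split_ifs at he <;> simp only [List.mem_cons, List.not_mem_nil, or_false] at he <;>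
        rcases he with rfl | rfl | rfl <;> simp only <;> omega
  refine ⟨fun κ => ?_, ?_⟩
  · rcases Nat.lt_or_ge κ 3 with hκ | hκ
    · have h1 : cls (addHalf W K H) κ = cls K κ ++ H.map (halfArc W K κ) := by
        rw [addHalf_eq, cls_append, cls_flatMap]
        congr 1
        rw [List.map_eq_flatMap, List.flatMap_def, List.flatMap_def]
        congr 1
        refine List.map_congr_left fun e he => ?_
        obtain ⟨c1, c2, c3⟩ := hcol e he
        exact cls_halfL W K hκ c1 c2 c3
      rw [h1]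
      refine ⟨pathSys_perm (pathSys_class W hE hK κ H hH.1 hH.2) List.perm_append_comm, ?_⟩
      intro e he
      rcases List.mem_append.1 he with he | he
      · exact vE e (hK.perm.mem_iff.1 (List.mem_map.2 ⟨_, mem_cls he, rfl⟩))
      · obtain ⟨f, hf, rfl⟩ := List.mem_map.1 he
        have := vH f hf
        unfold halfArc
        split_ifs <;> simp only <;> omega
    · have h1 : cls (addHalf W K H) κ = [] := by
        rw [List.eq_nil_iff_forall_not_mem]
        intro e he
        have := hlt _ (mem_cls he)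
        simp only at this
        omega
      rw [h1]
      refine ⟨⟨by simp, by simp, ?_⟩, by simp [VtxLt]⟩
      intro x hx
      rcases Relation.TransGen.head'_iff.1 hx with ⟨b, hb, -⟩
      simp at hb
  · rw [wt_cls hlt, addHalf_eq, List.map_append, List.sum_append]
    congr 1
    · have := (hK.perm.map (fun e => W e.1 e.2)).sum_eq
      rw [List.map_map] at this
      exact this
    · rw [halfW, List.map_flatMap, List.flatMap_def, List.sum_flatten, List.map_map]
      congr 1
      refine List.map_congr_left fun e _ => ?_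
      simp only [Function.comp]
      unfold halfL
      split_ifs with h
      · simp only [List.map_cons, List.map_nil, List.sum_cons, List.sum_nil]
        rw [max_eq_left h]
        omega
      · simp only [List.map_cons, List.map_nil, List.sum_cons, List.sum_nil]
        rw [max_eq_right (by omega)]
        omega

end Vale.Agent.P333.U
end
end

section

section

/-!
P333, upper bound: assembly of the parts (given the remaining ones).
-/

namespace Vale.Agent.P333.U

theorem hasApprox_of_atsp (hR : RauzyBound) {p q : ℕ} (hq : 0 < q) (hpq : p ≤ q)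
    (h : AtspAlg p q) : HasApprox (3 - (p : ℝ) / q) :=
  finalStep p q hq hpq wordsW (wordsA_of hR placeLemma) wordsB (coverAlg assignAlg) h

theorem hasApprox_27_11_of (hR : RauzyBound) : HasApprox (27 / 11) := by
  have h := hasApprox_of_atsp hR (by norm_num) (by norm_num) (atsp611 assignAlg joinAlg)
  norm_num at h
  exact h

/-- A polynomial time algorithm with ratio `2/3` for the maximum travelling salesman path. -/
theorem atspAlg_2_3 : AtspAlg 2 3 := partE assignAlg colAlg joinAlg partA partB partC partD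

theorem hasApprox_7_3_of (hR : RauzyBound) : HasApprox (7 / 3) := by
  have h := hasApprox_of_atsp hR (by norm_num) (by norm_num) atspAlg_2_3
  norm_num at h
  exact h

end Vale.Agent.P333.U
end
end

section

section

section

/-!
Lower bound for the common superstrings of the block system of the reduction (P333).
-/

namespace Vale.Agent.P333

open Finset

namespace Data

variable {E : Type} {β : ℕ} (D : Data E β)

/-- `Σ d + number of blocks` of the whole system -/
def cost [Fintype E] : ℕ :=
  4 * Fintype.card ((E × Fin 3) × Fin (β + 1)) + 5 * Fintype.card (E × Fin 3)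
    + Fintype.card {c : E × Fin 3 // D.par c.1 = true} + Fintype.card {e : E // D.par e = false}

/-- number of equations violated by the contact bits -/
def uns [Fintype E] (x : E × Fin 3 → Bool) : ℕ :=
  (univ.filter (fun e : E => (xor (x (e, 0)) (xor (x (e, 1)) (x (e, 2))) != D.par e) = true)).card

theorem sign_bd (z : ℤ) : -1 ≤ Int.sign z ∧ Int.sign z ≤ 1 := by
  rcases lt_trichotomy z 0 with h | h | h
  · rw [Int.sign_eq_neg_one_of_neg h]; omega
  · subst h; simp only [Int.reduceNeg, Int.sign_zero, Left.neg_nonpos_iff, zero_le_one, and_self]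
  · rw [Int.sign_eq_one_of_pos h]; omega

theorem sign_mul' (z : ℤ) : Int.sign z * z = |z| := by
  rw [Int.sign_mul_self_eq_abs]

/-- the per-equation value of a test function -/
def hubT (par : Bool) (i : Fin 3) (f f' fo : ℤ) (q : Bool) : ℤ :=
  if par = true then
    (if i = 0 then fL q - f else if i = 1 then f - fo else fo - f') + (f - fL q)
  else
    (if i = 0 then f - fL q else if i = 1 then f' - fo else fo - f)

theorem eq_even (i j k : Fin 3) (p0 p1 p2 q0 q1 q2 : Bool) (f0 f1 f2 fo : ℤ)
    (h0 : f0 * coefE i j p0 = |coefE i j p0|) (h1 : f1 * coefE j k p1 = |coefE j k p1|)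
    (h2 : f2 * coefE k i p2 = |coefE k i p2|) (ho : fo * coefo i j k = |coefo i j k|) :
    (ind (!p0) * (1 - f0) + hubT false i f0 f2 fo q0)
      + (ind (!p1) * (1 - f1) + hubT false j f1 f0 fo q1)
      + (ind (!p2) * (1 - f2) + hubT false k f2 f1 fo q2)
      = valE i j k p0 p1 p2 q0 q1 q2 := by
  unfold valE
  rw [← h0, ← h1, ← h2, ← ho]
  clear h0 h1 h2 ho
  simp only [coefE, coefo, conE]
  generalize ind (!p0) = P0
  generalize ind (!p1) = P1
  generalize ind (!p2) = P2
  rcases fin3_cases i with rfl | rfl | rfl <;> rcases fin3_cases j with rfl | rfl | rfl <;>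
    rcases fin3_cases k with rfl | rfl | rfl <;>
    simp [hubT, ind] <;> ring

theorem eq_odd (i j k : Fin 3) (p0 p1 p2 q0 q1 q2 : Bool) (f0 f1 f2 fo : ℤ)
    (h0 : f0 * coefO i j p0 = |coefO i j p0|) (h1 : f1 * coefO j k p1 = |coefO j k p1|)
    (h2 : f2 * coefO k i p2 = |coefO k i p2|) (ho : fo * coefo i j k = |coefo i j k|) :
    (ind (!p0) * (1 - f0) + hubT true i f0 f2 fo q0)
      + (ind (!p1) * (1 - f1) + hubT true j f1 f0 fo q1)
      + (ind (!p2) * (1 - f2) + hubT true k f2 f1 fo q2)
      = valO i j k p0 p1 p2 q0 q1 q2 := by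
  unfold valO
  rw [← h0, ← h1, ← h2, ← ho]
  clear h0 h1 h2 ho
  simp only [coefO, coefo, conO]
  generalize ind (!p0) = P0
  generalize ind (!p1) = P1
  generalize ind (!p2) = P2
  rcases fin3_cases i with rfl | rfl | rfl <;> rcases fin3_cases j with rfl | rfl | rfl <;>
    rcases fin3_cases k with rfl | rfl | rfl <;>
    simp [hubT, ind] <;> ring

instance [DecidableEq E] : DecidablePred D.Bad := fun b => by
  unfold Bad; infer_instance

theorem choice_V {P : (E × Fin 3) × Fin (β + 1) → Prop} (c : D.BlG P → D.WdG P)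
    (hc : ∀ b, D.blk (c b) = b) (b : {b // P b}) : ∃ y, c (Sum.inl b) = Sum.inl (b, y) := by
  have h := hc (Sum.inl b)
  rcases hcc : c (Sum.inl b) with ⟨b', y⟩ | ⟨c', i⟩ | c' | e'
  · rw [hcc] at h
    have h' : b' = b := Sum.inl.inj h
    exact ⟨y, by rw [h']⟩
  · rw [hcc] at h; cases h
  · rw [hcc] at h; cases h
  · rw [hcc] at h; cases h

theorem choice_H {P : (E × Fin 3) × Fin (β + 1) → Prop} (c : D.BlG P → D.WdG P)
    (hc : ∀ b, D.blk (c b) = b) (b : E × Fin 3) :
    ∃ i, c (Sum.inr (Sum.inl b)) = Sum.inr (Sum.inl (b, i)) := by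
  have h := hc (Sum.inr (Sum.inl b))
  rcases hcc : c (Sum.inr (Sum.inl b)) with ⟨b', y⟩ | ⟨c', i⟩ | c' | e'
  · rw [hcc] at h; cases h
  · rw [hcc] at h
    have h' : c' = b := Sum.inl.inj (Sum.inr.inj h)
    exact ⟨i, by rw [h']⟩
  · rw [hcc] at h; cases h
  · rw [hcc] at h; cases h

theorem choice_F {P : (E × Fin 3) × Fin (β + 1) → Prop} (c : D.BlG P → D.WdG P)
    (hc : ∀ b, D.blk (c b) = b) (b : {c : E × Fin 3 // D.par c.1 = true}) :
    c (Sum.inr (Sum.inr (Sum.inl b))) = Sum.inr (Sum.inr (Sum.inl b)) := by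
  have h := hc (Sum.inr (Sum.inr (Sum.inl b)))
  rcases hcc : c (Sum.inr (Sum.inr (Sum.inl b))) with ⟨b', y⟩ | ⟨c', i⟩ | c' | e'
  · rw [hcc] at h; cases h
  · rw [hcc] at h; cases h
  · rw [hcc] at h
    have h' : c' = b := Sum.inl.inj (Sum.inr.inj (Sum.inr.inj h))
    rw [h']
  · rw [hcc] at h; cases h

theorem choice_K {P : (E × Fin 3) × Fin (β + 1) → Prop} (c : D.BlG P → D.WdG P)
    (hc : ∀ b, D.blk (c b) = b) (b : {e : E // D.par e = false}) :
    c (Sum.inr (Sum.inr (Sum.inr b))) = Sum.inr (Sum.inr (Sum.inr b)) := by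
  have h := hc (Sum.inr (Sum.inr (Sum.inr b)))
  rcases hcc : c (Sum.inr (Sum.inr (Sum.inr b))) with ⟨b', y⟩ | ⟨c', i⟩ | c' | e'
  · rw [hcc] at h; cases h
  · rw [hcc] at h; cases h
  · rw [hcc] at h; cases h
  · rw [hcc] at h
    have h' : e' = b := Sum.inr.inj (Sum.inr.inj (Sum.inr.inj h))
    rw [h']

theorem lower [Fintype E] [DecidableEq E] (hβ : 1 ≤ β) (T : List (Letter E β))
    (hT : ∀ w : D.WdG (fun _ => True), D.str w <:+: T) :
    ∃ (m : (E × Fin 3) × Fin (β + 1) → Bool) (x : E × Fin 3 → Bool),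
      D.cost + rises0 D.nxt m x + rises1 D.n1 m + D.uns x
        ≤ T.length + 5 * (univ.filter (fun b => D.Bad b)).card := by
  classical
  let P : (E × Fin 3) × Fin (β + 1) → Prop := fun b => ¬ D.Bad b
  have hT' : ∀ w : D.WdG P, D.str w <:+: T := by
    rintro (⟨⟨b, hb⟩, y⟩ | ⟨c, i⟩ | c | e)
    · exact hT (Sum.inl (⟨b, trivial⟩, y))
    · exact hT (Sum.inr (Sum.inl (c, i)))
    · exact hT (Sum.inr (Sum.inr (Sum.inl c)))
    · exact hT (Sum.inr (Sum.inr (Sum.inr e)))
  obtain ⟨c, hc, hφ⟩ := superstring_lower_bound (D.blk (P := P)) D.nx D.dd D.src D.tgt D.str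
    D.blk_nx D.blk_surj D.str_len D.str_fst D.str_lst D.dd_zero
    (fun w w' hne δ hδ h => D.ov hβ w w' hne δ hδ h) T hT'
  choose yV hyV using D.choice_V c hc
  choose iH hiH using D.choice_H c hc
  let m : (E × Fin 3) × Fin (β + 1) → Bool := fun b => if h : P b then yV ⟨b, h⟩ else false
  let p : E × Fin 3 → Bool := fun g => m (D.nxt.symm g, Fin.last β)
  let q : E × Fin 3 → Bool := fun g => m (g, 0)
  let co : E × Fin 3 → ℤ := fun g =>
    if D.par g.1 = true then coefO (iH g) (iH (g.1, g.2 + 1)) (p g)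
    else coefE (iH g) (iH (g.1, g.2 + 1)) (p g)
  let fr : E × Fin 3 → ℤ := fun g => Int.sign (co g)
  let fo : E → ℤ := fun e => Int.sign (coefo (iH (e, 0)) (iH (e, 1)) (iH (e, 2)))
  let φ : Letter E β → ℤ := fun l => match l with
    | Letter.L b => fL (m b)
    | Letter.r g => fr g
    | Letter.o e => fo e
  have hφ1 : ∀ l, -1 ≤ φ l ∧ φ l ≤ 1 := by
    rintro (b | g | e)
    · simp only [fL, φ]; split_ifs <;> omega
    · exact sign_bd _
    · exact sign_bd _
  have hmain := hφ φ hφ1
  have hx : ∀ e, ∃ x0 x1 x2 : Bool,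
      goalv (D.par e) x0 x1 x2 (p (e, 0)) (p (e, 1)) (p (e, 2)) (q (e, 0)) (q (e, 1)) (q (e, 2)) ≤
        (if D.par e = true then valO (iH (e, 0)) (iH (e, 1)) (iH (e, 2))
          (p (e, 0)) (p (e, 1)) (p (e, 2)) (q (e, 0)) (q (e, 1)) (q (e, 2))
        else valE (iH (e, 0)) (iH (e, 1)) (iH (e, 2))
          (p (e, 0)) (p (e, 1)) (p (e, 2)) (q (e, 0)) (q (e, 1)) (q (e, 2))) := by
    intro e
    by_cases h : D.par e = true
    · rw [if_pos h, h]; exact local_odd _ _ _ _ _ _ _ _ _
    · rw [if_neg h]; rw [Bool.not_eq_true] at h; rw [h]; exact local_even _ _ _ _ _ _ _ _ _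
  choose x0 x1 x2 hx' using hx
  let x : E × Fin 3 → Bool := fun g => if g.2 = 0 then x0 g.1 else if g.2 = 1 then x1 g.1 else x2 g.1
  refine ⟨m, x, ?_⟩
  -- abbreviations
  let vV : (E × Fin 3) × Fin (β + 1) → ℤ := fun b => φ (D.srcV b (m b)) - φ (D.tgtV b (m b))
  let vH : E × Fin 3 → ℤ := fun g => φ (D.srcH g (iH g)) - φ (D.tgtH g (iH g))
  have hvV2 : ∀ b, vV b ≤ 2 := by
    intro b
    have h1 := hφ1 (D.srcV b (m b)); have h2 := hφ1 (D.tgtV b (m b))
    simp only [vV]; omega
  -- (1)
  have h1 : ∑ b, (2 + φ (D.src (c b)) - φ (D.tgt (c b)))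
      = ∑ b : {b // P b}, (2 + vV b.1) + (∑ g, (2 + vH g)
        + (∑ g : {g : E × Fin 3 // D.par g.1 = true}, (2 + (fr g.1 - fL (q g.1)))
          + ∑ e : {e : E // D.par e = false}, (2 + (fo e.1 - fo (D.tr e).1)))) := by
    rw [Fintype.sum_sum_type, Fintype.sum_sum_type, Fintype.sum_sum_type]
    congr 1
    · apply Finset.sum_congr rfl
      intro b _
      rw [hyV b]
      have hm : m b.1 = yV b := by
        simp only [m]; rw [dif_pos b.2]
      simp only [vV, hm, src, tgt]; ring
    · congr 1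
      · apply Finset.sum_congr rfl
        intro b _
        rw [hiH b]
        simp only [vH, src, tgt]; ring
      · congr 1
        · apply Finset.sum_congr rfl
          intro b _
          rw [D.choice_F c hc b]
          simp only [src, tgt, φ, q]; ring
        · apply Finset.sum_congr rfl
          intro b _
          rw [D.choice_K c hc b]
          simp only [src, tgt, φ]; ring
  -- (2)
  have h2 : ∑ w : D.WdG P, (D.dd w : ℤ) = ∑ b : {b // P b}, (3 : ℤ) + ∑ g : E × Fin 3, (4 : ℤ) := by
    rw [Fintype.sum_sum_type, Fintype.sum_sum_type, Fintype.sum_sum_type]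
    rw [Fintype.sum_prod_type, Fintype.sum_prod_type]
    simp only [dd, Nat.cast_zero, Finset.sum_const_zero, add_zero]
    refine congrArg₂ (· + ·) ?_ ?_
    · apply Finset.sum_congr rfl
      intro b _
      rw [Fintype.sum_bool]; simp
    · apply Finset.sum_congr rfl
      intro g _
      rw [Fin.sum_univ_three]
      by_cases hp : D.par g.1 = true
      · simp [dH, hp]
      · simp [dH, hp]
  -- (3)
  have h3 : ∑ b, (8 + vV b) ≤ ∑ b : {b // P b}, (8 + vV b.1)
      + 10 * ((univ.filter (fun b => D.Bad b)).card : ℤ) := by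
    have e1 := Finset.sum_filter_add_sum_filter_not univ (fun b => D.Bad b) (fun b => 8 + vV b)
    have e2 : ∑ b : {b // P b}, (8 + vV b.1) = ∑ b ∈ univ.filter (fun b => ¬ D.Bad b), (8 + vV b) := by
      rw [← Finset.sum_subtype_eq_sum_filter]
      rw [Finset.subtype_univ]
    have e3 : ∑ b ∈ univ.filter (fun b => D.Bad b), (8 + vV b)
        ≤ ∑ b ∈ univ.filter (fun b => D.Bad b), (10 : ℤ) :=
      Finset.sum_le_sum (fun b _ => by have := hvV2 b; omega)
    rw [Finset.sum_const, nsmul_eq_mul] at e3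
    rw [e2, ← e1]
    linarith only [e3]
  -- (4)
  have h4 : ∑ b, vV b = 2 * (rises1 D.n1 m : ℤ)
      + 2 * ((∑ g : E × Fin 3, ∑ j : Fin β, rise (m (g, j.castSucc)) (m (g, j.succ)) : ℕ) : ℤ)
      + ∑ g : E × Fin 3, ind (!(p g)) * (1 - fr g) := by
    have e1 : ∀ b, vV b = 2 * (rise (m (D.n1.symm b)) (m b) : ℤ)
        + (if m b = true then 0 else 1 - φ (D.endL b)) := by
      intro b
      simp only [vV]
      cases hmb : m b
      · simp only [srcV, tgtV, φ, fL, rise, hmb]; simp
      · simp only [srcV, tgtV, φ, fL, rise, hmb]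
        cases m (D.n1.symm b) <;> simp
    rw [Finset.sum_congr rfl (fun b _ => e1 b), Finset.sum_add_distrib, ← Finset.mul_sum]
    have e2 : ∑ b, (rise (m (D.n1.symm b)) (m b) : ℤ) = (rises1 D.n1 m : ℤ) := by
      unfold rises1
      push_cast
      rw [← Equiv.sum_comp D.n1]
      simp only [Equiv.symm_apply_apply]
    rw [e2, add_assoc]
    congr 1
    rw [Fintype.sum_prod_type]
    have e3 : ∀ g : E × Fin 3, ∑ j : Fin (β + 1),
        (if m (g, j) = true then (0 : ℤ) else 1 - φ (D.endL (g, j)))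
        = ∑ j : Fin β, 2 * (rise (m (g, j.castSucc)) (m (g, j.succ)) : ℤ)
          + ind (!(m (g, Fin.last β))) * (1 - fr (D.nxt g)) := by
      intro g
      rw [Fin.sum_univ_castSucc]
      congr 1
      · apply Finset.sum_congr rfl
        intro j _
        have hE : D.endL (g, j.castSucc) = Letter.L (g, j.succ) := by
          unfold endL
          have hlt : ((g, j.castSucc) : (E × Fin 3) × Fin (β + 1)).2.val + 1 < β + 1 := by
            simp
          rw [if_pos hlt, s0_lt _ _ hlt]
          rfl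
        rw [hE]
        simp only [φ, fL, rise]
        cases m (g, j.castSucc) <;> cases m (g, j.succ) <;> simp
      · have hE : D.endL (g, Fin.last β) = Letter.r (D.nxt g) := by
          unfold endL
          rw [if_neg (by simp)]
        rw [hE]
        simp only [φ, ind]
        cases m (g, Fin.last β) <;> simp
    rw [Finset.sum_congr rfl (fun g _ => e3 g), Finset.sum_add_distrib]
    congr 1
    · push_cast
      rw [Finset.mul_sum]
      apply Finset.sum_congr rfl
      intro g _
      rw [Finset.mul_sum]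
    · rw [← Equiv.sum_comp D.nxt (fun g => ind (!(p g)) * (1 - fr g))]
      simp only [Equiv.symm_apply_apply, p]
  -- (5)
  have h5 : ∑ e : {e : E // D.par e = false}, (fo e.1 - fo (D.tr e).1) = 0 := by
    rw [Finset.sum_sub_distrib]
    rw [Equiv.sum_comp D.tr (fun e => fo e.1)]
    ring
  -- (6)
  have h6 : ∑ g, vH g + ∑ g : {g : E × Fin 3 // D.par g.1 = true}, (fr g.1 - fL (q g.1))
      = ∑ g, hubT (D.par g.1) (iH g) (fr g) (fr (g.1, g.2 + 2)) (fo g.1) (q g) := by
    have e1 : ∑ g : {g : E × Fin 3 // D.par g.1 = true}, (fr g.1 - fL (q g.1))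
        = ∑ g : E × Fin 3, (if D.par g.1 = true then fr g - fL (q g) else 0) := by
      rw [← Finset.sum_filter, ← Finset.sum_subtype_eq_sum_filter, Finset.subtype_univ]
    rw [e1, ← Finset.sum_add_distrib]
    apply Finset.sum_congr rfl
    intro g _
    by_cases hp : D.par g.1 = true
    · simp only [vH, srcH, tgtH, hubT, hp, if_true]
      rcases fin3_cases (iH g) with h | h | h <;> rw [h] <;> simp [φ, q]
    · simp only [vH, srcH, tgtH, hubT, hp]
      rcases fin3_cases (iH g) with h | h | h <;> rw [h] <;> simp [φ, q]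
  -- (7)
  have h7 : ∑ e, goalv (D.par e) (x0 e) (x1 e) (x2 e) (p (e, 0)) (p (e, 1)) (p (e, 2))
        (q (e, 0)) (q (e, 1)) (q (e, 2))
      ≤ ∑ g : E × Fin 3, (ind (!(p g)) * (1 - fr g)
        + hubT (D.par g.1) (iH g) (fr g) (fr (g.1, g.2 + 2)) (fo g.1) (q g)) := by
    rw [Fintype.sum_prod_type]
    apply Finset.sum_le_sum
    intro e _
    rw [Fin.sum_univ_three]
    refine le_trans (hx' e) (le_of_eq ?_)
    have a1 : ((1 : Fin 3) + 2) = 0 := by decide
    have a2 : ((2 : Fin 3) + 2) = 1 := by decide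
    have a3 : ((0 : Fin 3) + 2) = 2 := by decide
    have b1 : ((1 : Fin 3) + 1) = 2 := by decide
    have b2 : ((2 : Fin 3) + 1) = 0 := by decide
    have b3 : ((0 : Fin 3) + 1) = 1 := by decide
    by_cases hp : D.par e = true
    · rw [if_pos hp]
      simp only [a1, a2, a3, hp]
      rw [← eq_odd (iH (e, 0)) (iH (e, 1)) (iH (e, 2)) (p (e, 0)) (p (e, 1)) (p (e, 2)) (q (e, 0))
        (q (e, 1)) (q (e, 2)) (fr (e, 0)) (fr (e, 1)) (fr (e, 2)) (fo e)]
      · simp only [fr, co, hp, if_true, b3]; exact sign_mul' _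
      · simp only [fr, co, hp, if_true, b1]; exact sign_mul' _
      · simp only [fr, co, hp, if_true, b2]; exact sign_mul' _
      · exact sign_mul' _
    · rw [if_neg hp]
      rw [Bool.not_eq_true] at hp
      simp only [a1, a2, a3, hp]
      rw [← eq_even (iH (e, 0)) (iH (e, 1)) (iH (e, 2)) (p (e, 0)) (p (e, 1)) (p (e, 2)) (q (e, 0))
        (q (e, 1)) (q (e, 2)) (fr (e, 0)) (fr (e, 1)) (fr (e, 2)) (fo e)]
      · simp only [fr, co, hp, Bool.false_eq_true, if_false, b3]; exact sign_mul' _
      · simp only [fr, co, hp, Bool.false_eq_true, if_false, b1]; exact sign_mul' _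
      · simp only [fr, co, hp, Bool.false_eq_true, if_false, b2]; exact sign_mul' _
      · exact sign_mul' _
  -- (8)
  have hxx0 : ∀ e, x (e, 0) = x0 e := fun e => by simp [x]
  have hxx1 : ∀ e, x (e, 1) = x1 e := fun e => by simp [x]
  have hxx2 : ∀ e, x (e, 2) = x2 e := fun e => by simp [x]
  have h8 : ∑ e, goalv (D.par e) (x0 e) (x1 e) (x2 e) (p (e, 0)) (p (e, 1)) (p (e, 2))
        (q (e, 0)) (q (e, 1)) (q (e, 2))
      = 2 * (∑ g : E × Fin 3, (rise (p g) (x g) : ℤ)) + 2 * (∑ g : E × Fin 3, (rise (x g) (q g) : ℤ))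
        + 2 * (D.uns x : ℤ) := by
    have e1 : (D.uns x : ℤ)
        = ∑ e, ind (xor (x0 e) (xor (x1 e) (x2 e)) != D.par e) := by
      unfold uns
      rw [Finset.card_filter]
      push_cast
      apply Finset.sum_congr rfl
      intro e _
      rw [hxx0, hxx1, hxx2]
      simp only [ind]
    rw [e1, Fintype.sum_prod_type, Fintype.sum_prod_type]
    rw [Finset.mul_sum, Finset.mul_sum, Finset.mul_sum, ← Finset.sum_add_distrib,
      ← Finset.sum_add_distrib]
    apply Finset.sum_congr rfl
    intro e _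
    rw [Fin.sum_univ_three, Fin.sum_univ_three, hxx0, hxx1, hxx2]
    unfold goalv
    push_cast
    ring
  -- (9)
  have h9 : (rises0 D.nxt m x : ℤ) = ∑ g : E × Fin 3, (rise (x g) (q g) : ℤ)
      + ((∑ g : E × Fin 3, ∑ j : Fin β, rise (m (g, j.castSucc)) (m (g, j.succ)) : ℕ) : ℤ)
      + ∑ g : E × Fin 3, (rise (p g) (x g) : ℤ) := by
    unfold rises0
    push_cast
    rw [Finset.sum_add_distrib, Finset.sum_add_distrib]
    congr 1
    rw [← Equiv.sum_comp D.nxt (fun g => (rise (p g) (x g) : ℤ))]
    simp only [Equiv.symm_apply_apply, p]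
  -- final
  have hcost : (D.cost : ℤ) = 4 * (Fintype.card ((E × Fin 3) × Fin (β + 1)) : ℤ)
      + 5 * (Fintype.card (E × Fin 3) : ℤ)
      + (Fintype.card {c : E × Fin 3 // D.par c.1 = true} : ℤ)
      + (Fintype.card {e : E // D.par e = false} : ℤ) := by
    unfold cost; push_cast; ring
  rw [h1, h2] at hmain
  simp only [Finset.sum_add_distrib, Finset.sum_const, Finset.card_univ, nsmul_eq_mul] at hmain h3 h7
  have hz : ((D.cost + rises0 D.nxt m x + rises1 D.n1 m + D.uns x : ℕ) : ℤ)
      ≤ ((T.length + 5 * (univ.filter (fun b => D.Bad b)).card : ℕ) : ℤ) := by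
    push_cast
    linarith only [h4, h5, h6, h8, h9, hcost, hmain, h3, h7]
  exact_mod_cast hz

end Data

end Vale.Agent.P333
end
end
end

section

section

section

/-!
Upper bound: an assignment gives a short common superstring of the block system (P333).
-/

namespace Vale.Agent.P333

open Finset

namespace Data

variable {E : Type} {β : ℕ} (D : Data E β)

theorem open_infix (w w' : D.WF) (h : D.blk w' = D.blk w) : D.str w' <:+: D.openS w := by
  rcases w with ⟨b, y⟩ | ⟨c, i⟩ | c | e
  · rcases w' with ⟨b', y'⟩ | ⟨c', i'⟩ | c' | e'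
    · have hb : b' = b := Sum.inl.inj h
      subst hb
      cases y <;> cases y'
      · exact ⟨[], [D.endL b'.1], rfl⟩
      · exact ⟨[Letter.L b'.1, D.endL b'.1], [], rfl⟩
      · exact ⟨[Letter.L (D.n1.symm b'.1)], [], rfl⟩
      · exact ⟨[], [Letter.L (D.n1.symm b'.1), Letter.L b'.1], rfl⟩
    · cases h
    · cases h
    · cases h
  · rcases w' with ⟨b', y'⟩ | ⟨c', i'⟩ | c' | e'
    · cases h
    · have hb : c' = c := Sum.inl.inj (Sum.inr.inj h)
      subst hb
      simp only [openS, openH, str, strH]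
      by_cases h : D.par c'.1 = true
      · simp only [h, if_true]
        rcases fin3_cases i with rfl | rfl | rfl <;> rcases fin3_cases i' with rfl | rfl | rfl <;>
          first
            | exact ⟨[], _, rfl⟩
            | exact ⟨[_], _, rfl⟩
            | exact ⟨[_, _], _, rfl⟩
            | exact ⟨[_, _, _], _, rfl⟩
      · simp only [h]
        rcases fin3_cases i with rfl | rfl | rfl <;> rcases fin3_cases i' with rfl | rfl | rfl <;>
          first
            | exact ⟨[], _, rfl⟩
            | exact ⟨[_], _, rfl⟩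
            | exact ⟨[_, _], _, rfl⟩
            | exact ⟨[_, _, _], _, rfl⟩
    · cases h
    · cases h
  · rcases w' with ⟨b', y'⟩ | ⟨c', i'⟩ | c' | e'
    · cases h
    · cases h
    · have hb : c' = c := Sum.inl.inj (Sum.inr.inj (Sum.inr.inj h))
      subst hb; exact List.infix_rfl
    · cases h
  · rcases w' with ⟨b', y'⟩ | ⟨c', i'⟩ | c' | e'
    · cases h
    · cases h
    · cases h
    · have hb : e' = e := Sum.inr.inj (Sum.inr.inj (Sum.inr.inj h))
      subst hb; exact List.infix_rfl

theorem open_head (w : D.WF) : (D.openS w).head? = some (D.src w) := by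
  rcases w with ⟨b, y⟩ | ⟨c, i⟩ | c | e
  · cases y <;> rfl
  · simp only [openS, openH, src, srcH]
    by_cases h : D.par c.1 = true
    · simp only [h, if_true]; rcases fin3_cases i with rfl | rfl | rfl <;> rfl
    · simp only [h]; rcases fin3_cases i with rfl | rfl | rfl <;> rfl
  · rfl
  · rfl

theorem open_last (w : D.WF) : (D.openS w).getLast? = some (D.tgt w) := by
  rcases w with ⟨b, y⟩ | ⟨c, i⟩ | c | e
  · cases y <;> rfl
  · simp only [openS, openH, tgt, tgtH]
    by_cases h : D.par c.1 = true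
    · simp only [h, if_true]; rcases fin3_cases i with rfl | rfl | rfl <;> rfl
    · simp only [h]; rcases fin3_cases i with rfl | rfl | rfl <;> rfl
  · rfl
  · rfl

theorem open_len (w : D.WF) : (D.openS w).length = D.wt (D.blk w) + 1 := by
  rcases w with ⟨b, y⟩ | ⟨c, i⟩ | c | e
  · cases y <;> rfl
  · simp only [openS, openH, wt, blk]
    by_cases h : D.par c.1 = true
    · simp only [h, if_true]; rcases fin3_cases i with rfl | rfl | rfl <;> rfl
    · simp only [h]; rcases fin3_cases i with rfl | rfl | rfl <;> rfl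
  · rfl
  · rfl

/-- first member of an active pair -/
def isF (A : Fin 3 → Bool) (i : Fin 3) : Bool :=
  A i && ((A (i + 1) && !(A (i + 2))) || (A (i + 1) && A (i + 2) && decide (i = 0)))

/-- second member of an active pair -/
def isS (A : Fin 3 → Bool) (i : Fin 3) : Bool :=
  A i && ((A (i + 2) && !(A (i + 1))) || (A (i + 1) && A (i + 2) && decide (i = 1)))

/-- single active contact -/
def isA (A : Fin 3 → Bool) (i : Fin 3) : Bool := A i && !(isF A i) && !(isS A i)

def ch (par : Bool) (A : Fin 3 → Bool) (i : Fin 3) : Fin 3 :=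
  if A i = false then 0 else
    if isF A i = true then (if par = true then 1 else 2) else
      if isS A i = true then (if par = true then 2 else 1) else 1

theorem fact1 : ∀ (A : Fin 3 → Bool) (i : Fin 3), isF A i = true →
    A i = true ∧ A (i + 1) = true ∧ isF A (i + 1) = false ∧ isS A (i + 1) = true := by
  decide

theorem fact2 : ∀ (A : Fin 3 → Bool) (i : Fin 3), isS A i = true → isF A (i + 2) = true := by
  decide

/-- weight of the equation part -/
def we (par : Bool) (A : Fin 3 → Bool) (i : Fin 3) : ℕ :=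
  (if par = true ∧ A i = false then 6 else 0) + (if isF A i = true then 10 else 0)
    + (if isA A i = true then 5 else 0)

def pw (par : Bool) : ℕ := if par = true then 1 else 5

theorem fact3 : ∀ (par : Bool) (A : Fin 3 → Bool),
    ((if (A 0 != par) = false then pw par else 0) + we par A 0)
    + ((if (A 1 != par) = false then pw par else 0) + we par A 1)
    + ((if (A 2 != par) = false then pw par else 0) + we par A 2)
      = 15 + 3 * (if par = true then 1 else 0) := by
  decide

theorem fact4 : ∀ (par : Bool) (A : Fin 3 → Bool),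
    (if isA A 0 = true then 1 else 0) + (if isA A 1 = true then 1 else 0)
      + (if isA A 2 = true then 1 else 0)
      = (if (xor (A 0 != par) (xor (A 1 != par) (A 2 != par)) != par) = true then 1 else 0) := by
  (clear * -; decide)

section upper

variable [Fintype E] [DecidableEq E] {V : Type} [Fintype V] [DecidableEq V]
  (var : E × Fin 3 → V) (a : V → Bool)

set_option linter.unusedSectionVars false

/-- active contacts -/
def act (e : E) (i : Fin 3) : Bool := (a (var (e, i)) != D.par e)

/-- the choice of the openings -/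
def cc : D.BF → D.WF
  | Sum.inl b => Sum.inl (b, a (var b.1.1))
  | Sum.inr (Sum.inl g) => Sum.inr (Sum.inl (g, ch (D.par g.1) (D.act var a g.1) g.2))
  | Sum.inr (Sum.inr (Sum.inl g)) => Sum.inr (Sum.inr (Sum.inl g))
  | Sum.inr (Sum.inr (Sum.inr e)) => Sum.inr (Sum.inr (Sum.inr e))

theorem blk_cc (b : D.BF) : D.blk (D.cc var a b) = b := by
  rcases b with b | g | g | e <;> rfl

def bV (b : (E × Fin 3) × Fin (β + 1)) : D.BF := Sum.inl ⟨b, trivial⟩
def bH (g : E × Fin 3) : D.BF := Sum.inr (Sum.inl g)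
def bF (g : {g : E × Fin 3 // D.par g.1 = true}) : D.BF := Sum.inr (Sum.inr (Sum.inl g))
def bK (e : {e : E // D.par e = false}) : D.BF := Sum.inr (Sum.inr (Sum.inr e))

/-- the piece of a contact in the 0-chain -/
def piece (g : E × Fin 3) : D.BF := if h : D.par g.1 = true then D.bF ⟨g, h⟩ else D.bH g

/-- visited blocks -/
def X0 : D.BF → Prop
  | Sum.inl _ => True
  | Sum.inr (Sum.inl g) => D.par g.1 = false ∧ a (var g) = false
  | Sum.inr (Sum.inr (Sum.inl g)) => a (var g.1) = false
  | Sum.inr (Sum.inr (Sum.inr _)) => True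

def trV (sl : V → List (E × Fin 3)) (bl : V → List ((E × Fin 3) × Fin (β + 1))) (v : V) :
    List D.BF :=
  if a v = true then (bl v).map D.bV
  else ((sl v).map (fun g => D.piece g :: List.ofFn (fun j : Fin (β + 1) => D.bV (g, j)))).flatten

theorem trV_chain (sl : V → List (E × Fin 3)) (bl : V → List ((E × Fin 3) × Fin (β + 1)))
    (hsl : ∀ v, List.IsChain (fun g g' => D.nxt g = g') (sl v))
    (hslm : ∀ v g, g ∈ sl v ↔ var g = v)
    (hbl : ∀ v, List.IsChain (fun b b' => D.n1 b = b') (bl v))
    (hblm : ∀ v b, b ∈ bl v ↔ var b.1 = v) (v : V) :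
    List.IsChain (fun x y => D.tgt (D.cc var a x) = D.src (D.cc var a y)) (D.trV a sl bl v) := by
  unfold trV
  by_cases hv : a v = true
  · rw [if_pos hv, List.isChain_map]
    rw [List.isChain_iff_getElem]
    have h1 := hbl v
    rw [List.isChain_iff_getElem] at h1
    intro i hi
    have h2 := h1 i hi
    have m1 : (bl v)[i] ∈ bl v := List.getElem_mem _
    have m2 : (bl v)[i + 1] ∈ bl v := List.getElem_mem _
    rw [hblm] at m1 m2
    simp only [tgt, cc, bV, src]
    rw [m1, m2, hv]
    simp only [tgtV, srcV]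
    rw [← h2]; simp
  · rw [if_neg hv]
    rw [Bool.not_eq_true] at hv
    rw [List.isChain_flatten (by simp only [List.ofFn_succ, List.mem_map, reduceCtorEq, and_false, exists_false, not_false_eq_true])]
    have hpt : ∀ g, var g = v → D.tgt (D.cc var a (D.piece g)) = Letter.L (g, 0)
        ∧ D.src (D.cc var a (D.piece g)) = Letter.r g := by
      intro g hg
      unfold piece
      by_cases hp : D.par g.1 = true
      · rw [dif_pos hp]; exact ⟨rfl, rfl⟩
      · rw [dif_neg hp]
        rw [Bool.not_eq_true] at hp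
        simp [bH, cc, tgt, src, ch, act, hg, hv, hp, tgtH, srcH]
    constructor
    · intro l hl
      obtain ⟨g, hg, rfl⟩ := List.mem_map.1 hl
      rw [hslm] at hg
      rw [List.isChain_cons]
      constructor
      · intro y hy
        rw [List.ofFn_succ] at hy
        have : y = D.bV (g, 0) := by simpa using hy.symm
        subst this
        rw [(hpt g hg).1]
        simp [bV, cc, src, srcV, hg, hv]
      · rw [List.isChain_ofFn]
        intro i hi
        simp only [bV, cc, src, tgt, hg, hv, tgtV, srcV, endL]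
        rw [if_pos (by simpa only [Order.lt_add_one_iff, Order.add_one_le_iff] using hi), s0_lt _ _ (by simpa only [Order.lt_add_one_iff, Order.add_one_le_iff] using hi)]
    · rw [List.isChain_map]
      rw [List.isChain_iff_getElem]
      have h1 := hsl v
      rw [List.isChain_iff_getElem] at h1
      intro i hi
      have h2 := h1 i hi
      have m1 : (sl v)[i] ∈ sl v := List.getElem_mem _
      have m2 : (sl v)[i + 1] ∈ sl v := List.getElem_mem _
      rw [hslm] at m1 m2
      intro x hx y hy
      have hy' : y = D.piece (sl v)[i + 1] := by simpa using hy.symm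
      have hx' : x = D.bV ((sl v)[i], Fin.last β) := by
        rw [List.ofFn_succ', List.concat_eq_append, ← List.cons_append,
          List.getLast?_concat] at hx
        simpa using hx.symm
      rw [hy', (hpt _ m2).2, hx']
      simp only [bV, cc, tgt, m1, hv, tgtV, endL]
      rw [if_neg (by simp), h2]

theorem sum_list_fiber {X M : Type*} [Fintype X] [DecidableEq X] [AddCommMonoid M] {V : Type*}
    [DecidableEq V] (vr : X → V) (l : List X) (v : V)
    (hn : l.Nodup) (hm : ∀ x, x ∈ l ↔ vr x = v) (f : X → M) :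
    (l.map f).sum = ∑ x ∈ univ.filter (fun x => vr x = v), f x := by
  rw [← List.sum_toFinset f hn]
  apply Finset.sum_congr
  · ext x; simp only [List.mem_toFinset, hm, mem_filter, mem_univ, true_and]
  · intros; rfl

theorem trV_weight (sl : V → List (E × Fin 3)) (bl : V → List ((E × Fin 3) × Fin (β + 1)))
    (hsln : ∀ v, (sl v).Nodup) (hslm : ∀ v g, g ∈ sl v ↔ var g = v)
    (hbln : ∀ v, (bl v).Nodup) (hblm : ∀ v b, b ∈ bl v ↔ var b.1 = v) (v : V) :
    ((D.trV a sl bl v).map D.wt).sum
      = ∑ g ∈ univ.filter (fun g => var g = v),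
        (4 * (β + 1) + (if a (var g) = false then pw (D.par g.1) else 0)) := by
  unfold trV
  by_cases hv : a v = true
  · rw [if_pos hv, List.map_map]
    rw [sum_list_fiber (fun b : (E × Fin 3) × Fin (β + 1) => var b.1) (bl v) v (hbln v)
      (fun x => hblm v x)]
    have h1 : (univ.filter (fun b : (E × Fin 3) × Fin (β + 1) => var b.1 = v))
        = (univ.filter (fun g => var g = v)) ×ˢ (univ : Finset (Fin (β + 1))) := by
      ext b; simp only [mem_filter, mem_univ, true_and, mem_product, and_true]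
    rw [h1, Finset.sum_product]
    apply Finset.sum_congr rfl
    intro g hg
    have hg' : var g = v := by simpa only [mem_filter, mem_univ, true_and] using hg
    have h2 : ∀ j : Fin (β + 1), (D.wt ∘ D.bV) (g, j) = 4 := fun j => rfl
    rw [Finset.sum_congr rfl (fun j _ => h2 j), hg', hv]
    simp [mul_comm]
  · rw [if_neg hv]
    rw [Bool.not_eq_true] at hv
    rw [List.map_flatten, List.sum_flatten, List.map_map, List.map_map]
    rw [sum_list_fiber var (sl v) v (hsln v) (fun x => hslm v x)]
    apply Finset.sum_congr rfl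
    intro g hg
    have hg' : var g = v := by simpa only [mem_filter, mem_univ, true_and] using hg
    rw [hg', hv]
    simp only [Function.comp, List.map_cons, List.sum_cons, List.map_ofFn, List.sum_ofFn]
    have h2 : ∀ j : Fin (β + 1), D.wt (D.bV (g, j)) = 4 := fun j => rfl
    have h3 : D.wt (D.piece g) = pw (D.par g.1) := by
      unfold piece pw
      by_cases hp : D.par g.1 = true
      · rw [dif_pos hp, if_pos hp]; rfl
      · rw [dif_neg hp, if_neg hp]; rfl
    rw [h3, Finset.sum_congr rfl (fun j _ => h2 j)]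
    simp only [sum_const, card_univ, Fintype.card_fin, smul_eq_mul, add_comm, mul_comm, ↓reduceIte, Nat.add_left_cancel_iff]

/-- closed trails of an equation -/
def zi (e : E) (i : Fin 3) : List (List D.BF) :=
  (if h : D.par e = true ∧ D.act var a e i = false then
    [[D.bH (e, i), D.bF ⟨(e, i), h.1⟩]] else [])
  ++ (if isF (D.act var a e) i = true then [[D.bH (e, i), D.bH (e, i + 1)]] else [])

/-- open trails of an equation -/
def wi (e : E) (i : Fin 3) : List (List D.BF) :=
  if isA (D.act var a e) i = true then [[D.bH (e, i)]] else []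

theorem zi_wi_weight (e : E) (i : Fin 3) :
    ((D.zi var a e i).flatten.map D.wt).sum + ((D.wi var a e i).flatten.map D.wt).sum
      = we (D.par e) (D.act var a e) i := by
  have w1 : ∀ g, D.wt (D.bH g) = 5 := fun _ => rfl
  have w2 : ∀ g, D.wt (D.bF g) = 1 := fun _ => rfl
  unfold zi wi we
  by_cases h1 : D.par e = true ∧ D.act var a e i = false
  · rw [dif_pos h1, if_pos h1]
    by_cases h2 : isF (D.act var a e) i = true <;> by_cases h3 : isA (D.act var a e) i = true <;>
      simp [h2, h3, w1, w2]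
  · rw [dif_neg h1, if_neg h1]
    by_cases h2 : isF (D.act var a e) i = true <;> by_cases h3 : isA (D.act var a e) i = true <;>
      simp [h2, h3, w1]

theorem zi_closed (hv1 : ∀ b, var (D.n1 b).1 = var b.1) (e : E) (i : Fin 3) :
    ∀ z ∈ D.zi var a e i,
      List.IsChain (fun x y => D.tgt (D.cc var a x) = D.src (D.cc var a y)) z ∧
      ∃ l : Letter E β, (∀ b ∈ z.head?, D.src (D.cc var a b) = l) ∧
        (∀ b ∈ z.getLast?, D.tgt (D.cc var a b) = l) ∧
        ∃ b, D.X0 var a b ∧ D.src (D.cc var a b) = l := by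
  intro z hz
  unfold zi at hz
  rw [List.mem_append] at hz
  rcases hz with hz | hz
  · by_cases h : D.par e = true ∧ D.act var a e i = false
    · rw [dif_pos h] at hz
      have hz' : z = [D.bH (e, i), D.bF ⟨(e, i), h.1⟩] := by simpa using hz
      subst hz'
      have ha : a (var (e, i)) = true := by
        have h2 := h.2
        unfold act at h2
        rw [h.1] at h2
        cases hh : a (var (e, i))
        · rw [hh] at h2; simp at h2
        · rfl
      refine ⟨?_, Letter.L ((e, i), 0), ?_, ?_, D.bV (D.n1 ((e, i), 0)), trivial, ?_⟩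
      · rw [List.isChain_pair]
        simp [bH, bF, cc, tgt, src, ch, h.1, h.2, tgtH]
      · intro b hb
        have : b = D.bH (e, i) := by simpa using hb.symm
        subst this
        simp [bH, cc, src, ch, h.1, h.2, srcH]
      · intro b hb
        have : b = D.bF ⟨(e, i), h.1⟩ := by simpa using hb.symm
        subst this
        rfl
      · simp only [bV, cc, src, hv1, ha, srcV]
        simp
    · rw [dif_neg h] at hz; simp at hz
  · by_cases h : isF (D.act var a e) i = true
    · rw [if_pos h] at hz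
      have hz' : z = [D.bH (e, i), D.bH (e, i + 1)] := by simpa using hz
      subst hz'
      obtain ⟨f1, f2, f3, f4⟩ := fact1 _ _ h
      have hi : i + 1 + 2 = i := by
        rcases fin3_cases i with rfl | rfl | rfl <;> decide
      by_cases hp : D.par e = true
      · have c1 : D.cc var a (D.bH (e, i)) = Sum.inr (Sum.inl ((e, i), 1)) := by
          simp [bH, cc, ch, f1, h, hp]
        have c2 : D.cc var a (D.bH (e, i + 1)) = Sum.inr (Sum.inl ((e, i + 1), 2)) := by
          simp [bH, cc, ch, f2, f3, f4, hp]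
        have ha : a (var (e, i)) = false := by
          unfold act at f1
          rw [hp] at f1
          cases hh : a (var (e, i))
          · rfl
          · rw [hh] at f1; simp at f1
        refine ⟨?_, Letter.r (e, i), ?_, ?_, D.bF ⟨(e, i), hp⟩, ha, rfl⟩
        · rw [List.isChain_pair, c1, c2]
          simp [tgt, src, tgtH, srcH, hp]
        · intro b hb
          have : b = D.bH (e, i) := by simpa using hb.symm
          subst this
          rw [c1]; simp [src, srcH, hp]
        · intro b hb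
          have : b = D.bH (e, i + 1) := by simpa using hb.symm
          subst this
          rw [c2]; simp [tgt, tgtH, hp, hi]
      · rw [Bool.not_eq_true] at hp
        have c1 : D.cc var a (D.bH (e, i)) = Sum.inr (Sum.inl ((e, i), 2)) := by
          simp [bH, cc, ch, f1, h, hp]
        have c2 : D.cc var a (D.bH (e, i + 1)) = Sum.inr (Sum.inl ((e, i + 1), 1)) := by
          simp [bH, cc, ch, f2, f3, f4, hp]
        refine ⟨?_, Letter.o e, ?_, ?_, D.bK ⟨e, hp⟩, trivial, rfl⟩
        · rw [List.isChain_pair, c1, c2]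
          simp [tgt, src, tgtH, srcH, hp, hi]
        · intro b hb
          have : b = D.bH (e, i) := by simpa using hb.symm
          subst this
          rw [c1]; simp [src, srcH, hp]
        · intro b hb
          have : b = D.bH (e, i + 1) := by simpa using hb.symm
          subst this
          rw [c2]; simp [tgt, tgtH, hp]
    · rw [if_neg h] at hz; simp at hz

/-- The main upper bound. -/
theorem upper (sl : V → List (E × Fin 3)) (bl : V → List ((E × Fin 3) × Fin (β + 1)))
    (kl : List {e : E // D.par e = false})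
    (hsln : ∀ v, (sl v).Nodup) (hslm : ∀ v g, g ∈ sl v ↔ var g = v)
    (hsl : ∀ v, List.IsChain (fun g g' => D.nxt g = g') (sl v))
    (hbln : ∀ v, (bl v).Nodup) (hblm : ∀ v b, b ∈ bl v ↔ var b.1 = v)
    (hbl : ∀ v, List.IsChain (fun b b' => D.n1 b = b') (bl v))
    (hkln : kl.Nodup) (hklm : ∀ e, e ∈ kl) (hkl : List.IsChain (fun e e' => D.tr e = e') kl)
    (hv1 : ∀ b, var (D.n1 b).1 = var b.1) (a : V → Bool) :
    ∃ T : List (Letter E β), (∀ w : D.WF, D.str w <:+: T) ∧
      T.length ≤ D.cost + (Fintype.card V + 1 + D.uns (fun g => a (var g))) := by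
  classical
  let s : D.BF → Letter E β := fun b => D.src (D.cc var a b)
  let t : D.BF → Letter E β := fun b => D.tgt (D.cc var a b)
  let O : D.BF → List (Letter E β) := fun b => D.openS (D.cc var a b)
  have hOlen : ∀ b, (O b).length = D.wt b + 1 := by
    intro b
    show (D.openS (D.cc var a b)).length = _
    rw [D.open_len, D.blk_cc]
  have hwt : (fun b => (O b).length - 1) = D.wt := by
    funext b; rw [hOlen]; rfl
  have hwt1 : ∀ b, 1 ≤ D.wt b := by
    rintro (b | g | g | e) <;> simp [wt]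
  -- base covering
  let Lb : List (List D.BF) := (univ : Finset V).toList.map (D.trV a sl bl) ++ [kl.map D.bK]
  have hbase : Cov s t D.wt (D.X0 var a)
      ((∑ g : E × Fin 3, (4 * (β + 1) + (if a (var g) = false then pw (D.par g.1) else 0)))
        + Fintype.card {e : E // D.par e = false}) (Fintype.card V + 1) := by
    refine ⟨Lb, ?_, ?_, ?_, ?_⟩
    · simp only [List.length_append, List.length_map, length_toList, card_univ, List.length_cons, List.length_nil, zero_add, Std.le_refl, Lb]
    · intro l hl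
      simp only [Lb, List.mem_append, List.mem_map, List.mem_singleton] at hl
      rcases hl with ⟨v, _, rfl⟩ | rfl
      · exact D.trV_chain var a sl bl hsl hslm hbl hblm v
      · rw [List.isChain_map]
        refine hkl.imp (fun e e' h => ?_)
        show (Letter.o (D.tr e).1 : Letter E β) = Letter.o e'.1
        rw [h]
    · intro b hb
      rw [List.mem_flatten]
      rcases b with b | g | g | e
      · refine ⟨D.trV a sl bl (var b.1.1), ?_, ?_⟩
        · simp only [List.mem_append, List.mem_map, mem_toList, mem_univ, true_and, exists_apply_eq_apply, List.mem_cons, List.not_mem_nil, or_false, true_or, Lb]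
        · unfold trV
          by_cases hv : a (var b.1.1) = true
          · rw [if_pos hv]
            exact List.mem_map.2 ⟨b.1, (hblm _ _).2 rfl, rfl⟩
          · rw [if_neg hv, List.mem_flatten]
            refine ⟨_, List.mem_map.2 ⟨b.1.1, (hslm _ _).2 rfl, rfl⟩, ?_⟩
            rw [List.mem_cons]; right
            rw [List.mem_ofFn]
            exact ⟨b.1.2, rfl⟩
      · refine ⟨D.trV a sl bl (var g), ?_, ?_⟩
        · simp only [List.mem_append, List.mem_map, mem_toList, mem_univ, true_and, exists_apply_eq_apply, List.mem_cons, List.not_mem_nil, or_false, true_or, Lb]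
        · unfold trV
          have hb' : D.par g.1 = false ∧ a (var g) = false := hb
          rw [if_neg (by rw [hb'.2]; simp), List.mem_flatten]
          refine ⟨_, List.mem_map.2 ⟨g, (hslm _ _).2 rfl, rfl⟩, ?_⟩
          rw [List.mem_cons]; left
          unfold piece
          rw [dif_neg (by rw [hb'.1]; simp)]
          rfl
      · refine ⟨D.trV a sl bl (var g.1), ?_, ?_⟩
        · simp only [List.mem_append, List.mem_map, mem_toList, mem_univ, true_and, exists_apply_eq_apply, List.mem_cons, List.not_mem_nil, or_false, true_or, Lb]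
        · unfold trV
          have hb' : a (var g.1) = false := hb
          rw [if_neg (by rw [hb']; simp), List.mem_flatten]
          refine ⟨_, List.mem_map.2 ⟨g.1, (hslm _ _).2 rfl, rfl⟩, ?_⟩
          rw [List.mem_cons]; left
          unfold piece
          rw [dif_pos g.2]
          rfl
      · refine ⟨kl.map D.bK, ?_, ?_⟩
        · simp only [List.mem_append, List.mem_map, mem_toList, mem_univ, true_and, List.mem_cons, List.not_mem_nil, or_false, or_true, Lb]
        · exact List.mem_map.2 ⟨e, hklm e, rfl⟩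
    · simp only [Lb]
      rw [List.flatten_append, List.map_append, List.sum_append, List.flatten_singleton]
      have h1 : (((univ : Finset V).toList.map (D.trV a sl bl)).flatten.map D.wt).sum
          = ∑ g : E × Fin 3, (4 * (β + 1) + (if a (var g) = false then pw (D.par g.1) else 0)) := by
        rw [List.map_flatten, List.sum_flatten, List.map_map, List.map_map,
          Finset.sum_map_toList]
        rw [← Finset.sum_fiberwise univ var]
        apply Finset.sum_congr rfl
        intro v _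
        exact D.trV_weight var a sl bl hsln hslm hbln hblm v
      have h2 : ((kl.map D.bK).map D.wt).sum = Fintype.card {e : E // D.par e = false} := by
        rw [List.map_map]
        have h3 : ∀ l : List {e : E // D.par e = false}, (l.map (D.wt ∘ D.bK)).sum = l.length := by
          intro l
          induction l with
          | nil => rfl
          | cons x l ih => rw [List.map_cons, List.sum_cons, ih]; simp [bK, wt, add_comm]
        rw [h3]
        have h4 : kl.toFinset = univ := by ext e; simp only [List.mem_toFinset, hklm, mem_univ]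
        rw [← List.toFinset_card_of_nodup hkln, h4, Finset.card_univ]
      rw [h1, h2]
  -- closed trails
  let pairs : List (E × Fin 3) := (univ : Finset (E × Fin 3)).toList
  let Z : List (List D.BF) := (pairs.map (fun g => D.zi var a g.1 g.2)).flatten
  let W : List (List D.BF) := (pairs.map (fun g => D.wi var a g.1 g.2)).flatten
  have hcov1 := cov_inserts (s := s) (t := t) (wt := D.wt) (D.X0 var a) Z hbase
    (fun b hb => hb) (by
      intro z hz
      obtain ⟨zz, hzz, hz'⟩ := List.mem_flatten.1 hz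
      obtain ⟨g, _, rfl⟩ := List.mem_map.1 hzz
      exact D.zi_closed var a hv1 g.1 g.2 z hz')
  have hcov2 := cov_adds (s := s) (t := t) (wt := D.wt) W hcov1 (by
      intro z hz
      obtain ⟨zz, hzz, hz'⟩ := List.mem_flatten.1 hz
      obtain ⟨g, _, rfl⟩ := List.mem_map.1 hzz
      unfold wi at hz'
      split_ifs at hz'
      · have : z = [D.bH (g.1, g.2)] := by simpa using hz'
        subst this; exact List.isChain_singleton _
      · simp at hz')
  have hZmem : ∀ g : E × Fin 3, ∀ z ∈ D.zi var a g.1 g.2, ∀ b ∈ z, b ∈ Z.flatten := by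
    intro g z hz b hb
    rw [List.mem_flatten]
    exact ⟨z, List.mem_flatten.2 ⟨_, List.mem_map.2 ⟨g, by simp only [mem_toList, mem_univ, pairs], rfl⟩, hz⟩, hb⟩
  have hWmem : ∀ g : E × Fin 3, ∀ z ∈ D.wi var a g.1 g.2, ∀ b ∈ z, b ∈ W.flatten := by
    intro g z hz b hb
    rw [List.mem_flatten]
    exact ⟨z, List.mem_flatten.2 ⟨_, List.mem_map.2 ⟨g, by simp only [mem_toList, mem_univ, pairs], rfl⟩, hz⟩, hb⟩
  have hall : ∀ b : D.BF, (D.X0 var a b ∨ b ∈ Z.flatten) ∨ b ∈ W.flatten := by
    rintro (b | g | g | e)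
    · exact Or.inl (Or.inl trivial)
    · cases hA : D.act var a g.1 g.2
      · by_cases hp : D.par g.1 = true
        · left; right
          apply hZmem g [D.bH (g.1, g.2), D.bF ⟨(g.1, g.2), hp⟩]
          · unfold zi; rw [dif_pos ⟨hp, hA⟩]; simp
          · simp [bH]
        · left; left
          rw [Bool.not_eq_true] at hp
          refine ⟨hp, ?_⟩
          unfold act at hA
          rw [hp] at hA
          cases hh : a (var g)
          · rfl
          · have : a (var (g.1, g.2)) = true := hh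
            rw [this] at hA; simp at hA
      · by_cases h1 : isF (D.act var a g.1) g.2 = true
        · left; right
          apply hZmem g [D.bH (g.1, g.2), D.bH (g.1, g.2 + 1)]
          · unfold zi; rw [if_pos h1]; simp only [Prod.mk.eta, Fin.isValue, List.mem_append, List.mem_dite_nil_right, List.mem_cons, List.cons.injEq, and_true, true_and, List.not_mem_nil, or_false, or_true]
          · simp [bH]
        · by_cases h2 : isS (D.act var a g.1) g.2 = true
          · left; right
            have h3 := fact2 _ _ h2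
            have hi : g.2 + 2 + 1 = g.2 := by
              rcases fin3_cases g.2 with h | h | h <;> rw [h] <;> decide
            apply hZmem (g.1, g.2 + 2) [D.bH (g.1, g.2 + 2), D.bH (g.1, g.2 + 2 + 1)]
            · unfold zi; rw [if_pos h3]; simp only [Fin.isValue, List.mem_append, List.mem_dite_nil_right, List.mem_cons, List.cons.injEq, and_true, true_and, List.not_mem_nil, or_false, or_true]
            · rw [hi]; simp [bH]
          · right
            apply hWmem g [D.bH (g.1, g.2)]
            · unfold wi isA; simp [hA, h1, h2]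
            · simp [bH]
    · cases ha : a (var g.1)
      · exact Or.inl (Or.inl ha)
      · left; right
        have hA : D.act var a g.1.1 g.1.2 = false := by
          unfold act
          have : a (var (g.1.1, g.1.2)) = true := ha
          rw [this, g.2]; rfl
        apply hZmem g.1 [D.bH (g.1.1, g.1.2), D.bF ⟨(g.1.1, g.1.2), g.2⟩]
        · unfold zi; rw [dif_pos ⟨g.2, hA⟩]; simp only [Prod.mk.eta, Subtype.coe_eta, Fin.isValue, List.cons_append, List.nil_append, List.mem_cons, List.mem_ite_nil_right, List.cons.injEq, and_true, true_and, List.not_mem_nil, or_false, true_or]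
        · simp [bF]
    · exact Or.inl (Or.inl trivial)
  -- weights
  have hZW : (Z.flatten.map D.wt).sum + (W.flatten.map D.wt).sum
      = ∑ g : E × Fin 3, we (D.par g.1) (D.act var a g.1) g.2 := by
    have key : ∀ l : List (E × Fin 3),
        (((l.map (fun g => D.zi var a g.1 g.2)).flatten).flatten.map D.wt).sum
        + (((l.map (fun g => D.wi var a g.1 g.2)).flatten).flatten.map D.wt).sum
        = (l.map (fun g => we (D.par g.1) (D.act var a g.1) g.2)).sum := by
      intro l
      induction l with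
      | nil => simp
      | cons g l ih =>
        simp only [List.map_cons, List.flatten_cons, List.flatten_append, List.map_append,
          List.sum_append, List.sum_cons]
        have := D.zi_wi_weight var a g.1 g.2
        omega
    rw [key]
    rw [Finset.sum_map_toList]
  have hWlen : W.length = D.uns (fun g => a (var g)) := by
    have key : ∀ l : List (E × Fin 3),
        ((l.map (fun g => D.wi var a g.1 g.2)).flatten).length
        = (l.map (fun g => if isA (D.act var a g.1) g.2 = true then 1 else 0)).sum := by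
      intro l
      induction l with
      | nil => rfl
      | cons g l ih =>
        rw [List.map_cons, List.flatten_cons, List.length_append, ih, List.map_cons, List.sum_cons]
        congr 1
        unfold wi
        split_ifs <;> rfl
    rw [key, Finset.sum_map_toList, Fintype.sum_prod_type]
    unfold uns
    rw [Finset.card_filter]
    apply Finset.sum_congr rfl
    intro e _
    rw [Fin.sum_univ_three]
    have h4 := fact4 (D.par e) (D.act var a e)
    have hx : ∀ i, (D.act var a e i != D.par e) = a (var (e, i)) := by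
      intro i; unfold act; cases a (var (e, i)) <;> cases D.par e <;> rfl
    rw [hx, hx, hx] at h4
    exact h4
  have htotal : (∑ g : E × Fin 3, (4 * (β + 1) + (if a (var g) = false then pw (D.par g.1) else 0)))
        + Fintype.card {e : E // D.par e = false}
        + ((Z.flatten.map D.wt).sum + (W.flatten.map D.wt).sum) = D.cost := by
    rw [hZW]
    unfold cost
    have h1 : ∑ g : E × Fin 3, (4 * (β + 1) + (if a (var g) = false then pw (D.par g.1) else 0))
        + ∑ g : E × Fin 3, we (D.par g.1) (D.act var a g.1) g.2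
        = 4 * Fintype.card ((E × Fin 3) × Fin (β + 1)) + 5 * Fintype.card (E × Fin 3)
          + Fintype.card {c : E × Fin 3 // D.par c.1 = true} := by
      rw [Finset.sum_add_distrib, add_assoc, ← Finset.sum_add_distrib]
      have e1 : ∑ g : E × Fin 3, 4 * (β + 1) = 4 * Fintype.card ((E × Fin 3) × Fin (β + 1)) := by
        rw [Fintype.card_prod (E × Fin 3) (Fin (β + 1)), Fintype.card_fin]
        simp only [sum_const, card_univ, Fintype.card_prod, Fintype.card_fin, smul_eq_mul]; ring
      have e2 : ∑ g : E × Fin 3, ((if a (var g) = false then pw (D.par g.1) else 0)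
            + we (D.par g.1) (D.act var a g.1) g.2)
          = 5 * Fintype.card (E × Fin 3) + Fintype.card {c : E × Fin 3 // D.par c.1 = true} := by
        have e3 : Fintype.card {c : E × Fin 3 // D.par c.1 = true}
            = ∑ e : E, 3 * (if D.par e = true then 1 else 0) := by
          rw [Fintype.card_subtype, Finset.card_filter, Fintype.sum_prod_type]
          apply Finset.sum_congr rfl
          intro e _
          by_cases hp : D.par e = true <;> simp [hp]
        have e4 : 5 * Fintype.card (E × Fin 3) = ∑ e : E, 15 := by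
          rw [Fintype.card_prod, Fintype.card_fin]
          simp only [sum_const, card_univ, smul_eq_mul]; ring
        rw [e3, e4, ← Finset.sum_add_distrib, Fintype.sum_prod_type]
        apply Finset.sum_congr rfl
        intro e _
        rw [Fin.sum_univ_three]
        have h4 := fact3 (D.par e) (D.act var a e)
        have hx : ∀ i, (D.act var a e i != D.par e) = a (var (e, i)) := by
          intro i; unfold act; cases a (var (e, i)) <;> cases D.par e <;> rfl
        rw [hx, hx, hx] at h4
        exact h4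
      rw [e1, e2]; ring
    omega
  have hcov3 : Cov s t (fun b => (O b).length - 1) (fun _ => True) D.cost
      (Fintype.card V + 1 + D.uns (fun g => a (var g))) := by
    rw [hwt]
    refine cov_mono hcov2 (fun b _ => hall b) ?_ ?_
    · omega
    · omega
  obtain ⟨T, hT, hTl⟩ := cov_super O s t (fun b => D.open_head _) (fun b => D.open_last _)
    (fun b => by rw [hOlen]; have := hwt1 b; omega) hcov3
  refine ⟨T, ?_, hTl⟩
  intro w
  refine (D.open_infix (D.cc var a (D.blk w)) w ?_).trans (hT (D.blk w))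
  rw [D.blk_cc]

end upper

end Data

end Vale.Agent.P333
end
end
end

section

section

section

/-!
The reduction from (replicated) E3-LIN2 systems with amplifiers (P333): both bounds.
-/

namespace Vale.Agent.P333

open Finset

theorem fin3_cases' (i : Fin 3) : i = 0 ∨ i = 1 ∨ i = 2 := by
  fin_cases i <;> simp

/-! ### cyclic rises are invariant under complement -/

theorem rise_sub (a b : Bool) : (rise a b : ℤ) - rise (!a) (!b) = ind b - ind a := by
  cases a <;> cases b <;> rfl

theorem rises1_compl {C : Type*} [Fintype C] {β : ℕ} (n1 : Equiv.Perm (C × Fin (β + 1)))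
    (m : C × Fin (β + 1) → Bool) : rises1 n1 (fun b => !(m b)) = rises1 n1 m := by
  have h : (rises1 n1 m : ℤ) - rises1 n1 (fun b => !(m b)) = 0 := by
    unfold rises1
    push_cast
    rw [← Finset.sum_sub_distrib]
    simp only [rise_sub]
    rw [Finset.sum_sub_distrib, Equiv.sum_comp n1 (fun b => ind (m b))]
    ring
  omega

theorem rises0_compl {C : Type*} [Fintype C] {β : ℕ} (nxt : Equiv.Perm C)
    (m : C × Fin (β + 1) → Bool) (x : C → Bool) :
    rises0 nxt (fun b => !(m b)) (fun c => !(x c)) = rises0 nxt m x := by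
  have h : (rises0 nxt m x : ℤ) - rises0 nxt (fun b => !(m b)) (fun c => !(x c)) = 0 := by
    unfold rises0
    push_cast
    rw [← Finset.sum_sub_distrib]
    have h1 : ∀ c : C, ((rise (x c) (m (c, 0)) : ℤ)
          + ∑ j : Fin β, (rise (m (c, j.castSucc)) (m (c, j.succ)) : ℤ)
          + (rise (m (c, Fin.last β)) (x (nxt c)) : ℤ))
        - ((rise (!(x c)) (!(m (c, 0))) : ℤ)
          + ∑ j : Fin β, (rise (!(m (c, j.castSucc))) (!(m (c, j.succ))) : ℤ)
          + (rise (!(m (c, Fin.last β))) (!(x (nxt c))) : ℤ)) = ind (x (nxt c)) - ind (x c) := by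
      intro c
      have h2 : ∑ j : Fin β, (rise (m (c, j.castSucc)) (m (c, j.succ)) : ℤ)
          - ∑ j : Fin β, (rise (!(m (c, j.castSucc))) (!(m (c, j.succ))) : ℤ)
          = ind (m (c, Fin.last β)) - ind (m (c, 0)) := by
        rw [← Finset.sum_sub_distrib]
        simp only [rise_sub]
        have key := Fin.sum_univ_castSucc (fun j : Fin (β + 1) => ind (m (c, j)))
        have key' := Fin.sum_univ_succ (fun j : Fin (β + 1) => ind (m (c, j)))
        rw [Finset.sum_sub_distrib]
        linarith only [key, key']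
      have h3 := rise_sub (x c) (m (c, 0))
      have h4 := rise_sub (m (c, Fin.last β)) (x (nxt c))
      linarith
    rw [Finset.sum_congr rfl (fun c _ => h1 c)]
    rw [Finset.sum_sub_distrib, Equiv.sum_comp nxt (fun c => ind (x c))]
    ring
  omega

/-! ### E3-LIN2 -/

/-- A system of linear equations `x (vr q 0) + x (vr q 1) + x (vr q 2) = rhs q` over GF(2). -/
def viol {Q V : Type*} (vr : Q → Fin 3 → V) (rhs : Q → Bool) (a : V → Bool) (q : Q) : Bool :=
  xor (a (vr q 0)) (xor (a (vr q 1)) (a (vr q 2))) != rhs q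

/-- Number of violated equations. -/
def nviol {Q V : Type*} [Fintype Q] (vr : Q → Fin 3 → V) (rhs : Q → Bool) (a : V → Bool) : ℕ :=
  (univ.filter (fun q => viol vr rhs a q = true)).card

section

variable {Q V : Type} [Fintype Q] [DecidableEq Q] [Fintype V] [DecidableEq V]
  (vr : Q → Fin 3 → V) (rhs : Q → Bool) (t : ℕ) (k : V → ℕ)
  (oc : ∀ v, Fin (k v) ≃ {p : Q × Fin 3 // vr p.1 p.2 = v})

/-- contacts, sorted by variables -/
def conEquiv : ((Q × Fin t) × Fin 3) ≃ Σ v, (Fin (k v) × Fin t) where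
  toFun g := ⟨vr g.1.1 g.2, ((oc (vr g.1.1 g.2)).symm ⟨(g.1.1, g.2), rfl⟩, g.1.2)⟩
  invFun s := (((oc s.1 s.2.1).1.1, s.2.2), (oc s.1 s.2.1).1.2)
  left_inv := by
    rintro ⟨⟨q, τ⟩, i⟩
    simp
  right_inv := by
    rintro ⟨v, i, τ⟩
    have h := (oc v i).2
    have : ∀ (v' : V) (hv : vr (oc v i).1.1 (oc v i).1.2 = v'),
        (⟨v', ((oc v').symm ⟨((oc v i).1.1, (oc v i).1.2), hv⟩, τ)⟩ : Σ v, (Fin (k v) × Fin t))
          = ⟨v, (i, τ)⟩ := by
      intro v' hv
      have hvv : v' = v := hv.symm.trans h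
      subst hvv
      simp
    exact this _ rfl

/-- blocks, sorted by variables -/
def blkEquiv (β : ℕ) : (((Q × Fin t) × Fin 3) × Fin (β + 1)) ≃
    Σ v, ((Fin (k v) × Fin t) × Fin (β + 1)) :=
  ((conEquiv vr t k oc).prodCongr (Equiv.refl _)).trans
    (Equiv.sigmaProdDistrib (fun v => Fin (k v) × Fin t) (Fin (β + 1)))

set_option linter.unusedSectionVars false

theorem blkEquiv_symm (β : ℕ) (v : V) (c : Fin (k v) × Fin t) (j : Fin (β + 1)) :
    (blkEquiv vr t k oc β).symm ⟨v, (c, j)⟩ = ((conEquiv vr t k oc).symm ⟨v, c⟩, j) := rfl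

variable {β : ℕ} (am0 : ∀ v, Equiv.Perm (Fin (k v) × Fin t))
  (am1 : ∀ v, Equiv.Perm ((Fin (k v) × Fin t) × Fin (β + 1)))
  (tr : Equiv.Perm {e : Q × Fin t // rhs e.1 = false})

/-- The data of the reduction. -/
def redData : Data (Q × Fin t) β where
  par e := rhs e.1
  nxt := (conEquiv vr t k oc).permCongr.symm (Equiv.sigmaCongrRight am0)
  n1 := (blkEquiv vr t k oc β).permCongr.symm (Equiv.sigmaCongrRight am1)
  tr := tr

theorem redData_nxt (v : V) (c : Fin (k v) × Fin t) :
    (redData vr rhs t k oc am0 am1 tr).nxt ((conEquiv vr t k oc).symm ⟨v, c⟩)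
      = (conEquiv vr t k oc).symm ⟨v, am0 v c⟩ := by
  simp [redData, Equiv.permCongr]

theorem redData_n1 (v : V) (c : Fin (k v) × Fin t) (j : Fin (β + 1)) :
    (redData vr rhs t k oc am0 am1 tr).n1 ((conEquiv vr t k oc).symm ⟨v, c⟩, j)
      = ((conEquiv vr t k oc).symm ⟨v, (am1 v (c, j)).1⟩, (am1 v (c, j)).2) := by
  rw [← blkEquiv_symm vr t k oc β v c j]
  simp only [redData, Equiv.permCongr]
  simp
  rfl

theorem redData_s0 (v : V) (c : Fin (k v) × Fin t) (j : Fin (β + 1)) :
    s0 (redData vr rhs t k oc am0 am1 tr).nxt ((conEquiv vr t k oc).symm ⟨v, c⟩, j)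
      = ((conEquiv vr t k oc).symm ⟨v, (s0 (am0 v) (c, j)).1⟩, (s0 (am0 v) (c, j)).2) := by
  unfold s0
  by_cases h : (j : ℕ) + 1 < β + 1
  · simp [h]
  · simp only [h, dif_neg, not_false_eq_true]
    rw [redData_nxt]

theorem sum_con {M : Type*} [AddCommMonoid M] (f : (Q × Fin t) × Fin 3 → M) :
    ∑ g, f g = ∑ v, ∑ c : Fin (k v) × Fin t, f ((conEquiv vr t k oc).symm ⟨v, c⟩) := by
  rw [← Equiv.sum_comp (conEquiv vr t k oc).symm, Fintype.sum_sigma]

theorem sum_blk {M : Type*} [AddCommMonoid M] (f : ((Q × Fin t) × Fin 3) × Fin (β + 1) → M) :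
    ∑ b, f b = ∑ v, ∑ b : (Fin (k v) × Fin t) × Fin (β + 1),
      f ((conEquiv vr t k oc).symm ⟨v, b.1⟩, b.2) := by
  rw [← Equiv.sum_comp (blkEquiv vr t k oc β).symm, Fintype.sum_sigma]
  rfl

variable (m : ((Q × Fin t) × Fin 3) × Fin (β + 1) → Bool) (x : (Q × Fin t) × Fin 3 → Bool)

/-- restriction of a state to a variable -/
def mv (v : V) : (Fin (k v) × Fin t) × Fin (β + 1) → Bool :=
  fun b => m ((conEquiv vr t k oc).symm ⟨v, b.1⟩, b.2)

def xv (v : V) : Fin (k v) × Fin t → Bool := fun c => x ((conEquiv vr t k oc).symm ⟨v, c⟩)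

theorem rises0_split :
    rises0 (redData vr rhs t k oc am0 am1 tr).nxt m x
      = ∑ v, rises0 (am0 v) (mv vr t k oc m v) (xv vr t k oc x v) := by
  unfold rises0
  rw [sum_con vr t k oc]
  apply Finset.sum_congr rfl
  intro v _
  apply Finset.sum_congr rfl
  intro c _
  rw [redData_nxt]
  rfl

theorem rises1_split :
    rises1 (redData vr rhs t k oc am0 am1 tr).n1 m
      = ∑ v, rises1 (am1 v) (mv vr t k oc m v) := by
  unfold rises1
  rw [sum_blk vr t k oc]
  apply Finset.sum_congr rfl
  intro v _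
  apply Finset.sum_congr rfl
  intro b _
  rw [redData_n1]
  rfl

theorem con_symm_inj {v : V} {c c' : Fin (k v) × Fin t}
    (h : (conEquiv vr t k oc).symm ⟨v, c⟩ = (conEquiv vr t k oc).symm ⟨v, c'⟩) : c = c' := by
  have := (conEquiv vr t k oc).symm.injective h
  simpa using this

theorem bad_split :
    (univ.filter (fun b => (redData vr rhs t k oc am0 am1 tr).Bad b)).card
      = ∑ v, (univ.filter (fun b => am1 v b = s0 (am0 v) b ∨ am1 v (s0 (am0 v) b) = b)).card := by
  rw [Finset.card_filter, sum_blk vr t k oc]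
  apply Finset.sum_congr rfl
  intro v _
  rw [Finset.card_filter]
  apply Finset.sum_congr rfl
  rintro ⟨c, j⟩ _
  have h : (redData vr rhs t k oc am0 am1 tr).Bad ((conEquiv vr t k oc).symm ⟨v, c⟩, j)
      ↔ (am1 v (c, j) = s0 (am0 v) (c, j) ∨ am1 v (s0 (am0 v) (c, j)) = (c, j)) := by
    unfold Data.Bad
    rw [redData_s0, redData_n1, redData_n1]
    constructor
    · rintro (h | h)
      · left
        rw [Prod.mk.injEq] at h
        exact Prod.ext (con_symm_inj vr t k oc h.1) h.2
      · right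
        rw [Prod.mk.injEq] at h
        exact Prod.ext (con_symm_inj vr t k oc h.1) h.2
    · rintro (h | h)
      · left; rw [h]
      · right; rw [Prod.mk.eta, h]
  simp only [h]

theorem viol_update (hinj : ∀ q, Function.Injective (vr q)) (a : V → Bool) (v : V) (q : Q) :
    viol vr rhs (Function.update a v (!(a v))) q
      = (if ∃ i, vr q i = v then !(viol vr rhs a q) else viol vr rhs a q) := by
  have hne : ∀ i j, i ≠ j → vr q i ≠ vr q j := fun i j h h' => h (hinj q h')
  by_cases h : ∃ i, vr q i = v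
  · rw [if_pos h]
    obtain ⟨i, hi⟩ := h
    subst hi
    have h01 : vr q 0 ≠ vr q 1 := hne _ _ (by decide)
    have h02 : vr q 0 ≠ vr q 2 := hne _ _ (by decide)
    have h12 : vr q 1 ≠ vr q 2 := hne _ _ (by decide)
    unfold viol
    rcases fin3_cases' i with rfl | rfl | rfl
    · rw [Function.update_self, Function.update_of_ne h01.symm, Function.update_of_ne h02.symm]
      cases a (vr q 0) <;> cases a (vr q 1) <;> cases a (vr q 2) <;> cases rhs q <;> rfl
    · rw [Function.update_self, Function.update_of_ne h01, Function.update_of_ne h12.symm]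
      cases a (vr q 0) <;> cases a (vr q 1) <;> cases a (vr q 2) <;> cases rhs q <;> rfl
    · rw [Function.update_self, Function.update_of_ne h02, Function.update_of_ne h12]
      cases a (vr q 0) <;> cases a (vr q 1) <;> cases a (vr q 2) <;> cases rhs q <;> rfl
  · rw [if_neg h]
    push Not at h
    unfold viol
    rw [Function.update_of_ne (h 0), Function.update_of_ne (h 1), Function.update_of_ne (h 2)]

/-- equation of an occurrence -/
def occQ (v : V) (i : Fin (k v)) : Q := (oc v i).1.1

theorem occQ_inj (hinj : ∀ q, Function.Injective (vr q)) (v : V) :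
    Function.Injective (occQ vr k oc v) := by
  intro i j h
  have h1 := (oc v i).2
  have h2 := (oc v j).2
  have h3 : (oc v i).1.1 = (oc v j).1.1 := h
  apply (oc v).injective
  apply Subtype.ext
  apply Prod.ext h3
  rw [h3] at h1
  exact hinj _ (h1.trans h2.symm)

theorem occQ_range (v : V) (q : Q) : (∃ i, occQ vr k oc v i = q) ↔ ∃ i, vr q i = v := by
  constructor
  · rintro ⟨i, rfl⟩
    exact ⟨_, (oc v i).2⟩
  · rintro ⟨i, hi⟩
    refine ⟨(oc v).symm ⟨(q, i), hi⟩, ?_⟩
    unfold occQ
    simp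

theorem nviol_update (hinj : ∀ q, Function.Injective (vr q)) (a : V → Bool) (v : V) :
    nviol vr rhs (Function.update a v (!(a v)))
      + 2 * (univ.filter (fun i : Fin (k v) => viol vr rhs a (occQ vr k oc v i) = true)).card
      = nviol vr rhs a + k v := by
  classical
  have h1 : (univ.filter (fun i : Fin (k v) => viol vr rhs a (occQ vr k oc v i) = true)).card
      = (univ.filter (fun q => (∃ i, vr q i = v) ∧ viol vr rhs a q = true)).card := by
    rw [← Finset.card_image_of_injective _ (occQ_inj vr k oc hinj v)]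
    congr 1
    ext q
    simp only [mem_image, mem_filter, mem_univ, true_and]
    constructor
    · rintro ⟨i, hi, rfl⟩
      exact ⟨(occQ_range vr k oc v _).1 ⟨i, rfl⟩, hi⟩
    · rintro ⟨h, hq⟩
      obtain ⟨i, rfl⟩ := (occQ_range vr k oc v q).2 h
      exact ⟨i, hq, rfl⟩
  have h2 : k v = (univ.filter (fun q => ∃ i, vr q i = v)).card := by
    have h3 : (univ : Finset (Fin (k v))).card = k v := by simp only [card_univ, Fintype.card_fin]
    rw [← h3, ← Finset.card_image_of_injective _ (occQ_inj vr k oc hinj v)]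
    congr 1
    ext q
    simp only [mem_image, mem_filter, mem_univ, true_and]
    exact occQ_range vr k oc v q
  rw [h1]
  conv_rhs => rw [h2]
  unfold nviol
  simp only [Finset.card_filter]
  rw [Finset.mul_sum, ← Finset.sum_add_distrib, ← Finset.sum_add_distrib]
  apply Finset.sum_congr rfl
  intro q _
  rw [viol_update vr rhs hinj a v q]
  by_cases h : ∃ i, vr q i = v
  · cases hq : viol vr rhs a q <;> simp [h]
  · cases hq : viol vr rhs a q <;> simp [h]

/-- contacts of `v` whose bit differs from `a v` -/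
def flips (a : V → Bool) (v : V) : Finset (Fin (k v) × Fin t) :=
  univ.filter (fun c => xv vr t k oc x v c ≠ a v)

def psi (a : V → Bool) : ℕ := t * nviol vr rhs a + ∑ v, (flips vr t k oc x a v).card

theorem opt_cond (hinj : ∀ q, Function.Injective (vr q)) (a : V → Bool)
    (hmin : ∀ a', psi vr rhs t k oc x a ≤ psi vr rhs t k oc x a') (v : V) :
    (flips vr t k oc x a v).card
      + t * (univ.filter (fun i : Fin (k v) => viol vr rhs a (occQ vr k oc v i) = true)).card
      ≤ k v * t := by
  classical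
  have h1 := hmin (Function.update a v (!(a v)))
  unfold psi at h1
  have h2 := nviol_update vr rhs k oc hinj a v
  have h3 : ∀ w, w ≠ v → flips vr t k oc x (Function.update a v (!(a v))) w
      = flips vr t k oc x a w := by
    intro w hw
    unfold flips
    rw [Function.update_of_ne hw]
  have h4 : (flips vr t k oc x (Function.update a v (!(a v))) v).card
      + (flips vr t k oc x a v).card = k v * t := by
    have h5 : flips vr t k oc x (Function.update a v (!(a v))) v
        = univ.filter (fun c => ¬ (xv vr t k oc x v c ≠ a v)) := by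
      unfold flips
      rw [Function.update_self]
      ext c
      simp only [mem_filter, mem_univ, true_and]
      cases xv vr t k oc x v c <;> cases a v <;> simp
    rw [h5, add_comm]
    unfold flips
    rw [Finset.card_filter_add_card_filter_not]
    simp only [card_univ, Fintype.card_prod, Fintype.card_fin]
  rw [← Finset.add_sum_erase _ _ (mem_univ v), ← Finset.add_sum_erase _ _ (mem_univ v)] at h1
  have h6 : ∑ w ∈ univ.erase v, (flips vr t k oc x (Function.update a v (!(a v))) w).card
      = ∑ w ∈ univ.erase v, (flips vr t k oc x a w).card := by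
    apply Finset.sum_congr rfl
    intro w hw
    rw [h3 w (Finset.ne_of_mem_erase hw)]
  rw [h6] at h1
  have h7 : t * nviol vr rhs (Function.update a v (!(a v)))
      + 2 * (t * (univ.filter (fun i : Fin (k v) =>
        viol vr rhs a (occQ vr k oc v i) = true)).card)
      = t * nviol vr rhs a + k v * t := by
    calc _ = t * (nviol vr rhs (Function.update a v (!(a v)))
      + 2 * (univ.filter (fun i : Fin (k v) =>
        viol vr rhs a (occQ vr k oc v i) = true)).card) := by ring
      _ = _ := by rw [h2]; ring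
  (clear * - h1 h4 h7; omega)

theorem viol_count (a : V → Bool) :
    t * nviol vr rhs a ≤ (redData vr rhs t k oc am0 am1 tr).uns x
      + ∑ v, (univ.filter (fun c : Fin (k v) × Fin t => xv vr t k oc x v c ≠ a v ∧
        viol vr rhs a (occQ vr k oc v c.1) = true)).card := by
  have h1 : ∑ v, (univ.filter (fun c : Fin (k v) × Fin t => xv vr t k oc x v c ≠ a v ∧
        viol vr rhs a (occQ vr k oc v c.1) = true)).card
      = ∑ g : (Q × Fin t) × Fin 3, (if x g ≠ a (vr g.1.1 g.2) ∧ viol vr rhs a g.1.1 = true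
        then 1 else 0) := by
    rw [sum_con vr t k oc]
    apply Finset.sum_congr rfl
    intro v _
    rw [Finset.card_filter]
    apply Finset.sum_congr rfl
    intro c _
    have h2 : vr ((conEquiv vr t k oc).symm ⟨v, c⟩).1.1 ((conEquiv vr t k oc).symm ⟨v, c⟩).2 = v :=
      (oc v c.1).2
    rw [h2]
    rfl
  rw [h1]
  unfold nviol Data.uns
  rw [Finset.card_filter, Finset.card_filter, Fintype.sum_prod_type (f := fun g :
    (Q × Fin t) × Fin 3 => (if x g ≠ a (vr g.1.1 g.2) ∧ viol vr rhs a g.1.1 = true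
        then 1 else 0)), ← Finset.sum_add_distrib]
  have h3 : t * ∑ q, (if viol vr rhs a q = true then 1 else 0)
      = ∑ e : Q × Fin t, (if viol vr rhs a e.1 = true then 1 else 0) := by
    rw [Fintype.sum_prod_type, Finset.mul_sum]
    apply Finset.sum_congr rfl
    intro q _
    by_cases hq : viol vr rhs a q = true <;> simp [hq]
  rw [h3]
  apply Finset.sum_le_sum
  intro e _
  rw [Fin.sum_univ_three]
  by_cases hv : viol vr rhs a e.1 = true
  · simp only [hv, and_true, if_true]
    by_cases h0 : x (e, 0) ≠ a (vr e.1 0)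
    · rw [if_pos h0]; omega
    · by_cases h1 : x (e, 1) ≠ a (vr e.1 1)
      · rw [if_pos h1]; omega
      · by_cases h2 : x (e, 2) ≠ a (vr e.1 2)
        · rw [if_pos h2]; omega
        · rw [not_not] at h0 h1 h2
          have : (xor (x (e, 0)) (xor (x (e, 1)) (x (e, 2)))
              != (redData vr rhs t k oc am0 am1 tr).par e) = true := by
            rw [h0, h1, h2]; exact hv
          rw [if_pos this]; omega
  · rw [if_neg hv]; omega

/-- The lower bound for all common superstrings. -/
theorem red_lower (hβ : 1 ≤ β) (hinj : ∀ q, Function.Injective (vr q)) (ε : ℝ)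
    (hE : ∀ v, Expands (k v) t β ε (am0 v) (am1 v))
    (hC : ∀ v, FewCoinc (k v) t β ε (am0 v) (am1 v))
    (T : List (Letter (Q × Fin t) β))
    (hT : ∀ w : (redData vr rhs t k oc am0 am1 tr).WF,
      (redData vr rhs t k oc am0 am1 tr).str w <:+: T) :
    ∃ a : V → Bool, ((redData vr rhs t k oc am0 am1 tr).cost : ℝ) + t * nviol vr rhs a
      ≤ T.length + 6 * ε * ∑ v, ((k v : ℝ) * t) := by
  classical
  obtain ⟨m, x, hmx⟩ := (redData vr rhs t k oc am0 am1 tr).lower hβ T hT
  obtain ⟨a, ha⟩ := Finite.exists_min (psi vr rhs t k oc x)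
  refine ⟨a, ?_⟩
  rw [rises0_split vr rhs t k oc am0 am1 tr m x, rises1_split vr rhs t k oc am0 am1 tr m,
    bad_split vr rhs t k oc am0 am1 tr] at hmx
  have hcount := viol_count vr rhs t k oc am0 am1 tr x a
  have hv : ∀ v, ((univ.filter (fun c : Fin (k v) × Fin t => xv vr t k oc x v c ≠ a v ∧
        viol vr rhs a (occQ vr k oc v c.1) = true)).card : ℝ)
      ≤ rises0 (am0 v) (mv vr t k oc m v) (xv vr t k oc x v)
        + rises1 (am1 v) (mv vr t k oc m v) + ε * (k v * t) := by
    intro v
    have hopt := opt_cond vr rhs t k oc x hinj a ha v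
    let U : Finset (Fin (k v)) :=
      univ.filter (fun i : Fin (k v) => viol vr rhs a (occQ vr k oc v i) = true)
    cases hav : a v
    · have h1 := hE v (mv vr t k oc m v) (xv vr t k oc x v) U (by
        have : flips vr t k oc x a v = univ.filter (fun c => xv vr t k oc x v c = true) := by
          unfold flips
          rw [hav]
          ext c; simp only [ne_eq, Bool.not_eq_false, mem_filter, mem_univ, true_and]
        rw [this] at hopt
        exact hopt)
      have h2 : (univ.filter (fun c : Fin (k v) × Fin t => xv vr t k oc x v c ≠ false ∧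
        viol vr rhs a (occQ vr k oc v c.1) = true))
        = univ.filter (fun c => xv vr t k oc x v c = true ∧ c.1 ∈ U) := by
        ext c; simp only [ne_eq, Bool.not_eq_false, mem_filter, mem_univ, true_and, U]
      rw [h2]
      exact h1
    · have h1 := hE v (fun b => !(mv vr t k oc m v b)) (fun c => !(xv vr t k oc x v c)) U (by
        have : flips vr t k oc x a v = univ.filter (fun c => (!(xv vr t k oc x v c)) = true) := by
          unfold flips
          rw [hav]
          ext c; simp only [ne_eq, Bool.not_eq_true, mem_filter, mem_univ, true_and, Bool.not_eq_eq_eq_not, Bool.not_true]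
        rw [this] at hopt
        exact hopt)
      have h2 : (univ.filter (fun c : Fin (k v) × Fin t => xv vr t k oc x v c ≠ true ∧
        viol vr rhs a (occQ vr k oc v c.1) = true))
        = univ.filter (fun c => (!(xv vr t k oc x v c)) = true ∧ c.1 ∈ U) := by
        ext c; simp only [ne_eq, Bool.not_eq_true, mem_filter, mem_univ, true_and, Bool.not_eq_eq_eq_not, Bool.not_true, U]
      rw [h2]
      rw [rises0_compl, rises1_compl] at h1
      exact h1
  have hsum : (∑ v, ((univ.filter (fun c : Fin (k v) × Fin t => xv vr t k oc x v c ≠ a v ∧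
        viol vr rhs a (occQ vr k oc v c.1) = true)).card : ℝ))
      ≤ ∑ v, (rises0 (am0 v) (mv vr t k oc m v) (xv vr t k oc x v) : ℝ)
        + ∑ v, (rises1 (am1 v) (mv vr t k oc m v) : ℝ) + ε * ∑ v, ((k v : ℝ) * t) := by
    rw [Finset.mul_sum, ← Finset.sum_add_distrib, ← Finset.sum_add_distrib]
    exact Finset.sum_le_sum (fun v _ => hv v)
  have hbad : (∑ v, ((univ.filter (fun b => am1 v b = s0 (am0 v) b ∨
        am1 v (s0 (am0 v) b) = b)).card : ℝ)) ≤ ε * ∑ v, ((k v : ℝ) * t) := by
    rw [Finset.mul_sum]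
    exact Finset.sum_le_sum (fun v _ => hC v)
  have h1 : ((redData vr rhs t k oc am0 am1 tr).cost : ℝ)
      + (∑ v, (rises0 (am0 v) (mv vr t k oc m v) (xv vr t k oc x v) : ℝ))
      + (∑ v, (rises1 (am1 v) (mv vr t k oc m v) : ℝ))
      + ((redData vr rhs t k oc am0 am1 tr).uns x : ℝ)
      ≤ T.length + 5 * (∑ v, ((univ.filter (fun b => am1 v b = s0 (am0 v) b ∨
        am1 v (s0 (am0 v) b) = b)).card : ℝ)) := by
    exact_mod_cast hmx
  have h2 : (t : ℝ) * nviol vr rhs a ≤ ((redData vr rhs t k oc am0 am1 tr).uns x : ℝ)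
      + ∑ v, ((univ.filter (fun c : Fin (k v) × Fin t => xv vr t k oc x v c ≠ a v ∧
        viol vr rhs a (occQ vr k oc v c.1) = true)).card : ℝ) := by
    exact_mod_cast hcount
  linarith only [hsum, hbad, h1, h2]

end

/-! ### upper bound -/

theorem rot_apply {n : ℕ} {C : Type*} (e : Fin n ≃ C) (i : ℕ) (hi : i + 1 < n) :
    rot e (e ⟨i, by omega⟩) = e ⟨i + 1, hi⟩ := by
  unfold rot
  obtain ⟨n, rfl⟩ : ∃ n', n = n' + 1 := ⟨n - 1, by omega⟩
  simp only [Equiv.trans_apply, Equiv.symm_apply_apply]
  congr 1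
  rw [finRotate_of_lt (by omega)]

theorem rot_chain {n : ℕ} {C : Type*} (e : Fin n ≃ C) :
    List.IsChain (fun c c' => rot e c = c') (List.ofFn e) := by
  rw [List.isChain_ofFn]
  intro i hi
  exact rot_apply e i hi

section

variable {Q V : Type} [Fintype Q] [DecidableEq Q] [Fintype V] [DecidableEq V]
  (vr : Q → Fin 3 → V) (rhs : Q → Bool) (t : ℕ) (k : V → ℕ)
  (oc : ∀ v, Fin (k v) ≃ {p : Q × Fin 3 // vr p.1 p.2 = v}) {β : ℕ} {ε : ℝ}
  (am : ∀ v, Amp (k v) t β ε) {N : ℕ} (ek : Fin N ≃ {e : Q × Fin t // rhs e.1 = false})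

/-- The data of the reduction given by amplifiers. -/
def ampData : Data (Q × Fin t) β :=
  redData vr rhs t k oc (fun v => rot (am v).e0) (fun v => rot (am v).e1) (rot ek)

set_option linter.unusedSectionVars false

theorem con_var (v : V) (c : Fin (k v) × Fin t) :
    vr ((conEquiv vr t k oc).symm ⟨v, c⟩).1.1 ((conEquiv vr t k oc).symm ⟨v, c⟩).2 = v :=
  (oc v c.1).2

theorem con_eq (g : (Q × Fin t) × Fin 3) (v : V) (h : vr g.1.1 g.2 = v) :
    ∃ c, g = (conEquiv vr t k oc).symm ⟨v, c⟩ := by
  subst h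
  exact ⟨_, ((conEquiv vr t k oc).symm_apply_apply g).symm⟩

theorem red_upper (a : V → Bool) :
    ∃ T : List (Letter (Q × Fin t) β),
      (∀ w : (ampData vr rhs t k oc am ek).WF, (ampData vr rhs t k oc am ek).str w <:+: T) ∧
      T.length ≤ (ampData vr rhs t k oc am ek).cost
        + (Fintype.card V + 1 + t * nviol vr rhs a) := by
  classical
  let D := ampData vr rhs t k oc am ek
  have huns : D.uns (fun g => a (vr g.1.1 g.2)) = t * nviol vr rhs a := by
    unfold Data.uns nviol
    rw [Finset.card_filter, Finset.card_filter, Fintype.sum_prod_type, Finset.mul_sum]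
    apply Finset.sum_congr rfl
    intro q _
    have h : ∀ τ : Fin t, ((xor (a (vr q 0)) (xor (a (vr q 1)) (a (vr q 2))) != D.par (q, τ)) = true)
        = (viol vr rhs a q = true) := fun τ => rfl
    simp only [h]
    by_cases hq : viol vr rhs a q = true <;> simp [hq]
  have hnxt : ∀ v c, D.nxt ((conEquiv vr t k oc).symm ⟨v, c⟩)
      = (conEquiv vr t k oc).symm ⟨v, rot (am v).e0 c⟩ :=
    fun v c => redData_nxt vr rhs t k oc _ _ _ v c
  have hn1 : ∀ v (b : (Fin (k v) × Fin t) × Fin (β + 1)),
      D.n1 ((conEquiv vr t k oc).symm ⟨v, b.1⟩, b.2)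
      = ((conEquiv vr t k oc).symm ⟨v, (rot (am v).e1 b).1⟩, (rot (am v).e1 b).2) :=
    fun v b => redData_n1 vr rhs t k oc _ _ _ v b.1 b.2
  have hk1 : (List.ofFn ek).Nodup := List.nodup_ofFn.2 ek.injective
  have hk2 : ∀ e : {e : Q × Fin t // rhs e.1 = false}, e ∈ List.ofFn ek := by
    intro e
    rw [List.mem_ofFn]
    exact ⟨ek.symm e, by simp⟩
  have h := D.upper (V := V) (fun g => vr g.1.1 g.2)
    (fun v => List.ofFn (fun j => (conEquiv vr t k oc).symm ⟨v, (am v).e0 j⟩))
    (fun v => List.ofFn (fun j => ((conEquiv vr t k oc).symm ⟨v, ((am v).e1 j).1⟩,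
      ((am v).e1 j).2)))
    (List.ofFn ek) ?_ ?_ ?_ ?_ ?_ ?_ ?_ ?_ ?_ ?_ a
  · rw [huns] at h; exact h
  · intro v
    rw [List.nodup_ofFn]
    intro i j hij
    exact (am v).e0.injective (con_symm_inj vr t k oc hij)
  · intro v g
    rw [List.mem_ofFn]
    constructor
    · rintro ⟨j, rfl⟩
      exact con_var vr t k oc v _
    · intro hg
      obtain ⟨c, rfl⟩ := con_eq vr t k oc g v hg
      exact ⟨(am v).e0.symm c, by simp⟩
  · intro v
    rw [List.isChain_ofFn]
    intro i hi
    rw [hnxt, rot_apply]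
  · intro v
    rw [List.nodup_ofFn]
    intro i j hij
    rw [Prod.mk.injEq] at hij
    exact (am v).e1.injective (Prod.ext (con_symm_inj vr t k oc hij.1) hij.2)
  · intro v b
    rw [List.mem_ofFn]
    constructor
    · rintro ⟨j, rfl⟩
      exact con_var vr t k oc v _
    · intro hg
      obtain ⟨c, hc⟩ := con_eq vr t k oc b.1 v hg
      refine ⟨(am v).e1.symm (c, b.2), ?_⟩
      simp [← hc]
  · intro v
    rw [List.isChain_ofFn]
    intro i hi
    rw [hn1, rot_apply]
  · exact hk1
  · exact hk2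
  · exact rot_chain ek
  · intro b
    obtain ⟨c, hc⟩ := con_eq vr t k oc b.1 _ rfl
    have hb : b = ((conEquiv vr t k oc).symm ⟨_, c⟩, b.2) := Prod.ext hc rfl
    rw [hb, hn1 _ (c, b.2)]
    exact (con_var vr t k oc _ _).trans (con_var vr t k oc _ _).symm

end

end Vale.Agent.P333
end
end
end

section

section

section

/-!
The strings produced by the list function are exactly the strings of the block system (P333).
-/

namespace Vale.Agent.P333

open Finset

def Eqn.var (e : Eqn) (i : Fin 3) : ℕ := if i = 0 then e.1.1 else if i = 1 then e.1.2.1 else e.1.2.2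

def allOcc (M : ℕ) : List (Fin M × Fin 3) := (List.finRange M).flatMap (fun q => [(q,0),(q,1),(q,2)])

theorem mem_allOcc {M : ℕ} (p : Fin M × Fin 3) : p ∈ allOcc M := by
  unfold allOcc
  rw [List.mem_flatMap]
  refine ⟨p.1, List.mem_finRange _, ?_⟩
  rcases p with ⟨q, i⟩
  fin_cases i <;> simp

theorem allOcc_nodup (M : ℕ) : (allOcc M).Nodup := by
  unfold allOcc
  rw [List.nodup_flatMap]
  refine ⟨fun q _ => by simp, ?_⟩
  have := List.nodup_finRange M
  refine List.Pairwise.imp ?_ this
  intro q q' hqq'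
  simp only [Function.onFun, List.disjoint_left]
  intro x hx hx'
  simp only [List.mem_cons, List.not_mem_nil, or_false] at hx hx'
  apply hqq'
  have h1 : x.1 = q := by rcases hx with rfl | rfl | rfl <;> rfl
  have h2 : x.1 = q' := by rcases hx' with rfl | rfl | rfl <;> rfl
  rw [← h1, h2]

section

variable (J : List Eqn)

def vars : Finset ℕ := univ.image (fun p : Fin J.length × Fin 3 => Eqn.var (J.get p.1) p.2)

abbrev VV := {v : ℕ // v ∈ vars J}

def vrJ (q : Fin J.length) (i : Fin 3) : VV J :=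
  ⟨Eqn.var (J.get q) i, mem_image.2 ⟨(q, i), mem_univ _, rfl⟩⟩

def rhsJ (q : Fin J.length) : Bool := (J.get q).2

def occF (v : ℕ) : List (Fin J.length × Fin 3) :=
  (allOcc J.length).filter (fun p => decide (Eqn.var (J.get p.1) p.2 = v))

theorem indexed_eq : indexed J = (List.finRange J.length).map (fun q => (q.val, J.get q)) := by
  unfold indexed
  apply List.ext_getElem
  · simp
  · intro i h1 h2
    simp

theorem occs_eq : occs J = (allOcc J.length).map
    (fun p => (Eqn.var (J.get p.1) p.2, (p.1.val, p.2.val))) := by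
  unfold occs allOcc
  rw [indexed_eq, List.flatMap_map, List.map_flatMap]
  rfl

theorem occ_eq (v : ℕ) : occ J v = (occF J v).map (fun p => (p.1.val, p.2.val)) := by
  unfold occ occF
  rw [occs_eq, List.filter_map, List.map_map]
  rfl

def kJ (v : VV J) : ℕ := (occF J v).length

theorem occ_length (v : VV J) : (occ J v).length = kJ J v := by
  rw [occ_eq, List.length_map]; rfl

theorem occF_nodup (v : ℕ) : (occF J v).Nodup := (allOcc_nodup _).filter _

theorem mem_occF (v : VV J) (p : Fin J.length × Fin 3) :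
    p ∈ occF J v ↔ vrJ J p.1 p.2 = v := by
  unfold occF vrJ
  rw [List.mem_filter]
  constructor
  · intro h
    exact Subtype.ext (of_decide_eq_true h.2)
  · intro h
    exact ⟨mem_allOcc _, decide_eq_true (congrArg Subtype.val h)⟩

def ocJ (v : VV J) : Fin (kJ J v) ≃ {p : Fin J.length × Fin 3 // vrJ J p.1 p.2 = v} :=
  ((occF_nodup J v).getEquiv _).trans (Equiv.subtypeEquivRight (mem_occF J v))

theorem ocJ_val (v : VV J) (i : Fin (kJ J v)) : (ocJ J v i).1 = (occF J v).get i := rfl

theorem occ_getD (v : VV J) (i : Fin (kJ J v)) (d : ℕ × ℕ) :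
    (occ J v).getD i d = ((ocJ J v i).1.1.val, (ocJ J v i).1.2.val) := by
  rw [ocJ_val, occ_eq]
  have hi : (i : ℕ) < (occF J v).length := i.2
  rw [List.getD_eq_getElem?_getD, List.getElem?_map, List.getElem?_eq_getElem hi]
  rfl

end

section

variable (J : List Eqn) (tab : List (List (List Sym))) (t β : ℕ) {ε : ℝ}
  (am : ∀ v : VV J, Amp (kJ J v) t β ε) {N : ℕ}
  (ek : Fin N ≃ {e : Fin J.length × Fin t // rhsJ J e.1 = false})

abbrev DJ : Data (Fin J.length × Fin t) β := ampData (vrJ J) (rhsJ J) t (kJ J) (ocJ J) am ek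

abbrev cJ : (v : VV J) → Fin (kJ J v) × Fin t → (Fin J.length × Fin t) × Fin 3 :=
  fun v c => (conEquiv (vrJ J) t (kJ J) (ocJ J)).symm ⟨v, c⟩

theorem inst_symL (v : VV J) (b : (Fin (kJ J v) × Fin t) × Fin (β + 1)) :
    inst t β (occ J v) (symL b) = letterCode t β (Letter.L (cJ J t v b.1, b.2)) := by
  unfold inst symL
  simp only [if_true]
  rw [occ_getD]
  rfl

theorem inst_symR (v : VV J) (c : Fin (kJ J v) × Fin t) :
    inst t β (occ J v) (symR c) = letterCode t β (Letter.r (cJ J t v c)) := by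
  unfold inst symR
  simp only [Bool.false_eq_true, if_false]
  rw [occ_getD]
  rfl

theorem DJ_nxt (v : VV J) (c : Fin (kJ J v) × Fin t) :
    (DJ J t β am ek).nxt (cJ J t v c) = cJ J t v (rot (am v).e0 c) :=
  redData_nxt (vrJ J) (rhsJ J) t (kJ J) (ocJ J) _ _ _ v c

theorem DJ_n1 (v : VV J) (b : (Fin (kJ J v) × Fin t) × Fin (β + 1)) :
    (DJ J t β am ek).n1 (cJ J t v b.1, b.2)
      = (cJ J t v (rot (am v).e1 b).1, (rot (am v).e1 b).2) :=
  redData_n1 (vrJ J) (rhsJ J) t (kJ J) (ocJ J) _ _ _ v b.1 b.2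

theorem DJ_n1_symm (v : VV J) (b : (Fin (kJ J v) × Fin t) × Fin (β + 1)) :
    (DJ J t β am ek).n1.symm (cJ J t v b.1, b.2)
      = (cJ J t v ((rot (am v).e1).symm b).1, ((rot (am v).e1).symm b).2) := by
  rw [Equiv.symm_apply_eq, DJ_n1, Equiv.apply_symm_apply]

theorem DJ_s0 (v : VV J) (b : (Fin (kJ J v) × Fin t) × Fin (β + 1)) :
    s0 (DJ J t β am ek).nxt (cJ J t v b.1, b.2)
      = (cJ J t v (s0 (rot (am v).e0) b).1, (s0 (rot (am v).e0) b).2) :=
  redData_s0 (vrJ J) (rhsJ J) t (kJ J) (ocJ J) _ _ _ v b.1 b.2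

theorem inst_symEnd (v : VV J) (b : (Fin (kJ J v) × Fin t) × Fin (β + 1)) :
    inst t β (occ J v) (symEnd (am v) b)
      = letterCode t β ((DJ J t β am ek).endL (cJ J t v b.1, b.2)) := by
  unfold symEnd Data.endL
  by_cases h : (b.2 : ℕ) + 1 < β + 1
  · rw [if_pos h, if_pos h, inst_symL, DJ_s0]
  · rw [if_neg h, if_neg h, inst_symR, DJ_nxt]

theorem inst_strV (v : VV J) (b : (Fin (kJ J v) × Fin t) × Fin (β + 1)) :
    (tmplB (am v) b).map (fun s => s.map (inst t β (occ J v)))
      = [((DJ J t β am ek).strV (cJ J t v b.1, b.2) true).map (letterCode t β),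
        ((DJ J t β am ek).strV (cJ J t v b.1, b.2) false).map (letterCode t β)] := by
  unfold tmplB Data.strV
  simp only [List.map_cons, List.map_nil]
  rw [inst_symL, inst_symL, inst_symEnd J t β am ek, DJ_n1_symm]

theorem mem_G1 (htab : ∀ v : VV J, tab.getD (kJ J v) [] = tmpl (am v)) (s : List ℕ) :
    s ∈ G1 tab t β J ↔ ∃ b y, s = ((DJ J t β am ek).strV b y).map (letterCode t β) := by
  unfold G1
  rw [List.mem_flatMap]
  constructor
  · rintro ⟨p, hp, hs⟩
    rw [occs_eq, List.mem_map] at hp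
    obtain ⟨p', -, rfl⟩ := hp
    set v : VV J := vrJ J p'.1 p'.2 with hv
    have hv' : Eqn.var (J.get p'.1) p'.2 = (v : ℕ) := rfl
    simp only [hv'] at hs
    rw [occ_length, htab v] at hs
    rw [List.mem_map] at hs
    obtain ⟨s', hs', rfl⟩ := hs
    unfold tmpl at hs'
    rw [List.mem_flatMap] at hs'
    obtain ⟨b, -, hb⟩ := hs'
    have h1 := List.mem_map_of_mem (f := fun s => List.map (inst t β (occ J v)) s) hb
    rw [inst_strV J t β am ek] at h1
    simp only [List.mem_cons, List.not_mem_nil, or_false] at h1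
    rcases h1 with h1 | h1
    · exact ⟨_, true, h1⟩
    · exact ⟨_, false, h1⟩
  · rintro ⟨b', y, rfl⟩
    obtain ⟨v, hv⟩ : ∃ v, vrJ J b'.1.1.1 b'.1.2 = v := ⟨_, rfl⟩
    obtain ⟨c, hc⟩ := con_eq (vrJ J) t (kJ J) (ocJ J) b'.1 v hv
    refine ⟨((v : ℕ), (b'.1.1.1.val, b'.1.2.val)), ?_, ?_⟩
    · rw [occs_eq, List.mem_map]
      exact ⟨(b'.1.1.1, b'.1.2), mem_allOcc _, by rw [← hv]; rfl⟩
    · simp only
      rw [occ_length, htab v]
      have hb : b' = (cJ J t v c, b'.2) := Prod.ext hc rfl
      have h2 : ((DJ J t β am ek).strV b' y).map (letterCode t β) ∈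
          (tmplB (am v) (c, b'.2)).map (fun s => s.map (inst t β (occ J v))) := by
        rw [inst_strV J t β am ek]
        simp only [← hb]
        cases y <;> simp
      rw [List.mem_map] at h2
      obtain ⟨s', hs', hs''⟩ := h2
      rw [List.mem_map]
      refine ⟨s', ?_, hs''⟩
      unfold tmpl
      rw [List.mem_flatMap]
      exact ⟨_, Finset.mem_toList.2 (Finset.mem_univ _), hs'⟩

end

end Vale.Agent.P333
end
end
end

section

section

section

/-!
The strings of the equations and of the trunk (P333).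
-/

namespace Vale.Agent.P333

open Finset

theorem mem_cons3 (t : ℕ) (c : ℕ × ℕ) :
    c ∈ cons3 t ↔ ∃ (τ : Fin t) (i : Fin 3), c = (τ.val, i.val) := by
  unfold cons3
  rw [List.mem_flatMap]
  constructor
  · rintro ⟨τ, hτ, hc⟩
    rw [List.mem_range] at hτ
    simp only [List.mem_cons, List.not_mem_nil, or_false] at hc
    rcases hc with rfl | rfl | rfl
    · exact ⟨⟨τ, hτ⟩, 0, rfl⟩
    · exact ⟨⟨τ, hτ⟩, 1, rfl⟩
    · exact ⟨⟨τ, hτ⟩, 2, rfl⟩
  · rintro ⟨τ, i, rfl⟩
    refine ⟨τ, List.mem_range.2 τ.2, ?_⟩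
    fin_cases i <;> simp

theorem fin3_add_two (i : Fin 3) : ((i + 2 : Fin 3) : ℕ) = (i.val + 2) % 3 := by
  fin_cases i <;> rfl

section

variable (J : List Eqn) (tab : List (List (List Sym))) (t β : ℕ) {ε : ℝ}
  (am : ∀ v : VV J, Amp (kJ J v) t β ε) {N : ℕ}
  (ek : Fin N ≃ {e : Fin J.length × Fin t // rhsJ J e.1 = false})

theorem hub_true (c : (Fin J.length × Fin t) × Fin 3) (h : (DJ J t β am ek).par c.1 = true) :
    hub t β (J.get c.1.1).2 c.1.1 c.1.2 c.2 =
      [((DJ J t β am ek).strH c 0).map (letterCode t β),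
       ((DJ J t β am ek).strH c 1).map (letterCode t β),
       ((DJ J t β am ek).strH c 2).map (letterCode t β),
       (Data.strF c).map (letterCode t β)] := by
  have h' : (J.get c.1.1).2 = true := h
  unfold hub Data.strH Data.strF
  rw [if_pos h']
  simp only [h, if_true, List.map_cons, List.map_nil]
  rfl

theorem hub_false (c : (Fin J.length × Fin t) × Fin 3) (h : (DJ J t β am ek).par c.1 = false) :
    hub t β (J.get c.1.1).2 c.1.1 c.1.2 c.2 =
      [((DJ J t β am ek).strH c 0).map (letterCode t β),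
       ((DJ J t β am ek).strH c 1).map (letterCode t β),
       ((DJ J t β am ek).strH c 2).map (letterCode t β)] := by
  have h' : (J.get c.1.1).2 = false := h
  unfold hub Data.strH
  rw [if_neg (by rw [h']; decide)]
  simp only [h, Bool.false_eq_true, if_false]
  rfl

theorem mem_G2 (s : List ℕ) :
    s ∈ G2 t β J ↔ (∃ c i, s = ((DJ J t β am ek).strH c i).map (letterCode t β)) ∨
      (∃ c : (Fin J.length × Fin t) × Fin 3, (DJ J t β am ek).par c.1 = true ∧
        s = (Data.strF c).map (letterCode t β)) := by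
  have key : s ∈ G2 t β J ↔ ∃ c : (Fin J.length × Fin t) × Fin 3,
      s ∈ hub t β (J.get c.1.1).2 c.1.1 c.1.2 c.2 := by
    unfold G2
    rw [indexed_eq, List.flatMap_map, List.mem_flatMap]
    constructor
    · rintro ⟨q, -, hq⟩
      rw [List.mem_flatMap] at hq
      obtain ⟨c, hc, hs⟩ := hq
      obtain ⟨τ, i, rfl⟩ := (mem_cons3 t c).1 hc
      exact ⟨((q, τ), i), hs⟩
    · rintro ⟨⟨⟨q, τ⟩, i⟩, hs⟩
      refine ⟨q, List.mem_finRange _, ?_⟩
      rw [List.mem_flatMap]
      exact ⟨(τ.val, i.val), (mem_cons3 t _).2 ⟨τ, i, rfl⟩, hs⟩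
  rw [key]
  constructor
  · rintro ⟨c, hc⟩
    cases h : (DJ J t β am ek).par c.1
    · rw [hub_false J t β am ek c h] at hc
      simp only [List.mem_cons, List.not_mem_nil, or_false] at hc
      rcases hc with hc | hc | hc
      · exact Or.inl ⟨c, 0, hc⟩
      · exact Or.inl ⟨c, 1, hc⟩
      · exact Or.inl ⟨c, 2, hc⟩
    · rw [hub_true J t β am ek c h] at hc
      simp only [List.mem_cons, List.not_mem_nil, or_false] at hc
      rcases hc with hc | hc | hc | hc
      · exact Or.inl ⟨c, 0, hc⟩
      · exact Or.inl ⟨c, 1, hc⟩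
      · exact Or.inl ⟨c, 2, hc⟩
      · exact Or.inr ⟨c, h, hc⟩
  · rintro (⟨c, i, rfl⟩ | ⟨c, hc, rfl⟩)
    · refine ⟨c, ?_⟩
      cases h : (DJ J t β am ek).par c.1
      · rw [hub_false J t β am ek c h]
        rcases fin3_cases' i with rfl | rfl | rfl <;> simp
      · rw [hub_true J t β am ek c h]
        rcases fin3_cases' i with rfl | rfl | rfl <;> simp
    · refine ⟨c, ?_⟩
      rw [hub_true J t β am ek c hc]
      simp

end

/-! ### trunk -/

theorem mem_zip_rot {α : Type*} (l : List α) (a b : α) :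
    (a, b) ∈ l.zip (l.tail ++ l.take 1) ↔
      ∃ i : Fin l.length, a = l.get i ∧ b = l.get (finRotate _ i) := by
  rcases l with _ | ⟨x, l⟩
  · simp
  · have hlen : ((x :: l).zip ((x :: l).tail ++ (x :: l).take 1)).length = l.length + 1 := by
      simp
    have hrot : ∀ i : Fin (l.length + 1),
        (l ++ [x])[i.val]'(by rw [List.length_append]; exact i.2) =
        (x :: l).get (finRotate (l.length + 1) i) := by
      intro i
      by_cases hi : i.val < l.length
      · have h1 : finRotate (l.length + 1) i = ⟨i.val + 1, by omega⟩ := finRotate_of_lt hi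
        rw [h1, List.getElem_append_left hi]
        simp
      · have h2 : i = Fin.last l.length := Fin.ext (by
          have := i.2
          rw [Fin.val_last]; omega)
        subst h2
        rw [finRotate_last]
        simp
    rw [List.mem_iff_getElem]
    constructor
    · rintro ⟨i, hi, h⟩
      have hi' : i < l.length + 1 := by rw [hlen] at hi; exact hi
      refine ⟨⟨i, hi'⟩, ?_⟩
      rw [List.getElem_zip, Prod.mk.injEq] at h
      refine ⟨h.1.symm, ?_⟩
      rw [← h.2]
      exact hrot ⟨i, hi'⟩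
    · rintro ⟨i, ha, hb⟩
      refine ⟨i.val, by rw [hlen]; exact i.2, ?_⟩
      rw [List.getElem_zip, Prod.mk.injEq]
      refine ⟨ha.symm, ?_⟩
      rw [hb]
      exact hrot i

section

variable (J : List Eqn) (t β : ℕ)

def evF : List (Fin J.length × Fin t) :=
  ((List.finRange J.length).filter (fun q => !(J.get q).2)).flatMap
    (fun q => (List.finRange t).map (fun τ => (q, τ)))

theorem evs_eq : evs t J = (evF J t).map (fun e => codeO t e.1 e.2) := by
  unfold evs evF
  rw [indexed_eq, List.filter_map, List.flatMap_map, List.map_flatMap]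
  congr 1
  funext q
  rw [List.map_map]
  simp only [Function.comp_def]
  apply List.ext_getElem
  · simp
  · intro i h1 h2
    simp

theorem evF_nodup : (evF J t).Nodup := by
  unfold evF
  rw [List.nodup_flatMap]
  refine ⟨fun q _ => (List.nodup_finRange t).map (fun a b h => by simpa using h), ?_⟩
  have := (List.nodup_finRange J.length).filter (fun q => !(J.get q).2)
  refine List.Pairwise.imp ?_ this
  intro q q' hqq'
  simp only [Function.onFun, List.disjoint_left]
  intro x hx hx'
  rw [List.mem_map] at hx hx'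
  obtain ⟨a, -, rfl⟩ := hx
  obtain ⟨b, -, hb⟩ := hx'
  rw [Prod.mk.injEq] at hb
  exact hqq' hb.1.symm

theorem mem_evF (e : Fin J.length × Fin t) : e ∈ evF J t ↔ rhsJ J e.1 = false := by
  unfold evF rhsJ
  rw [List.mem_flatMap]
  constructor
  · rintro ⟨q, hq, he⟩
    rw [List.mem_map] at he
    obtain ⟨τ, -, rfl⟩ := he
    rw [List.mem_filter] at hq
    simpa using hq.2
  · intro h
    refine ⟨e.1, ?_, ?_⟩
    · rw [List.mem_filter]
      exact ⟨List.mem_finRange _, by simpa using h⟩
    · rw [List.mem_map]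
      exact ⟨e.2, List.mem_finRange _, rfl⟩

def ekJ : Fin (evF J t).length ≃ {e : Fin J.length × Fin t // rhsJ J e.1 = false} :=
  ((evF_nodup J t).getEquiv _).trans (Equiv.subtypeEquivRight (mem_evF J t))

theorem ekJ_val (i : Fin (evF J t).length) : (ekJ J t i).1 = (evF J t).get i := rfl

variable {ε : ℝ} (am : ∀ v : VV J, Amp (kJ J v) t β ε)

theorem DJ_tr (i : Fin (evF J t).length) :
    (DJ J t β am (ekJ J t)).tr (ekJ J t i) = ekJ J t (finRotate _ i) := by
  show rot (ekJ J t) (ekJ J t i) = _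
  unfold rot
  simp only [Equiv.trans_apply, Equiv.symm_apply_apply, finRotate_apply]

theorem mem_G3 (s : List ℕ) :
    s ∈ G3 t J ↔ ∃ e, s = ((DJ J t β am (ekJ J t)).strK e).map (letterCode t β) := by
  unfold G3
  rw [List.mem_map]
  have hev : (evs t J).zip ((evs t J).tail ++ (evs t J).take 1)
      = ((evF J t).zip ((evF J t).tail ++ (evF J t).take 1)).map
        (Prod.map (fun e => codeO t e.1 e.2) (fun e => codeO t e.1 e.2)) := by
    rw [evs_eq, ← List.map_tail, ← List.map_take, ← List.map_append, List.zip_map]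
  rw [hev]
  constructor
  · rintro ⟨p, hp, rfl⟩
    rw [List.mem_map] at hp
    obtain ⟨⟨a, b⟩, hab, rfl⟩ := hp
    rw [mem_zip_rot] at hab
    obtain ⟨i, ha, hb⟩ := hab
    refine ⟨ekJ J t i, ?_⟩
    unfold Data.strK
    rw [DJ_tr, ekJ_val, ekJ_val, ← ha, ← hb]
    rfl
  · rintro ⟨e, rfl⟩
    obtain ⟨i, rfl⟩ := (ekJ J t).surjective e
    refine ⟨(codeO t ((evF J t).get i).1 ((evF J t).get i).2,
      codeO t ((evF J t).get (finRotate _ i)).1 ((evF J t).get (finRotate _ i)).2), ?_, ?_⟩
    · rw [List.mem_map]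
      exact ⟨((evF J t).get i, (evF J t).get (finRotate _ i)),
        (mem_zip_rot _ _ _).2 ⟨i, rfl, rfl⟩, rfl⟩
    · unfold Data.strK
      rw [DJ_tr, ekJ_val, ekJ_val]
      rfl

variable (tab : List (List (List Sym)))

theorem mem_G (htab : ∀ v : VV J, tab.getD (kJ J v) [] = tmpl (am v)) (s : List ℕ) :
    s ∈ G tab t β J ↔ ∃ w : (DJ J t β am (ekJ J t)).WF,
      s = ((DJ J t β am (ekJ J t)).str w).map (letterCode t β) := by
  unfold G
  rw [List.mem_append, List.mem_append, mem_G1 J tab t β am (ekJ J t) htab,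
    mem_G2 J t β am (ekJ J t), mem_G3 J t β am]
  constructor
  · rintro (⟨b, y, h⟩ | (⟨c, i, h⟩ | ⟨c, hc, h⟩) | ⟨e, h⟩)
    · exact ⟨Sum.inl (⟨b, trivial⟩, y), h⟩
    · exact ⟨Sum.inr (Sum.inl (c, i)), h⟩
    · exact ⟨Sum.inr (Sum.inr (Sum.inl ⟨c, hc⟩)), h⟩
    · exact ⟨Sum.inr (Sum.inr (Sum.inr e)), h⟩
  · rintro ⟨⟨⟨b, _⟩, y⟩ | ⟨c, i⟩ | ⟨c, hc⟩ | e, h⟩
    · exact Or.inl ⟨b, y, h⟩
    · exact Or.inr (Or.inl (Or.inl ⟨c, i, h⟩))
    · exact Or.inr (Or.inl (Or.inr ⟨c, hc, h⟩))
    · exact Or.inr (Or.inr ⟨e, h⟩)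

end

end Vale.Agent.P333
end
end
end

section

section

section

/-!
Upper and lower bounds for the optimum of the constructed family of strings (P333).
-/

namespace Vale.Agent.P333

open Finset

theorem opt_le {S : List (List ℕ)} {T : List ℕ} (h : IsSuperstring S T) : opt S ≤ T.length :=
  Nat.sInf_le ⟨T, h, rfl⟩

theorem exists_superstring (S : List (List ℕ)) : ∃ T, IsSuperstring S T :=
  ⟨S.flatten, fun _ hs => List.infix_of_mem_flatten hs⟩

theorem exists_opt (S : List (List ℕ)) : ∃ T, IsSuperstring S T ∧ T.length = opt S := by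
  have h : {n : ℕ | ∃ T : List ℕ, IsSuperstring S T ∧ T.length = n}.Nonempty := by
    obtain ⟨T, hT⟩ := exists_superstring S
    exact ⟨_, T, hT, rfl⟩
  exact Nat.sInf_mem h

theorem exists_minViolated (I : List Eqn) : ∃ x, violated x I = minViolated I := by
  have h : {n : ℕ | ∃ x : ℕ → Bool, violated x I = n}.Nonempty := ⟨_, fun _ => false, rfl⟩
  exact Nat.sInf_mem h

theorem minViolated_le (I : List Eqn) (x : ℕ → Bool) : minViolated I ≤ violated x I :=
  Nat.sInf_le ⟨x, rfl⟩

theorem countP_eq_sum {α : Type*} (l : List α) (p : α → Bool) :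
    l.countP p = (l.map (fun a => if p a = true then 1 else 0)).sum := by
  induction l with
  | nil => rfl
  | cons a l ih =>
    rw [List.countP_cons, List.map_cons, List.sum_cons, ih]
    by_cases h : p a = true <;> simp [h, add_comm]

theorem countP_eq_card {α : Type*} (l : List α) (p : α → Bool) :
    l.countP p = (univ.filter (fun i : Fin l.length => p (l.get i) = true)).card := by
  rw [countP_eq_sum, Finset.card_filter, ← Fin.sum_univ_fun_getElem]
  rfl

section

variable (J : List Eqn)

theorem violated_eq (x : ℕ → Bool) :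
    violated x J = nviol (vrJ J) (rhsJ J) (fun v => x v) := by
  unfold violated nviol
  rw [countP_eq_card]
  rfl

theorem exists_extend (x : VV J → Bool) : ∃ y : ℕ → Bool, (fun v : VV J => y v) = x := by
  classical
  refine ⟨fun n => if h : n ∈ vars J then x ⟨n, h⟩ else false, ?_⟩
  funext v
  simp [v.2]

theorem card_VV : Fintype.card (VV J) ≤ 3 * J.length := by
  rw [Fintype.card_coe]
  refine card_image_le.trans ?_
  simp only [card_univ, Fintype.card_prod, Fintype.card_fin, mul_comm, Std.le_refl]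

theorem sum_kJ : ∑ v : VV J, kJ J v = 3 * J.length := by
  have h1 : ∑ v : VV J, kJ J v = Fintype.card (Σ v : VV J, Fin (kJ J v)) := by
    rw [Fintype.card_sigma]
    simp only [univ_eq_attach, Fintype.card_fin]
  rw [h1]
  have e : (Σ v : VV J, Fin (kJ J v)) ≃ Fin J.length × Fin 3 :=
    (Equiv.sigmaCongrRight (ocJ J)).trans
      (Equiv.sigmaFiberEquiv (fun p : Fin J.length × Fin 3 => vrJ J p.1 p.2))
  rw [Fintype.card_congr e]
  simp only [Fintype.card_prod, Fintype.card_fin, mul_comm]

theorem vrJ_inj (h : ∀ e ∈ J, e.1.1 ≠ e.1.2.1 ∧ e.1.1 ≠ e.1.2.2 ∧ e.1.2.1 ≠ e.1.2.2)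
    (q : Fin J.length) : Function.Injective (vrJ J q) := by
  intro i j hij
  have h1 : Eqn.var (J.get q) i = Eqn.var (J.get q) j := congrArg Subtype.val hij
  obtain ⟨h01, h02, h12⟩ := h (J.get q) (List.get_mem J q)
  unfold Eqn.var at h1
  rcases fin3_cases' i with rfl | rfl | rfl <;> rcases fin3_cases' j with rfl | rfl | rfl <;>
    simp at h1 ⊢
  · exact h01 h1
  · exact h02 h1
  · exact h01 h1.symm
  · exact h12 h1
  · exact h02 h1.symm
  · exact h12 h1.symm

def evenCount : ℕ := J.countP (fun e => !e.2)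
def oddCount : ℕ := J.countP (fun e => e.2)

theorem card_even (t : ℕ) :
    Fintype.card {e : Fin J.length × Fin t // rhsJ J e.1 = false} = evenCount J * t := by
  unfold evenCount
  rw [countP_eq_card, Fintype.card_subtype]
  have : (univ.filter (fun e : Fin J.length × Fin t => rhsJ J e.1 = false))
      = (univ.filter (fun i : Fin J.length => (!(J.get i).2) = true)) ×ˢ univ := by
    ext e
    rw [Finset.mem_filter, Finset.mem_product, Finset.mem_filter]
    simp only [mem_univ, rhsJ, List.get_eq_getElem, true_and, Bool.not_eq_eq_eq_not, Bool.not_true, and_true]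
  rw [this, Finset.card_product]
  simp only [List.get_eq_getElem, Bool.not_eq_eq_eq_not, Bool.not_true, card_univ, Fintype.card_fin]

theorem card_odd (t : ℕ) :
    Fintype.card {c : (Fin J.length × Fin t) × Fin 3 // rhsJ J c.1.1 = true}
      = oddCount J * t * 3 := by
  unfold oddCount
  rw [countP_eq_card, Fintype.card_subtype]
  have : (univ.filter (fun c : (Fin J.length × Fin t) × Fin 3 => rhsJ J c.1.1 = true))
      = ((univ.filter (fun i : Fin J.length => (J.get i).2 = true)) ×ˢ univ) ×ˢ univ := by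
    ext e
    rw [Finset.mem_filter, Finset.mem_product, Finset.mem_product, Finset.mem_filter]
    simp only [mem_univ, rhsJ, List.get_eq_getElem, true_and, and_true]
  rw [this, Finset.card_product, Finset.card_product]
  simp only [List.get_eq_getElem, card_univ, Fintype.card_fin]

variable (tab : List (List (List Sym))) (t β : ℕ) {ε : ℝ}
  (am : ∀ v : VV J, Amp (kJ J v) t β ε)

def costJ : ℕ :=
  4 * (J.length * t * 3 * (β + 1)) + 5 * (J.length * t * 3) + oddCount J * t * 3 + evenCount J * t

theorem cost_eq : (DJ J t β am (ekJ J t)).cost = costJ J t β := by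
  have h1 := card_odd J t
  have h2 := card_even J t
  have h1' : Fintype.card {c : (Fin J.length × Fin t) × Fin 3 //
    (DJ J t β am (ekJ J t)).par c.1 = true} = oddCount J * t * 3 := h1
  have h2' : Fintype.card {e : Fin J.length × Fin t //
    (DJ J t β am (ekJ J t)).par e = false} = evenCount J * t := h2
  unfold Data.cost costJ
  rw [h1', h2']
  simp only [Fintype.card_prod, Fintype.card_fin, Nat.add_left_cancel_iff]

theorem G_upper (htab : ∀ v : VV J, tab.getD (kJ J v) [] = tmpl (am v)) (x : ℕ → Bool) :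
    opt (G tab t β J) ≤ costJ J t β + (3 * J.length + 1 + t * violated x J) := by
  obtain ⟨T, hT, hlen⟩ := red_upper (vrJ J) (rhsJ J) t (kJ J) (ocJ J) am (ekJ J t)
    (fun v => x v)
  have hsup : IsSuperstring (G tab t β J) (T.map (letterCode t β)) := by
    intro s hs
    obtain ⟨w, rfl⟩ := (mem_G J t β am tab htab s).1 hs
    exact (hT w).map _
  have h1 := opt_le hsup
  rw [List.length_map] at h1
  have h2 := cost_eq J t β am
  have h3 := card_VV J
  rw [violated_eq]
  have h4 : (DJ J t β am (ekJ J t)).cost =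
    (ampData (vrJ J) (rhsJ J) t (kJ J) (ocJ J) am (ekJ J t)).cost := rfl
  omega

theorem G_lower (htab : ∀ v : VV J, tab.getD (kJ J v) [] = tmpl (am v)) (hβ : 1 ≤ β)
    (hdist : ∀ e ∈ J, e.1.1 ≠ e.1.2.1 ∧ e.1.1 ≠ e.1.2.2 ∧ e.1.2.1 ≠ e.1.2.2)
    (hM : 0 < J.length) (ht : 0 < t) :
    ∃ x : ℕ → Bool, (costJ J t β : ℝ) + t * violated x J
      ≤ opt (G tab t β J) + 18 * ε * (J.length * t) := by
  classical
  obtain ⟨T, hT, hlen⟩ := exists_opt (G tab t β J)
  have e0 : Letter (Fin J.length × Fin t) β := Letter.o (⟨0, hM⟩, ⟨0, ht⟩)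
  have : Nonempty (Letter (Fin J.length × Fin t) β) := ⟨e0⟩
  let dec : ℕ → Letter (Fin J.length × Fin t) β := Function.invFun (letterCode t β)
  have hdec : ∀ s : List (Letter (Fin J.length × Fin t) β),
      (s.map (letterCode t β)).map dec = s := by
    intro s
    rw [List.map_map]
    have : dec ∘ letterCode t β = id := by
      funext a
      exact Function.leftInverse_invFun (letterCode_inj t β) a
    rw [this, List.map_id]
  have hsup : ∀ w : (DJ J t β am (ekJ J t)).WF,
      (DJ J t β am (ekJ J t)).str w <:+: T.map dec := by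
    intro w
    have h1 : ((DJ J t β am (ekJ J t)).str w).map (letterCode t β) <:+: T :=
      hT _ ((mem_G J t β am tab htab _).2 ⟨w, rfl⟩)
    have h2 := h1.map dec
    rwa [hdec] at h2
  obtain ⟨a, ha⟩ := red_lower (vrJ J) (rhsJ J) t (kJ J) (ocJ J) (fun v => rot (am v).e0)
    (fun v => rot (am v).e1) (rot (ekJ J t)) hβ (vrJ_inj J hdist) ε
    (fun v => (am v).expands) (fun v => (am v).coinc) (T.map dec) hsup
  obtain ⟨x, hx⟩ := exists_extend J a
  refine ⟨x, ?_⟩
  have h2 : ((redData (vrJ J) (rhsJ J) t (kJ J) (ocJ J) (fun v => rot (am v).e0)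
    (fun v => rot (am v).e1) (rot (ekJ J t))).cost : ℕ) = costJ J t β := cost_eq J t β am
  rw [h2, List.length_map, hlen] at ha
  rw [violated_eq, hx]
  have h3 : ∑ v : VV J, ((kJ J v : ℝ) * t) = 3 * (J.length * t) := by
    rw [← Finset.sum_mul]
    have := sum_kJ J
    have h4 : (∑ v : VV J, (kJ J v : ℝ)) = 3 * J.length := by exact_mod_cast this
    rw [h4]; ring
  rw [h3] at ha
  linarith only [ha]

end

/-! ### the doubled system -/

def dbl (I : List Eqn) : List Eqn :=
  I.flatMap fun e => [((2 * e.1.1, 2 * e.1.2.1, 2 * e.1.2.2), e.2),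
    ((2 * e.1.1 + 1, 2 * e.1.2.1 + 1, 2 * e.1.2.2 + 1), !e.2)]

theorem dbl_cons (e : Eqn) (I : List Eqn) :
    dbl (e :: I) = ((2 * e.1.1, 2 * e.1.2.1, 2 * e.1.2.2), e.2) ::
      ((2 * e.1.1 + 1, 2 * e.1.2.1 + 1, 2 * e.1.2.2 + 1), !e.2) :: dbl I := rfl

theorem dbl_length (I : List Eqn) : (dbl I).length = 2 * I.length := by
  induction I with
  | nil => rfl
  | cons e I ih => rw [dbl_cons]; simp only [List.length_cons, ih]; ring

theorem dbl_even (I : List Eqn) : evenCount (dbl I) = I.length := by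
  unfold evenCount
  induction I with
  | nil => rfl
  | cons e I ih =>
    rw [dbl_cons, List.countP_cons, List.countP_cons, ih, List.length_cons]
    cases e.2 <;> simp

theorem dbl_odd (I : List Eqn) : oddCount (dbl I) = I.length := by
  unfold oddCount
  induction I with
  | nil => rfl
  | cons e I ih =>
    rw [dbl_cons, List.countP_cons, List.countP_cons, ih, List.length_cons]
    cases e.2 <;> simp

theorem dbl_dist (I : List Eqn)
    (h : ∀ e ∈ I, e.1.1 ≠ e.1.2.1 ∧ e.1.1 ≠ e.1.2.2 ∧ e.1.2.1 ≠ e.1.2.2) :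
    ∀ e ∈ dbl I, e.1.1 ≠ e.1.2.1 ∧ e.1.1 ≠ e.1.2.2 ∧ e.1.2.1 ≠ e.1.2.2 := by
  intro e he
  unfold dbl at he
  rw [List.mem_flatMap] at he
  obtain ⟨e', he', hee⟩ := he
  obtain ⟨h1, h2, h3⟩ := h e' he'
  simp only [List.mem_cons, List.not_mem_nil, or_false] at hee
  rcases hee with rfl | rfl
  · refine ⟨?_, ?_, ?_⟩ <;> simp only [ne_eq] <;> omega
  · refine ⟨?_, ?_, ?_⟩ <;> simp only [ne_eq] <;> omega

theorem violated_dbl (x : ℕ → Bool) (I : List Eqn) :
    violated x (dbl I) = violated (fun v => x (2 * v)) I + violated (fun v => !(x (2 * v + 1))) I := by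
  unfold violated
  induction I with
  | nil => rfl
  | cons e I ih =>
    rw [dbl_cons, List.countP_cons, List.countP_cons, List.countP_cons, List.countP_cons, ih]
    simp only
    have hb : ∀ a b c d : Bool, ((xor a (xor b c)) != !d) = ((xor (!a) (xor (!b) (!c))) != d) := by
      decide
    rw [hb]
    omega

theorem violated_dbl_of (y : ℕ → Bool) (I : List Eqn) :
    violated (fun n => if n % 2 = 0 then y (n / 2) else !(y (n / 2))) (dbl I) = 2 * violated y I := by
  rw [violated_dbl]
  have h1 : (fun v => (fun n => if n % 2 = 0 then y (n / 2) else !(y (n / 2))) (2 * v)) = y := by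
    funext v
    have h2 : 2 * v % 2 = 0 := by (clear * -; omega)
    have h3 : 2 * v / 2 = v := by omega
    simp only [h2, h3, if_true]
  have h2 : (fun v => !((fun n => if n % 2 = 0 then y (n / 2) else !(y (n / 2))) (2 * v + 1)))
      = y := by
    funext v
    have h2 : (2 * v + 1) % 2 = 1 := by omega
    have h3 : (2 * v + 1) / 2 = v := by omega
    simp only [h2, h3]
    simp
  rw [h1, h2]; ring

end Vale.Agent.P333
end
end
end

section

section

section

/-!
The optimum of the constructed family is an affine function of the least number of violated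
equations, up to a small error (P333).
-/

namespace Vale.Agent.P333

open Finset

theorem occurrences_dbl (v : ℕ) (I : List Eqn) : occurrences v (dbl I) = occurrences (v / 2) I := by
  unfold occurrences
  induction I with
  | nil => rfl
  | cons e I ih =>
    rw [dbl_cons, List.countP_cons, List.countP_cons, List.countP_cons, ih]
    simp only [decide_eq_true_eq]
    have h1 : (2 * e.1.1 = v ∨ 2 * e.1.2.1 = v ∨ 2 * e.1.2.2 = v) ↔
        (v % 2 = 0 ∧ (e.1.1 = v / 2 ∨ e.1.2.1 = v / 2 ∨ e.1.2.2 = v / 2)) := by omega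
    have h2 : (2 * e.1.1 + 1 = v ∨ 2 * e.1.2.1 + 1 = v ∨ 2 * e.1.2.2 + 1 = v) ↔
        (v % 2 = 1 ∧ (e.1.1 = v / 2 ∨ e.1.2.1 = v / 2 ∨ e.1.2.2 = v / 2)) := by omega
    simp only [h1, h2]
    rcases Nat.mod_two_eq_zero_or_one v with h | h
    · simp only [Bool.decide_or, h, zero_ne_one, false_and, ↓reduceIte, add_zero, true_and, Nat.add_left_cancel_iff]
    · simp only [Bool.decide_or, h, true_and, one_ne_zero, false_and, ↓reduceIte, add_zero, Nat.add_left_cancel_iff]

section

variable (J : List Eqn)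

theorem kJ_le (hdist : ∀ e ∈ J, e.1.1 ≠ e.1.2.1 ∧ e.1.1 ≠ e.1.2.2 ∧ e.1.2.1 ≠ e.1.2.2)
    (v : VV J) : kJ J v ≤ occurrences v J := by
  classical
  unfold occurrences
  rw [countP_eq_card]
  have h1 : kJ J v = Fintype.card {p : Fin J.length × Fin 3 // vrJ J p.1 p.2 = v} := by
    rw [← Fintype.card_congr (ocJ J v)]
    simp only [Fintype.card_fin]
  rw [h1, Fintype.card_subtype]
  apply Finset.card_le_card_of_injOn (fun p => p.1)
  · intro p hp
    rw [Finset.mem_coe, Finset.mem_filter] at hp
    rw [Finset.mem_coe, Finset.mem_filter]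
    refine ⟨mem_univ _, ?_⟩
    have h2 : Eqn.var (J.get p.1) p.2 = v := congrArg Subtype.val hp.2
    rw [decide_eq_true_eq]
    unfold Eqn.var at h2
    rcases p with ⟨q, i⟩
    rcases fin3_cases' i with rfl | rfl | rfl
    · exact Or.inl (by simpa using h2)
    · exact Or.inr (Or.inl (by simpa only [List.get_eq_getElem, Fin.isValue, one_ne_zero, ↓reduceIte] using h2))
    · exact Or.inr (Or.inr (by simpa only [List.get_eq_getElem, Fin.isValue, Fin.reduceEq, ↓reduceIte] using h2))
  · intro p hp p' hp' hpp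
    rw [Finset.mem_coe, Finset.mem_filter] at hp hp'
    rcases p with ⟨q, i⟩
    rcases p' with ⟨q', i'⟩
    simp only at hpp
    subst hpp
    have h3 : i = i' := vrJ_inj J hdist q (hp.2.trans hp'.2.symm)
    rw [h3]

theorem kJ_pos (v : VV J) : 1 ≤ kJ J v := by
  obtain ⟨v, hv⟩ := v
  unfold vars at hv
  rw [mem_image] at hv
  obtain ⟨p, -, hp⟩ := hv
  have h : p ∈ occF J v := by
    unfold occF
    rw [List.mem_filter]
    exact ⟨mem_allOcc p, decide_eq_true hp⟩
  exact List.length_pos_of_mem h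

end

/-- the table of templates -/
noncomputable def table (d t β : ℕ) (ε : ℝ) : List (List (List Sym)) :=
  (List.range (d + 1)).map (fun K =>
    open Classical in if h : Nonempty (Amp K t β ε) then tmpl h.some else [])

theorem table_getD (d t β : ℕ) (ε : ℝ) (K : ℕ) (hK : K ≤ d) (h : Nonempty (Amp K t β ε)) :
    (table d t β ε).getD K [] = tmpl h.some := by
  unfold table
  rw [List.getD_eq_getElem?_getD, List.getElem?_map, List.getElem?_range (by omega)]
  simp [h]

/-- The reduction. -/
noncomputable def Fred (d t : ℕ) (ε : ℝ) (I : List Eqn) : List (List ℕ) :=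
  G (table d t 3 ε) t 3 (dbl I)

theorem Fred_bounds (d t : ℕ) (ε : ℝ) (ht : 0 < t)
    (hamp : ∀ K, 1 ≤ K → K ≤ d → Nonempty (Amp K t 3 ε)) (I : List Eqn) (hI : Bounded d I)
    (hne : I ≠ []) :
    (opt (Fred d t ε I) ≤ 130 * (I.length * t) + (6 * I.length + 1 + 2 * t * minViolated I)) ∧
    ((130 * (I.length * t) + 2 * t * minViolated I : ℝ)
      ≤ opt (Fred d t ε I) + 36 * ε * (I.length * t)) := by
  obtain ⟨hdist, hocc⟩ := hI
  have hdist' := dbl_dist I hdist
  have hk : ∀ v : VV (dbl I), kJ (dbl I) v ≤ d := by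
    intro v
    refine (kJ_le (dbl I) hdist' v).trans ?_
    rw [occurrences_dbl]
    exact hocc _
  have hne' : ∀ v : VV (dbl I), Nonempty (Amp (kJ (dbl I) v) t 3 ε) := fun v =>
    hamp _ (kJ_pos _ v) (hk v)
  have htab : ∀ v : VV (dbl I), (table d t 3 ε).getD (kJ (dbl I) v) [] = tmpl (hne' v).some :=
    fun v => table_getD d t 3 ε _ (hk v) (hne' v)
  have hcost : costJ (dbl I) t 3 = 130 * (I.length * t) := by
    unfold costJ
    rw [dbl_length, dbl_even, dbl_odd]
    ring
  constructor
  · obtain ⟨y, hy⟩ := exists_minViolated I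
    have h := G_upper (dbl I) (table d t 3 ε) t 3 (fun v => (hne' v).some) htab
      (fun n => if n % 2 = 0 then y (n / 2) else !(y (n / 2)))
    rw [violated_dbl_of, hy, hcost, dbl_length] at h
    unfold Fred
    calc _ ≤ _ := h
      _ = _ := by ring
  · have hlen : 0 < I.length := List.length_pos_iff.2 hne
    obtain ⟨x, hx⟩ := G_lower (dbl I) (table d t 3 ε) t 3 (fun v => (hne' v).some) htab
      (by norm_num) hdist' (by rw [dbl_length]; omega) ht
    rw [hcost, violated_dbl, dbl_length] at hx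
    have h1 : (minViolated I : ℝ) ≤ (violated (fun v => x (2 * v)) I : ℕ) := by
      exact_mod_cast minViolated_le I _
    have h2 : (minViolated I : ℝ) ≤ (violated (fun v => !(x (2 * v + 1))) I : ℕ) := by
      exact_mod_cast minViolated_le I _
    have ht' : (0 : ℝ) ≤ t := Nat.cast_nonneg t
    have h3 := mul_le_mul_of_nonneg_left h1 ht'
    have h4 := mul_le_mul_of_nonneg_left h2 ht'
    unfold Fred
    push_cast at hx ⊢
    linarith

end Vale.Agent.P333
end
end
end

section

section

section

/-!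
The gap reduction and its consequence for approximation algorithms, given amplifiers (P333).
-/

namespace Vale.Agent.P333

open Vale.Agent.Lib.PolyTime

/-! ### encodings -/

theorem pairW_eq (u v : List Bool) : pairW u v = pr u v := by
  unfold pairW
  induction u with
  | nil => rfl
  | cons b u ih => rw [List.flatMap_cons, pr, ← ih]; rfl

theorem listW_eq {α : Type} [Enc α] (l : List α) : listW enc l = enc l := by
  induction l with
  | nil => rfl
  | cons a l ih => rw [listW, ih, enc_cons, pairW_eq]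

theorem stringW_eq (s : List ℕ) : stringW s = enc s := listW_eq s

theorem familyW_eq (S : List (List ℕ)) : familyW S = enc S := by
  unfold familyW
  have : stringW = (enc : List ℕ → Word) := funext stringW_eq
  rw [this]
  exact listW_eq S

theorem systemW_eq (I : List Eqn) : systemW I = enc I := by
  unfold systemW
  have : (fun e : Eqn => pairW (pairW (Nat.bits e.1.1) (pairW (Nat.bits e.1.2.1)
      (Nat.bits e.1.2.2))) [e.2]) = (enc : Eqn → Word) := by
    funext e
    rw [pairW_eq, pairW_eq, pairW_eq]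
    rfl
  rw [this]
  exact listW_eq I

theorem polyTime_of_PT {α β : Type} [Enc α] [Enc β] {f : α → β} (hf : PT ∅ f) :
    PolyTime enc enc f := hf.tm2

theorem PT_of_polyTime {α β : Type} [Enc α] [Enc β] {f : α → β} (hf : PolyTime enc enc f) :
    PT ∅ f := by
  obtain ⟨M⟩ := hf
  exact exists_FP_of_tm2 M

/-! ### the reduction -/

theorem PT_dbl {A : Set Word} : PT A dbl := by
  have he : PT A (fun p : List Eqn × Eqn => p.2) := PT.snd'
  have hx := he.fst.fst
  have hy := he.fst.snd.fst
  have hz := he.fst.snd.snd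
  have hb := he.snd
  have h2 : ∀ {x : List Eqn × Eqn → ℕ}, PT A x → PT A (fun a => 2 * x a) :=
    fun hx => PT.mul (PT.const 2) hx
  have h3 : ∀ {x : List Eqn × Eqn → ℕ}, PT A x → PT A (fun a => 2 * x a + 1) :=
    fun hx => PT.add (h2 hx) (PT.const 1)
  exact PT.flatMap (l := fun I : List Eqn => I)
    (f := fun (_ : List Eqn) (e : Eqn) => [((2 * e.1.1, 2 * e.1.2.1, 2 * e.1.2.2), e.2),
    ((2 * e.1.1 + 1, 2 * e.1.2.1 + 1, 2 * e.1.2.2 + 1), !e.2)]) PT.id
    (PT.cons (PT.pair (PT.pair (h2 hx) (PT.pair (h2 hy) (h2 hz))) hb)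
      (PT.cons (PT.pair (PT.pair (h3 hx) (PT.pair (h3 hy) (h3 hz))) hb.not) (PT.const [])))

theorem PT_Fred {A : Set Word} (d t : ℕ) (ε : ℝ) : PT A (Fred d t ε) :=
  PT.comp (g := fun J : List Eqn => G (table d t 3 ε) t 3 J) (PT_G _ t 3) PT_dbl

theorem Fred_nil (d t : ℕ) (ε : ℝ) : Fred d t ε [] = [] := rfl

theorem opt_nil : opt [] = 0 := by
  have : IsSuperstring [] [] := fun s hs => by simp at hs
  simpa using opt_le this

theorem minViolated_nil : minViolated [] = 0 := by
  simpa [violated] using minViolated_le [] (fun _ => false)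

/-- Existence of amplifiers with three skipped blocks. -/
def AmpsExist : Prop :=
  ∀ ε : ℝ, 0 < ε → ∀ k : ℕ, 1 ≤ k → ∃ t0 : ℕ, ∀ t, t0 ≤ t → Nonempty (Amp k t 3 ε)

theorem exists_t (hamp : AmpsExist) (ε : ℝ) (hε : 0 < ε) (d : ℕ) :
    ∃ t0 : ℕ, ∀ t, t0 ≤ t → ∀ K, 1 ≤ K → K ≤ d → Nonempty (Amp K t 3 ε) := by
  induction d with
  | zero => exact ⟨0, fun t _ K h1 h2 => by omega⟩
  | succ d ih =>
    obtain ⟨t0, h0⟩ := ih
    obtain ⟨t1, h1⟩ := hamp ε hε (d + 1) (by omega)
    refine ⟨max t0 t1, fun t ht K hK1 hK2 => ?_⟩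
    rcases Nat.lt_or_ge K (d + 1) with h | h
    · exact h0 t (le_trans (le_max_left _ _) ht) K hK1 (by omega)
    · have : K = d + 1 := by omega
      subst this
      exact h1 t (le_trans (le_max_right _ _) ht)

/-- The affine gap reduction. -/
theorem reduction (hamp : AmpsExist) (ε : ℝ) (hε : 0 < ε) (d : ℕ) :
    ∃ (t : ℕ) (f : List Eqn → List (List ℕ)), 0 < t ∧ PolyTime systemW familyW f ∧
      ∀ I, Bounded d I →
        |(opt (f I) : ℝ) - t * (130 * I.length + 2 * minViolated I)| ≤ ε * (t * I.length) := by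
  obtain ⟨t0, ht0⟩ := exists_t hamp (ε / 36) (by positivity) d
  obtain ⟨t1, ht1⟩ := exists_nat_gt (7 / ε)
  have ht1' : 7 < ε * t1 := by
    rw [div_lt_iff₀ hε] at ht1
    linarith
  refine ⟨max t0 t1 + 1, Fred d (max t0 t1 + 1) (ε / 36), by omega, ?_, ?_⟩
  · have h1 : PolyTime enc enc (Fred d (max t0 t1 + 1) (ε / 36)) := polyTime_of_PT (PT_Fred _ _ _)
    have h2 : systemW = (enc : List Eqn → Word) := funext systemW_eq
    have h3 : familyW = (enc : List (List ℕ) → Word) := funext familyW_eq
    rw [h2, h3]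
    exact h1
  · intro I hI
    by_cases hne : I = []
    · subst hne
      rw [Fred_nil, opt_nil, minViolated_nil]
      simp only [CharP.cast_eq_zero, Nat.cast_add, Nat.cast_max, Nat.cast_one, List.length_nil, mul_zero, add_zero, sub_self, abs_zero, Std.le_refl]
    · obtain ⟨hup, hlo⟩ := Fred_bounds d (max t0 t1 + 1) (ε / 36) (by omega)
        (fun K h1 h2 => ht0 _ (by have := le_max_left t0 t1; omega) K h1 h2) I hI hne
      set t : ℕ := max t0 t1 + 1 with ht
      have hm : (1 : ℝ) ≤ I.length := by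
        have : 1 ≤ I.length := List.length_pos_iff.2 hne
        exact_mod_cast this
      have htt : 7 ≤ ε * t := by
        have h1 : t1 ≤ t := by have := le_max_right t0 t1; omega
        have h2 : (t1 : ℝ) ≤ t := by exact_mod_cast h1
        have h3 := mul_le_mul_of_nonneg_left h2 hε.le
        linarith only [ht1', h3]
      have hup' : (opt (Fred d t (ε / 36) I) : ℝ) ≤ 130 * (I.length * t)
          + (6 * I.length + 1 + 2 * t * minViolated I) := by exact_mod_cast hup
      rw [abs_le]
      constructor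
      · nlinarith only [hlo]
      · nlinarith only [hm, hup', htt]

/-! ### approximation algorithms -/

theorem GapDecidable_mono_rho {ρ ρ' : ℝ} (h : ρ ≤ ρ') (ha : HasApprox ρ) : HasApprox ρ' := by
  obtain ⟨alg, h1, h2⟩ := ha
  refine ⟨alg, h1, fun S => ⟨(h2 S).1, (h2 S).2.trans ?_⟩⟩
  exact mul_le_mul_of_nonneg_right h (Nat.cast_nonneg _)

/-- A polynomial time `ρ`-approximation with `ρ < 131/130` decides the gap problem. -/
theorem approx_gap (hamp : AmpsExist) (ρ : ℝ) (hρ : ρ < 131 / 130) :
    ∃ ε : ℝ, 0 < ε ∧ ε < 1 / 4 ∧ (HasApprox ρ → ∀ d : ℕ, GapDecidable ε d) := by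
  obtain ⟨ρ', hρρ', hρ'1, hρ'2⟩ : ∃ ρ', ρ ≤ ρ' ∧ 1 ≤ ρ' ∧ ρ' < 131 / 130 :=
    ⟨max ρ 1, le_max_left _ _, le_max_right _ _, max_lt hρ (by norm_num)⟩
  set ε : ℝ := (131 - 130 * ρ') / 10 with hε
  have hε0 : 0 < ε := by rw [hε]; linarith only [hρ'2]
  have hε1 : ε < 1 / 4 := by rw [hε]; linarith only [hρ'1]
  refine ⟨ε, hε0, hε1, fun ha d => ?_⟩
  obtain ⟨alg, halg, hS⟩ := GapDecidable_mono_rho hρρ' ha
  obtain ⟨t, f, ht, hf, hgap⟩ := reduction hamp ε hε0 d
  -- the threshold
  have hlt : ρ' * (130 + 3 * ε) < 131 - 3 * ε := by nlinarith only [hε, hρ'2]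
  obtain ⟨r, hr1, hr2⟩ := exists_rat_btwn hlt
  have hr0 : (0 : ℝ) < r := lt_of_le_of_lt (by (clear * - hρ'1 hε0; positivity)) hr1
  have hr0' : 0 < r := by exact_mod_cast hr0
  obtain ⟨N, hN⟩ : ∃ N : ℕ, (N : ℤ) = r.num := ⟨r.num.toNat, Int.toNat_of_nonneg
    (Rat.num_nonneg.2 hr0'.le)⟩
  have hrND : (r : ℝ) = N / r.den := by
    have h1 : (r : ℝ) = (r.num : ℝ) / (r.den : ℝ) := by exact_mod_cast (Rat.num_div_den r).symm
    rw [h1, ← hN]
    push_cast
    rfl
  have hD : (0 : ℝ) < r.den := by exact_mod_cast r.den_pos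
  have hrD : (r : ℝ) * r.den = N := by rw [hrND]; (clear * -; field_simp)
  refine ⟨fun I => decide ((alg (f I)).length * r.den < N * (t * I.length)), ?_, ?_⟩
  · have h2 : systemW = (enc : List Eqn → Word) := funext systemW_eq
    have h3 : familyW = (enc : List (List ℕ) → Word) := funext familyW_eq
    have h4 : stringW = (enc : List ℕ → Word) := funext stringW_eq
    have h5 : (fun b : Bool => [b]) = (enc : Bool → Word) := rfl
    rw [h2, h3] at hf
    rw [h3, h4] at halg
    rw [h2, h5]
    have hf' : PT ∅ f := PT_of_polyTime hf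
    have halg' : PT ∅ alg := PT_of_polyTime halg
    have hc : PT ∅ (fun I : List Eqn => alg (f I)) := halg'.comp hf'
    exact polyTime_of_PT (PT.lt (PT.mul hc.length (PT.const r.den))
      (PT.mul (PT.const N) (PT.mul (PT.const t) (PT.length PT.id))))
  · intro I hne hI
    have hm : (0 : ℝ) < I.length := by
      have : 0 < I.length := List.length_pos_iff.2 hne
      exact_mod_cast this
    have ht' : (0 : ℝ) < t := by exact_mod_cast ht
    have htm : 0 < t * (I.length : ℝ) := mul_pos ht' hm
    have hb := hgap I hI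
    rw [abs_le] at hb
    obtain ⟨hb1, hb2⟩ := hb
    constructor
    · intro hmin
      rw [decide_eq_true_eq]
      have h1 : (opt (f I) : ℝ) ≤ t * I.length * (130 + 3 * ε) := by nlinarith only [hb2, hmin]
      have h2 : ((alg (f I)).length : ℝ) ≤ ρ' * (t * I.length * (130 + 3 * ε)) :=
        (hS (f I)).2.trans (mul_le_mul_of_nonneg_left h1 (by linarith only [hρ'1]))
      have h3 : ρ' * (t * I.length * (130 + 3 * ε)) < t * I.length * r := by
        have := mul_lt_mul_of_pos_left hr1 htm
        linarith only [this]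
      have h4 : ((alg (f I)).length : ℝ) * r.den < N * (t * I.length) := by
        rw [← hrD]
        have := mul_lt_mul_of_pos_right (h2.trans_lt h3) hD
        linarith only [this]
      exact_mod_cast h4
    · intro hmin
      rw [decide_eq_false_iff_not, not_lt]
      have h1 : t * I.length * (131 - 3 * ε) ≤ (opt (f I) : ℝ) := by nlinarith only [hb1, hmin]
      have h2 : (opt (f I) : ℝ) ≤ ((alg (f I)).length : ℝ) := by
        exact_mod_cast opt_le (hS (f I)).1
      have h3 : t * I.length * r < t * I.length * (131 - 3 * ε) := mul_lt_mul_of_pos_left hr2 htm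
      have h4 : (N : ℝ) * (t * I.length) ≤ ((alg (f I)).length : ℝ) * r.den := by
        rw [← hrD]
        have := mul_le_mul_of_nonneg_right (h3.le.trans (h1.trans h2)) hD.le
        linarith only [this]
      exact_mod_cast h4

end Vale.Agent.P333
end
end
end

section

section

section

/-!
Certificates for the plain property up to density one tenth.
-/

namespace Vale.Agent.P333

open Finset

/-- Certificate for densities between 1/200 and 1/50. -/
noncomputable def pc0 : Cert2 where
  lam := 1/60395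
  sig := 60395
  y₀ := 31/2500
  y₁ := 191/200
  R₀ := 10267/10000
  R₁ := 2000699/2000000
  v₁ := fun q => if q then 221/10 else 1
  lam_pos := by norm_num
  lam_le := by norm_num
  sig_ge := by norm_num
  hs := by norm_num
  y₀_pos := by norm_num
  y₁_pos := by norm_num
  R₀_pos := by norm_num
  R₁_pos := by norm_num
  v₁_ge := by intro q; cases q <;> norm_num
  step₀ := by norm_num [cellT]
  step₁ := by intro q; cases q <;> norm_num [cellT]

theorem pc0_log (t : ℝ) (h0 : 1/200 ≤ t) (h1 : t ≤ 1/50) :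
    Real.log pc0.R₀ + 4 * Real.log pc0.R₁
      ≤ 4 * (Real.binEntropy t + t * Real.log (pc0.y₀ * pc0.y₁)) := by
  have e3 := chk (C := 1009341/1000000) (Z := 5921/500000) (by norm_num) (by norm_num)
    (a := 1) (b := 200) (by norm_num) (by norm_num) (by norm_num)
  have e4 := chk (C := 1009341/1000000) (Z := 5921/500000) (by norm_num) (by norm_num)
    (a := 1) (b := 50) (by norm_num) (by norm_num) (by norm_num)
  have hy : pc0.y₀ * pc0.y₁ = 5921/500000 := by norm_num [pc0]
  have g := chk_between (L := Real.log (1009341/1000000)) (Z := Real.log (5921/500000))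
    (t0 := 1/200) (t1 := 1/50) (t := t) (by norm_num) (by norm_num) h0 h1
    (by norm_num at e3 ⊢; exact e3) (by norm_num at e4 ⊢; exact e4)
  have hR : Real.log (pc0.R₀ * pc0.R₁ ^ 4) ≤ Real.log ((1009341/1000000 : ℝ) ^ 4) :=
    Real.log_le_log (by norm_num [pc0]) (by norm_num [pc0])
  rw [Real.log_mul (by norm_num [pc0]) (by norm_num [pc0]), Real.log_pow, Real.log_pow] at hR
  rw [hy]
  push_cast at hR
  linarith only [g, hR]

/-- Certificate for densities between 1/50 and 1/20. -/
noncomputable def pc1 : Cert2 where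
  lam := 1/4806
  sig := 4806
  y₀ := 381/10000
  y₁ := 461/500
  R₀ := 27273/25000
  R₁ := 2506613/2500000
  v₁ := fun q => if q then 62/5 else 1
  lam_pos := by norm_num
  lam_le := by norm_num
  sig_ge := by norm_num
  hs := by norm_num
  y₀_pos := by norm_num
  y₁_pos := by norm_num
  R₀_pos := by norm_num
  R₁_pos := by norm_num
  v₁_ge := by intro q; cases q <;> norm_num
  step₀ := by norm_num [cellT]
  step₁ := by intro q; cases q <;> norm_num [cellT]

theorem pc1_log (t : ℝ) (h0 : 1/50 ≤ t) (h1 : t ≤ 1/20) :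
    Real.log pc1.R₀ + 4 * Real.log pc1.R₁
      ≤ 4 * (Real.binEntropy t + t * Real.log (pc1.y₀ * pc1.y₁)) := by
  have e3 := chk (C := 1031551/1000000) (Z := 175641/5000000) (by norm_num) (by norm_num)
    (a := 1) (b := 50) (by norm_num) (by norm_num) (by norm_num)
  have e4 := chk (C := 1031551/1000000) (Z := 175641/5000000) (by norm_num) (by norm_num)
    (a := 1) (b := 20) (by norm_num) (by norm_num) (by norm_num)
  have hy : pc1.y₀ * pc1.y₁ = 175641/5000000 := by norm_num [pc1]
  have g := chk_between (L := Real.log (1031551/1000000)) (Z := Real.log (175641/5000000))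
    (t0 := 1/50) (t1 := 1/20) (t := t) (by norm_num) (by norm_num) h0 h1
    (by norm_num at e3 ⊢; exact e3) (by norm_num at e4 ⊢; exact e4)
  have hR : Real.log (pc1.R₀ * pc1.R₁ ^ 4) ≤ Real.log ((1031551/1000000 : ℝ) ^ 4) :=
    Real.log_le_log (by norm_num [pc1]) (by norm_num [pc1])
  rw [Real.log_mul (by norm_num [pc1]) (by norm_num [pc1]), Real.log_pow, Real.log_pow] at hR
  rw [hy]
  push_cast at hR
  linarith only [g, hR]

/-- Certificate for densities between 1/20 and 1/10. -/
noncomputable def pc2 : Cert2 where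
  lam := 1/768
  sig := 768
  y₀ := 443/5000
  y₁ := 449/500
  R₀ := 15639/12500
  R₁ := 5052033/5000000
  v₁ := fun q => if q then 89/10 else 1
  lam_pos := by norm_num
  lam_le := by norm_num
  sig_ge := by norm_num
  hs := by norm_num
  y₀_pos := by norm_num
  y₁_pos := by norm_num
  R₀_pos := by norm_num
  R₁_pos := by norm_num
  v₁_ge := by intro q; cases q <;> norm_num
  step₀ := by norm_num [cellT]
  step₁ := by intro q; cases q <;> norm_num [cellT]

theorem pc2_log (t : ℝ) (h0 : 1/20 ≤ t) (h1 : t ≤ 1/10) :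
    Real.log pc2.R₀ + 4 * Real.log pc2.R₁
      ≤ 4 * (Real.binEntropy t + t * Real.log (pc2.y₀ * pc2.y₁)) := by
  have e3 := chk (C := 537303/500000) (Z := 198907/2500000) (by norm_num) (by norm_num)
    (a := 1) (b := 20) (by norm_num) (by norm_num) (by norm_num)
  have e4 := chk (C := 537303/500000) (Z := 198907/2500000) (by norm_num) (by norm_num)
    (a := 1) (b := 10) (by norm_num) (by norm_num) (by norm_num)
  have hy : pc2.y₀ * pc2.y₁ = 198907/2500000 := by norm_num [pc2]
  have g := chk_between (L := Real.log (537303/500000)) (Z := Real.log (198907/2500000))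
    (t0 := 1/20) (t1 := 1/10) (t := t) (by norm_num) (by norm_num) h0 h1
    (by norm_num at e3 ⊢; exact e3) (by norm_num at e4 ⊢; exact e4)
  have hR : Real.log (pc2.R₀ * pc2.R₁ ^ 4) ≤ Real.log ((537303/500000 : ℝ) ^ 4) :=
    Real.log_le_log (by norm_num [pc2]) (by norm_num [pc2])
  rw [Real.log_mul (by norm_num [pc2]) (by norm_num [pc2]), Real.log_pow, Real.log_pow] at hR
  rw [hy]
  push_cast at hR
  linarith only [g, hR]

/-- Certificate at a small density. -/
noncomputable def pcs (t : ℝ) (ht0 : 0 < t) (ht1 : t ≤ 1/200) : Cert2 where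
  lam := (t/4) ^ 2
  sig := (4/t) ^ 2
  y₀ := 2 * t
  y₁ := 1
  R₀ := 1 + (4 * t + 269 * t ^ 2)
  R₁ := 1 + t/4
  v₁ := fun q => if q then 4/t else 1
  lam_pos := by positivity
  lam_le := by nlinarith
  sig_ge := by
    have : 1 ≤ 4/t := by rw [le_div_iff₀ ht0]; linarith
    nlinarith
  hs := by
    have hne : t ≠ 0 := ht0.ne'
    apply le_of_eq
    field_simp
  y₀_pos := by positivity
  y₁_pos := one_pos
  R₀_pos := by positivity
  R₁_pos := by positivity
  v₁_ge := by
    intro q
    cases q
    · simp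
    · simp only [if_true]
      rw [le_div_iff₀ ht0]; linarith
  step₀ := by
    have hne : t ≠ 0 := ht0.ne'
    have e : cellT ((t/4) ^ 2) (2 * t) (cellT ((t/4) ^ 2) (2 * t) (cellT ((t/4) ^ 2) (2 * t)
        (fun q => if q then (4/t) ^ 2 else 1))) false
        + 2 * t * cellT ((t/4) ^ 2) (2 * t) (cellT ((t/4) ^ 2) (2 * t) (cellT ((t/4) ^ 2) (2 * t)
        (fun q => if q then (4/t) ^ 2 else 1))) true
        = 1 + (4 * t + 268 * t ^ 2 + 129/4 * t ^ 3 + 3/4 * t ^ 4) := by
      simp [cellT]
      field_simp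
      ring
    rw [e]
    have h3 : t ^ 3 ≤ t ^ 2 * (1/200) := by nlinarith [sq_nonneg t]
    have h4 : t ^ 4 ≤ t ^ 3 * (1/200) := by
      have : 0 ≤ t ^ 3 := by positivity
      nlinarith
    have h2 : 0 ≤ t ^ 2 := by positivity
    nlinarith
  step₁ := by
    intro q
    have hne : t ≠ 0 := ht0.ne'
    cases q
    · apply le_of_eq
      simp [cellT]
      field_simp
    · apply le_of_eq
      simp [cellT]
      field_simp
      ring

theorem pcs_log (t : ℝ) (ht0 : 0 < t) (ht1 : t ≤ 1/200) :
    Real.log (pcs t ht0 ht1).R₀ + 4 * Real.log (pcs t ht0 ht1).R₁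
      ≤ 4 * (Real.binEntropy t + t * Real.log ((pcs t ht0 ht1).y₀ * (pcs t ht0 ht1).y₁)) := by
  simp only [pcs]
  have h1 : Real.log (1 + (4 * t + 269 * t ^ 2)) ≤ 4 * t + 269 * t ^ 2 := by
    have := Real.log_le_sub_one_of_pos (show (0 : ℝ) < 1 + (4 * t + 269 * t ^ 2) by positivity)
    linarith only [this]
  have h2 : Real.log (1 + t/4) ≤ t/4 := by
    have := Real.log_le_sub_one_of_pos (show (0 : ℝ) < 1 + t/4 by positivity)
    linarith only [this]
  have h3 : Real.log (1 - t) ≤ -t := by
    have := Real.log_le_sub_one_of_pos (show (0 : ℝ) < 1 - t by linarith only [ht1])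
    linarith only [this]
  have h4 := Real.log_two_gt_d9
  have h5 : (1 - t) * Real.log (1 - t) ≤ (1 - t) * (-t) :=
    mul_le_mul_of_nonneg_left h3 (by linarith only [ht1])
  have h6 : t * 0.693 ≤ t * Real.log 2 := mul_le_mul_of_nonneg_left (by linarith only [h4]) ht0.le
  rw [mul_one, Real.log_mul (by norm_num) ht0.ne', Real.binEntropy, Real.log_inv, Real.log_inv]
  nlinarith

/-- The weight bound of the plain event up to density one tenth. -/
theorem plain_weight (s K u : ℕ) (hK : 0 < K) (hu0 : 0 < u) (hu : (u : ℝ) / (K * 4 : ℕ) ≤ 1/10)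
    (T : Finset ((Fin K → Cell) × (Fin (K * 4) → Bool)))
    (hT : ∀ p ∈ T, bOnes K p.1 = u ∧ bones p.2 = u ∧ bad2 s K p.1 p.2) :
    (T.card : ℝ) * (1 / ((K * 4).choose u : ℝ)) ≤ (1/768) ^ s * ((K * 4 : ℕ) + 1) := by
  have hN : (0 : ℝ) < (K * 4 : ℕ) := by
    have : 0 < K * 4 := by omega
    exact_mod_cast this
  have huN : u ≤ K * 4 := by
    have h1 : (u : ℝ) ≤ (K * 4 : ℕ) * (1/10) := by
      rw [div_le_iff₀ hN] at hu
      linarith only [hu]
    have h2 : (u : ℝ) ≤ (K * 4 : ℕ) := by linarith only [h1]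
    exact_mod_cast h2
  have ht0 : 0 < (u : ℝ) / (K * 4 : ℕ) := by
    have : (0 : ℝ) < u := by exact_mod_cast hu0
    positivity
  have main : ∀ (C : Cert2), C.lam ≤ 1/768 → C.v₁ false = 1 →
      Real.log C.R₀ + 4 * Real.log C.R₁ ≤ 4 * (Real.binEntropy ((u : ℝ) / (K * 4 : ℕ))
        + (u : ℝ) / (K * 4 : ℕ) * Real.log (C.y₀ * C.y₁)) →
      (T.card : ℝ) * (1 / ((K * 4).choose u : ℝ)) ≤ (1/768) ^ s * ((K * 4 : ℕ) + 1) := by
    intro C h1 h2 h3
    refine (C.weight_le s K u hK huN h3 T hT).trans ?_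
    rw [h2, mul_one]
    have := C.lam_pos
    gcongr
  rcases le_total ((u : ℝ) / (K * 4 : ℕ)) (1/200) with h | h
  · refine main (pcs _ ht0 h) ?_ ?_ (pcs_log _ ht0 h)
    · simp only [pcs]
      nlinarith only [ht0, hu]
    · simp only [pcs, Nat.cast_mul, Nat.cast_ofNat, Bool.false_eq_true, ↓reduceIte]
  · rcases le_total ((u : ℝ) / (K * 4 : ℕ)) (1/50) with h' | h'
    · exact main pc0 (by norm_num [pc0]) (by norm_num [pc0]) (pc0_log _ h h')
    · rcases le_total ((u : ℝ) / (K * 4 : ℕ)) (1/20) with h'' | h''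
      · exact main pc1 (by norm_num [pc1]) (by norm_num [pc1]) (pc1_log _ h' h'')
      · exact main pc2 (by norm_num [pc2]) (by norm_num [pc2]) (pc2_log _ h'' hu)

end Vale.Agent.P333
end
end
end

section

section

section

/-!
Existence of amplifiers with four blocks per contact.
-/

namespace Vale.Agent.P333

open Finset

/-- Bulk event. -/
def P1 (s K : ℕ) (l : Fin K → Cell) (f : Fin (K * 4) → Bool) : Prop :=
  bad1 s K l f ∧ (1/10 : ℝ) ≤ (bones f : ℝ) / (K * 4 : ℕ) ∧ (bones f : ℝ) / (K * 4 : ℕ) ≤ 9/10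

/-- Plain event. -/
def P2 (s K : ℕ) (l : Fin K → Cell) (f : Fin (K * 4) → Bool) : Prop :=
  bad2 s K l f ∧ (bones f : ℝ) / (K * 4 : ℕ) ≤ 1/10

theorem Cert1.use {C : Cert1} {t0 t1 m0 m1 : ℝ} (hC : C.Good t0 t1 m0 m1)
    (hl : C.lam ≤ 1/70) (hv : C.v₀ false * C.v₁ false ≤ 1) {s K w u : ℕ} (hK : 0 < K) (hw : w ≤ K)
    (hu : u ≤ K * 4) (h1 : m0 ≤ (w : ℝ) / K) (h2 : (w : ℝ) / K ≤ m1)
    (h3 : t0 ≤ (u : ℝ) / (K * 4 : ℕ)) (h4 : (u : ℝ) / (K * 4 : ℕ) ≤ t1)
    (T : Finset ((Fin K → Cell) × (Fin (K * 4) → Bool)))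
    (hT : ∀ p ∈ T, wOnes K p.1 = w ∧ bOnes K p.1 = u ∧ bones p.2 = u ∧ bad1 s K p.1 p.2) :
    (T.card : ℝ) * (1 / (K.choose w : ℝ)) * (1 / ((K * 4).choose u : ℝ))
      ≤ (1/70) ^ s * ((K + 1) * ((K * 4 : ℕ) + 1)) := by
  refine (hC s K w u hK hw hu h1 h2 h3 h4 T hT).trans ?_
  have h5 := C.lam_pos
  have h6 := lt_of_lt_of_le one_pos (C.v₀_ge false)
  have h7 := lt_of_lt_of_le one_pos (C.v₁_ge false)
  calc C.lam ^ s * (C.v₀ false * C.v₁ false) * ((K + 1) * ((K * 4 : ℕ) + 1))
      ≤ (1/70) ^ s * 1 * ((K + 1) * ((K * 4 : ℕ) + 1)) := by gcongr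
    _ = _ := by ring

theorem bulk_weight {s K w u : ℕ} (hK : 0 < K) (hw : w ≤ K)
    (hu : u ≤ K * 4) (h3 : (1/10 : ℝ) ≤ (u : ℝ) / (K * 4 : ℕ)) (h4 : (u : ℝ) / (K * 4 : ℕ) ≤ 9/10)
    (T : Finset ((Fin K → Cell) × (Fin (K * 4) → Bool)))
    (hT : ∀ p ∈ T, wOnes K p.1 = w ∧ bOnes K p.1 = u ∧ bones p.2 = u ∧ bad1 s K p.1 p.2) :
    (T.card : ℝ) * (1 / (K.choose w : ℝ)) * (1 / ((K * 4).choose u : ℝ))
      ≤ (1/70) ^ s * ((K + 1) * ((K * 4 : ℕ) + 1)) := by
  have hK0 : (0 : ℝ) < K := by exact_mod_cast hK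
  have h1 : (0 : ℝ) ≤ (w : ℝ) / K := by positivity
  have h2 : (w : ℝ) / K ≤ 1 := by
    rw [div_le_one hK0]
    exact_mod_cast hw
  rcases le_total ((w : ℝ) / K) (1/2) with a | a
  · rcases le_total ((u : ℝ) / (K * 4 : ℕ)) (3/10) with b | b
    · exact Cert1.use rc00_good (by norm_num [rc00]) (by norm_num [rc00]) hK hw hu h1 a h3 b T hT
    · rcases le_total ((u : ℝ) / (K * 4 : ℕ)) (1/2) with c | c
      · exact Cert1.use rc01_good (by norm_num [rc01]) (by norm_num [rc01]) hK hw hu h1 a b c T hT
      · rcases le_total ((u : ℝ) / (K * 4 : ℕ)) (7/10) with d | d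
        · exact Cert1.use rc06_good (by norm_num [rc06]) (by norm_num [rc06]) hK hw hu h1 a c d T hT
        · rcases le_total ((w : ℝ) / K) (1/4) with e | e
          · exact Cert1.use rc07_good (by norm_num [rc07]) (by norm_num [rc07]) hK hw hu h1 e d h4 T hT
          · rcases le_total ((u : ℝ) / (K * 4 : ℕ)) (4/5) with g | g
            · exact Cert1.use rc08_good (by norm_num [rc08]) (by norm_num [rc08]) hK hw hu e a d g T hT
            · exact Cert1.use rc09_good (by norm_num [rc09]) (by norm_num [rc09]) hK hw hu e a g h4 T hT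
  · rcases le_total ((u : ℝ) / (K * 4 : ℕ)) (3/10) with b | b
    · rcases le_total ((w : ℝ) / K) (3/4) with e | e
      · rcases le_total ((u : ℝ) / (K * 4 : ℕ)) (1/5) with g | g
        · exact Cert1.use rc02_good (by norm_num [rc02]) (by norm_num [rc02]) hK hw hu a e h3 g T hT
        · exact Cert1.use rc03_good (by norm_num [rc03]) (by norm_num [rc03]) hK hw hu a e g b T hT
      · exact Cert1.use rc04_good (by norm_num [rc04]) (by norm_num [rc04]) hK hw hu e h2 h3 b T hT
    · rcases le_total ((u : ℝ) / (K * 4 : ℕ)) (1/2) with c | c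
      · exact Cert1.use rc05_good (by norm_num [rc05]) (by norm_num [rc05]) hK hw hu a h2 b c T hT
      · rcases le_total ((u : ℝ) / (K * 4 : ℕ)) (7/10) with d | d
        · exact Cert1.use rc10_good (by norm_num [rc10]) (by norm_num [rc10]) hK hw hu a h2 c d T hT
        · exact Cert1.use rc11_good (by norm_num [rc11]) (by norm_num [rc11]) hK hw hu a h2 d h4 T hT

open Classical in
theorem card_P1_le {s K : ℕ} (hK : 0 < K) (V : Fin K → Bool) :
    (((univ : Finset (Equiv.Perm (Fin K) × Equiv.Perm (Fin (K * 4)))).filter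
      (fun p => ev K (P1 s K) V p)).card : ℝ)
      ≤ (K.factorial : ℝ) * ((K * 4).factorial : ℝ)
        * (((K * 4 : ℕ) + 1) * ((1/70) ^ s * ((K + 1) * ((K * 4 : ℕ) + 1)))) := by
  apply card_ev_le
  intro u T hu hT
  rcases T.eq_empty_or_nonempty with h0 | ⟨p0, hp0⟩
  · rw [h0]
    simp only [card_empty, Nat.cast_zero, zero_mul]
    positivity
  · have h1 := (hT p0 hp0).2.2.2
    have h2 := (hT p0 hp0).2.2.1
    have h3 := h1.2.1
    have h4 := h1.2.2
    rw [h2] at h3 h4
    exact bulk_weight hK (bones_le V) hu h3 h4 T (fun p hp => by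
      obtain ⟨a, b, c, d⟩ := hT p hp
      exact ⟨a, b, c, d.1⟩)

open Classical in
theorem card_P2_le {s K : ℕ} (hK : 0 < K) (hs : 0 < s) :
    (((univ : Finset (Equiv.Perm (Fin K) × Equiv.Perm (Fin (K * 4)))).filter
      (fun p => ev K (P2 s K) (fun _ => true) p)).card : ℝ)
      ≤ (K.factorial : ℝ) * ((K * 4).factorial : ℝ)
        * (((K * 4 : ℕ) + 1) * ((1/70) ^ s * ((K + 1) * ((K * 4 : ℕ) + 1)))) := by
  apply card_ev_le
  intro u T hu hT
  have hK0 : (0 : ℝ) < K := by exact_mod_cast hK
  rcases T.eq_empty_or_nonempty with h0 | ⟨p0, hp0⟩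
  · rw [h0]
    simp only [card_empty, Nat.cast_zero, zero_mul]
    positivity
  · have h1 := (hT p0 hp0).2.2.2
    have h2 := (hT p0 hp0).2.2.1
    have h4 := h1.2
    rw [h2] at h4
    have hw : bones (fun _ : Fin K => true) = K := by
      simp only [bones, Bool.toNat_true, sum_const, card_univ, Fintype.card_fin, smul_eq_mul, mul_one]
    have hu0 : 0 < u := by
      have h5 := (hT p0 hp0).2.1
      have h6 := h1.1.2
      have h7 : sumLast K p0.1 ≤ bOnes K p0.1 := by
        unfold sumLast bOnes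
        apply sum_le_sum
        intro p _
        unfold bones lastB
        exact single_le_sum (f := fun i => ((p0.1 p).2 i).toNat) (fun _ _ => Nat.zero_le _)
          (mem_univ (3 : Fin 4))
      omega
    have h5 := plain_weight s K u hK hu0 h4 T (fun p hp => by
      obtain ⟨_, b, c, d⟩ := hT p hp
      exact ⟨b, c, d.1⟩)
    rw [hw, Nat.choose_self]
    have h6 : (T.card : ℝ) * (1 / ((1 : ℕ) : ℝ)) * (1 / ((K * 4).choose u : ℝ))
        = (T.card : ℝ) * (1 / ((K * 4).choose u : ℝ)) := by
      norm_num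
    rw [h6]
    refine h5.trans ?_
    calc (1/768 : ℝ) ^ s * ((K * 4 : ℕ) + 1) ≤ (1/70) ^ s * ((K * 4 : ℕ) + 1) := by
          gcongr
          norm_num
      _ = (1/70) ^ s * (1 * ((K * 4 : ℕ) + 1)) := by ring
      _ ≤ (1/70) ^ s * ((K + 1) * ((K * 4 : ℕ) + 1)) := by
          gcongr
          linarith only []

/-- Marked positions. -/
def markV {k t : ℕ} (U : Finset (Fin k)) : Fin (k * t) → Bool :=
  fun p => decide ((finProdFinEquiv.symm p).1 ∈ U)

theorem exists_perms (k t s : ℕ) (hkt : 0 < k * t) (hs : 0 < s) (ε : ℝ) (hε : 0 < ε)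
    (hsmall : (2 ^ k + 1) * (((k * t * 4 : ℕ) + 1) * ((1/70) ^ s
      * (((k * t : ℕ) + 1) * ((k * t * 4 : ℕ) + 1)))) + 3 / (ε * (k * t : ℕ)) < 1) :
    ∃ (σ : Equiv.Perm (Fin (k * t))) (τ : Equiv.Perm (Fin (k * t * 4))),
      (∀ U : Finset (Fin k), ¬ ev (k * t) (P1 s (k * t)) (markV U) (σ, τ)) ∧
      ¬ ev (k * t) (P2 s (k * t)) (fun _ => true) (σ, τ) ∧ (coinc τ : ℝ) ≤ ε * (k * t : ℕ) := by
  classical
  by_contra hcon
  push Not at hcon
  set Q : ℝ := (((k * t * 4 : ℕ) + 1) * ((1/70) ^ s
      * (((k * t : ℕ) + 1) * ((k * t * 4 : ℕ) + 1)))) with hQ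
  have hsub : (univ : Finset (Equiv.Perm (Fin (k * t)) × Equiv.Perm (Fin (k * t * 4)))) ⊆
      ((univ : Finset (Finset (Fin k))).biUnion (fun U =>
        univ.filter (fun p => ev (k * t) (P1 s (k * t)) (markV U) p)))
      ∪ (univ.filter (fun p => ev (k * t) (P2 s (k * t)) (fun _ => true) p)
      ∪ (univ : Finset (Equiv.Perm (Fin (k * t)))) ×ˢ
        (univ.filter (fun τ : Equiv.Perm (Fin (k * t * 4)) => ε * (k * t : ℕ) < coinc τ))) := by
    intro p _
    rw [mem_union, mem_union, mem_biUnion, mem_product]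
    by_cases h1 : ∃ U, ev (k * t) (P1 s (k * t)) (markV U) p
    · obtain ⟨U, hU⟩ := h1
      exact Or.inl ⟨U, mem_univ _, by rw [mem_filter]; exact ⟨mem_univ _, hU⟩⟩
    · push Not at h1
      by_cases h2 : ev (k * t) (P2 s (k * t)) (fun _ => true) p
      · exact Or.inr (Or.inl (by rw [mem_filter]; exact ⟨mem_univ _, h2⟩))
      · refine Or.inr (Or.inr ⟨mem_univ _, ?_⟩)
        rw [mem_filter]
        exact ⟨mem_univ _, hcon p.1 p.2 h1 h2⟩
  have hcard := (card_le_card hsub).trans ((card_union_le _ _).trans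
    (Nat.add_le_add_left (card_union_le _ _) _))
  rw [card_univ, Fintype.card_prod, Fintype.card_perm, Fintype.card_perm, Fintype.card_fin,
    Fintype.card_fin, card_product, card_univ, Fintype.card_perm, Fintype.card_fin] at hcard
  have hb := (card_biUnion_le (s := (univ : Finset (Finset (Fin k)))) (t := fun U =>
        (univ : Finset (Equiv.Perm (Fin (k * t)) × Equiv.Perm (Fin (k * t * 4)))).filter
          (fun p => ev (k * t) (P1 s (k * t)) (markV U) p)))
  have h1 : ((∑ U : Finset (Fin k), ((univ : Finset (Equiv.Perm (Fin (k * t))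
      × Equiv.Perm (Fin (k * t * 4)))).filter
        (fun p => ev (k * t) (P1 s (k * t)) (markV U) p)).card : ℕ) : ℝ)
      ≤ 2 ^ k * (((k * t).factorial : ℝ) * ((k * t * 4).factorial : ℝ) * Q) := by
    rw [Nat.cast_sum]
    calc _ ≤ ∑ _U : Finset (Fin k),
        (((k * t).factorial : ℝ) * ((k * t * 4).factorial : ℝ) * Q) := by
          apply sum_le_sum
          intro U _
          exact card_P1_le hkt (markV U)
      _ = _ := by
          rw [sum_const, card_univ, Fintype.card_finset, Fintype.card_fin, nsmul_eq_mul]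
          push_cast
          ring
  have h2 := card_P2_le (s := s) hkt hs
  have h3 := card_coinc_le (n := k * t * 4) (by omega) (L := ε * (k * t : ℕ))
    (by have : (0 : ℝ) < (k * t : ℕ) := by exact_mod_cast hkt
        (clear * - hε hkt; positivity))
  have hcard' : ((k * t).factorial : ℝ) * ((k * t * 4).factorial : ℝ)
      ≤ 2 ^ k * (((k * t).factorial : ℝ) * ((k * t * 4).factorial : ℝ) * Q)
        + (((k * t).factorial : ℝ) * ((k * t * 4).factorial : ℝ) * Q
        + ((k * t).factorial : ℝ) * (((k * t * 4).factorial : ℝ) * (3 / (ε * (k * t : ℕ))))) := by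
    have h4 : (((k * t).factorial * (k * t * 4).factorial : ℕ) : ℝ) ≤ _ := Nat.cast_le.mpr hcard
    rw [Nat.cast_add, Nat.cast_add, Nat.cast_mul, Nat.cast_mul] at h4
    have h5 : (0 : ℝ) ≤ ((k * t).factorial : ℝ) := by positivity
    have h6 := mul_le_mul_of_nonneg_left h3 h5
    have h7 : ((((univ : Finset (Finset (Fin k))).biUnion (fun U =>
        (univ : Finset (Equiv.Perm (Fin (k * t)) × Equiv.Perm (Fin (k * t * 4)))).filter
          (fun p => ev (k * t) (P1 s (k * t)) (markV U) p))).card : ℕ) : ℝ) ≤ _ :=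
      (Nat.cast_le.mpr hb).trans h1
    linarith only [h2, h4, h6, h7]
  have hf : (0 : ℝ) < ((k * t).factorial : ℝ) * ((k * t * 4).factorial : ℝ) := by
    have h8 : (0 : ℝ) < ((k * t).factorial : ℝ) := by exact_mod_cast Nat.factorial_pos _
    have h9 : (0 : ℝ) < ((k * t * 4).factorial : ℝ) := by exact_mod_cast Nat.factorial_pos _
    positivity
  have h8 : ((k * t).factorial : ℝ) * ((k * t * 4).factorial : ℝ) * 1
      ≤ ((k * t).factorial : ℝ) * ((k * t * 4).factorial : ℝ)
        * ((2 ^ k + 1) * Q + 3 / (ε * (k * t : ℕ))) := by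
    rw [mul_one]
    refine hcard'.trans (le_of_eq ?_)
    ring
  have h9 := le_of_mul_le_mul_left h8 hf
  linarith only [hsmall, h9]

end Vale.Agent.P333
end
end
end

section

section

section

/-!
Existence of amplifiers with four blocks per contact: final statement.
-/

namespace Vale.Agent.P333

open Finset

theorem rise_compl (a b : Bool) : rise (!a) (!b) + b.toNat = rise a b + a.toNat := by
  cases a <;> cases b <;> decide

theorem cellRises_compl {K : ℕ} (l l' : Fin K → Cell) (X X' : Fin K → Bool)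
    (h : ∀ p j, (l' p).2 j = !(l p).2 j) (hX : ∀ p, X' p = !X p) :
    cellRises l' X' = cellRises l X := by
  have e : ∑ p, (X (finRotate K p)).toNat = ∑ p, (X p).toNat :=
    Equiv.sum_comp (finRotate K) (fun p => (X p).toNat)
  have h1 : ∑ p, ((rise (X' p) ((l' p).2 0) + cellIn (l' p).2 + rise (lastB (l' p)) (X' (finRotate K p)))
      + (((l p).2 0).toNat + ((l p).2 1).toNat + ((l p).2 2).toNat + ((l p).2 3).toNat
        + (X (finRotate K p)).toNat))
      = ∑ p, ((rise (X p) ((l p).2 0) + cellIn (l p).2 + rise (lastB (l p)) (X (finRotate K p)))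
      + ((X p).toNat + ((l p).2 0).toNat + ((l p).2 1).toNat + ((l p).2 2).toNat
        + ((l p).2 3).toNat)) := by
    apply sum_congr rfl
    intro p _
    unfold cellIn lastB
    rw [h, h, h, h, hX, hX]
    have a1 := rise_compl (X p) ((l p).2 0)
    have a2 := rise_compl ((l p).2 0) ((l p).2 1)
    have a3 := rise_compl ((l p).2 1) ((l p).2 2)
    have a4 := rise_compl ((l p).2 2) ((l p).2 3)
    have a5 := rise_compl ((l p).2 3) (X (finRotate K p))
    omega
  unfold cellRises
  simp only [sum_add_distrib] at h1 ⊢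
  omega

theorem chainRises_compl {n : ℕ} (f f' : Fin n → Bool) (h : ∀ i, f' i = !f i) :
    ∑ i, rise (f' i) (f' (finRotate n i)) = ∑ i, rise (f i) (f (finRotate n i)) := by
  have e : ∑ p, (f (finRotate n p)).toNat = ∑ p, (f p).toNat :=
    Equiv.sum_comp (finRotate n) (fun p => (f p).toNat)
  have h1 : ∑ i, (rise (f' i) (f' (finRotate n i)) + (f (finRotate n i)).toNat)
      = ∑ i, (rise (f i) (f (finRotate n i)) + (f i).toNat) := by
    apply sum_congr rfl
    intro i _
    rw [h, h]
    exact rise_compl _ _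
  rw [sum_add_distrib, sum_add_distrib] at h1
  omega

theorem bones_compl {n : ℕ} (f f' : Fin n → Bool) (h : ∀ i, f' i = !f i) :
    bones f' + bones f = n := by
  unfold bones
  rw [← sum_add_distrib]
  calc ∑ i, ((f' i).toNat + (f i).toNat) = ∑ _i : Fin n, 1 := by
        apply sum_congr rfl
        intro i _
        rw [h]
        cases f i <;> rfl
    _ = n := by simp only [sum_const, card_univ, Fintype.card_fin, smul_eq_mul, mul_one]

section

variable {k t : ℕ} (σ : Equiv.Perm (Fin (k * t))) (τ : Equiv.Perm (Fin (k * t * 4)))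

theorem wOnes_lab (m : (Fin k × Fin t) × Fin 4 → Bool) (U : Finset (Fin k)) :
    wOnes (k * t) (lab σ m (fun c => decide (c.1 ∈ U))) = t * U.card := by
  unfold wOnes lab
  rw [Equiv.sum_comp (mkE0 σ) (fun c : Fin k × Fin t => (decide (c.1 ∈ U)).toNat),
    Fintype.sum_prod_type]
  have e : ∀ a : Fin k, ∑ _b : Fin t, (decide (a ∈ U)).toNat = t * (decide (a ∈ U)).toNat := by
    intro a
    rw [sum_const, card_univ, Fintype.card_fin, smul_eq_mul]
  calc ∑ a : Fin k, ∑ b : Fin t, (decide ((a, b).1 ∈ U)).toNat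
      = ∑ a : Fin k, t * (decide (a ∈ U)).toNat := sum_congr rfl (fun a _ => e a)
    _ = t * U.card := ?_
  rw [← mul_sum]
  congr 1
  rw [card_eq_sum_ones, ← sum_filter_add_sum_filter_not univ (fun i => i ∈ U)]
  have h1 : ∑ x ∈ univ with x ∈ U, (decide (x ∈ U)).toNat = ∑ x ∈ U, 1 := by
    rw [filter_mem_eq_inter, univ_inter]
    apply sum_congr rfl
    intro x hx
    simp [hx]
  have h2 : ∑ x ∈ univ with x ∉ U, (decide (x ∈ U)).toNat = 0 := by
    apply sum_eq_zero
    intro x hx
    rw [mem_filter] at hx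
    simp [hx.2]
  rw [h1, h2, add_zero]

theorem bones_x (x : Fin k × Fin t → Bool) :
    bones (fun p => x (mkE0 σ p)) = (univ.filter (fun c => x c = true)).card := by
  unfold bones
  rw [Equiv.sum_comp (mkE0 σ) (fun c => (x c).toNat), card_filter]
  apply sum_congr rfl
  intro c _
  cases x c <;> simp

theorem bones_xU (x : Fin k × Fin t → Bool) (m : (Fin k × Fin t) × Fin 4 → Bool)
    (U : Finset (Fin k)) :
    ∑ p, (x (mkE0 σ p) && (lab σ m (fun c => decide (c.1 ∈ U)) p).1).toNat
      = (univ.filter (fun c : Fin k × Fin t => x c = true ∧ c.1 ∈ U)).card := by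
  unfold lab
  rw [Equiv.sum_comp (mkE0 σ) (fun c => (x c && decide (c.1 ∈ U)).toNat), card_filter]
  apply sum_congr rfl
  intro c _
  by_cases h1 : x c = true <;> by_cases h2 : c.1 ∈ U <;> simp [h1, h2]

/-- The plain property. -/
theorem plain_prop {s : ℕ} (h2 : ¬ ev (k * t) (P2 s (k * t)) (fun _ => true) (σ, τ))
    (m : (Fin k × Fin t) × Fin 4 → Bool) (x : Fin k × Fin t → Bool)
    (hal : (bones (fun i => m (mkE1 σ τ i)) : ℝ) / (k * t * 4 : ℕ) ≤ 1/10) :
    bones (fun p => x (mkE0 σ p)) ≤ cellRises (lab σ m (fun _ => true)) (fun p => x (mkE0 σ p))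
      + ∑ i, rise (m (mkE1 σ τ i)) (m (mkE1 σ τ (finRotate _ i))) + s := by
  by_contra hcon
  push Not at hcon
  apply h2
  refine ⟨lab σ m (fun _ => true), rfl, ⟨fun _ => rfl, ?_⟩, hal⟩
  exact det2 (lab σ m (fun _ => true)) (fun p => x (mkE0 σ p))
    (fun i => m (mkE1 σ τ i)) s (by omega)

theorem expands_of {s : ℕ} {ε : ℝ} (hkt : 0 < k * t)
    (h1 : ∀ U : Finset (Fin k), ¬ ev (k * t) (P1 s (k * t)) (markV U) (σ, τ))
    (h2 : ¬ ev (k * t) (P2 s (k * t)) (fun _ => true) (σ, τ))
    (hsl : ((s + 4 : ℕ) : ℝ) ≤ ε * (k * t)) :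
    Expands k t 3 ε (rot (mkE0 σ)) (rot (mkE1 σ τ)) := by
  intro m x U hcon
  set W : Fin k × Fin t → Bool := fun c => decide (c.1 ∈ U) with hW
  set l := lab σ m W with hl
  set X : Fin (k * t) → Bool := fun p => x (mkE0 σ p) with hX
  set f : Fin (k * t * 4) → Bool := fun i => m (mkE1 σ τ i) with hf
  set r1 := ∑ i, rise (f i) (f (finRotate _ i)) with hr1
  have e0 : rises0 (rot (mkE0 σ)) m x = cellRises l X := rises0_eq σ m x W
  have e1 : rises1 (rot (mkE1 σ τ)) m = r1 := rises1_eq σ τ m
  have eX : bones X = (univ.filter (fun c => x c = true)).card := bones_x σ x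
  have eXU : ∑ p, (X p && (l p).1).toNat
      = (univ.filter (fun c : Fin k × Fin t => x c = true ∧ c.1 ∈ U)).card := bones_xU σ x m U
  have ew : wOnes (k * t) l = t * U.card := wOnes_lab σ m U
  have hle : ∑ p, (X p && (l p).1).toNat ≤ bones X := by
    unfold bones
    apply sum_le_sum
    intro p _
    cases X p <;> cases (l p).1 <;> decide
  have hle2 : ∑ p, (X p && (l p).1).toNat ≤ wOnes (k * t) l := by
    unfold wOnes
    apply sum_le_sum
    intro p _
    cases X p <;> cases (l p).1 <;> decide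
  rw [← eX, ← ew] at hcon
  have key : ∑ p, (X p && (l p).1).toNat ≤ cellRises l X + r1 + s + 4 := by
    by_contra hviol
    push Not at hviol
    rcases le_total ((bones f : ℝ) / (k * t * 4 : ℕ)) (1/10) with ha | ha
    · have := plain_prop σ τ h2 m x ha
      have e2 : cellRises (lab σ m (fun _ => true)) (fun p => x (mkE0 σ p)) = cellRises l X := rfl
      rw [e2] at this
      have e3 : ∑ i, rise (m (mkE1 σ τ i)) (m (mkE1 σ τ (finRotate _ i))) = r1 := rfl
      rw [e3] at this
      have e4 : bones (fun p => x (mkE0 σ p)) = bones X := rfl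
      omega
    · rcases le_total ((bones f : ℝ) / (k * t * 4 : ℕ)) (9/10) with hb | hb
      · apply h1 U
        refine ⟨l, rfl, ?_, ha, hb⟩
        exact det1 hkt l X f s hcon (by omega)
      · -- complement
        have hc : (bones (fun i => (fun b => !m b) (mkE1 σ τ i)) : ℝ) / (k * t * 4 : ℕ) ≤ 1/10 := by
          have e5 := bones_compl f (fun i => !f i) (fun _ => rfl)
          have hN : (0 : ℝ) < (k * t * 4 : ℕ) := by
            have : 0 < k * t * 4 := by omega
            exact_mod_cast this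
          have e6 : (bones (fun i => !f i) : ℝ) + bones f = (k * t * 4 : ℕ) := by exact_mod_cast e5
          have e7 : bones (fun i => (fun b => !m b) (mkE1 σ τ i)) = bones (fun i => !f i) := rfl
          rw [e7, div_le_iff₀ hN]
          rw [le_div_iff₀ hN] at hb
          linarith only [hb, e6]
        have := plain_prop σ τ h2 (fun b => !m b) (fun c => !x c) hc
        have e8 : cellRises (lab σ (fun b => !m b) (fun _ => true)) (fun p => !x (mkE0 σ p))
            = cellRises l X := cellRises_compl l _ X _ (fun _ _ => rfl) (fun _ => rfl)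
        have e9 : ∑ i, rise (!m (mkE1 σ τ i)) (!m (mkE1 σ τ (finRotate _ i))) = r1 :=
          chainRises_compl f (fun i => !f i) (fun _ => rfl)
        rw [e8, e9] at this
        have e10 := bones_compl X (fun p => !x (mkE0 σ p)) (fun _ => rfl)
        omega
  rw [e0, e1, ← eXU]
  have h3 : ((∑ p, (X p && (l p).1).toNat : ℕ) : ℝ) ≤ ((cellRises l X + r1 + s + 4 : ℕ) : ℝ) :=
    Nat.cast_le.mpr key
  push_cast at h3 hsl ⊢
  linarith only [h3, hsl]

end

theorem coinc_of {k t : ℕ} (σ : Equiv.Perm (Fin (k * t))) (τ : Equiv.Perm (Fin (k * t * 4)))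
    {ε : ℝ} (h : (coinc τ : ℝ) ≤ ε * (k * t : ℕ)) :
    FewCoinc k t 3 ε (rot (mkE0 σ)) (rot (mkE1 σ τ)) := by
  unfold FewCoinc
  have h1 : (((univ.filter (fun b => rot (mkE1 σ τ) b = s0 (β := 3) (rot (mkE0 σ)) b
      ∨ rot (mkE1 σ τ) (s0 (β := 3) (rot (mkE0 σ)) b) = b)).card : ℕ) : ℝ) ≤ (coinc τ : ℝ) :=
    Nat.cast_le.mpr (coinc_eq σ τ)
  refine le_trans ?_ (h1.trans (h.trans (le_of_eq (by push_cast; ring))))
  apply le_of_eq
  congr!

/-- Polynomial times exponential decay. -/
theorem decay (A : ℝ) : ∃ s0 : ℕ, ∀ s, s0 ≤ s →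
    A * ((s + 1 : ℕ) : ℝ) ^ 3 * (1/70) ^ s < 1/2 := by
  have h := tendsto_pow_const_mul_const_pow_of_abs_lt_one 3 (r := 1/70) (by norm_num [abs_of_pos])
  have h2 : Filter.Tendsto (fun s : ℕ => A * 70 * (((s + 1 : ℕ) : ℝ) ^ 3 * (1/70) ^ (s + 1)))
      Filter.atTop (nhds (A * 70 * 0)) :=
    ((Filter.tendsto_add_atTop_iff_nat (f := fun n : ℕ => ((n : ℝ) ^ 3 * (1/70) ^ n)) 1).mpr h).const_mul _
  rw [mul_zero] at h2
  have h3 := h2.eventually (gt_mem_nhds (show (0 : ℝ) < 1/2 by norm_num))
  rw [Filter.eventually_atTop] at h3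
  obtain ⟨s0, hs0⟩ := h3
  refine ⟨s0, fun s hs => ?_⟩
  have := hs0 s hs
  rw [pow_succ (1/70 : ℝ) s] at this
  calc A * ((s + 1 : ℕ) : ℝ) ^ 3 * (1/70) ^ s
      = A * 70 * (((s + 1 : ℕ) : ℝ) ^ 3 * ((1/70) ^ s * (1/70))) := by ring
    _ < 1/2 := this

/-- Amplifiers with four blocks per contact exist. -/
theorem exists_amp (k : ℕ) (hk : 0 < k) (ε : ℝ) (hε : 0 < ε) :
    ∃ t0 : ℕ, ∀ t, t0 ≤ t → Nonempty (Amp k t 3 ε) := by
  obtain ⟨M, hM⟩ := exists_nat_gt (2 / ε)
  have hM0 : (0 : ℝ) < M := lt_trans (by positivity) hM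
  have hMn : 0 < M := by exact_mod_cast hM0
  have hMε : 2 < ε * M := by
    rw [div_lt_iff₀ hε] at hM
    linarith only [hM]
  obtain ⟨s0, hs0⟩ := decay ((2 ^ k + 1) * (125 * (M : ℝ) ^ 3))
  obtain ⟨L, hL⟩ := exists_nat_gt (12 / ε)
  refine ⟨M * (s0 + 1) + L + 1, fun t ht => ?_⟩
  have hkt : 0 < k * t := by
    apply Nat.mul_pos hk
    omega
  have htK : t ≤ k * t := Nat.le_mul_of_pos_left t hk
  set K := k * t with hK
  set s := K / M with hs
  have hs1 : s0 + 1 ≤ s := by
    rw [hs, Nat.le_div_iff_mul_le hMn]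
    calc (s0 + 1) * M = M * (s0 + 1) := by ring
      _ ≤ K := by omega
  have hs2 : K < M * (s + 1) := by
    rw [hs]
    exact Nat.lt_mul_div_succ K hMn
  have hs3 : (s : ℝ) * M ≤ K := by
    have : s * M ≤ K := Nat.div_mul_le_self K M
    exact_mod_cast this
  have hKL : 12 / ε < (K : ℝ) := by
    refine hL.trans_le ?_
    have : L ≤ K := by omega
    exact_mod_cast this
  have hKε : 12 < ε * K := by
    rw [div_lt_iff₀ hε] at hKL
    linarith only [hKL]
  have hK0 : (0 : ℝ) < K := by exact_mod_cast hkt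
  have hsl : ((s + 4 : ℕ) : ℝ) ≤ ε * K := by
    push_cast
    have h1 : (s : ℝ) * 2 ≤ ε * K := by
      have h2 : (s : ℝ) * 2 ≤ s * (ε * M) := by
        apply mul_le_mul_of_nonneg_left hMε.le
        (clear * -; positivity)
      have h3 : ε * (s * M) ≤ ε * K := mul_le_mul_of_nonneg_left hs3 hε.le
      nlinarith only [h2, h3]
    linarith only [hKε, h1]
  have hsmall : (2 ^ k + 1) * (((K * 4 : ℕ) + 1) * ((1/70) ^ s
      * (((K : ℕ) + 1) * ((K * 4 : ℕ) + 1)))) + 3 / (ε * (K : ℕ)) < 1 := by
    have h1 := hs0 s (by omega)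
    have h2 : 3 / (ε * (K : ℕ)) < (1/2 : ℝ) := by
      rw [div_lt_iff₀ (by positivity)]
      linarith only [hKε]
    have h3 : ((K * 4 : ℕ) : ℝ) + 1 ≤ 5 * ((M : ℝ) * ((s + 1 : ℕ) : ℝ)) := by
      have : K * 4 + 1 ≤ 5 * (M * (s + 1)) := by omega
      exact_mod_cast this
    have h4 : ((K : ℕ) : ℝ) + 1 ≤ 5 * ((M : ℝ) * ((s + 1 : ℕ) : ℝ)) := by
      have : K + 1 ≤ 5 * (M * (s + 1)) := by omega
      exact_mod_cast this
    have h5 : (2 ^ k + 1 : ℝ) * (((K * 4 : ℕ) + 1) * ((1/70) ^ s
        * (((K : ℕ) + 1) * ((K * 4 : ℕ) + 1))))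
        ≤ (2 ^ k + 1) * ((5 * ((M : ℝ) * ((s + 1 : ℕ) : ℝ))) * ((1/70) ^ s
        * ((5 * ((M : ℝ) * ((s + 1 : ℕ) : ℝ))) * (5 * ((M : ℝ) * ((s + 1 : ℕ) : ℝ)))))) := by
      (clear * - h3 h4 hkt hMn; gcongr)
    have h6 : (2 ^ k + 1 : ℝ) * ((5 * ((M : ℝ) * ((s + 1 : ℕ) : ℝ))) * ((1/70) ^ s
        * ((5 * ((M : ℝ) * ((s + 1 : ℕ) : ℝ))) * (5 * ((M : ℝ) * ((s + 1 : ℕ) : ℝ))))))
        = (2 ^ k + 1) * (125 * (M : ℝ) ^ 3) * ((s + 1 : ℕ) : ℝ) ^ 3 * (1/70) ^ s := by ring
    linarith only [h1, h2, h5]
  obtain ⟨σ, τ, g1, g2, g3⟩ := exists_perms k t s hkt (by omega) ε hε hsmall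
  have hKc : (K : ℝ) = (k : ℝ) * t := by rw [hK]; push_cast; ring
  exact ⟨⟨mkE0 σ, mkE1 σ τ, expands_of σ τ hkt g1 g2 (by rw [← hKc]; exact hsl),
    coinc_of σ τ g3⟩⟩

end Vale.Agent.P333
end
end
end
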